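import Mathlib

set_option linter.all false

section

/-!
# Kernel verification of polynomial inequalities by Kronecker substitution

Integer polynomials in finitely many variables are represented by one integer, the value at
`X_i = B ^ w_i` (mixed radix weights). If the degrees are smaller than the radices and the
coefficients smaller than `B / 2`, the integer determines the polynomial, and the sum of the
moduli of its digits is the sum of the moduli of the coefficients.
-/

namespace Vale.Agent.P098.K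

/-- The monomial with mixed radix code `e`, in the variables `X i, X (i+1), …`. -/
def mono : List ℕ → ℕ → ℕ → (ℕ → ℝ) → ℝ
  | [], _, _, _ => 1
  | r :: rs, i, e, X => X i ^ (e % r) * mono rs (i + 1) (e / r) X

/-- The digits of the code `e` are at most the entries of `ds`. -/
def ok : List ℕ → List ℕ → ℕ → Prop
  | [], _, e => e = 0
  | _ :: _, [], _ => False
  | r :: rs, d :: ds, e => e % r ≤ d ∧ ok rs ds (e / r)

/-- Degree bounds are smaller than the radices. -/
def fits : List ℕ → List ℕ → Bool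
  | [], _ => true
  | _ :: _, [] => false
  | r :: rs, d :: ds => decide (d < r) && fits rs ds

/-- Pointwise comparison of degree bounds. -/
def leL : List ℕ → List ℕ → Bool
  | [], _ => true
  | _ :: _, [] => false
  | r :: rs, d :: ds => decide (r ≤ d) && leL rs ds

theorem mono_add {rs : List ℕ} : ∀ {ds ds' : List ℕ} {e e' : ℕ} (i : ℕ) (X : ℕ → ℝ),
    ok rs ds e → ok rs ds' e' → fits rs (List.zipWith (· + ·) ds ds') = true →
    ok rs (List.zipWith (· + ·) ds ds') (e + e') ∧
      mono rs i (e + e') X = mono rs i e X * mono rs i e' X := by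
  induction rs with
  | nil =>
    intro ds ds' e e' i X h h' _
    simp only [ok] at h h'
    subst h h'
    simp [ok, mono]
  | cons r rs ih =>
    intro ds ds' e e' i X h h' hf
    cases ds with
    | nil => simp [ok] at h
    | cons d ds =>
      cases ds' with
      | nil => simp [ok] at h'
      | cons d' ds' =>
        simp only [ok] at h h'
        simp only [List.zipWith_cons_cons, fits, Bool.and_eq_true, decide_eq_true_eq] at hf
        have hr : e % r + e' % r < r := by (clear * - h h' hf; omega)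
        have h1 : (e + e') % r = e % r + e' % r := by
          rw [Nat.add_mod, Nat.mod_eq_of_lt hr]
        have h2 : (e + e') / r = e / r + e' / r := by
          have hr0 : 0 < r := by omega
          rw [Nat.add_div hr0]
          simp only [Nat.not_le.mpr hr, ↓reduceIte, add_zero, Nat.add_left_cancel_iff]
        obtain ⟨k1, k2⟩ := ih (ds := ds) (ds' := ds') (i + 1) X h.2 h'.2 hf.2
        refine ⟨?_, ?_⟩
        · simp only [List.zipWith_cons_cons, ok]
          rw [h1, h2]
          exact ⟨by omega, k1⟩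
        · simp only [mono]
          rw [h1, h2, k2, pow_add]
          ring

theorem ok_mono {rs : List ℕ} : ∀ {ds ds' : List ℕ} {e : ℕ}, ok rs ds e →
    leL ds ds' = true → ok rs ds' e := by
  induction rs with
  | nil => intro ds ds' e h _; exact h
  | cons r rs ih =>
    intro ds ds' e h hl
    cases ds with
    | nil => simp only [ok] at h
    | cons d ds =>
      cases ds' with
      | nil => simp only [leL, Bool.false_eq_true] at hl
      | cons d' ds' =>
        simp only [ok] at h ⊢
        simp only [leL, Bool.and_eq_true, decide_eq_true_eq] at hl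
        exact ⟨h.1.trans hl.1, ih h.2 hl.2⟩

theorem ok_maxL_left {rs : List ℕ} : ∀ {ds ds' : List ℕ} {e : ℕ}, ok rs ds e →
    rs.length ≤ ds'.length → ok rs (List.zipWith max ds ds') e := by
  induction rs with
  | nil => intro ds ds' e h _; exact h
  | cons r rs ih =>
    intro ds ds' e h hl
    cases ds with
    | nil => simp only [ok] at h
    | cons d ds =>
      cases ds' with
      | nil => simp only [List.length_cons, List.length_nil, nonpos_iff_eq_zero, Nat.add_eq_zero_iff, List.length_eq_zero_iff, one_ne_zero, and_false] at hl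
      | cons d' ds' =>
        simp only [ok, List.zipWith_cons_cons] at h ⊢
        exact ⟨h.1.trans (le_max_left _ _), ih h.2 (by simpa only [List.length_cons, add_le_add_iff_right] using hl)⟩

theorem ok_length {rs : List ℕ} : ∀ {ds : List ℕ} {e : ℕ}, ok rs ds e →
    rs.length ≤ ds.length := by
  induction rs with
  | nil => intro ds e _; simp only [List.length_nil, zero_le]
  | cons r rs ih =>
    intro ds e h
    cases ds with
    | nil => simp [ok] at h
    | cons d ds => simpa only [List.length_cons, add_le_add_iff_right] using ih h.2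

theorem ok_lt {rs : List ℕ} : ∀ {ds : List ℕ} {e : ℕ}, ok rs ds e → fits rs ds = true →
    e < rs.prod := by
  induction rs with
  | nil => intro ds e h _; simp only [ok] at h; simp only [h, List.prod_nil, Order.lt_one_iff]
  | cons r rs ih =>
    intro ds e h hf
    cases ds with
    | nil => simp [ok] at h
    | cons d ds =>
      simp only [ok] at h
      simp only [fits, Bool.and_eq_true, decide_eq_true_eq] at hf
      have h1 := ih h.2 hf.2
      have hr0 : 0 < r := by omega
      rw [List.prod_cons]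
      calc e = e % r + r * (e / r) := (Nat.mod_add_div e r).symm
        _ < r + r * (e / r) := by have := Nat.mod_lt e hr0; (clear * - this; omega)
        _ = r * (e / r + 1) := by ring
        _ ≤ r * rs.prod := Nat.mul_le_mul_left r h1

theorem abs_mono_le {rs : List ℕ} : ∀ (i e : ℕ) {X : ℕ → ℝ}, (∀ j, |X j| ≤ 1) →
    |mono rs i e X| ≤ 1 := by
  induction rs with
  | nil => intro i e X _; simp only [mono, abs_one, Std.le_refl]
  | cons r rs ih =>
    intro i e X hX
    simp only [mono]
    rw [abs_mul, abs_pow]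
    exact mul_le_one₀ (pow_le_one₀ (abs_nonneg _) (hX i)) (abs_nonneg _) (ih _ _ hX)

/-- Value of a list of terms at `B`. -/
def kr (B : ℕ) (p : List (ℤ × ℕ)) : ℤ := (p.map fun t => t.1 * (B : ℤ) ^ t.2).sum

/-- Real value of a list of terms. -/
def ev (rs : List ℕ) (p : List (ℤ × ℕ)) (X : ℕ → ℝ) : ℝ :=
  (p.map fun t => (t.1 : ℝ) * mono rs 0 t.2 X).sum

/-- Sum of the moduli of the coefficients. -/
def l1 (p : List (ℤ × ℕ)) : ℕ := (p.map fun t => t.1.natAbs).sum

/-- The coefficient of the code `j`. -/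
def cf (p : List (ℤ × ℕ)) (j : ℕ) : ℤ := (p.map fun t => if t.2 = j then t.1 else 0).sum

/-- `N` and `val` are the values of one and the same integer polynomial with degree bounds `ds`
and coefficient sum at most `b`. -/
def Rep (B : ℕ) (rs : List ℕ) (X : ℕ → ℝ) (ds : List ℕ) (b : ℕ) (N : ℤ) (val : ℝ) : Prop :=
  ∃ p : List (ℤ × ℕ), kr B p = N ∧ l1 p ≤ b ∧ (∀ t ∈ p, ok rs ds t.2) ∧ ev rs p X = val

theorem kr_append (B : ℕ) (p q : List (ℤ × ℕ)) : kr B (p ++ q) = kr B p + kr B q := by
  simp only [kr, List.map_append, List.sum_append]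

theorem l1_append (p q : List (ℤ × ℕ)) : l1 (p ++ q) = l1 p + l1 q := by
  simp only [l1, List.map_append, List.sum_append, Nat.add_left_cancel_iff]

theorem ev_append (rs : List ℕ) (p q : List (ℤ × ℕ)) (X : ℕ → ℝ) :
    ev rs (p ++ q) X = ev rs p X + ev rs q X := by
  simp [ev]

/-- Product with one term. -/
def mt (t : ℤ × ℕ) (q : List (ℤ × ℕ)) : List (ℤ × ℕ) := q.map fun s => (t.1 * s.1, t.2 + s.2)

/-- Product of term lists. -/
def mulT : List (ℤ × ℕ) → List (ℤ × ℕ) → List (ℤ × ℕ)
  | [], _ => []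
  | t :: p, q => mt t q ++ mulT p q

theorem kr_mt (B : ℕ) (t : ℤ × ℕ) (q : List (ℤ × ℕ)) :
    kr B (mt t q) = t.1 * (B : ℤ) ^ t.2 * kr B q := by
  induction q with
  | nil => simp only [kr, mt, List.map_nil, List.sum_nil, mul_zero]
  | cons s q ih =>
    simp only [mt, kr, List.map_cons, List.sum_cons] at ih ⊢
    rw [ih]
    ring

theorem l1_mt (t : ℤ × ℕ) (q : List (ℤ × ℕ)) : l1 (mt t q) = t.1.natAbs * l1 q := by
  induction q with
  | nil => simp only [l1, mt, List.map_nil, List.sum_nil, mul_zero]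
  | cons s q ih =>
    simp only [mt, l1, List.map_cons, List.sum_cons] at ih ⊢
    rw [ih, Int.natAbs_mul]
    ring

theorem ev_mt {rs ds ds' : List ℕ} {t : ℤ × ℕ} {q : List (ℤ × ℕ)} (X : ℕ → ℝ)
    (ht : ok rs ds t.2) (hq : ∀ s ∈ q, ok rs ds' s.2)
    (hf : fits rs (List.zipWith (· + ·) ds ds') = true) :
    ev rs (mt t q) X = (t.1 : ℝ) * mono rs 0 t.2 X * ev rs q X := by
  induction q with
  | nil => simp only [ev, mt, List.map_nil, List.sum_nil, mul_zero]
  | cons s q ih =>
    have ih' := ih (fun s hs => hq s (List.mem_cons_of_mem _ hs))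
    simp only [ev, mt, List.map_cons, List.sum_cons] at ih' ⊢
    rw [ih', (mono_add 0 X ht (hq s (List.mem_cons_self)) hf).2]
    push_cast
    ring

theorem kr_mulT (B : ℕ) (p q : List (ℤ × ℕ)) : kr B (mulT p q) = kr B p * kr B q := by
  induction p with
  | nil => simp only [kr, mulT, List.map_nil, List.sum_nil, zero_mul]
  | cons t p ih =>
    simp only [mulT]
    rw [kr_append, kr_mt, ih]
    simp only [kr, List.map_cons, List.sum_cons]
    ring

theorem l1_mulT (p q : List (ℤ × ℕ)) : l1 (mulT p q) = l1 p * l1 q := by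
  induction p with
  | nil => simp only [l1, mulT, List.map_nil, List.sum_nil, zero_mul]
  | cons t p ih =>
    simp only [mulT]
    rw [l1_append, l1_mt, ih]
    simp only [l1, List.map_cons, List.sum_cons]
    ring

theorem ev_mulT {rs ds ds' : List ℕ} {p q : List (ℤ × ℕ)} (X : ℕ → ℝ)
    (hp : ∀ t ∈ p, ok rs ds t.2) (hq : ∀ s ∈ q, ok rs ds' s.2)
    (hf : fits rs (List.zipWith (· + ·) ds ds') = true) :
    ev rs (mulT p q) X = ev rs p X * ev rs q X := by
  induction p with
  | nil => simp only [ev, mulT, List.map_nil, List.sum_nil, zero_mul]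
  | cons t p ih =>
    simp only [mulT]
    rw [ev_append, ev_mt X (hp t (List.mem_cons_self)) hq hf,
      ih (fun t ht => hp t (List.mem_cons_of_mem _ ht))]
    simp only [ev, List.map_cons, List.sum_cons]
    ring

theorem ok_mulT {rs ds ds' : List ℕ} {p q : List (ℤ × ℕ)}
    (hp : ∀ t ∈ p, ok rs ds t.2) (hq : ∀ s ∈ q, ok rs ds' s.2)
    (hf : fits rs (List.zipWith (· + ·) ds ds') = true) :
    ∀ t ∈ mulT p q, ok rs (List.zipWith (· + ·) ds ds') t.2 := by
  induction p with
  | nil => simp only [mulT, List.not_mem_nil, IsEmpty.forall_iff, implies_true]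
  | cons t p ih =>
    intro s hs
    simp only [mulT, List.mem_append] at hs
    rcases hs with hs | hs
    · simp only [mt, List.mem_map] at hs
      obtain ⟨s', hs', rfl⟩ := hs
      exact (mono_add 0 (fun _ => 0) (hp t (List.mem_cons_self)) (hq s' hs') hf).1
    · exact ih (fun t ht => hp t (List.mem_cons_of_mem _ ht)) s hs

variable {B : ℕ} {rs : List ℕ} {X : ℕ → ℝ}

theorem Rep.mul {ds ds' : List ℕ} {b b' : ℕ} {N N' : ℤ} {v v' : ℝ}
    (h : Rep B rs X ds b N v) (h' : Rep B rs X ds' b' N' v')
    (hf : fits rs (List.zipWith (· + ·) ds ds') = true) :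
    Rep B rs X (List.zipWith (· + ·) ds ds') (b * b') (N * N') (v * v') := by
  obtain ⟨p, h1, h2, h3, h4⟩ := h
  obtain ⟨q, k1, k2, k3, k4⟩ := h'
  refine ⟨mulT p q, ?_, ?_, ok_mulT h3 k3 hf, ?_⟩
  · rw [kr_mulT, h1, k1]
  · rw [l1_mulT]; exact Nat.mul_le_mul h2 k2
  · rw [ev_mulT X h3 k3 hf, h4, k4]

theorem Rep.weaken {ds ds' : List ℕ} {b b' : ℕ} {N : ℤ} {v : ℝ}
    (h : Rep B rs X ds b N v) (hl : leL ds ds' = true) (hb : b ≤ b') :
    Rep B rs X ds' b' N v := by
  obtain ⟨p, h1, h2, h3, h4⟩ := h
  exact ⟨p, h1, h2.trans hb, fun t ht => ok_mono (h3 t ht) hl, h4⟩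

theorem Rep.add {ds : List ℕ} {b b' : ℕ} {N N' : ℤ} {v v' : ℝ}
    (h : Rep B rs X ds b N v) (h' : Rep B rs X ds b' N' v') :
    Rep B rs X ds (b + b') (N + N') (v + v') := by
  obtain ⟨p, h1, h2, h3, h4⟩ := h
  obtain ⟨q, k1, k2, k3, k4⟩ := h'
  refine ⟨p ++ q, ?_, ?_, ?_, ?_⟩
  · rw [kr_append, h1, k1]
  · rw [l1_append]; exact Nat.add_le_add h2 k2
  · intro t ht
    rcases List.mem_append.mp ht with ht | ht
    · exact h3 t ht
    · exact k3 t ht
  · rw [ev_append, h4, k4]

theorem leL_maxL_left : ∀ {ds ds' : List ℕ}, ds.length ≤ ds'.length →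
    leL ds (List.zipWith max ds ds') = true := by
  intro ds
  induction ds with
  | nil => intro ds' _; rfl
  | cons d ds ih =>
    intro ds' h
    cases ds' with
    | nil => simp only [List.length_cons, List.length_nil, nonpos_iff_eq_zero, Nat.add_eq_zero_iff, List.length_eq_zero_iff, one_ne_zero, and_false] at h
    | cons d' ds' =>
      simp only [List.zipWith_cons_cons, leL, Bool.and_eq_true, decide_eq_true_eq]
      exact ⟨le_max_left _ _, ih (by simpa only [List.length_cons, add_le_add_iff_right] using h)⟩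

theorem leL_maxL_right : ∀ {ds ds' : List ℕ}, ds'.length ≤ ds.length →
    leL ds' (List.zipWith max ds ds') = true := by
  intro ds
  induction ds with
  | nil =>
    intro ds' h
    cases ds' with
    | nil => rfl
    | cons d' ds' => simp only [List.length_cons, List.length_nil, nonpos_iff_eq_zero, Nat.add_eq_zero_iff, List.length_eq_zero_iff, one_ne_zero, and_false] at h
  | cons d ds ih =>
    intro ds' h
    cases ds' with
    | nil => rfl
    | cons d' ds' =>
      simp only [List.zipWith_cons_cons, leL, Bool.and_eq_true, decide_eq_true_eq]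
      exact ⟨le_max_right _ _, ih (by simpa only [List.length_cons, add_le_add_iff_right] using h)⟩

theorem Rep.add' {ds ds' : List ℕ} {b b' : ℕ} {N N' : ℤ} {v v' : ℝ}
    (h : Rep B rs X ds b N v) (h' : Rep B rs X ds' b' N' v') (hl : ds.length = ds'.length) :
    Rep B rs X (List.zipWith max ds ds') (b + b') (N + N') (v + v') :=
  (h.weaken (leL_maxL_left hl.le) le_rfl).add (h'.weaken (leL_maxL_right hl.ge) le_rfl)

/-- The degree bound `0`. -/
def zeroL (rs : List ℕ) : List ℕ := rs.map fun _ => 0

theorem ok_zero : ∀ (rs : List ℕ), ok rs (zeroL rs) 0 := by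
  intro rs
  induction rs with
  | nil => rfl
  | cons r rs ih => simpa only [zeroL, List.map_cons, List.map_const', ok, Nat.zero_mod, Std.le_refl, Nat.zero_div,     true_and] using ih

theorem mono_zero : ∀ (rs : List ℕ) (i : ℕ) (X : ℕ → ℝ), mono rs i 0 X = 1 := by
  intro rs
  induction rs with
  | nil => intro i X; rfl
  | cons r rs ih => intro i X; simp only [mono, Nat.zero_mod, pow_zero, Nat.zero_div, ih, mul_one]

theorem Rep.const (c : ℤ) : Rep B rs X (zeroL rs) c.natAbs c (c : ℝ) := by
  refine ⟨[(c, 0)], ?_, ?_, ?_, ?_⟩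
  · simp only [kr, List.map_cons, pow_zero, mul_one, List.map_nil, List.sum_cons, List.sum_nil, add_zero]
  · simp only [l1, List.map_cons, List.map_nil, List.sum_cons, List.sum_nil, add_zero, Std.le_refl]
  · intro t ht
    simp only [List.mem_singleton] at ht
    subst ht
    exact ok_zero rs
  · simp only [ev, List.map_cons, mono_zero, mul_one, List.map_nil, List.sum_cons, List.sum_nil, add_zero]

theorem Rep.neg {ds : List ℕ} {b : ℕ} {N : ℤ} {v : ℝ} (h : Rep B rs X ds b N v) :
    Rep B rs X ds b (-N) (-v) := by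
  obtain ⟨p, h1, h2, h3, h4⟩ := h
  refine ⟨p.map fun t => (-t.1, t.2), ?_, ?_, ?_, ?_⟩
  · rw [← h1]
    clear h1 h2 h3 h4
    induction p with
    | nil => simp only [kr, List.map_nil, List.sum_nil, neg_zero]
    | cons t p ih =>
      simp only [kr, List.map_cons, List.sum_cons] at ih ⊢
      rw [ih]; ring
  · refine le_trans (le_of_eq ?_) h2
    clear h1 h2 h3 h4
    induction p with
    | nil => simp only [l1, List.map_nil, List.sum_nil]
    | cons t p ih =>
      simp only [l1, List.map_cons, List.sum_cons] at ih ⊢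
      rw [ih, Int.natAbs_neg]
  · intro t ht
    obtain ⟨s, hs, rfl⟩ := List.mem_map.mp ht
    exact h3 s hs
  · rw [← h4]
    clear h1 h2 h3 h4
    induction p with
    | nil => simp only [ev, List.map_nil, List.sum_nil, neg_zero]
    | cons t p ih =>
      simp only [ev, List.map_cons, List.sum_cons] at ih ⊢
      rw [ih]; push_cast; ring

theorem Rep.sub' {ds ds' : List ℕ} {b b' : ℕ} {N N' : ℤ} {v v' : ℝ}
    (h : Rep B rs X ds b N v) (h' : Rep B rs X ds' b' N' v') (hl : ds.length = ds'.length) :
    Rep B rs X (List.zipWith max ds ds') (b + b') (N - N') (v - v') := by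
  rw [sub_eq_add_neg, sub_eq_add_neg]
  exact h.add' h'.neg hl

theorem Rep.sub {ds : List ℕ} {b b' : ℕ} {N N' : ℤ} {v v' : ℝ}
    (h : Rep B rs X ds b N v) (h' : Rep B rs X ds b' N' v') :
    Rep B rs X ds (b + b') (N - N') (v - v') := by
  rw [sub_eq_add_neg, sub_eq_add_neg]
  exact h.add h'.neg

/-- Weight of the variable `i`. -/
def wt : List ℕ → ℕ → ℕ
  | [], _ => 1
  | _ :: _, 0 => 1
  | r :: rs, i + 1 => r * wt rs i

/-- Degree bound of the variable `i`. -/
def unitL : List ℕ → ℕ → List ℕ
  | [], _ => []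
  | _ :: rs, 0 => 1 :: zeroL rs
  | _ :: rs, i + 1 => 0 :: unitL rs i

theorem ok_wt : ∀ {rs : List ℕ} {i : ℕ}, i < rs.length → (∀ r ∈ rs, 2 ≤ r) →
    ok rs (unitL rs i) (wt rs i) := by
  intro rs
  induction rs with
  | nil => intro i h; simp at h
  | cons r rs ih =>
    intro i h hr
    have h2 : 2 ≤ r := hr r (List.mem_cons_self)
    cases i with
    | zero =>
      simp only [unitL, wt, ok]
      refine ⟨Nat.mod_le _ _, ?_⟩
      rw [Nat.div_eq_of_lt (by omega)]
      exact ok_zero rs
    | succ i =>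
      simp only [unitL, wt, ok]
      refine ⟨by simp, ?_⟩
      rw [Nat.mul_div_cancel_left _ (by omega)]
      exact ih (by simpa only [List.length_cons, Order.lt_add_one_iff, Order.add_one_le_iff] using h) (fun s hs => hr s (List.mem_cons_of_mem _ hs))

theorem mono_wt : ∀ {rs : List ℕ} {i : ℕ} (j : ℕ), i < rs.length → (∀ r ∈ rs, 2 ≤ r) →
    mono rs j (wt rs i) X = X (j + i) := by
  intro rs
  induction rs with
  | nil => intro i j h; simp only [List.length_nil, not_lt_zero] at h
  | cons r rs ih =>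
    intro i j h hr
    have h2 : 2 ≤ r := hr r (List.mem_cons_self)
    cases i with
    | zero =>
      simp only [mono, wt]
      rw [Nat.mod_eq_of_lt (by omega), Nat.div_eq_of_lt (by omega), mono_zero]
      simp
    | succ i =>
      simp only [wt, mono]
      rw [Nat.mul_div_cancel_left _ (by omega),
        ih (j + 1) (by simpa only [List.length_cons, Order.lt_add_one_iff, Order.add_one_le_iff] using h) (fun s hs => hr s (List.mem_cons_of_mem _ hs))]
      simp only [Nat.mul_mod_right, pow_zero, one_mul]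
      congr 1
      omega

theorem Rep.var {i : ℕ} (h : i < rs.length) (hr : ∀ r ∈ rs, 2 ≤ r) :
    Rep B rs X (unitL rs i) 1 ((B : ℤ) ^ wt rs i) (X i) := by
  refine ⟨[(1, wt rs i)], ?_, ?_, ?_, ?_⟩
  · simp [kr]
  · simp only [l1, List.map_cons, isUnit_one, Int.natAbs_of_isUnit, List.map_nil, List.sum_cons, List.sum_nil, add_zero, Std.le_refl]
  · intro t ht
    simp only [List.mem_singleton] at ht
    subst ht
    exact ok_wt h hr
  · simp [ev, mono_wt 0 h hr]

/-! ### Digits -/

/-- Sum of the distances of the base `B` digits of `N` to `h` (`2^k` digits), by splitting. -/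
def l1t (B h : ℕ) : ℕ → ℕ → ℕ
  | 0, N => (N % B - h) + (h - N % B)
  | k + 1, N => l1t B h k (N % B ^ 2 ^ k) + l1t B h k (N / B ^ 2 ^ k)

theorem l1t_eq (B h : ℕ) (k : ℕ) : ∀ N : ℕ, l1t B h k N =
    ∑ j ∈ Finset.range (2 ^ k), ((N / B ^ j % B - h) + (h - N / B ^ j % B)) := by
  induction k with
  | zero => intro N; simp only [l1t, pow_zero, Finset.range_one, Finset.sum_singleton, Nat.div_one, Nat.add_left_cancel_iff]
  | succ k ih =>
    intro N
    rw [l1t, ih, ih, pow_succ, mul_two, Finset.sum_range_add]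
    congr 1
    · refine Finset.sum_congr rfl fun j hj => ?_
      have hj' : j < 2 ^ k := Finset.mem_range.mp hj
      have : N % B ^ 2 ^ k / B ^ j % B = N / B ^ j % B := by
        obtain ⟨e, he⟩ : ∃ e, 2 ^ k = j + 1 + e := ⟨2 ^ k - (j + 1), by omega⟩
        have h1 : N % B ^ 2 ^ k / B ^ j = N / B ^ j % B ^ (1 + e) := by
          rw [he, show j + 1 + e = j + (1 + e) by ring, pow_add, Nat.mod_mul_right_div_self]
        rw [h1, pow_add, pow_one, Nat.mod_mul_right_mod]
      rw [this]
    · refine Finset.sum_congr rfl fun j _ => ?_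
      rw [Nat.div_div_eq_div_mul, ← pow_add]

theorem digit_eq {B : ℕ} (L : ℕ) : ∀ (f : ℕ → ℕ), (∀ j, f j < B) → ∀ i < L,
    (∑ j ∈ Finset.range L, f j * B ^ j) / B ^ i % B = f i := by
  induction L with
  | zero => intro f _ i hi; omega
  | succ L ih =>
    intro f hf i hi
    have hB : 0 < B := lt_of_le_of_lt (Nat.zero_le _) (hf 0)
    rw [Finset.sum_range_succ']
    have e1 : ∑ j ∈ Finset.range L, f (j + 1) * B ^ (j + 1)
        = B * ∑ j ∈ Finset.range L, f (j + 1) * B ^ j := by
      rw [Finset.mul_sum]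
      refine Finset.sum_congr rfl fun j _ => ?_
      rw [pow_succ]; ring
    rw [e1]
    cases i with
    | zero =>
      simp only [pow_zero, mul_one, Nat.div_one, Nat.mul_add_mod]
      exact Nat.mod_eq_of_lt (hf 0)
    | succ i =>
      rw [pow_succ', ← Nat.div_div_eq_div_mul]
      have : (B * ∑ j ∈ Finset.range L, f (j + 1) * B ^ j + f 0 * B ^ 0) / B
          = ∑ j ∈ Finset.range L, f (j + 1) * B ^ j := by
        rw [pow_zero, mul_one, Nat.mul_add_div hB, Nat.div_eq_of_lt (hf 0), add_zero]
      rw [this]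
      exact ih (fun j => f (j + 1)) (fun j => hf (j + 1)) i (by omega)

theorem sum_cf {R : Type*} [CommRing R] (g : ℕ → R) (L : ℕ) (p : List (ℤ × ℕ))
    (hp : ∀ t ∈ p, t.2 < L) :
    ∑ j ∈ Finset.range L, (cf p j : R) * g j = (p.map fun t => (t.1 : R) * g t.2).sum := by
  induction p with
  | nil => simp only [cf, List.map_nil, List.sum_nil, Int.cast_zero, zero_mul, Finset.sum_const_zero]
  | cons t p ih =>
    have ih' := ih (fun t ht => hp t (List.mem_cons_of_mem _ ht))
    simp only [cf, List.map_cons, List.sum_cons] at ih' ⊢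
    push_cast
    simp only [add_mul, Finset.sum_add_distrib]
    push_cast at ih'
    rw [ih']
    congr 1
    rw [Finset.sum_eq_single t.2]
    · simp
    · intro j _ hj
      rw [if_neg (fun h => hj h.symm)]
      simp
    · intro h
      exact absurd (Finset.mem_range.mpr (hp t (List.mem_cons_self))) h

theorem abs_cf_le (p : List (ℤ × ℕ)) (j : ℕ) : |cf p j| ≤ l1 p := by
  induction p with
  | nil => simp only [cf, List.map_nil, List.sum_nil, abs_zero, l1, CharP.cast_eq_zero, Std.le_refl]
  | cons t p ih =>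
    simp only [cf, l1, List.map_cons, List.sum_cons] at ih ⊢
    push_cast
    refine (abs_add_le _ _).trans (add_le_add ?_ (by exact_mod_cast ih))
    split_ifs
    · exact le_rfl
    · simp only [abs_zero, abs_nonneg]

/-- The offset `∑_{j<L} h B^j` that makes all digits nonnegative. -/
def offs (B h L : ℕ) : ℕ := h * ((B ^ L - 1) / (B - 1))

theorem offs_eq {B : ℕ} (hB : 2 ≤ B) (h L : ℕ) :
    offs B h L = ∑ j ∈ Finset.range L, h * B ^ j := by
  rw [offs, ← Finset.mul_sum, Nat.geomSum_eq hB]

theorem Rep.abs_le {ds : List ℕ} {b h K : ℕ} {N : ℤ} {v : ℝ}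
    (hR : Rep B rs X ds b N v) (hX : ∀ j, |X j| ≤ 1) (hf : fits rs ds = true)
    (hL : rs.prod ≤ 2 ^ K) (hb : b < h) (hB : 2 * h ≤ B) :
    |v| ≤ l1t B h K (N + offs B h (2 ^ K)).toNat := by
  obtain ⟨p, h1, h2, h3, h4⟩ := hR
  have hlt : ∀ t ∈ p, t.2 < 2 ^ K := fun t ht => lt_of_lt_of_le (ok_lt (h3 t ht) hf) hL
  have hcf : ∀ j, |cf p j| < (h : ℤ) := fun j =>
    lt_of_le_of_lt (abs_cf_le p j) (by exact_mod_cast lt_of_le_of_lt h2 hb)
  set f : ℕ → ℕ := fun j => (cf p j + h).toNat with hfdef
  have hf0 : ∀ j, ((f j : ℕ) : ℤ) = cf p j + h := fun j => by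
    rw [hfdef]
    simp only
    rw [Int.toNat_of_nonneg]
    have := (abs_lt.mp (hcf j)).1
    omega
  have hfB : ∀ j, f j < B := fun j => by
    have h5 := hf0 j
    have h6 := (abs_lt.mp (hcf j)).2
    have : ((f j : ℕ) : ℤ) < B := by
      rw [h5]
      have : (2 * h : ℤ) ≤ B := by exact_mod_cast hB
      omega
    exact_mod_cast this
  have hN : (N + offs B h (2 ^ K)).toNat = ∑ j ∈ Finset.range (2 ^ K), f j * B ^ j := by
    have h2B : 2 ≤ B := by (clear * - hb hB; omega)
    have e1 : N = ∑ j ∈ Finset.range (2 ^ K), cf p j * (B : ℤ) ^ j := by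
      rw [← h1, kr]
      have := sum_cf (R := ℤ) (fun j => (B : ℤ) ^ j) (2 ^ K) p hlt
      simp only [Int.cast_id] at this
      rw [this]
    have e2 : N + offs B h (2 ^ K)
        = ((∑ j ∈ Finset.range (2 ^ K), f j * B ^ j : ℕ) : ℤ) := by
      rw [offs_eq h2B, e1]
      push_cast
      rw [← Finset.sum_add_distrib]
      refine Finset.sum_congr rfl fun j _ => ?_
      rw [hf0 j]
      ring
    rw [e2, Int.toNat_natCast]
  rw [hN, l1t_eq]
  have e3 : ∀ j ∈ Finset.range (2 ^ K),
      ((∑ j ∈ Finset.range (2 ^ K), f j * B ^ j) / B ^ j % B - h)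
        + (h - (∑ j ∈ Finset.range (2 ^ K), f j * B ^ j) / B ^ j % B) = (cf p j).natAbs := by
    intro j hj
    rw [digit_eq (2 ^ K) f hfB j (Finset.mem_range.mp hj)]
    have := hf0 j
    (clear * - this; omega)
  rw [Finset.sum_congr rfl e3]
  have e4 : v = ∑ j ∈ Finset.range (2 ^ K), (cf p j : ℝ) * mono rs 0 j X := by
    rw [sum_cf (R := ℝ) (fun j => mono rs 0 j X) (2 ^ K) p hlt, ← h4, ev]
  rw [e4]
  push_cast
  refine (Finset.abs_sum_le_sum_abs _ _).trans (Finset.sum_le_sum fun j _ => ?_)
  rw [abs_mul]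
  refine (mul_le_of_le_one_right (abs_nonneg _) (abs_mono_le 0 j hX)).trans (le_of_eq ?_)
  rw [Nat.cast_natAbs, Int.cast_abs]

end Vale.Agent.P098.K
end

section

/-!
# Expressions, blocks of squares and the checker
-/

namespace Vale.Agent.P098.K

variable {B : ℕ} {rs : List ℕ} {X : ℕ → ℝ}

/-- Polynomial expressions: variables, constants, explicit polynomials (with degree bounds),
sums, differences, products. -/
inductive Ex
  | v (i : ℕ)
  | c (n : ℤ)
  | p (ds : List ℕ) (l : List (ℤ × ℕ))
  | add (a b : Ex)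
  | sub (a b : Ex)
  | mul (a b : Ex)

/-- Real value. -/
noncomputable def evE (rs : List ℕ) (X : ℕ → ℝ) : Ex → ℝ
  | .v i => X i
  | .c n => n
  | .p _ l => ev rs l X
  | .add a b => evE rs X a + evE rs X b
  | .sub a b => evE rs X a - evE rs X b
  | .mul a b => evE rs X a * evE rs X b

/-- Value at the Kronecker point. -/
def krE (B : ℕ) (rs : List ℕ) : Ex → ℤ
  | .v i => (B : ℤ) ^ wt rs i
  | .c n => n
  | .p _ l => kr B l
  | .add a b => krE B rs a + krE B rs b
  | .sub a b => krE B rs a - krE B rs b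
  | .mul a b => krE B rs a * krE B rs b

/-- Degree bounds. -/
def dgE (rs : List ℕ) : Ex → List ℕ
  | .v i => unitL rs i
  | .c _ => zeroL rs
  | .p ds _ => ds
  | .add a b => List.zipWith max (dgE rs a) (dgE rs b)
  | .sub a b => List.zipWith max (dgE rs a) (dgE rs b)
  | .mul a b => List.zipWith (· + ·) (dgE rs a) (dgE rs b)

/-- Bound for the sum of the moduli of the coefficients. -/
def lE : Ex → ℕ
  | .v _ => 1
  | .c n => n.natAbs
  | .p _ l => l1 l
  | .add a b => lE a + lE b
  | .sub a b => lE a + lE b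
  | .mul a b => lE a * lE b

/-- Boolean version of `ok`. -/
def okb : List ℕ → List ℕ → ℕ → Bool
  | [], _, e => Nat.beq e 0
  | _ :: _, [], _ => false
  | r :: rs, d :: ds, e => Nat.ble (e % r) d && okb rs ds (e / r)

theorem ok_of_okb : ∀ {rs ds : List ℕ} {e : ℕ}, okb rs ds e = true → ok rs ds e := by
  intro rs
  induction rs with
  | nil => intro ds e h; simpa only [ok, okb, Nat.beq_eq] using h
  | cons r rs ih =>
    intro ds e h
    cases ds with
    | nil => simp [okb] at h
    | cons d ds =>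
      simp only [okb, Bool.and_eq_true] at h
      exact ⟨Nat.le_of_ble_eq_true h.1, ih h.2⟩

/-- Every term of the list obeys the degree bounds. -/
def okl (rs ds : List ℕ) : List (ℤ × ℕ) → Bool
  | [] => true
  | t :: l => okb rs ds t.2 && okl rs ds l

theorem ok_of_okl {rs ds : List ℕ} : ∀ {l : List (ℤ × ℕ)}, okl rs ds l = true →
    ∀ t ∈ l, ok rs ds t.2 := by
  intro l
  induction l with
  | nil => intro _ t ht; simp at ht
  | cons s l ih =>
    intro h t ht
    simp only [okl, Bool.and_eq_true] at h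
    rcases List.mem_cons.mp ht with rfl | ht
    · exact ok_of_okb h.1
    · exact ih h.2 t ht

/-- Well-formedness of an expression. -/
def okE (rs : List ℕ) : Ex → Bool
  | .v i => decide (i < rs.length)
  | .c _ => true
  | .p ds l => okl rs ds l && decide (ds.length = rs.length)
  | .add a b => okE rs a && okE rs b
  | .sub a b => okE rs a && okE rs b
  | .mul a b => okE rs a && okE rs b && fits rs (List.zipWith (· + ·) (dgE rs a) (dgE rs b))

theorem length_unitL : ∀ {rs : List ℕ} {i : ℕ}, i < rs.length →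
    (unitL rs i).length = rs.length := by
  intro rs
  induction rs with
  | nil => intro i h; simp at h
  | cons r rs ih =>
    intro i h
    cases i with
    | zero => simp [unitL, zeroL]
    | succ i => simp only [unitL, List.length_cons, ih (by simpa only [List.length_cons, Order.lt_add_one_iff, Order.add_one_le_iff] using h)]

theorem rep_Ex (hr : ∀ r ∈ rs, 2 ≤ r) (e : Ex) (h : okE rs e = true) :
    Rep B rs X (dgE rs e) (lE e) (krE B rs e) (evE rs X e) ∧ (dgE rs e).length = rs.length := by
  induction e with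
  | v i =>
    simp only [okE, decide_eq_true_eq] at h
    exact ⟨Rep.var h hr, length_unitL h⟩
  | c n => exact ⟨Rep.const n, by simp only [dgE, zeroL, List.map_const', List.length_replicate]⟩
  | p ds l =>
    simp only [okE, Bool.and_eq_true, decide_eq_true_eq] at h
    exact ⟨⟨l, rfl, le_rfl, ok_of_okl h.1, rfl⟩, h.2⟩
  | add a b iha ihb =>
    simp only [okE, Bool.and_eq_true] at h
    obtain ⟨r1, l1'⟩ := iha h.1
    obtain ⟨r2, l2'⟩ := ihb h.2
    exact ⟨r1.add' r2 (l1'.trans l2'.symm), by simp [dgE, l1', l2']⟩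
  | sub a b iha ihb =>
    simp only [okE, Bool.and_eq_true] at h
    obtain ⟨r1, l1'⟩ := iha h.1
    obtain ⟨r2, l2'⟩ := ihb h.2
    exact ⟨r1.sub' r2 (l1'.trans l2'.symm), by simp [dgE, l1', l2']⟩
  | mul a b iha ihb =>
    simp only [okE, Bool.and_eq_true] at h
    obtain ⟨r1, l1'⟩ := iha h.1.1
    obtain ⟨r2, l2'⟩ := ihb h.1.2
    exact ⟨r1.mul r2 h.2, by simp [dgE, l1', l2']⟩

/-- The largest admissible degree bounds. -/
def topL (rs : List ℕ) : List ℕ := rs.map fun r => r - 1

theorem ok_top : ∀ {rs ds : List ℕ} {e : ℕ}, ok rs ds e → fits rs ds = true →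
    ok rs (topL rs) e := by
  intro rs
  induction rs with
  | nil => intro ds e h _; exact h
  | cons r rs ih =>
    intro ds e h hf
    cases ds with
    | nil => simp only [ok] at h
    | cons d ds =>
      simp only [fits, Bool.and_eq_true, decide_eq_true_eq] at hf
      simp only [ok] at h
      simp only [topL, List.map_cons, ok]
      exact ⟨by omega, ih h.2 hf.2⟩

theorem fits_top : ∀ {rs : List ℕ}, (∀ r ∈ rs, 2 ≤ r) → fits rs (topL rs) = true := by
  intro rs
  induction rs with
  | nil => intro _; rfl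
  | cons r rs ih =>
    intro h
    have := h r (List.mem_cons_self)
    simp only [topL, List.map_cons, fits, Bool.and_eq_true, decide_eq_true_eq]
    exact ⟨by omega, ih fun s hs => h s (List.mem_cons_of_mem _ hs)⟩

theorem Rep.top {ds : List ℕ} {b : ℕ} {N : ℤ} {v : ℝ} (h : Rep B rs X ds b N v)
    (hf : fits rs ds = true) : Rep B rs X (topL rs) b N v := by
  obtain ⟨p, h1, h2, h3, h4⟩ := h
  exact ⟨p, h1, h2, fun t ht => ok_top (h3 t ht) hf, h4⟩

theorem Rep.zero {ds : List ℕ} : Rep B rs X ds 0 0 0 :=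
  ⟨[], by simp only [kr, List.map_nil, List.sum_nil], by simp only [l1, List.map_nil, List.sum_nil, Std.le_refl], by simp only [List.not_mem_nil, IsEmpty.forall_iff, implies_true], by simp [ev]⟩

theorem Rep.smul {ds : List ℕ} {b : ℕ} {N : ℤ} {v : ℝ} (h : Rep B rs X ds b N v) (c : ℤ) :
    Rep B rs X ds (c.natAbs * b) (c * N) (c * v) := by
  obtain ⟨p, h1, h2, h3, h4⟩ := h
  refine ⟨p.map fun t => (c * t.1, t.2), ?_, ?_, ?_, ?_⟩
  · rw [← h1]
    clear h1 h2 h3 h4
    induction p with
    | nil => simp [kr]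
    | cons t p ih =>
      simp only [kr, List.map_cons, List.sum_cons] at ih ⊢
      rw [ih]; ring
  · refine le_trans (le_of_eq ?_) (Nat.mul_le_mul_left _ h2)
    clear h1 h2 h3 h4
    induction p with
    | nil => simp only [l1, List.map_nil, List.sum_nil, mul_zero]
    | cons t p ih =>
      simp only [l1, List.map_cons, List.sum_cons] at ih ⊢
      rw [ih, Int.natAbs_mul]; ring
  · intro t ht
    obtain ⟨s, hs, rfl⟩ := List.mem_map.mp ht
    exact h3 s hs
  · rw [← h4]
    clear h1 h2 h3 h4
    induction p with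
    | nil => simp [ev]
    | cons t p ih =>
      simp only [ev, List.map_cons, List.sum_cons] at ih ⊢
      rw [ih]; push_cast; ring

/-! ### Packed rows -/

/-- Signed digit `a` of the packed row. -/
def dig (bb row a : ℕ) : ℤ := Int.subNatNat (row / 2 ^ (bb * a) % 2 ^ bb) (2 ^ (bb - 1))

theorem dig_natAbs_le (bb row a : ℕ) (hb : 1 ≤ bb) : (dig bb row a).natAbs ≤ 2 ^ (bb - 1) := by
  have h1 : row / 2 ^ (bb * a) % 2 ^ bb < 2 ^ bb := Nat.mod_lt _ (by positivity)
  have h2 : 2 ^ bb = 2 ^ (bb - 1) + 2 ^ (bb - 1) := by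
    conv_lhs => rw [show bb = (bb - 1) + 1 by (clear * - hb; omega), pow_succ]
    omega
  rw [dig, Int.subNatNat_eq_coe]
  generalize row / 2 ^ (bb * a) % 2 ^ bb = z at *
  generalize 2 ^ (bb - 1) = w at *
  omega

/-- Linear combination of explicit polynomials with coefficients from a packed row:
Kronecker value. -/
def lcK (B bb row : ℕ) : List (ℕ × List (ℤ × ℕ)) → ℤ
  | [] => 0
  | t :: l => Int.add (Int.mul (dig bb row t.1) (kr B t.2)) (lcK B bb row l)

/-- Linear combination of explicit polynomials with coefficients from a packed row: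
real value. -/
noncomputable def lcR (rs : List ℕ) (X : ℕ → ℝ) (bb row : ℕ) : List (ℕ × List (ℤ × ℕ)) → ℝ
  | [] => 0
  | t :: l => (dig bb row t.1 : ℝ) * ev rs t.2 X + lcR rs X bb row l

/-- Sum of the coefficient sums. -/
def lcL : List (ℕ × List (ℤ × ℕ)) → ℕ
  | [] => 0
  | t :: l => l1 t.2 + lcL l

/-- All polynomials of the list obey the degree bounds. -/
def okc (rs ds : List ℕ) : List (ℕ × List (ℤ × ℕ)) → Bool
  | [] => true
  | t :: l => okl rs ds t.2 && okc rs ds l

theorem rep_lc {ds : List ℕ} {bb : ℕ} (hb : 1 ≤ bb) (row : ℕ) :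
    ∀ {l : List (ℕ × List (ℤ × ℕ))}, okc rs ds l = true →
    Rep B rs X ds (2 ^ (bb - 1) * lcL l) (lcK B bb row l) (lcR rs X bb row l) := by
  intro l
  induction l with
  | nil => intro _; simpa only [lcL, mul_zero, lcK, lcR] using Rep.zero
  | cons t l ih =>
    intro h
    simp only [okc, Bool.and_eq_true] at h
    have h1 : Rep B rs X ds (l1 t.2) (kr B t.2) (ev rs t.2 X) :=
      ⟨t.2, rfl, le_rfl, ok_of_okl h.1, rfl⟩
    have h2 := (h1.smul (dig bb row t.1)).add (ih h.2)
    obtain ⟨p, e1, e2, e3, e4⟩ := h2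
    refine ⟨p, e1, e2.trans ?_, e3, e4⟩
    rw [lcL, mul_add]
    exact Nat.add_le_add_right (Nat.mul_le_mul_right _ (dig_natAbs_le _ _ _ hb)) _

/-- Sum over the rows of the products of two linear combinations: Kronecker value. -/
def bsK (B bb : ℕ) (ci cj : List (ℕ × List (ℤ × ℕ))) : List ℕ → ℤ
  | [] => 0
  | r :: l => Int.add (Int.mul (lcK B bb r ci) (lcK B bb r cj)) (bsK B bb ci cj l)

/-- Sum over the rows of the products of two linear combinations: real value. -/
noncomputable def bsR (rs : List ℕ) (X : ℕ → ℝ) (bb : ℕ) (ci cj : List (ℕ × List (ℤ × ℕ))) :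
    List ℕ → ℝ
  | [] => 0
  | r :: l => lcR rs X bb r ci * lcR rs X bb r cj + bsR rs X bb ci cj l

theorem rep_bs {ds : List ℕ} {bb : ℕ} (hb : 1 ≤ bb) {ci cj : List (ℕ × List (ℤ × ℕ))}
    (hi : okc rs ds ci = true) (hj : okc rs ds cj = true)
    (hf : fits rs (List.zipWith (· + ·) ds ds) = true) : ∀ (rows : List ℕ),
    Rep B rs X (List.zipWith (· + ·) ds ds)
      (rows.length * ((2 ^ (bb - 1) * lcL ci) * (2 ^ (bb - 1) * lcL cj)))
      (bsK B bb ci cj rows) (bsR rs X bb ci cj rows) := by
  intro rows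
  induction rows with
  | nil => simpa only [List.zipWith_self, List.length_nil, zero_mul, bsK, bsR] using Rep.zero
  | cons r l ih =>
    have h := ((rep_lc (B := B) (X := X) hb r hi).mul (rep_lc hb r hj) hf).add ih
    obtain ⟨p, e1, e2, e3, e4⟩ := h
    refine ⟨p, e1, e2.trans (le_of_eq ?_), e3, e4⟩
    rw [List.length_cons]
    ring

/-- A block: multiplier, weights of the entries, bits per digit, degree bounds, basis vectors
(by components) and rows. -/
structure Blk where
  m : Ex
  th : ℕ → ℕ → Ex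
  bb : ℕ
  ds : List ℕ
  comps : List (List (ℕ × List (ℤ × ℕ)))
  rows : List ℕ

/-- Component `i` of a block. -/
def Blk.cp (b : Blk) (i : ℕ) : List (ℕ × List (ℤ × ℕ)) := b.comps.getD i []

/-- Contribution of the blocks to the entry `(i, j)`: Kronecker value. -/
def blK (B : ℕ) (rs : List ℕ) (i j : ℕ) : List Blk → ℤ
  | [] => 0
  | b :: l => Int.add (Int.mul (krE B rs (.mul b.m (b.th i j))) (bsK B b.bb (b.cp i) (b.cp j) b.rows))
      (blK B rs i j l)

/-- Contribution of the blocks to the entry `(i, j)`: real value. -/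
noncomputable def blR (rs : List ℕ) (X : ℕ → ℝ) (i j : ℕ) : List Blk → ℝ
  | [] => 0
  | b :: l => evE rs X (.mul b.m (b.th i j)) * bsR rs X b.bb (b.cp i) (b.cp j) b.rows
      + blR rs X i j l

/-- Coefficient bound. -/
def blL (i j : ℕ) : List Blk → ℕ
  | [] => 0
  | b :: l => lE (.mul b.m (b.th i j)) *
      (b.rows.length * ((2 ^ (b.bb - 1) * lcL (b.cp i)) * (2 ^ (b.bb - 1) * lcL (b.cp j))))
      + blL i j l

/-- Well-formedness of the blocks for the entry `(i, j)`. -/
def blO (rs : List ℕ) (i j : ℕ) : List Blk → Bool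
  | [] => true
  | b :: l => okE rs (.mul b.m (b.th i j)) && Nat.ble 1 b.bb && okc rs b.ds (b.cp i)
      && okc rs b.ds (b.cp j) && fits rs (List.zipWith (· + ·) b.ds b.ds)
      && fits rs (List.zipWith (· + ·) (dgE rs (.mul b.m (b.th i j)))
          (List.zipWith (· + ·) b.ds b.ds))
      && blO rs i j l

theorem rep_bl (hr : ∀ r ∈ rs, 2 ≤ r) (i j : ℕ) : ∀ {l : List Blk}, blO rs i j l = true →
    Rep B rs X (topL rs) (blL i j l) (blK B rs i j l) (blR rs X i j l) := by
  intro l
  induction l with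
  | nil => intro _; simpa only [blL, blK, blR] using Rep.zero
  | cons b l ih =>
    intro h
    simp only [blO, Bool.and_eq_true] at h
    obtain ⟨⟨⟨⟨⟨⟨h1, h2⟩, h3⟩, h4⟩, h5⟩, h6⟩, h7⟩ := h
    have r1 := (rep_Ex (B := B) (X := X) hr _ h1).1
    have r2 := rep_bs (B := B) (X := X) (Nat.le_of_ble_eq_true h2) h3 h4 h5 b.rows
    exact (((r1.mul r2 h6).top h6).add (ih h7))

/-- Sum of products (ideal terms): Kronecker value. -/
def idK (B : ℕ) (rs : List ℕ) : List (Ex × Ex) → ℤ
  | [] => 0
  | t :: l => Int.add (krE B rs (.mul t.1 t.2)) (idK B rs l)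

/-- Sum of products (ideal terms): real value. -/
noncomputable def idR (rs : List ℕ) (X : ℕ → ℝ) : List (Ex × Ex) → ℝ
  | [] => 0
  | t :: l => evE rs X (.mul t.1 t.2) + idR rs X l

/-- Sum of products (ideal terms): coefficient bound. -/
def idL : List (Ex × Ex) → ℕ
  | [] => 0
  | t :: l => lE (.mul t.1 t.2) + idL l

/-- Sum of products (ideal terms): well-formedness. -/
def idO (rs : List ℕ) : List (Ex × Ex) → Bool
  | [] => true
  | t :: l => okE rs (.mul t.1 t.2) && fits rs (dgE rs (.mul t.1 t.2)) && idO rs l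

theorem rep_id (hr : ∀ r ∈ rs, 2 ≤ r) : ∀ {l : List (Ex × Ex)}, idO rs l = true →
    Rep B rs X (topL rs) (idL l) (idK B rs l) (idR rs X l) := by
  intro l
  induction l with
  | nil => intro _; simpa only [idL, idK, idR] using Rep.zero
  | cons t l ih =>
    intro h
    simp only [idO, Bool.and_eq_true] at h
    exact (((rep_Ex (B := B) (X := X) hr _ h.1.1).1.top h.1.2).add (ih h.2))

/-- Certificate data. -/
structure Cd where
  B : ℕ
  rs : List ℕ
  h : ℕ
  kk : ℕ
  blks : List Blk

/-- Global well-formedness. -/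
def Cd.gd (c : Cd) : Bool :=
  c.rs.all (fun r => Nat.ble 2 r) && Nat.ble c.rs.prod (2 ^ c.kk) && Nat.ble (2 * c.h) c.B

/-- The check for one entry. -/
def Cd.chk (c : Cd) (T : Ex) (idl : List (Ex × Ex)) (e : ℤ) (δ : ℕ) (i j : ℕ) : Bool :=
  okE c.rs T && fits c.rs (dgE c.rs T) && blO c.rs i j c.blks && idO c.rs idl
    && Nat.ble (lE T + blL i j c.blks + idL idl + e.natAbs + 1) c.h
    && Nat.ble (l1t c.B c.h c.kk
      ((krE c.B c.rs T - blK c.B c.rs i j c.blks - idK c.B c.rs idl - e)
        + offs c.B c.h (2 ^ c.kk)).toNat) δ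

theorem fits_zero : ∀ {rs : List ℕ}, (∀ r ∈ rs, 2 ≤ r) → fits rs (zeroL rs) = true := by
  intro rs
  induction rs with
  | nil => intro _; rfl
  | cons r rs ih =>
    intro h
    have := h r (List.mem_cons_self)
    simp only [zeroL, List.map_cons, fits, Bool.and_eq_true, decide_eq_true_eq]
    exact ⟨by omega, ih fun s hs => h s (List.mem_cons_of_mem _ hs)⟩

theorem Cd.chk_sound {c : Cd} (hg : c.gd = true) (hX : ∀ j, |X j| ≤ 1) {T : Ex}
    {idl : List (Ex × Ex)} {e : ℤ} {δ i j : ℕ} (h : c.chk T idl e δ i j = true) :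
    |evE c.rs X T - blR c.rs X i j c.blks - idR c.rs X idl - e| ≤ δ := by
  simp only [Cd.gd, Bool.and_eq_true, List.all_eq_true] at hg
  obtain ⟨⟨g1, g2⟩, g3⟩ := hg
  have hr : ∀ r ∈ c.rs, 2 ≤ r := fun r hr => Nat.le_of_ble_eq_true (g1 r hr)
  simp only [chk, Bool.and_eq_true] at h
  obtain ⟨⟨⟨⟨⟨h1, h2⟩, h3⟩, h4⟩, h5⟩, h6⟩ := h
  have r1 := ((rep_Ex (B := c.B) (X := X) hr T h1).1.top h2)
  have r2 := rep_bl (B := c.B) (X := X) hr i j h3
  have r3 := rep_id (B := c.B) (X := X) hr h4
  have r4 := (Rep.const (B := c.B) (X := X) (rs := c.rs) e).top (fits_zero hr)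
  have r5 := ((r1.sub r2).sub r3).sub r4
  have h5' := Nat.le_of_ble_eq_true h5
  refine (r5.abs_le hX (fits_top hr) (Nat.le_of_ble_eq_true g2) (h := c.h) (by omega)
    (Nat.le_of_ble_eq_true g3)).trans ?_
  exact_mod_cast Nat.le_of_ble_eq_true h6

/-! ### Positivity of the blocks -/

theorem bsR_symm (bb : ℕ) (ci cj : List (ℕ × List (ℤ × ℕ))) (rows : List ℕ) :
    bsR rs X bb ci cj rows = bsR rs X bb cj ci rows := by
  induction rows with
  | nil => rfl
  | cons r l ih => simp only [bsR]; rw [ih]; ring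

theorem bsR_nonneg (n : ℕ) (bb : ℕ) (cp : ℕ → List (ℕ × List (ℤ × ℕ))) (w : ℕ → ℝ)
    (rows : List ℕ) :
    0 ≤ ∑ i ∈ Finset.range n, ∑ j ∈ Finset.range n,
      bsR rs X bb (cp i) (cp j) rows * (w i * w j) := by
  induction rows with
  | nil => simp [bsR]
  | cons r l ih =>
    simp only [bsR, add_mul, Finset.sum_add_distrib]
    refine add_nonneg ?_ ih
    have : ∑ i ∈ Finset.range n, ∑ j ∈ Finset.range n,
        lcR rs X bb r (cp i) * lcR rs X bb r (cp j) * (w i * w j)
        = (∑ i ∈ Finset.range n, lcR rs X bb r (cp i) * w i) ^ 2 := by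
      rw [sq, Finset.sum_mul_sum]
      refine Finset.sum_congr rfl fun i _ => Finset.sum_congr rfl fun j _ => ?_
      ring
    rw [this]
    (clear * -; positivity)

/-- The weights of the entries of a block are compatible with `w` and the block is nonnegative. -/
def Blk.good (b : Blk) (rs : List ℕ) (X : ℕ → ℝ) (n : ℕ) (w : ℕ → ℕ → ℝ) : Prop :=
  0 ≤ evE rs X b.m ∧ ∃ r : ℕ → ℝ, ∀ i < n, ∀ j < n, evE rs X (b.th i j) * w i j = r i * r j

theorem blR_nonneg (n : ℕ) (w : ℕ → ℕ → ℝ) (u : ℕ → ℝ) : ∀ (l : List Blk),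
    (∀ b ∈ l, b.good rs X n w) →
    0 ≤ ∑ i ∈ Finset.range n, ∑ j ∈ Finset.range n, blR rs X i j l * (w i j * (u i * u j)) := by
  intro l
  induction l with
  | nil => intro _; simp [blR]
  | cons b l ih =>
    intro h
    simp only [blR, add_mul, Finset.sum_add_distrib]
    refine add_nonneg ?_ (ih fun b' hb' => h b' (List.mem_cons_of_mem _ hb'))
    obtain ⟨hm, r, hr⟩ := h b (List.mem_cons_self)
    have : ∑ i ∈ Finset.range n, ∑ j ∈ Finset.range n,
        evE rs X (.mul b.m (b.th i j)) * bsR rs X b.bb (b.cp i) (b.cp j) b.rows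
          * (w i j * (u i * u j))
        = evE rs X b.m * ∑ i ∈ Finset.range n, ∑ j ∈ Finset.range n,
            bsR rs X b.bb (b.cp i) (b.cp j) b.rows * ((r i * u i) * (r j * u j)) := by
      rw [Finset.mul_sum]
      refine Finset.sum_congr rfl fun i hi => ?_
      rw [Finset.mul_sum]
      refine Finset.sum_congr rfl fun j hj => ?_
      have := hr i (Finset.mem_range.mp hi) j (Finset.mem_range.mp hj)
      simp only [evE]
      linear_combination evE rs X b.m * bsR rs X b.bb (b.cp i) (b.cp j) b.rows * (u i * u j) * this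
    rw [this]
    exact mul_nonneg hm (bsR_nonneg n b.bb b.cp (fun i => r i * u i) b.rows)

/-- Main theorem: if all entries pass the check, the quadratic form with matrix `T i j * w i j` is
positive definite. -/
theorem Cd.main {c : Cd} (hg : c.gd = true) (hX : ∀ j, |X j| ≤ 1) {n : ℕ}
    {T : ℕ → ℕ → Ex} {idl : ℕ → ℕ → List (Ex × Ex)} {ε δ : ℕ}
    (hchk : ∀ i < n, ∀ j < n, i ≤ j →
      c.chk (T i j) (idl i j) (if i = j then (ε : ℤ) else 0) δ i j = true)
    (hsym : ∀ i < n, ∀ j < n, evE c.rs X (T i j) = evE c.rs X (T j i))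
    (hid : ∀ i < n, ∀ j < n, idR c.rs X (idl i j) = 0)
    {w : ℕ → ℕ → ℝ} (hw : ∀ i < n, ∀ j < n, |w i j| ≤ 1) (hwd : ∀ i < n, w i i = 1)
    (hb : ∀ b ∈ c.blks, b.good c.rs X n w) (u : ℕ → ℝ)
    (hths : ∀ b ∈ c.blks, ∀ i < n, ∀ j < n, evE c.rs X (b.th i j) = evE c.rs X (b.th j i)) :
    ((ε : ℝ) - n * δ) * ∑ i ∈ Finset.range n, u i ^ 2 ≤
      ∑ i ∈ Finset.range n, ∑ j ∈ Finset.range n, evE c.rs X (T i j) * (w i j * (u i * u j)) := by
  have hbs : ∀ i < n, ∀ j < n, blR c.rs X i j c.blks = blR c.rs X j i c.blks := by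
    intro i hi j hj
    have : ∀ l : List Blk, (∀ b ∈ l, b ∈ c.blks) → blR c.rs X i j l = blR c.rs X j i l := by
      intro l
      induction l with
      | nil => intro _; rfl
      | cons b l ih =>
        intro hl
        simp only [blR, evE]
        rw [ih fun b' hb' => hl b' (List.mem_cons_of_mem _ hb'), bsR_symm,
          hths b (hl b (List.mem_cons_self)) i hi j hj]
    exact this c.blks fun b hb => hb
  have key : ∀ i < n, ∀ j < n, |evE c.rs X (T i j) - blR c.rs X i j c.blks
      - (if i = j then (ε : ℝ) else 0)| ≤ δ := by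
    intro i hi j hj
    rcases le_total i j with hij | hij
    · have := Cd.chk_sound hg hX (hchk i hi j hj hij)
      rw [hid i hi j hj] at this
      convert this using 2
      split_ifs <;> push_cast <;> ring
    · have := Cd.chk_sound hg hX (hchk j hj i hi hij)
      rw [hid j hj i hi, hsym j hj i hi, hbs j hj i hi] at this
      convert this using 2
      by_cases h : i = j
      · subst h; simp only [↓reduceIte, sub_zero, Int.cast_natCast]
      · rw [if_neg h, if_neg (fun h' => h h'.symm)]; push_cast; ring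
  have h1 := blR_nonneg (rs := c.rs) (X := X) n w u c.blks hb
  have h2 : ∑ i ∈ Finset.range n, ∑ j ∈ Finset.range n,
      (if i = j then (ε : ℝ) else 0) * (w i j * (u i * u j))
      = ε * ∑ i ∈ Finset.range n, u i ^ 2 := by
    rw [Finset.mul_sum]
    refine Finset.sum_congr rfl fun i hi => ?_
    rw [Finset.sum_eq_single i]
    · rw [if_pos rfl, hwd i (Finset.mem_range.mp hi)]; ring
    · intro j _ hj
      rw [if_neg (fun h => hj h.symm)]; ring
    · intro h; exact absurd hi h
  have h3 : |∑ i ∈ Finset.range n, ∑ j ∈ Finset.range n,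
      (evE c.rs X (T i j) - blR c.rs X i j c.blks - (if i = j then (ε : ℝ) else 0))
        * (w i j * (u i * u j))| ≤ n * δ * ∑ i ∈ Finset.range n, u i ^ 2 := by
    have h4 : ∀ i ∈ Finset.range n, ∀ j ∈ Finset.range n,
        |(evE c.rs X (T i j) - blR c.rs X i j c.blks - (if i = j then (ε : ℝ) else 0))
          * (w i j * (u i * u j))| ≤ δ * (|u i| * |u j|) := by
      intro i hi j hj
      rw [abs_mul, abs_mul, abs_mul]
      have e1 := key i (Finset.mem_range.mp hi) j (Finset.mem_range.mp hj)
      have e2 := hw i (Finset.mem_range.mp hi) j (Finset.mem_range.mp hj)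
      have e3 : 0 ≤ |u i| * |u j| := by (clear * -; positivity)
      calc _ ≤ (δ : ℝ) * (1 * (|u i| * |u j|)) :=
            mul_le_mul e1 (mul_le_mul_of_nonneg_right e2 e3) (by (clear * -; positivity)) (by (clear * -; positivity))
        _ = _ := by ring
    refine (Finset.abs_sum_le_sum_abs _ _).trans ?_
    refine (Finset.sum_le_sum fun i hi => (Finset.abs_sum_le_sum_abs _ _).trans
      (Finset.sum_le_sum fun j hj => h4 i hi j hj)).trans ?_
    have h5 : ∑ i ∈ Finset.range n, ∑ j ∈ Finset.range n, (δ : ℝ) * (|u i| * |u j|)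
        = δ * (∑ i ∈ Finset.range n, |u i|) ^ 2 := by
      rw [sq, Finset.sum_mul_sum, Finset.mul_sum]
      refine Finset.sum_congr rfl fun i _ => ?_
      rw [Finset.mul_sum]
    rw [h5]
    have h6 : (∑ i ∈ Finset.range n, |u i|) ^ 2 ≤ n * ∑ i ∈ Finset.range n, u i ^ 2 := by
      have := sq_sum_le_card_mul_sum_sq (s := Finset.range n) (f := fun i => |u i|)
      simpa only [ge_iff_le, Finset.card_range, sq_abs] using this
    calc (δ : ℝ) * (∑ i ∈ Finset.range n, |u i|) ^ 2 ≤ δ * (n * ∑ i ∈ Finset.range n, u i ^ 2) :=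
          mul_le_mul_of_nonneg_left h6 (by (clear * -; positivity))
      _ = _ := by ring
  have h7 : ∑ i ∈ Finset.range n, ∑ j ∈ Finset.range n,
        evE c.rs X (T i j) * (w i j * (u i * u j))
      = (∑ i ∈ Finset.range n, ∑ j ∈ Finset.range n,
          (evE c.rs X (T i j) - blR c.rs X i j c.blks - (if i = j then (ε : ℝ) else 0))
            * (w i j * (u i * u j)))
        + (∑ i ∈ Finset.range n, ∑ j ∈ Finset.range n,
            blR c.rs X i j c.blks * (w i j * (u i * u j)))
        + ∑ i ∈ Finset.range n, ∑ j ∈ Finset.range n,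
            (if i = j then (ε : ℝ) else 0) * (w i j * (u i * u j)) := by
    simp only [← Finset.sum_add_distrib]
    refine Finset.sum_congr rfl fun i _ => Finset.sum_congr rfl fun j _ => ?_
    ring
  rw [h7, h2]
  have := (abs_le.mp h3).1
  linarith only [h1, this]

/-! Equation lemmas (they are generated here once and for all). -/

theorem krE_c (B : ℕ) (rs : List ℕ) (n : ℤ) : krE B rs (.c n) = n := by rw [krE]

theorem lE_c (n : ℤ) : lE (.c n) = n.natAbs := by rw [lE]

end Vale.Agent.P098.K
end

section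

/-!
# Nested list polynomials over packed integers

Polynomials in three outer variables are nested lists, whose entries are integers which pack
polynomials in the first variables (Kronecker substitution).
-/

namespace Vale.Agent.P098.N

open Vale.Agent.P098.K

/-- Sum of two coefficient lists. -/
def padd {α : Type} (f : α → α → α) : List α → List α → List α
  | [], l => l
  | x :: xs, [] => x :: xs
  | x :: xs, y :: ys => f x y :: padd f xs ys

/-- Product of two coefficient lists (`iz` recognises zeros). -/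
def pmul {α : Type} (iz : α → Bool) (add : List α → List α → List α) (z : α) (f : α → α → α) :
    List α → List α → List α
  | [], _ => []
  | x :: xs, q => bif iz x then z :: pmul iz add z f xs q
      else add (q.map (f x)) (z :: pmul iz add z f xs q)

/-- Evaluation of a coefficient list at `t`, the coefficients being evaluated by `ev`. -/
def pev {α : Type} (ev : α → ℤ) (t : ℤ) : List α → ℤ
  | [] => 0
  | x :: xs => ev x + t * pev ev t xs

theorem pev_add {α : Type} {ev : α → ℤ} {t : ℤ} {f : α → α → α}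
    (h : ∀ x y, ev (f x y) = ev x + ev y) : ∀ p q : List α,
    pev ev t (padd f p q) = pev ev t p + pev ev t q := by
  intro p
  induction p with
  | nil => intro q; simp only [padd, pev, zero_add]
  | cons x xs ih =>
    intro q
    cases q with
    | nil => simp [padd, pev]
    | cons y ys =>
      simp only [padd, pev, h, ih]
      ring

theorem pev_map {α : Type} {ev : α → ℤ} {t : ℤ} {g : α → α} {c : ℤ}
    (h : ∀ x, ev (g x) = c * ev x) : ∀ p : List α,
    pev ev t (p.map g) = c * pev ev t p := by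
  intro p
  induction p with
  | nil => simp only [List.map_nil, pev, mul_zero]
  | cons x xs ih =>
    simp only [List.map_cons, pev, h, ih]
    ring

theorem pev_mul {α : Type} {iz : α → Bool} {ev : α → ℤ} {t : ℤ}
    {add : List α → List α → List α} {z : α}
    {f : α → α → α} (hi : ∀ x, iz x = true → ev x = 0)
    (ha : ∀ p q, pev ev t (add p q) = pev ev t p + pev ev t q)
    (hz : ev z = 0) (h : ∀ x y, ev (f x y) = ev x * ev y) : ∀ p q : List α,
    pev ev t (pmul iz add z f p q) = pev ev t p * pev ev t q := by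
  intro p
  induction p with
  | nil => intro q; simp only [pmul, pev, zero_mul]
  | cons x xs ih =>
    intro q
    rw [pmul]
    cases hx : iz x with
    | true =>
      simp only [cond_true, pev, hz, ih, hi x hx]
      ring
    | false =>
      simp only [cond_false, ha, pev, hz, ih]
      rw [pev_map (h x)]
      ring

/-- Polynomials in one, two, three variables. -/
abbrev P1 := List ℤ
abbrev P2 := List P1
abbrev P3 := List P2

def add1 : P1 → P1 → P1 := padd Int.add
def add2 : P2 → P2 → P2 := padd add1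
def add3 : P3 → P3 → P3 := padd add2
/-- Recognises zero. -/
def iz0 : ℤ → Bool
  | .ofNat 0 => true
  | _ => false

def mul1 : P1 → P1 → P1 := pmul iz0 add1 0 Int.mul
def mul2 : P2 → P2 → P2 := pmul List.isEmpty add2 [] mul1
def mul3 : P3 → P3 → P3 := pmul List.isEmpty add3 [] mul2
def scl1 (c : ℤ) (p : P1) : P1 := p.map (Int.mul c)
def scl2 (c : ℤ) (p : P2) : P2 := p.map (scl1 c)
def scl3 (c : ℤ) (p : P3) : P3 := p.map (scl2 c)

/-- Full Kronecker values. -/
def fv1 (s : ℤ) (p : P1) : ℤ := pev (fun x => x) s p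
def fv2 (s t : ℤ) (p : P2) : ℤ := pev (fv1 s) t p
def fv3 (s t r : ℤ) (p : P3) : ℤ := pev (fv2 s t) r p

theorem fv1_add (s : ℤ) (p q : P1) : fv1 s (add1 p q) = fv1 s p + fv1 s q :=
  pev_add (fun _ _ => rfl) p q
theorem fv2_add (s t : ℤ) (p q : P2) : fv2 s t (add2 p q) = fv2 s t p + fv2 s t q :=
  pev_add (fun x y => fv1_add s x y) p q
theorem fv3_add (s t r : ℤ) (p q : P3) : fv3 s t r (add3 p q) = fv3 s t r p + fv3 s t r q :=
  pev_add (fun x y => fv2_add s t x y) p q

theorem iz0_eq : ∀ x : ℤ, iz0 x = true → x = 0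
  | .ofNat 0, _ => rfl
  | .ofNat (_ + 1), h => (Bool.false_ne_true h).elim
  | .negSucc _, h => (Bool.false_ne_true h).elim

theorem eq_nil_of_isEmpty {α : Type} : ∀ p : List α, p.isEmpty = true → p = []
  | [], _ => rfl
  | _ :: _, h => by simp at h

theorem fv1_mul (s : ℤ) (p q : P1) : fv1 s (mul1 p q) = fv1 s p * fv1 s q :=
  pev_mul (ev := fun x => x) iz0_eq (fun x y => fv1_add s x y) rfl (fun _ _ => rfl) p q
theorem fv2_mul (s t : ℤ) (p q : P2) : fv2 s t (mul2 p q) = fv2 s t p * fv2 s t q :=
  pev_mul (fun x h => by rw [eq_nil_of_isEmpty x h]; rfl) (fun x y => fv2_add s t x y) rfl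
    (fun x y => fv1_mul s x y) p q
theorem fv3_mul (s t r : ℤ) (p q : P3) : fv3 s t r (mul3 p q) = fv3 s t r p * fv3 s t r q :=
  pev_mul (fun x h => by rw [eq_nil_of_isEmpty x h]; rfl) (fun x y => fv3_add s t r x y) rfl
    (fun x y => fv2_mul s t x y) p q

theorem fv1_scl (s c : ℤ) (p : P1) : fv1 s (scl1 c p) = c * fv1 s p :=
  pev_map (ev := fun x => x) (g := Int.mul c) (fun _ => rfl) p
theorem fv2_scl (s t c : ℤ) (p : P2) : fv2 s t (scl2 c p) = c * fv2 s t p :=
  pev_map (fun x => fv1_scl s c x) p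
theorem fv3_scl (s t r c : ℤ) (p : P3) : fv3 s t r (scl3 c p) = c * fv3 s t r p :=
  pev_map (fun x => fv2_scl s t c x) p

/-- One coefficient at the position `(i, j, k)`. -/
def mon (i j k : ℕ) (c : ℤ) : P3 :=
  List.replicate k [] ++ [List.replicate j [] ++ [List.replicate i 0 ++ [c]]]

theorem pev_replicate {α : Type} {ev : α → ℤ} {t : ℤ} {z : α} (hz : ev z = 0) (k : ℕ) (x : α) :
    pev ev t (List.replicate k z ++ [x]) = t ^ k * ev x := by
  induction k with
  | zero => simp [pev]
  | succ k ih =>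
    rw [List.replicate_succ, List.cons_append, pev, ih, hz, pow_succ]
    ring

theorem fv3_mon (s t r : ℤ) (i j k : ℕ) (c : ℤ) :
    fv3 s t r (mon i j k c) = c * s ^ i * t ^ j * r ^ k := by
  have h1 : fv1 s (List.replicate i 0 ++ [c]) = s ^ i * c :=
    pev_replicate (ev := fun x => x) rfl i c
  have h2 : fv2 s t (List.replicate j [] ++ [List.replicate i 0 ++ [c]])
      = t ^ j * fv1 s (List.replicate i 0 ++ [c]) :=
    pev_replicate (ev := fv1 s) rfl j _
  have h3 : fv3 s t r (mon i j k c)
      = r ^ k * fv2 s t (List.replicate j [] ++ [List.replicate i 0 ++ [c]]) :=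
    pev_replicate (ev := fv2 s t) rfl k _
  rw [h3, h2, h1]
  ring

end Vale.Agent.P098.N
end

section

/-!
# Splitting packed polynomials
-/

namespace Vale.Agent.P098.N

open Vale.Agent.P098.K

/-! ### Uniqueness of balanced digits -/

theorem two_abs_add_lt {A x y M : ℤ} (hA : 1 ≤ A) (hx : 2 * |x| < A) (hy : 2 * |y| < M) :
    2 * |x + A * y| < A * M := by
  have h1 : |x + A * y| ≤ |x| + A * |y| := by
    refine (abs_add_le _ _).trans ?_
    rw [abs_mul, abs_of_nonneg (by omega : (0 : ℤ) ≤ A)]
  have h2 : A * (2 * |y|) ≤ A * (M - 1) := mul_le_mul_of_nonneg_left (by omega) (by omega)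
  linarith

theorem pev_lt {A : ℤ} (hA : 1 ≤ A) : ∀ xs : List ℤ, (∀ x ∈ xs, 2 * |x| < A) →
    2 * |pev (fun x => x) A xs| < A ^ xs.length := by
  intro xs
  induction xs with
  | nil => intro _; simp only [pev, abs_zero, mul_zero, List.length_nil, pow_zero, zero_lt_one]
  | cons x xs ih =>
    intro h
    have h1 := ih fun y hy => h y (List.mem_cons_of_mem _ hy)
    rw [pev, List.length_cons, pow_succ, mul_comm (A ^ xs.length) A]
    exact two_abs_add_lt hA (h x List.mem_cons_self) h1

theorem pev_inj {A : ℤ} (hA : 1 ≤ A) : ∀ xs ys : List ℤ, xs.length = ys.length →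
    (∀ x ∈ xs, 2 * |x| < A) → (∀ y ∈ ys, 2 * |y| < A) →
    pev (fun x => x) A xs = pev (fun x => x) A ys → xs = ys := by
  intro xs
  induction xs with
  | nil =>
    intro ys hl _ _ _
    exact (List.length_eq_zero_iff.mp (by simpa using hl.symm)).symm
  | cons x xs ih =>
    intro ys hl hx hy he
    cases ys with
    | nil => simp at hl
    | cons y ys =>
      simp only [pev] at he
      have h1 := hx x List.mem_cons_self
      have h2 := hy y List.mem_cons_self
      have h3 : x - y = A * (pev (fun x => x) A ys - pev (fun x => x) A xs) := by linarith only [he]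
      have h4 : |x - y| < A := by
        have := abs_sub x y
        omega
      have h5 : x - y = 0 := Int.eq_zero_of_abs_lt_dvd ⟨_, h3⟩ h4
      have h6 : pev (fun x => x) A ys - pev (fun x => x) A xs = 0 := by
        rw [h5] at h3
        rcases mul_eq_zero.mp h3.symm with h | h
        · omega
        · exact h
      have h7 := ih ys (by simpa using hl) (fun z hz => hx z (List.mem_cons_of_mem _ hz))
        (fun z hz => hy z (List.mem_cons_of_mem _ hz)) (by linarith only [h6])
      rw [h7]
      congr 1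
      linarith only [h5]

theorem pev_range (A : ℤ) (f : ℕ → ℤ) : ∀ n : ℕ,
    pev (fun x => x) A ((List.range n).map f) = ∑ k ∈ Finset.range n, f k * A ^ k := by
  intro n
  induction n generalizing f with
  | zero => simp [pev]
  | succ n ih =>
    rw [List.range_succ_eq_map, List.map_cons, List.map_map, pev, Finset.sum_range_succ']
    have := ih (fun k => f (k + 1))
    have e : (List.range n).map (f ∘ Nat.succ) = (List.range n).map fun k => f (k + 1) := rfl
    rw [e, this, Finset.mul_sum, add_comm]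
    congr 1
    · refine Finset.sum_congr rfl fun k _ => ?_
      ring
    · simp

theorem pev_append_zeros (A : ℤ) (xs : List ℤ) (n : ℕ) :
    pev (fun x => x) A (xs ++ List.replicate n 0) = pev (fun x => x) A xs := by
  induction xs with
  | nil =>
    induction n with
    | zero => rfl
    | succ n ih => simpa only [List.replicate_succ, List.nil_append, pev, zero_add, mul_eq_zero] using Or.inr ih
  | cons x xs ih => simp only [List.cons_append, pev, ih]

/-! ### Slices -/

/-- The terms whose last exponent is `k`. -/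
def sl (W k : ℕ) (P : List (ℤ × ℕ)) : List (ℤ × ℕ) :=
  (P.filter fun t => t.2 / W = k).map fun t => (t.1, t.2 % W)

theorem sl_cons (W k : ℕ) (t : ℤ × ℕ) (P : List (ℤ × ℕ)) :
    sl W k (t :: P) = if t.2 / W = k then (t.1, t.2 % W) :: sl W k P else sl W k P := by
  unfold sl
  by_cases h : t.2 / W = k
  · simp only [h, decide_true, List.filter_cons_of_pos, List.map_cons, ↓reduceIte]
  · simp only [h, decide_false, Bool.false_eq_true, not_false_eq_true, List.filter_cons_of_neg, ↓reduceIte]

theorem l1_sl (W k : ℕ) (P : List (ℤ × ℕ)) : l1 (sl W k P) ≤ l1 P := by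
  induction P with
  | nil => simp only [l1, sl, List.filter_nil, List.map_nil, List.sum_nil, Std.le_refl]
  | cons t P ih =>
    rw [sl_cons]
    simp only [l1] at ih ⊢
    split_ifs
    · simp only [List.map_cons, List.sum_cons]
      omega
    · simp only [List.map_cons, List.sum_cons]
      (clear * - ih; omega)

theorem kr_sl (B W r : ℕ) (P : List (ℤ × ℕ)) (hP : ∀ t ∈ P, t.2 < W * r) :
    kr B P = ∑ k ∈ Finset.range r, kr B (sl W k P) * ((B : ℤ) ^ W) ^ k := by
  induction P with
  | nil => simp only [kr, List.map_nil, List.sum_nil, sl, List.filter_nil, zero_mul, Finset.sum_const_zero]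
  | cons t P ih =>
    have ih' := ih fun s hs => hP s (List.mem_cons_of_mem _ hs)
    have ht := hP t List.mem_cons_self
    have hW : 0 < W := by
      rcases Nat.eq_zero_or_pos W with h | h
      · subst h; simp at ht
      · exact h
    have hk : t.2 / W < r := (Nat.div_lt_iff_lt_mul hW).mpr (by rwa [mul_comm] at ht)
    have e1 : kr B (t :: P) = t.1 * (B : ℤ) ^ t.2 + kr B P := by simp only [kr, List.map_cons, List.sum_cons]
    have e2 : ∀ k, kr B (sl W k (t :: P)) = (if t.2 / W = k then t.1 * (B : ℤ) ^ (t.2 % W) else 0)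
        + kr B (sl W k P) := by
      intro k
      rw [sl_cons]
      split_ifs
      · simp only [kr, List.map_cons, List.sum_cons]
      · simp
    rw [e1, ih']
    simp only [e2, add_mul, Finset.sum_add_distrib]
    congr 1
    rw [Finset.sum_eq_single (t.2 / W)]
    · rw [if_pos rfl, mul_assoc, ← pow_mul, ← pow_add, Nat.mod_add_div]
    · intro k _ hk'
      rw [if_neg (fun h => hk' h.symm), zero_mul]
    · intro h
      exact absurd (Finset.mem_range.mpr hk) h

theorem kr_abs_lt {B h W : ℕ} {P : List (ℤ × ℕ)} (hP : ∀ t ∈ P, t.2 < W) (hl : l1 P < h)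
    (hB : 2 * h ≤ B) : 2 * |kr B P| < (B : ℤ) ^ W := by
  have e : kr B P = pev (fun x => x) (B : ℤ) ((List.range W).map fun j => cf P j) := by
    rw [pev_range, kr]
    have := sum_cf (R := ℤ) (fun j => (B : ℤ) ^ j) W P hP
    simp only [Int.cast_id] at this
    rw [this]
  rw [e]
  have := pev_lt (A := (B : ℤ)) (by omega) ((List.range W).map fun j => cf P j) (by
    intro x hx
    obtain ⟨j, _, rfl⟩ := List.mem_map.mp hx
    have := abs_cf_le P j
    have h2 : (l1 P : ℤ) < h := by exact_mod_cast hl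
    have h3 : (2 * h : ℤ) ≤ B := by exact_mod_cast hB
    omega)
  simpa only [gt_iff_lt, List.length_map, List.length_range] using this

theorem peel {B h W r : ℕ} {P : List (ℤ × ℕ)} (hc : ∀ t ∈ P, t.2 < W * r) (hl : l1 P < h)
    (hB : 2 * h ≤ B) {xs : List ℤ} (hx : ∀ x ∈ xs, 2 * |x| < (B : ℤ) ^ W)
    (hxl : xs.length ≤ r) (he : pev (fun x => x) ((B : ℤ) ^ W) xs = kr B P) :
    ∀ k < r, xs.getD k 0 = kr B (sl W k P) := by
  have hB0 : (0 : ℤ) < B := by
    have : 0 < h := by omega
    have : (2 * h : ℤ) ≤ B := by exact_mod_cast hB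
    omega
  have hA : (1 : ℤ) ≤ (B : ℤ) ^ W := one_le_pow₀ (by omega)
  have key : xs ++ List.replicate (r - xs.length) 0 = (List.range r).map fun k => kr B (sl W k P) := by
    refine pev_inj hA _ _ (by simp only [List.length_append, List.length_replicate, List.length_map, List.length_range]; omega) ?_ ?_ ?_
    · intro x hx'
      rcases List.mem_append.mp hx' with h' | h'
      · exact hx x h'
      · rw [(List.mem_replicate.mp h').2]
        simp only [abs_zero, mul_zero]
        omega
    · intro y hy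
      obtain ⟨k, _, rfl⟩ := List.mem_map.mp hy
      refine kr_abs_lt (h := h) ?_ ((l1_sl W k P).trans_lt hl) hB
      intro t ht
      obtain ⟨s, hs, rfl⟩ := List.mem_map.mp ht
      have h1 := hc s (List.mem_of_mem_filter hs)
      refine Nat.mod_lt _ ?_
      rcases Nat.eq_zero_or_pos W with h' | h'
      · subst h'; simp at h1
      · exact h'
    · rw [pev_append_zeros, he, pev_range, kr_sl B W r P hc]
  intro k hk
  have h1 : (xs ++ List.replicate (r - xs.length) 0).getD k 0 = xs.getD k 0 := by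
    rcases lt_or_ge k xs.length with h' | h'
    · rw [List.getD_append _ _ _ _ h']
    · rw [List.getD_append_right _ _ _ _ h']
      rw [List.getD_eq_default _ _ h']
      rw [List.getD_eq_getElem?_getD, List.getElem?_replicate]
      split_ifs <;> rfl
  rw [← h1, key, List.getD_eq_getElem?_getD]
  simp only [List.length_map, List.length_range, hk, getElem?_pos, List.getElem_map, List.getElem_range, Option.getD_some]

/-! ### Last variable -/

theorem ok_snoc : ∀ {rs ds : List ℕ} {r d e : ℕ}, rs.length = ds.length →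
    ok (rs ++ [r]) (ds ++ [d]) e →
    ok rs ds (e % rs.prod) ∧ (e / rs.prod) % r ≤ d ∧ (e / rs.prod) / r = 0 := by
  intro rs
  induction rs with
  | nil =>
    intro ds r d e hl h
    have : ds = [] := List.length_eq_zero_iff.mp (by simpa using hl.symm)
    subst this
    simp only [List.nil_append, ok] at h
    simp only [List.prod_nil, Nat.mod_one, Nat.div_one, ok]
    exact ⟨trivial, h⟩
  | cons r0 rs ih =>
    intro ds r d e hl h
    cases ds with
    | nil => simp at hl
    | cons d0 ds =>
      simp only [List.cons_append, ok] at h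
      obtain ⟨h1, h2, h3⟩ := ih (by simpa using hl) h.2
      rw [List.prod_cons, ok, Nat.mod_mul_right_mod, Nat.mod_mul_right_div_self,
        ← Nat.div_div_eq_div_mul]
      exact ⟨⟨h.1, h1⟩, h2, h3⟩

theorem mono_snoc (X : ℕ → ℝ) : ∀ {rs : List ℕ} {r : ℕ} (i e : ℕ),
    mono (rs ++ [r]) i e X
      = mono rs i (e % rs.prod) X * X (i + rs.length) ^ ((e / rs.prod) % r) := by
  intro rs
  induction rs with
  | nil => intro r i e; simp only [List.nil_append, mono, mul_one, List.length_nil, add_zero, List.prod_nil, Nat.div_one, one_mul]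
  | cons r0 rs ih =>
    intro r i e
    rw [List.cons_append, mono, ih, List.prod_cons, mono, Nat.mod_mul_right_mod,
      Nat.mod_mul_right_div_self, ← Nat.div_div_eq_div_mul, List.length_cons]
    rw [show i + 1 + rs.length = i + (rs.length + 1) by ring]
    ring

theorem ev_sl {rs ds : List ℕ} {r d : ℕ} (hl : rs.length = ds.length) (X : ℕ → ℝ)
    (P : List (ℤ × ℕ)) (hP : ∀ t ∈ P, ok (rs ++ [r]) (ds ++ [d]) t.2) (hr : 0 < r) :
    K.ev (rs ++ [r]) P X = ∑ k ∈ Finset.range r, K.ev rs (sl rs.prod k P) X * X rs.length ^ k := by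
  induction P with
  | nil => simp only [ev, List.map_nil, List.sum_nil, sl, List.filter_nil, zero_mul, Finset.sum_const_zero]
  | cons t P ih =>
    have ih' := ih fun s hs => hP s (List.mem_cons_of_mem _ hs)
    obtain ⟨_, _, h3⟩ := ok_snoc hl (hP t List.mem_cons_self)
    have hk : t.2 / rs.prod < r := by
      rcases Nat.div_eq_zero_iff.mp h3 with h | h
      · omega
      · exact h
    have e1 : K.ev (rs ++ [r]) (t :: P) X = (t.1 : ℝ) * mono (rs ++ [r]) 0 t.2 X
        + K.ev (rs ++ [r]) P X := by simp only [ev, List.map_cons, List.sum_cons]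
    have e2 : ∀ k, K.ev rs (sl rs.prod k (t :: P)) X
        = (if t.2 / rs.prod = k then (t.1 : ℝ) * mono rs 0 (t.2 % rs.prod) X else 0)
        + K.ev rs (sl rs.prod k P) X := by
      intro k
      rw [sl_cons]
      split_ifs
      · simp only [ev, List.map_cons, List.sum_cons]
      · simp
    rw [e1, ih']
    simp only [e2, add_mul, Finset.sum_add_distrib]
    congr 1
    rw [Finset.sum_eq_single (t.2 / rs.prod)]
    · rw [if_pos rfl, mono_snoc, Nat.mod_eq_of_lt hk, Nat.zero_add]
      ring
    · intro k _ hk'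
      rw [if_neg (fun h => hk' h.symm), zero_mul]
    · intro h
      exact absurd (Finset.mem_range.mpr hk) h

/-- Splitting off the last variable. -/
theorem rep_split {B h : ℕ} {rs ds : List ℕ} {r d b : ℕ} {X : ℕ → ℝ} {N : ℤ} {v : ℝ}
    (hR : Rep B (rs ++ [r]) X (ds ++ [d]) b N v) (hl : rs.length = ds.length) (hr : 0 < r)
    (hrs : 0 < rs.prod) (hb : b < h) (hB : 2 * h ≤ B) {xs : List ℤ}
    (hx : ∀ x ∈ xs, 2 * |x| < (B : ℤ) ^ rs.prod) (hxl : xs.length ≤ r)
    (he : pev (fun x => x) ((B : ℤ) ^ rs.prod) xs = N) :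
    ∃ vs : ℕ → ℝ, (∀ k < r, Rep B rs X ds b (xs.getD k 0) (vs k)) ∧
      v = ∑ k ∈ Finset.range r, vs k * X rs.length ^ k := by
  obtain ⟨P, h1, h2, h3, h4⟩ := hR
  refine ⟨fun k => K.ev rs (sl rs.prod k P) X, ?_, ?_⟩
  · intro k hk
    refine ⟨sl rs.prod k P, ?_, (l1_sl _ _ _).trans h2, ?_, rfl⟩
    · refine (peel (h := h) (r := r) ?_ (lt_of_le_of_lt h2 hb) hB hx hxl (he.trans h1.symm) k hk).symm
      intro t ht
      obtain ⟨_, _, g3⟩ := ok_snoc hl (h3 t ht)
      have hk : t.2 / rs.prod < r := by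
        rcases Nat.div_eq_zero_iff.mp g3 with h | h
        · omega
        · exact h
      have := (Nat.div_lt_iff_lt_mul hrs).mp hk
      rwa [mul_comm] at this
    · intro t ht
      obtain ⟨s, hs, rfl⟩ := List.mem_map.mp ht
      exact (ok_snoc hl (h3 s (List.mem_of_mem_filter hs))).1
  · rw [← h4]
    exact ev_sl hl X P h3 hr

end Vale.Agent.P098.N
end

section

/-!
# Bounds for packed polynomials
-/

namespace Vale.Agent.P098.N

open Vale.Agent.P098.K

/-- Distance of digit `j` of `T` to `h`. -/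
def dd (B h T j : ℕ) : ℕ := (T / B ^ j % B - h) + (h - T / B ^ j % B)

theorem rep_abs_wt {B h : ℕ} {rs ds : List ℕ} {b : ℕ} {X : ℕ → ℝ} {N : ℤ} {v : ℝ}
    (hR : Rep B rs X ds b N v) (hf : fits rs ds = true) (L : ℕ)
    (hL : rs.prod ≤ L) (hb : b < h) (hB : 2 * h ≤ B) :
    |v| ≤ ∑ j ∈ Finset.range L, (dd B h (N + offs B h L).toNat j : ℝ) * |mono rs 0 j X| := by
  obtain ⟨p, h1, h2, h3, h4⟩ := hR
  have hlt : ∀ t ∈ p, t.2 < L := fun t ht => lt_of_lt_of_le (ok_lt (h3 t ht) hf) hL
  have hcf : ∀ j, |cf p j| < (h : ℤ) := fun j =>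
    lt_of_le_of_lt (abs_cf_le p j) (by exact_mod_cast lt_of_le_of_lt h2 hb)
  set f : ℕ → ℕ := fun j => (cf p j + h).toNat with hfdef
  have hf0 : ∀ j, ((f j : ℕ) : ℤ) = cf p j + h := fun j => by
    rw [hfdef]
    simp only
    rw [Int.toNat_of_nonneg]
    have := (abs_lt.mp (hcf j)).1
    omega
  have hfB : ∀ j, f j < B := fun j => by
    have h5 := hf0 j
    have h6 := (abs_lt.mp (hcf j)).2
    have : ((f j : ℕ) : ℤ) < B := by
      rw [h5]
      have : (2 * h : ℤ) ≤ B := by exact_mod_cast hB
      omega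
    exact_mod_cast this
  have hN : (N + offs B h L).toNat = ∑ j ∈ Finset.range L, f j * B ^ j := by
    have h2B : 2 ≤ B := by (clear * - hb hB; omega)
    have e1 : N = ∑ j ∈ Finset.range L, cf p j * (B : ℤ) ^ j := by
      rw [← h1, kr]
      have := sum_cf (R := ℤ) (fun j => (B : ℤ) ^ j) L p hlt
      simp only [Int.cast_id] at this
      rw [this]
    have e2 : N + offs B h L
        = ((∑ j ∈ Finset.range L, f j * B ^ j : ℕ) : ℤ) := by
      rw [offs_eq h2B, e1]
      push_cast
      rw [← Finset.sum_add_distrib]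
      refine Finset.sum_congr rfl fun j _ => ?_
      rw [hf0 j]
      ring
    rw [e2, Int.toNat_natCast]
  have e3 : ∀ j ∈ Finset.range L, dd B h (N + offs B h L).toNat j = (cf p j).natAbs := by
    intro j hj
    rw [hN, dd, digit_eq L f hfB j (Finset.mem_range.mp hj)]
    have := hf0 j
    (clear * - this; omega)
  have e4 : v = ∑ j ∈ Finset.range L, (cf p j : ℝ) * mono rs 0 j X := by
    rw [sum_cf (R := ℝ) (fun j => mono rs 0 j X) L p hlt, ← h4, K.ev]
  rw [e4]
  refine (Finset.abs_sum_le_sum_abs _ _).trans (Finset.sum_le_sum fun j hj => ?_)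
  rw [abs_mul, e3 j hj, Nat.cast_natAbs, Int.cast_abs]

/-- Weighted sum of the digit distances: `f` groups of `2 ^ q` digits, group `e` has the weight
`2 ^ (n - 2 e)`. -/
def dgr (B h q : ℕ) : ℕ → ℕ → ℕ → ℕ
  | 0, _, _ => 0
  | f + 1, n, T => 2 ^ n * l1t B h q (T % B ^ 2 ^ q) + dgr B h q f (n - 2) (T / B ^ 2 ^ q)

theorem dgr_eq (B h q : ℕ) : ∀ f n T : ℕ, dgr B h q f n T
    = ∑ e ∈ Finset.range f, ∑ j ∈ Finset.range (2 ^ q), 2 ^ (n - 2 * e) * dd B h T (2 ^ q * e + j) := by
  intro f
  induction f with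
  | zero => intro n T; simp only [dgr, Finset.range_zero, Finset.sum_empty]
  | succ f ih =>
    intro n T
    rw [dgr, ih, Finset.sum_range_succ', add_comm, l1t_eq]
    congr 1
    · refine Finset.sum_congr rfl fun e _ => Finset.sum_congr rfl fun j _ => ?_
      have e1 : n - 2 - 2 * e = n - 2 * (e + 1) := by omega
      have e2 : dd B h (T / B ^ 2 ^ q) (2 ^ q * e + j) = dd B h T (2 ^ q * (e + 1) + j) := by
        unfold dd
        rw [Nat.div_div_eq_div_mul, ← pow_add]
        rw [show 2 ^ q + (2 ^ q * e + j) = 2 ^ q * (e + 1) + j by ring]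
      rw [e1, e2]
    · rw [Finset.mul_sum]
      refine Finset.sum_congr rfl fun j hj => ?_
      have hj' : j < 2 ^ q := Finset.mem_range.mp hj
      have : T % B ^ 2 ^ q / B ^ j % B = T / B ^ j % B := by
        obtain ⟨e, he⟩ : ∃ e, 2 ^ q = j + 1 + e := ⟨2 ^ q - (j + 1), by omega⟩
        have h1 : T % B ^ 2 ^ q / B ^ j = T / B ^ j % B ^ (1 + e) := by
          rw [he, show j + 1 + e = j + (1 + e) by ring, pow_add, Nat.mod_mul_right_div_self]
        rw [h1, pow_add, pow_one, Nat.mod_mul_right_mod]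
      rw [this, dd]
      simp only [mul_zero, tsub_zero, zero_add]

/-- The weighted digit sum of a packed polynomial in `(y, v, l)`. -/
def dg (B h q r : ℕ) (n : ℕ) (N : ℤ) : ℕ :=
  bif iz0 N then 0 else dgr B h q r n (N + offs B h (2 ^ q * r)).toNat

theorem dgr_zero_dist {B h q r n : ℕ} (hB : 2 * h ≤ B) (hh : 0 < h) :
    dgr B h q r n ((0 : ℤ) + offs B h (2 ^ q * r)).toNat = 0 := by
  rw [dgr_eq]
  refine Finset.sum_eq_zero fun e he => Finset.sum_eq_zero fun j hj => ?_
  have hj' := Finset.mem_range.mp hj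
  have he' := Finset.mem_range.mp he
  have h2 : 2 ^ q * e + j < 2 ^ q * r := by
    calc 2 ^ q * e + j < 2 ^ q * e + 2 ^ q := by omega
      _ = 2 ^ q * (e + 1) := by ring
      _ ≤ 2 ^ q * r := Nat.mul_le_mul_left _ (by (clear * - he'; omega))
  have : dd B h ((0 : ℤ) + offs B h (2 ^ q * r)).toNat (2 ^ q * e + j) = 0 := by
    rw [zero_add, Int.toNat_natCast, offs_eq (by (clear * - hB hh; omega)), dd,
      digit_eq (2 ^ q * r) (fun _ => h) (fun _ => by omega) _ h2]
    (clear * -; omega)
  rw [this, mul_zero]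

/-- Bound for a packed polynomial in `(y, v, l)` with `|l| ≤ 1/4`. -/
theorem dg_bound {B h q r0 r1 r2 : ℕ} {ds : List ℕ} {b n : ℕ} {X : ℕ → ℝ} {N : ℤ} {v : ℝ}
    (hR : Rep B [r0, r1, r2] X ds b N v) (hf : fits [r0, r1, r2] ds = true)
    (hq : r0 * r1 = 2 ^ q) (hb : b < h) (hB : 2 * h ≤ B)
    (h0 : |X 0| ≤ 1) (h1 : |X 1| ≤ 1) (h2 : |X 2| ≤ 1 / 4) :
    |v| * 2 ^ n ≤ dg B h q r2 n N := by
  have hprod : ([r0, r1, r2] : List ℕ).prod = 2 ^ q * r2 := by
    simp only [List.prod_cons, List.prod_nil, mul_one]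
    rw [← mul_assoc, hq]
  have key := rep_abs_wt hR hf (2 ^ q * r2) hprod.le hb hB
  have hmono : ∀ e j, j < 2 ^ q → 2 ^ q * e + j < 2 ^ q * r2 →
      |mono [r0, r1, r2] 0 (2 ^ q * e + j) X| * 2 ^ n ≤ ((2 ^ (n - 2 * e) : ℕ) : ℝ) := by
    intro e j hj hej
    have hq0 : 0 < 2 ^ q := by positivity
    have hr01 : 0 < r0 * r1 := by rw [hq]; exact hq0
    have he : e < r2 := by
      by_contra hcon
      have : 2 ^ q * r2 ≤ 2 ^ q * e := Nat.mul_le_mul_left _ (by omega)
      omega
    have e3 : (2 ^ q * e + j) / r0 / r1 = e := by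
      rw [Nat.div_div_eq_div_mul, hq, Nat.mul_add_div hq0, Nat.div_eq_of_lt hj, add_zero]
    simp only [mono]
    rw [e3, Nat.mod_eq_of_lt he, mul_one]
    have a0 : |X 0 ^ ((2 ^ q * e + j) % r0)| ≤ 1 := by
      rw [abs_pow]; exact pow_le_one₀ (abs_nonneg _) h0
    have a1 : |X (0 + 1) ^ ((2 ^ q * e + j) / r0 % r1)| ≤ 1 := by
      rw [abs_pow]; exact pow_le_one₀ (abs_nonneg _) (by simpa only [zero_add] using h1)
    have a2 : |X (0 + 1 + 1) ^ e| ≤ (1 / 4) ^ e := by
      rw [abs_pow]; exact pow_le_pow_left₀ (abs_nonneg _) (by simpa only [zero_add, Nat.reduceAdd, one_div] using h2) _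
    have a3 : (1 / 4 : ℝ) ^ e * 2 ^ n ≤ ((2 ^ (n - 2 * e) : ℕ) : ℝ) := by
      have e4 : (1 / 4 : ℝ) ^ e = 1 / 2 ^ (2 * e) := by
        rw [pow_mul, div_pow, one_pow]
        norm_num
      rw [e4, div_mul_eq_mul_div, one_mul, div_le_iff₀ (by positivity)]
      push_cast
      rw [← pow_add]
      exact pow_le_pow_right₀ (by norm_num) (by (clear * - e3; omega))
    calc |X 0 ^ ((2 ^ q * e + j) % r0) * (X (0 + 1) ^ ((2 ^ q * e + j) / r0 % r1)
          * X (0 + 1 + 1) ^ e)| * 2 ^ n
        ≤ (1 / 4) ^ e * 2 ^ n := by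
          refine mul_le_mul_of_nonneg_right ?_ (by positivity)
          rw [abs_mul, abs_mul]
          calc _ ≤ 1 * (1 * (1 / 4 : ℝ) ^ e) := by
                refine mul_le_mul a0 (mul_le_mul a1 a2 (abs_nonneg _) zero_le_one)
                  (by (clear * -; positivity)) zero_le_one
            _ = _ := by ring
      _ ≤ _ := a3
  have hsum : (∑ j ∈ Finset.range (2 ^ q * r2),
        (dd B h (N + offs B h (2 ^ q * r2)).toNat j : ℝ) * |mono [r0, r1, r2] 0 j X|) * 2 ^ n
      ≤ (dgr B h q r2 n (N + offs B h (2 ^ q * r2)).toNat : ℕ) := by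
    rw [dgr_eq, Finset.sum_mul]
    have e5 : ∑ j ∈ Finset.range (2 ^ q * r2),
        (dd B h (N + offs B h (2 ^ q * r2)).toNat j : ℝ) * |mono [r0, r1, r2] 0 j X| * 2 ^ n
        = ∑ e ∈ Finset.range r2, ∑ j ∈ Finset.range (2 ^ q),
          (dd B h (N + offs B h (2 ^ q * r2)).toNat (2 ^ q * e + j) : ℝ)
            * |mono [r0, r1, r2] 0 (2 ^ q * e + j) X| * 2 ^ n := by
      rw [mul_comm (2 ^ q) r2]
      generalize hF : (fun j : ℕ => (dd B h (N + offs B h (r2 * 2 ^ q)).toNat j : ℝ)
        * |mono [r0, r1, r2] 0 j X| * 2 ^ n) = F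
      have hF' : ∀ j, (dd B h (N + offs B h (r2 * 2 ^ q)).toNat j : ℝ)
        * |mono [r0, r1, r2] 0 j X| * 2 ^ n = F j := fun j => by rw [← hF]
      simp only [hF']
      clear hF hF' key hmono hprod hR hf
      induction r2 with
      | zero => simp only [zero_mul, Finset.range_zero, Finset.sum_empty]
      | succ r ih =>
        rw [Finset.sum_range_succ, Nat.add_mul, one_mul, Finset.sum_range_add, ih]
        congr 1
        refine Finset.sum_congr rfl fun j _ => ?_
        rw [mul_comm r (2 ^ q)]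
    rw [e5]
    push_cast
    refine Finset.sum_le_sum fun e he => Finset.sum_le_sum fun j hj => ?_
    have hj' := Finset.mem_range.mp hj
    have he' := Finset.mem_range.mp he
    have hlt : 2 ^ q * e + j < 2 ^ q * r2 := by
      calc 2 ^ q * e + j < 2 ^ q * e + 2 ^ q := by omega
        _ = 2 ^ q * (e + 1) := by ring
        _ ≤ 2 ^ q * r2 := Nat.mul_le_mul_left _ (by omega)
    have := hmono e j hj' hlt
    push_cast at this
    rw [mul_assoc, mul_comm ((2 : ℝ) ^ (n - 2 * e))]
    exact mul_le_mul_of_nonneg_left this (by (clear * -; positivity))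
  have hall : |v| * 2 ^ n ≤ (dgr B h q r2 n (N + offs B h (2 ^ q * r2)).toNat : ℕ) :=
    (mul_le_mul_of_nonneg_right key (by (clear * -; positivity))).trans hsum
  unfold dg
  cases hz : iz0 N with
  | true =>
    have hN := iz0_eq N hz
    subst hN
    rw [dgr_zero_dist hB (by omega)] at hall
    simpa only [zero_add, Int.toNat_natCast, cond_true, CharP.cast_eq_zero, ge_iff_le] using hall
  | false => simpa only [cond_false, ge_iff_le] using hall

end Vale.Agent.P098.N
end

section

/-!
# Nested lists: bounds and reduction modulo the sphere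
-/

namespace Vale.Agent.P098.N

open Vale.Agent.P098.K

/-! ### Weighted sums over nested lists -/

/-- Weighted sum over a list. -/
def wsg {α : Type} (f : ℕ → α → ℕ) : ℕ → List α → ℕ
  | _, [] => 0
  | n, x :: xs => f n x + wsg f (n - 1) xs

theorem wsg_eq {α : Type} {f : ℕ → α → ℕ} {z : α} (hz : ∀ m, f m z = 0) :
    ∀ (r n : ℕ) (p : List α), p.length ≤ r →
    wsg f n p = ∑ k ∈ Finset.range r, f (n - k) (p.getD k z) := by
  intro r
  induction r with
  | zero =>
    intro n p hp
    have : p = [] := List.length_eq_zero_iff.mp (by omega)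
    subst this
    simp only [wsg, Finset.range_zero, List.getD_eq_getElem?_getD, List.length_nil, not_lt_zero, not_false_eq_true, getElem?_neg, Option.getD_none, Finset.sum_empty]
  | succ r ih =>
    intro n p hp
    rw [Finset.sum_range_succ']
    cases p with
    | nil => simp only [wsg, List.getD_eq_getElem?_getD, List.length_nil, not_lt_zero, not_false_eq_true, getElem?_neg, Option.getD_none, hz, Finset.sum_const_zero, tsub_zero, lt_self_iff_false, add_zero]
    | cons x xs =>
      rw [wsg, ih (n - 1) xs (by simpa only [List.length_cons, add_le_add_iff_right] using hp), add_comm]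
      congr 1
      refine Finset.sum_congr rfl fun k _ => ?_
      rw [List.getD_cons_succ]
      congr 1
      omega

theorem level_bound {α : Type} {f : ℕ → α → ℕ} {z : α} (hz : ∀ m, f m z = 0) {r : ℕ}
    {p : List α} (hp : p.length ≤ r) {x v : ℝ} {vs : ℕ → ℝ} (hx : |x| ≤ 1 / 2)
    (hv : v = ∑ k ∈ Finset.range r, vs k * x ^ k)
    (hb : ∀ k < r, ∀ m, |vs k| * 2 ^ m ≤ f m (p.getD k z)) (n : ℕ) :
    |v| * 2 ^ n ≤ wsg f n p := by
  rw [wsg_eq hz r n p hp, hv]
  push_cast
  refine (mul_le_mul_of_nonneg_right (Finset.abs_sum_le_sum_abs _ _) (by positivity)).trans ?_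
  rw [Finset.sum_mul]
  refine Finset.sum_le_sum fun k hk => ?_
  refine le_trans ?_ (hb k (Finset.mem_range.mp hk) (n - k))
  rw [abs_mul, mul_assoc]
  refine mul_le_mul_of_nonneg_left ?_ (abs_nonneg _)
  have h1 : |x ^ k| ≤ 1 / 2 ^ k := by
    rw [abs_pow, ← one_div_pow]
    exact pow_le_pow_left₀ (abs_nonneg _) hx _
  calc |x ^ k| * 2 ^ n ≤ 1 / 2 ^ k * 2 ^ n := mul_le_mul_of_nonneg_right h1 (by positivity)
    _ ≤ 2 ^ (n - k) := by
        rw [div_mul_eq_mul_div, one_mul, div_le_iff₀ (by positivity), ← pow_add]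
        exact pow_le_pow_right₀ (by norm_num) (by omega)

/-- Range check for the entries of a list. -/
def rng1 (A r : ℕ) (p : P1) : Bool :=
  Nat.ble p.length r && p.all fun N => Nat.blt (2 * N.natAbs) A

/-- Range check for nested lists. -/
def rng2 (A r r' : ℕ) (p : P2) : Bool := Nat.ble p.length r' && p.all fun x => rng1 A r x

theorem rng1_lt {A r : ℕ} {p : P1} (h : rng1 A r p = true) :
    p.length ≤ r ∧ ∀ N ∈ p, 2 * |N| < (A : ℤ) := by
  simp only [rng1, Bool.and_eq_true, List.all_eq_true] at h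
  refine ⟨Nat.le_of_ble_eq_true h.1, fun N hN => ?_⟩
  have h1 := h.2 N hN
  rw [Nat.blt, Nat.ble_eq] at h1
  have h2 : (N.natAbs : ℤ) = |N| := by simp only [Nat.cast_natAbs, Int.cast_abs, Int.cast_eq]
  rw [← h2]
  exact_mod_cast h1

theorem fv1_range {A : ℕ} {r : ℕ} {p : P1} (hA : 1 ≤ A) (h : rng1 A r p = true) :
    2 * |fv1 A p| < (A : ℤ) ^ r := by
  obtain ⟨h1, h2⟩ := rng1_lt h
  have hA' : (1 : ℤ) ≤ A := by exact_mod_cast hA
  exact (pev_lt hA' p h2).trans_le (pow_le_pow_right₀ hA' h1)

theorem fv2_eq_pev (s t : ℤ) (p : P2) : fv2 s t p = pev (fun x => x) t (p.map (fv1 s)) := by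
  unfold fv2
  induction p with
  | nil => rfl
  | cons x xs ih => simp only [pev, ih, List.map_cons]

theorem fv3_eq_pev (s t r : ℤ) (p : P3) :
    fv3 s t r p = pev (fun x => x) r (p.map (fv2 s t)) := by
  unfold fv3
  induction p with
  | nil => rfl
  | cons x xs ih => simp only [pev, ih, List.map_cons]

theorem fv2_range {A : ℕ} {r r' : ℕ} {p : P2} (hA : 1 ≤ A) (h : rng2 A r r' p = true) :
    2 * |fv2 A ((A : ℤ) ^ r) p| < ((A : ℤ) ^ r) ^ r' := by
  simp only [rng2, Bool.and_eq_true, List.all_eq_true] at h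
  have hA' : (1 : ℤ) ≤ (A : ℤ) ^ r := one_le_pow₀ (by exact_mod_cast hA)
  rw [fv2_eq_pev]
  have := pev_lt hA' (p.map (fv1 A)) (by
    intro x hx
    obtain ⟨y, hy, rfl⟩ := List.mem_map.mp hx
    exact fv1_range hA (h.2 y hy))
  rw [List.length_map] at this
  exact this.trans_le (pow_le_pow_right₀ hA' (Nat.le_of_ble_eq_true h.1))

/-! ### The concrete radices -/

/-- Radices of `y, v, l`. -/
abbrev rs3 : List ℕ := [4, 4, 17]
/-- Radices of `y, v, l, a`. -/
abbrev rs4 : List ℕ := [4, 4, 17, 17]
/-- Radices of `y, v, l, a, b`. -/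
abbrev rs5 : List ℕ := [4, 4, 17, 17, 17]
/-- Radices of `y, v, l, a, b, c`. -/
abbrev rs6 : List ℕ := [4, 4, 17, 17, 17, 9]

/-- Weighted sums. -/
def ws1 (B h : ℕ) : ℕ → P1 → ℕ := wsg (dg B h 4 17)
def ws2 (B h : ℕ) : ℕ → P2 → ℕ := wsg (ws1 B h)

/-- Size conditions on the point. -/
structure Pt (X : ℕ → ℝ) : Prop where
  h0 : |X 0| ≤ 1
  h1 : |X 1| ≤ 1
  h2 : |X 2| ≤ 1 / 4
  h3 : |X 3| ≤ 1 / 2
  h4 : |X 4| ≤ 1 / 2
  h5 : |X 5| ≤ 1 / 2

variable {B h b : ℕ} {X : ℕ → ℝ}

theorem fits_le : ∀ {rs ds ds' : List ℕ}, fits rs ds' = true → leL ds ds' = true →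
    ds.length = rs.length → fits rs ds = true := by
  intro rs
  induction rs with
  | nil => intro ds ds' _ _ _; rfl
  | cons r rs ih =>
    intro ds ds' h1 h2 h3
    cases ds with
    | nil => simp only [List.length_nil, List.length_cons, Nat.right_eq_add, Nat.add_eq_zero_iff, List.length_eq_zero_iff, one_ne_zero, and_false] at h3
    | cons d ds =>
      cases ds' with
      | nil => simp [fits] at h1
      | cons d' ds' =>
        simp only [fits, leL, Bool.and_eq_true, decide_eq_true_eq] at h1 h2 ⊢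
        exact ⟨by omega, ih h1.2 h2.2 (by simpa using h3)⟩

theorem bound1 (hX : Pt X) {d0 d1 d2 d3 : ℕ} {p : P1} {v : ℝ}
    (hR : Rep B rs4 X [d0, d1, d2, d3] b (fv1 ((B : ℤ) ^ 272) p) v)
    (hf : fits rs3 [d0, d1, d2] = true) (hb : b < h) (hB : 2 * h ≤ B)
    (hr : rng1 (B ^ 272) 17 p = true) (n : ℕ) : |v| * 2 ^ n ≤ ws1 B h n p := by
  obtain ⟨hl, hx⟩ := rng1_lt hr
  have hx' : ∀ x ∈ p, 2 * |x| < (B : ℤ) ^ rs3.prod := by
    intro x hxp
    have := hx x hxp
    push_cast at this
    exact this
  obtain ⟨vs, h1, h2⟩ := rep_split (rs := rs3) (ds := [d0, d1, d2]) (r := 17) (d := d3) hR rfl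
    (by norm_num) (by norm_num) hb hB hx' hl rfl
  refine level_bound (f := dg B h 4 17) (z := (0 : ℤ)) (fun m => rfl) hl hX.h3 h2 ?_ n
  intro k hk m
  exact dg_bound (h1 k hk) hf (by norm_num) hb hB hX.h0 hX.h1 hX.h2

theorem bound2 (hX : Pt X) {d0 d1 d2 d3 d4 : ℕ} {p : P2} {v : ℝ}
    (hR : Rep B rs5 X [d0, d1, d2, d3, d4] b (fv2 ((B : ℤ) ^ 272) ((B : ℤ) ^ 4624) p) v)
    (hf : fits rs3 [d0, d1, d2] = true) (hb : b < h) (hB : 2 * h ≤ B)
    (hr : rng2 (B ^ 272) 17 17 p = true) (n : ℕ) : |v| * 2 ^ n ≤ ws2 B h n p := by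
  have hr' := hr
  simp only [rng2, Bool.and_eq_true, List.all_eq_true] at hr'
  have hl := Nat.le_of_ble_eq_true hr'.1
  have hB1 : 1 ≤ B ^ 272 := Nat.one_le_pow _ _ (by omega)
  have hx' : ∀ x ∈ p.map (fv1 ((B : ℤ) ^ 272)), 2 * |x| < (B : ℤ) ^ rs4.prod := by
    intro x hxp
    obtain ⟨y, hy, rfl⟩ := List.mem_map.mp hxp
    have := fv1_range hB1 (hr'.2 y hy)
    push_cast at this
    rw [← pow_mul] at this
    exact this
  obtain ⟨vs, h1, h2⟩ := rep_split (rs := rs4) (ds := [d0, d1, d2, d3]) (r := 17) (d := d4) hR rfl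
    (by norm_num) (by norm_num) hb hB hx' (by simpa only [List.length_map] using hl) (fv2_eq_pev _ _ _).symm
  refine level_bound (f := ws1 B h) (z := ([] : P1)) (fun m => rfl) hl hX.h4 h2 ?_ n
  intro k hk m
  have h3 : (p.map (fv1 ((B : ℤ) ^ 272))).getD k 0 = fv1 ((B : ℤ) ^ 272) (p.getD k []) := by
    rw [List.getD_eq_getElem?_getD, List.getD_eq_getElem?_getD, List.getElem?_map]
    cases p[k]? <;> rfl
  have h4 := h1 k hk
  rw [h3] at h4
  refine bound1 hX h4 hf hb hB ?_ m
  rcases lt_or_ge k p.length with h' | h'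
  · rw [List.getD_eq_getElem?_getD, List.getElem?_eq_getElem h']
    exact hr'.2 _ (List.getElem_mem h')
  · rw [List.getD_eq_default _ _ h']
    rfl

/-! ### Reduction -/

/-- `4 c² = 1 - 20 l² - 4 a² - 4 b²`. -/
def e0 (B : ℕ) : P2 := [[1 - 20 * (B : ℤ) ^ 32, 0, -4], [], [-4]]

theorem rep_e0 : Rep B rs5 X [0, 0, 2, 2, 2] 29
    (fv2 ((B : ℤ) ^ 272) ((B : ℤ) ^ 4624) (e0 B))
    (1 - 20 * X 2 ^ 2 - 4 * X 3 ^ 2 - 4 * X 4 ^ 2) := by
  refine ⟨[(1, 0), (-20, 32), (-4, 544), (-4, 9248)], ?_, ?_, ?_, ?_⟩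
  · simp only [kr, List.map_cons, List.map_nil, List.sum_cons, List.sum_nil, fv2, fv1, e0, pev]
    ring
  · simp only [l1, Int.reduceNeg, List.map_cons, isUnit_one, Int.natAbs_of_isUnit, Int.natAbs_neg, Int.reduceAbs, List.map_nil, List.sum_cons, List.sum_nil, add_zero, Nat.reduceAdd, Std.le_refl]
  · intro t ht
    simp only [List.mem_cons, List.not_mem_nil, or_false] at ht
    rcases ht with rfl | rfl | rfl | rfl <;> simp [ok]
  · simp only [ev, mono, zero_add, Nat.reduceAdd, mul_one, Int.reduceNeg, List.map_cons, Int.cast_one, Nat.zero_mod, pow_zero, Nat.zero_div, Int.cast_neg, Int.cast_ofNat, Nat.reduceMod, Nat.reduceDiv, one_mul, neg_mul, List.map_nil, List.sum_cons, List.sum_nil, add_zero]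
    ring

/-- The even part in `c`, times `256`. -/
def redE (B : ℕ) (p : P3) : P2 :=
  add2 (scl2 256 (p.getD 0 [])) (mul2 (e0 B) (add2 (scl2 64 (p.getD 2 [])) (mul2 (e0 B)
    (add2 (scl2 16 (p.getD 4 [])) (mul2 (e0 B) (add2 (scl2 4 (p.getD 6 []))
      (mul2 (e0 B) (p.getD 8 []))))))))

/-- The odd part in `c`, times `64`. -/
def redO (B : ℕ) (p : P3) : P2 :=
  add2 (scl2 64 (p.getD 1 [])) (mul2 (e0 B) (add2 (scl2 16 (p.getD 3 [])) (mul2 (e0 B)
    (add2 (scl2 4 (p.getD 5 [])) (mul2 (e0 B) (p.getD 7 []))))))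

/-- The full check of a residual. -/
def rchk (B : ℕ) (p : P3) : Bool :=
  Nat.ble p.length 9 && p.all (fun x => rng2 (B ^ 272) 17 17 x)
    && rng2 (B ^ 272) 17 17 (redE B p) && rng2 (B ^ 272) 17 17 (redO B p)

/-- The bound of a residual. -/
def rbd (B h : ℕ) (p : P3) : ℕ := ws2 B h 16 (redE B p) + 2 * ws2 B h 16 (redO B p)

theorem rep_step {ds : List ℕ} {b1 b2 : ℕ} {M N : P2} {v w : ℝ} {c : ℕ}
    (h1 : Rep B rs5 X ds b1 (fv2 ((B : ℤ) ^ 272) ((B : ℤ) ^ 4624) M) v)
    (h2 : Rep B rs5 X ds b2 (fv2 ((B : ℤ) ^ 272) ((B : ℤ) ^ 4624) N) w)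
    (hf : fits rs5 (List.zipWith (· + ·) [0, 0, 2, 2, 2] ds) = true)
    (hle : leL ds (List.zipWith (· + ·) [0, 0, 2, 2, 2] ds) = true) :
    Rep B rs5 X (List.zipWith (· + ·) [0, 0, 2, 2, 2] ds) (c * b1 + 29 * b2)
      (fv2 ((B : ℤ) ^ 272) ((B : ℤ) ^ 4624) (add2 (scl2 c M) (mul2 (e0 B) N)))
      (c * v + (1 - 20 * X 2 ^ 2 - 4 * X 3 ^ 2 - 4 * X 4 ^ 2) * w) := by
  rw [fv2_add, fv2_scl, fv2_mul]
  refine Rep.add ?_ (rep_e0.mul h2 hf)
  have := (h1.smul (c : ℤ)).weaken hle (le_refl _)
  simpa only [Int.natAbs_natCast, Int.cast_natCast] using this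

theorem reduce_bound (hX : Pt X) (hs : 20 * X 2 ^ 2 + 4 * (X 3 ^ 2 + X 4 ^ 2 + X 5 ^ 2) = 1)
    {p : P3} {v : ℝ}
    (hR : Rep B rs6 X [3, 3, 8, 8, 8, 8] b
      (fv3 ((B : ℤ) ^ 272) ((B : ℤ) ^ 4624) ((B : ℤ) ^ 78608) p) v)
    (hb : b * 893101 < h) (hB : 2 * h ≤ B) (hr : rchk B p = true) :
    |v| * 2 ^ 24 ≤ rbd B h p := by
  simp only [rchk, Bool.and_eq_true, List.all_eq_true] at hr
  obtain ⟨⟨⟨hl, hall⟩, hE⟩, hO⟩ := hr
  have hl := Nat.le_of_ble_eq_true hl
  have hB1 : 1 ≤ B ^ 272 := Nat.one_le_pow _ _ (by omega)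
  have hb' : b < h := by (clear * - hb; omega)
  have hx' : ∀ x ∈ p.map (fv2 ((B : ℤ) ^ 272) ((B : ℤ) ^ 4624)), 2 * |x| < (B : ℤ) ^ rs5.prod := by
    intro x hxp
    obtain ⟨y, hy, rfl⟩ := List.mem_map.mp hxp
    have := fv2_range hB1 (hall y hy)
    push_cast at this
    rw [← pow_mul, ← pow_mul] at this
    exact this
  obtain ⟨vs, h1, h2⟩ := rep_split (rs := rs5) (ds := [3, 3, 8, 8, 8]) (r := 9) (d := 8) hR rfl
    (by norm_num) (by norm_num) hb' hB hx' (by simpa only [List.length_map] using hl) (fv3_eq_pev _ _ _ _).symm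
  have h3 : ∀ k, (p.map (fv2 ((B : ℤ) ^ 272) ((B : ℤ) ^ 4624))).getD k 0
      = fv2 ((B : ℤ) ^ 272) ((B : ℤ) ^ 4624) (p.getD k []) := by
    intro k
    rw [List.getD_eq_getElem?_getD, List.getD_eq_getElem?_getD, List.getElem?_map]
    cases p[k]? <;> rfl
  have h4 : ∀ k < 9, Rep B rs5 X [3, 3, 8, 8, 8] b
      (fv2 ((B : ℤ) ^ 272) ((B : ℤ) ^ 4624) (p.getD k [])) (vs k) := by
    intro k hk
    have := h1 k hk
    rwa [h3] at this
  have g8 := h4 8 (by norm_num)
  have g6 := rep_step (c := 4) (h4 6 (by norm_num)) g8 (by decide) (by decide)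
  have g4 := rep_step (c := 16) ((h4 4 (by norm_num)).weaken (ds' := [3, 3, 10, 10, 10])
    (by decide) le_rfl) g6 (by decide) (by decide)
  have g2 := rep_step (c := 64) ((h4 2 (by norm_num)).weaken (ds' := [3, 3, 12, 12, 12])
    (by decide) le_rfl) g4 (by decide) (by (clear * -; decide))
  have g0 := rep_step (c := 256) ((h4 0 (by norm_num)).weaken (ds' := [3, 3, 14, 14, 14])
    (by decide) le_rfl) g2 (by decide) (by decide)
  have g7 := h4 7 (by norm_num)
  have g5 := rep_step (c := 4) (h4 5 (by norm_num)) g7 (by decide) (by decide)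
  have g3 := rep_step (c := 16) ((h4 3 (by norm_num)).weaken (ds' := [3, 3, 10, 10, 10])
    (by decide) le_rfl) g5 (by decide) (by decide)
  have g1 := rep_step (c := 64) ((h4 1 (by norm_num)).weaken (ds' := [3, 3, 12, 12, 12])
    (by decide) le_rfl) g3 (by decide) (by decide)
  have kE := bound2 hX (p := redE B p) g0 (by decide) (by (clear * - hb; omega)) hB hE 16
  have kO := bound2 hX (p := redO B p) g1 (by decide) (by omega) hB hO 16
  set e : ℝ := 1 - 20 * X 2 ^ 2 - 4 * X 3 ^ 2 - 4 * X 4 ^ 2 with he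
  have hc : 4 * X 5 ^ 2 = e := by rw [he]; linarith only [hs]
  set E : ℝ := 256 * vs 0 + e * (64 * vs 2 + e * (16 * vs 4 + e * (4 * vs 6 + e * vs 8))) with hEd
  set O : ℝ := 64 * vs 1 + e * (16 * vs 3 + e * (4 * vs 5 + e * vs 7)) with hOd
  have key : 256 * v = E + 4 * X 5 * O := by
    rw [h2, hEd, hOd, ← hc]
    simp only [Finset.sum_range_succ, Finset.sum_range_zero]
    simp only [List.length_cons, List.length_nil]
    ring
  push_cast at kE kO
  have kE' : |E| * 2 ^ 16 ≤ ws2 B h 16 (redE B p) := by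
    rw [hEd]; exact kE
  have kO' : |O| * 2 ^ 16 ≤ ws2 B h 16 (redO B p) := by
    rw [hOd]; exact kO
  have h5 := hX.h5
  have habs : |v| * 256 ≤ |E| + 2 * |O| := by
    have : |v| * 256 = |E + 4 * X 5 * O| := by
      rw [← key, abs_mul]; norm_num; ring
    rw [this]
    refine (abs_add_le _ _).trans (add_le_add le_rfl ?_)
    rw [abs_mul, abs_mul]
    have : |(4 : ℝ)| = 4 := by norm_num
    rw [this]
    nlinarith only [h5, abs_nonneg O]
  rw [rbd]
  push_cast
  calc |v| * 2 ^ 24 = (|v| * 256) * 2 ^ 16 := by ring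
    _ ≤ (|E| + 2 * |O|) * 2 ^ 16 := mul_le_mul_of_nonneg_right habs (by positivity)
    _ = |E| * 2 ^ 16 + 2 * (|O| * 2 ^ 16) := by ring
    _ ≤ _ := by linarith only [kE, kO]

end Vale.Agent.P098.N
end

section

/-!
# Blocks of squares
-/

namespace Vale.Agent.P098.N

open Vale.Agent.P098.K

variable {B h : ℕ} {rs : List ℕ} {X : ℕ → ℝ}

/-! ### Relations between lists -/

theorem forall₂_padd {α β : Type} {R1 R2 R3 : α → β → Prop} {f : α → α → α} {g : β → β → β}
    (hf : ∀ x v y w, R1 x v → R2 y w → R3 (f x y) (g v w)) (h1 : ∀ x v, R1 x v → R3 x v)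
    (h2 : ∀ y w, R2 y w → R3 y w) : ∀ {xs : List α} {vs : List β} {ys : List α} {ws : List β},
    List.Forall₂ R1 xs vs → List.Forall₂ R2 ys ws →
    List.Forall₂ R3 (padd f xs ys) (padd g vs ws) := by
  intro xs vs ys ws h h'
  induction h generalizing ys ws with
  | nil => simpa [padd] using h'.imp h2
  | @cons x v xs vs hx hxs ih =>
    cases h' with
    | nil => simpa [padd] using List.Forall₂.cons (h1 _ _ hx) (hxs.imp h1)
    | @cons y w ys ws hy hys =>
      simp only [padd]
      exact List.Forall₂.cons (hf _ _ _ _ hx hy) (ih hys)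

/-- Entrywise representation of a list. -/
abbrev RL (B : ℕ) (rs : List ℕ) (X : ℕ → ℝ) (ds : List ℕ) (b : ℕ) : List ℤ → List ℝ → Prop :=
  List.Forall₂ (Rep B rs X ds b)

/-- Entrywise representation of a matrix. -/
abbrev RM (B : ℕ) (rs : List ℕ) (X : ℕ → ℝ) (ds : List ℕ) (b : ℕ) :
    List (List ℤ) → List (List ℝ) → Prop := List.Forall₂ (RL B rs X ds b)

/-- Real sum of lists and matrices. -/
noncomputable def addR1 : List ℝ → List ℝ → List ℝ := padd (· + ·)
noncomputable def addR2 : List (List ℝ) → List (List ℝ) → List (List ℝ) := padd addR1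

theorem leL_refl : ∀ ds : List ℕ, leL ds ds = true := by
  intro ds
  induction ds with
  | nil => rfl
  | cons d ds ih => simp [leL, ih]

theorem RL.weaken {ds : List ℕ} {b b' : ℕ} {xs : List ℤ} {vs : List ℝ} (h : RL B rs X ds b xs vs)
    (hb : b ≤ b') : RL B rs X ds b' xs vs :=
  h.imp fun _ _ hr => hr.weaken (leL_refl ds) hb

theorem RM.weaken {ds ds' : List ℕ} {b b' : ℕ} {M : List (List ℤ)} {MR : List (List ℝ)}
    (h : RM B rs X ds b M MR) (hd : leL ds ds' = true) (hb : b ≤ b') : RM B rs X ds' b' M MR :=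
  h.imp fun _ _ hr => hr.imp fun _ _ hr' => hr'.weaken hd hb

theorem RL.add {ds : List ℕ} {b b' : ℕ} {xs ys : List ℤ} {vs ws : List ℝ}
    (h : RL B rs X ds b xs vs) (h' : RL B rs X ds b' ys ws) :
    RL B rs X ds (b + b') (add1 xs ys) (addR1 vs ws) :=
  forall₂_padd (fun _ _ _ _ hx hy => hx.add hy)
    (fun _ _ hx => hx.weaken (leL_refl ds) (Nat.le_add_right _ _))
    (fun _ _ hy => hy.weaken (leL_refl ds) (Nat.le_add_left _ _)) h h'

theorem RM.add {ds : List ℕ} {b b' : ℕ} {M N : List (List ℤ)} {MR NR : List (List ℝ)}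
    (h : RM B rs X ds b M MR) (h' : RM B rs X ds b' N NR) :
    RM B rs X ds (b + b') (add2 M N) (addR2 MR NR) :=
  forall₂_padd (f := add1) (g := addR1) (fun _ _ _ _ hx hy => RL.add hx hy)
    (fun _ _ hx => RL.weaken hx (Nat.le_add_right _ _))
    (fun _ _ hy => RL.weaken hy (Nat.le_add_left _ _)) h h'

/-- Scaling of lists and matrices. -/
noncomputable def sclR1 (c : ℝ) (v : List ℝ) : List ℝ := v.map fun x => c * x
noncomputable def sclR2 (c : ℝ) (M : List (List ℝ)) : List (List ℝ) := M.map (sclR1 c)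

theorem RL.scl {ds ds' : List ℕ} {b b' : ℕ} {c : ℤ} {cr : ℝ} {xs : List ℤ} {vs : List ℝ}
    (hc : Rep B rs X ds b c cr) (h : RL B rs X ds' b' xs vs)
    (hf : fits rs (List.zipWith (· + ·) ds ds') = true) :
    RL B rs X (List.zipWith (· + ·) ds ds') (b * b') (scl1 c xs) (sclR1 cr vs) := by
  induction h with
  | nil => exact List.Forall₂.nil
  | cons hx _ ih => exact List.Forall₂.cons (hc.mul hx hf) ih

theorem RM.scl {ds ds' : List ℕ} {b b' : ℕ} {c : ℤ} {cr : ℝ} {M : List (List ℤ)}
    {MR : List (List ℝ)}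
    (hc : Rep B rs X ds b c cr) (h : RM B rs X ds' b' M MR)
    (hf : fits rs (List.zipWith (· + ·) ds ds') = true) :
    RM B rs X (List.zipWith (· + ·) ds ds') (b * b') (scl2 c M) (sclR2 cr MR) := by
  induction h with
  | nil => exact List.Forall₂.nil
  | cons hx _ ih => exact List.Forall₂.cons (RL.scl hc hx hf) ih

/-- Outer product. -/
def outer (v : List ℤ) (w : List ℤ) : List (List ℤ) := v.map fun x => scl1 x w
noncomputable def outerR (v w : List ℝ) : List (List ℝ) := v.map fun x => sclR1 x w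

theorem RM.outer {ds ds' : List ℕ} {b b' : ℕ} {xs ys : List ℤ} {vs ws : List ℝ}
    (h : RL B rs X ds b xs vs) (h' : RL B rs X ds' b' ys ws)
    (hf : fits rs (List.zipWith (· + ·) ds ds') = true) :
    RM B rs X (List.zipWith (· + ·) ds ds') (b * b') (outer xs ys) (outerR vs ws) := by
  induction h with
  | nil => exact List.Forall₂.nil
  | cons hx _ ih => exact List.Forall₂.cons (RL.scl hx h' hf) ih

/-! ### Bilinear forms -/

/-- Dot product of lists. -/
noncomputable def dotR : List ℝ → List ℝ → ℝ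
  | x :: xs, y :: ys => x * y + dotR xs ys
  | _, _ => 0

/-- Bilinear form of a matrix. -/
noncomputable def bilR : List (List ℝ) → List ℝ → List ℝ → ℝ
  | r :: M, x :: xs, ys => x * dotR r ys + bilR M xs ys
  | _, _, _ => 0

theorem dotR_nil_left (ys : List ℝ) : dotR [] ys = 0 := by simp only [dotR]
theorem dotR_nil_right (xs : List ℝ) : dotR xs [] = 0 := by cases xs <;> simp only [dotR]

theorem dotR_add (xs ys zs : List ℝ) : dotR (addR1 xs ys) zs = dotR xs zs + dotR ys zs := by
  induction xs generalizing ys zs with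
  | nil => simp only [addR1, padd, dotR, zero_add]
  | cons x xs ih =>
    cases ys with
    | nil => simp only [addR1, padd, dotR, add_zero]
    | cons y ys =>
      cases zs with
      | nil => simp [dotR_nil_right]
      | cons z zs =>
        have := ih ys zs
        simp only [addR1] at this ⊢
        simp only [padd, dotR, this]
        ring

theorem dotR_scl (c : ℝ) (xs zs : List ℝ) : dotR (sclR1 c xs) zs = c * dotR xs zs := by
  induction xs generalizing zs with
  | nil => simp [sclR1, dotR]
  | cons x xs ih =>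
    cases zs with
    | nil => simp [dotR_nil_right]
    | cons z zs =>
      have := ih zs
      simp only [sclR1, List.map_cons, dotR] at this ⊢
      rw [this]
      ring

theorem bilR_nil_left (xs ys : List ℝ) : bilR [] xs ys = 0 := by simp only [bilR]
theorem bilR_nil_mid (M : List (List ℝ)) (ys : List ℝ) : bilR M [] ys = 0 := by
  cases M <;> simp [bilR]

theorem bilR_add (M N : List (List ℝ)) (xs ys : List ℝ) :
    bilR (addR2 M N) xs ys = bilR M xs ys + bilR N xs ys := by
  induction M generalizing N xs with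
  | nil => simp only [addR2, padd, bilR, zero_add]
  | cons r M ih =>
    cases N with
    | nil => simp only [addR2, padd, bilR, add_zero]
    | cons s N =>
      cases xs with
      | nil => simp [bilR_nil_mid]
      | cons x xs =>
        have := ih N xs
        simp only [addR2] at this ⊢
        simp only [padd, bilR, this, dotR_add]
        ring

theorem bilR_scl (c : ℝ) (M : List (List ℝ)) (xs ys : List ℝ) :
    bilR (sclR2 c M) xs ys = c * bilR M xs ys := by
  induction M generalizing xs with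
  | nil => simp [sclR2, bilR]
  | cons r M ih =>
    cases xs with
    | nil => simp [bilR_nil_mid]
    | cons x xs =>
      have := ih xs
      simp only [sclR2, List.map_cons, bilR, dotR_scl] at this ⊢
      rw [this]
      ring

theorem bilR_outer (v w xs ys : List ℝ) :
    bilR (outerR v w) xs ys = dotR v xs * dotR w ys := by
  induction v generalizing xs with
  | nil => simp only [outerR, List.map_nil, bilR, dotR, zero_mul]
  | cons a v ih =>
    cases xs with
    | nil => simp [bilR_nil_mid, dotR_nil_right]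
    | cons x xs =>
      have := ih xs
      simp only [outerR, List.map_cons, bilR, dotR_scl, dotR] at this ⊢
      rw [this]
      ring

/-! ### Sparse polynomials in `a, b, c` -/

/-- Terms: coefficient and exponents of `a, b, c`. -/
abbrev S3 := List (ℤ × ℕ × ℕ × ℕ)

/-- Kronecker value. -/
def fvS (s t r : ℤ) : S3 → ℤ
  | [] => 0
  | q :: l => q.1 * s ^ q.2.1 * t ^ q.2.2.1 * r ^ q.2.2.2 + fvS s t r l

/-- Real value. -/
noncomputable def evS (X : ℕ → ℝ) : S3 → ℝ
  | [] => 0
  | q :: l => q.1 * X 3 ^ q.2.1 * X 4 ^ q.2.2.1 * X 5 ^ q.2.2.2 + evS X l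

/-- Coefficient sum. -/
def lS : S3 → ℕ
  | [] => 0
  | q :: l => q.1.natAbs + lS l

/-- Product with a term. -/
def mtS (q : ℤ × ℕ × ℕ × ℕ) (l : S3) : S3 :=
  l.map fun p => (q.1 * p.1, q.2.1 + p.2.1, q.2.2.1 + p.2.2.1, q.2.2.2 + p.2.2.2)

/-- Product. -/
def mulS : S3 → S3 → S3
  | [], _ => []
  | q :: l, m => mtS q m ++ mulS l m

theorem fvS_append (s t r : ℤ) (l m : S3) : fvS s t r (l ++ m) = fvS s t r l + fvS s t r m := by
  induction l with
  | nil => simp only [List.nil_append, fvS, zero_add]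
  | cons q l ih => simp only [List.cons_append, fvS, ih]; ring

theorem fvS_mt (s t r : ℤ) (q : ℤ × ℕ × ℕ × ℕ) (l : S3) :
    fvS s t r (mtS q l) = q.1 * s ^ q.2.1 * t ^ q.2.2.1 * r ^ q.2.2.2 * fvS s t r l := by
  induction l with
  | nil => simp only [mtS, List.map_nil, fvS, mul_zero]
  | cons p l ih =>
    simp only [mtS, List.map_cons, fvS] at ih ⊢
    rw [ih]
    ring

theorem fvS_mul (s t r : ℤ) (l m : S3) : fvS s t r (mulS l m) = fvS s t r l * fvS s t r m := by
  induction l with
  | nil => simp only [mulS, fvS, zero_mul]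
  | cons q l ih => simp only [mulS, fvS_append, fvS_mt, ih, fvS]; ring

/-- Exponents at most `4`. -/
def okS : S3 → Bool
  | [] => true
  | q :: l => Nat.ble q.2.1 4 && Nat.ble q.2.2.1 4 && Nat.ble q.2.2.2 4 && okS l

theorem rep_S : ∀ {l : S3}, okS l = true →
    Rep B rs6 X [0, 0, 0, 4, 4, 4] (lS l)
      (fvS ((B : ℤ) ^ 272) ((B : ℤ) ^ 4624) ((B : ℤ) ^ 78608) l) (evS X l) := by
  intro l
  induction l with
  | nil => intro _; simpa only [lS, fvS, evS] using Rep.zero
  | cons q l ih =>
    intro h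
    simp only [okS, Bool.and_eq_true] at h
    obtain ⟨⟨⟨h1, h2⟩, h3⟩, h4⟩ := h
    have h1 := Nat.le_of_ble_eq_true h1
    have h2 := Nat.le_of_ble_eq_true h2
    have h3 := Nat.le_of_ble_eq_true h3
    refine Rep.add ?_ (ih h4)
    refine ⟨[(q.1, 272 * q.2.1 + 4624 * q.2.2.1 + 78608 * q.2.2.2)], ?_, ?_, ?_, ?_⟩
    · simp only [kr, List.map_cons, List.map_nil, List.sum_cons, List.sum_nil]
      rw [pow_add, pow_add, pow_mul, pow_mul, pow_mul]
      ring
    · simp only [l1, List.map_cons, List.map_nil, List.sum_cons, List.sum_nil, add_zero, Std.le_refl]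
    · intro t ht
      simp only [List.mem_singleton] at ht
      subst ht
      simp only [ok]
      (clear * - h1 h2 h3; omega)
    · simp only [K.ev, List.map_cons, List.map_nil, List.sum_cons, List.sum_nil, mono]
      have e1 : (272 * q.2.1 + 4624 * q.2.2.1 + 78608 * q.2.2.2) % 4 = 0 := by omega
      have e2 : (272 * q.2.1 + 4624 * q.2.2.1 + 78608 * q.2.2.2) / 4 % 4 = 0 := by omega
      have e3 : (272 * q.2.1 + 4624 * q.2.2.1 + 78608 * q.2.2.2) / 4 / 4 % 17 = 0 := by omega
      have e4 : (272 * q.2.1 + 4624 * q.2.2.1 + 78608 * q.2.2.2) / 4 / 4 / 17 % 17 = q.2.1 := by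
        omega
      have e5 : (272 * q.2.1 + 4624 * q.2.2.1 + 78608 * q.2.2.2) / 4 / 4 / 17 / 17 % 17
          = q.2.2.1 := by omega
      have e6 : (272 * q.2.1 + 4624 * q.2.2.1 + 78608 * q.2.2.2) / 4 / 4 / 17 / 17 / 17 % 9
          = q.2.2.2 := by omega
      rw [e1, e2, e3, e4, e5, e6]
      simp only [pow_zero, zero_add, Nat.reduceAdd, mul_one, one_mul, add_zero]
      ring

end Vale.Agent.P098.N
end

section

/-!
# Data of the certificate formC for m = 5: group BE
-/

namespace Vale.Agent.P098.S5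

/-- Components of the group BE: types yE2 | E1T E2T. -/
def cBE : List (List (List (List (ℤ × ℕ × ℕ × ℕ)))) :=
  [[[[(16, 0, 2, 0), (-16, 0, 0, 2)]],
      [[], []],
      [[(4, 0, 1, 0)], [(8, 1, 0, 1)]],
      [[(-4, 0, 0, 1)], [(-8, 1, 1, 0)]],
      [[], []]],
    [[[(16, 0, 0, 2), (-16, 2, 0, 0)]],
      [[(-4, 1, 0, 0)], [(-8, 0, 1, 1)]],
      [[], []],
      [[(4, 0, 0, 1)], [(8, 1, 1, 0)]],
      [[], []]],
    [[[(16, 2, 0, 0), (-16, 0, 2, 0)]],
      [[(4, 1, 0, 0)], [(8, 0, 1, 1)]],
      [[(-4, 0, 1, 0)], [(-8, 1, 0, 1)]],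
      [[], []],
      [[], []]]]

/-- Types for the index 0. -/
def xBE_11 : List (ℕ × List (ℕ × ℕ)) :=
  [(2, [(1, 0), (1, 4), (1, 1), (1, 5)])]

/-- Types for the other indices. -/
def zBE_11 : List (ℕ × List (ℕ × ℕ)) :=
  [(6, [(1, 0), (1, 4), (1, 1), (1, 5), (4, 16), (4, 20), (4, 17), (4, 21)]),
    (14, [(1, 0), (1, 4), (1, 1), (1, 5)])]

/-- Rows. -/
def rBE_11 : List ℕ :=
  [2307196659721157540657922961498155064447592589753800678953322421023898247655218136534997104222027883726211651594418336126601063058816869988228510571241337133477471620111208026911817884195608,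
    2298731601156023049445515017382717395648835224977123233527909206182091347870740021472302150214493025582145705153294228066773314178785769780069938404113713562300276580769519113115322949758285,
    2332443229485926654041221195931185959982090105713348204332500346038626062516617742877310845629557743634714473991752127739078575923604863355585596881501380433159510397058747227917619027531127,
    2059308846024722689694532660644835831003695772108526194381284279774570120007125342342966865975911855718291507886438544945042774099741369021951725630278309655780685823578370153442713734511329]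

/-- Rows. -/
def sBE_11 : List ℕ :=
  [2398802497454501412789048526207757967052362451060403955090364376515793382637149095438112839338073257583325026983469952012606879113367851018071765017821182546251906631965773016798090075857070,
    2303758483017954167863653551323265634785450151968245845853504054866709569870654249803653618948180693861752234357478193676820789570520741199140661317074427936294270067653843370650203201270137,
    2032271270133464306701266215120922394497319927803665565507017221014083230901094128602076630005234165036565861846702803472107759377246771049558641431036318093630923181503147784596844594758342,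
    2379520418674885109489199535903685910093082481544915218898694774235418885974737314193685410747631549531437848888939256437793401175623397351942401114334671179400369025818408877959366182071323,
    2253732575328093135554249369587531231589025685842468697617724934809219167796664778733680306049554312473027328385426974651348036404575793165753696518308232524592906972647094782020093924275090,
    2086643113578172060910394462927936084146010864744025438084764424556636000628129275387552906826359387738976011368850323794709582820661205316317210268079749299220719305604177909050518886336012,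
    2284294307820013365521498060987578512119843254435202744321013478397405167617774243256947912500545400590794050216039370914741373936255529852373582424040771649139615604219570276556230048643886,
    2050723950348830605307510321390345269843724942784488790363773323238510780387739374044083598818174084955993449675501218668022146570965098927840481928876838224046204087692260483360473531822075,
    2711819476218711984126963772424351572643288205738593025845389451113300757816896465453555035806400147276209815943745848695443402936695980838743415182720004440954659019171442700950355393998817,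
    1600950265024106629582990811864342544160850046780655536487530819911669210425299404916129350149892918860166319193841789591052630226472430215760725992141675466213978730339035699188521925965896,
    1774040179163719427805274544561656747072156400760703424557002959195841749160716819193811523642038191657015074207887421567684345455527111952378956237384321384261482527859721144918297481127777,
    2636706811155720626419154707233747204758615763002404530973312594765795084385815466053115604961098413018345457890511445518997342488747454446777704316113350599654657728926386745718056744670359]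

end Vale.Agent.P098.S5
end
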