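import Mathlib

set_option linter.all false

section

open MeasureTheory Set Metric
open scoped ContDiff RealInnerProductSpace

namespace Vale.Agent.P098

/-- Euclidean `d`-space. -/
abbrev E (d : ℕ) := EuclideanSpace ℝ (Fin d)

/-- `g` is the weak gradient of `v` on the open set `B`. -/
def IsWeakGrad {d : ℕ} (B : Set (E d)) (v : E d → ℝ) (g : E d → E d) : Prop :=
  ∀ φ : E d → ℝ, ContDiff ℝ ∞ φ → HasCompactSupport φ → tsupport φ ⊆ B →
    ∀ e : E d, ∫ x in B, v x * fderiv ℝ φ x e = - ∫ x in B, ⟪g x, e⟫ * φ x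

/-- `v ∈ H¹(B)`, with weak gradient `g`. -/
def MemH1 {d : ℕ} (B : Set (E d)) (v : E d → ℝ) (g : E d → E d) : Prop :=
  MemLp v 2 (volume.restrict B) ∧ MemLp g 2 (volume.restrict B) ∧ IsWeakGrad B v g

/-- `w ∈ H¹₀(B)`, with weak gradient `h`: `w` is a limit in `H¹(B)` of test functions
supported in `B`. -/
def MemH10 {d : ℕ} (B : Set (E d)) (w : E d → ℝ) (h : E d → E d) : Prop :=
  MemH1 B w h ∧ ∀ ε : ℝ, 0 < ε → ∃ φ : E d → ℝ,
    ContDiff ℝ ∞ φ ∧ HasCompactSupport φ ∧ tsupport φ ⊆ B ∧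
      (∫ x in B, (w x - φ x) ^ 2) + (∫ x in B, ‖h x - gradient φ x‖ ^ 2) < ε

/-- The one-phase Bernoulli energy on `B` of `v` with weak gradient `g`. -/
noncomputable def energy {d : ℕ} (B : Set (E d)) (v : E d → ℝ) (g : E d → E d) : ℝ :=
  ∫ x in B, (‖g x‖ ^ 2 + {y | 0 < v y}.indicator (fun _ => (1 : ℝ)) x)

/-- `u` is a global minimizer of the one-phase Bernoulli energy: `u ≥ 0`, `u ∈ H¹` of every ball,
and on every ball `u` minimizes the energy among nonnegative `H¹` functions with the same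
boundary values. -/
def IsGlobalMinimizer {d : ℕ} (u : E d → ℝ) : Prop :=
  (∀ x, 0 ≤ u x) ∧ ∃ g : E d → E d, ∀ (x₀ : E d) (r : ℝ), 0 < r →
    MemH1 (ball x₀ r) u g ∧
    ∀ (v : E d → ℝ) (gv : E d → E d), (∀ x, 0 ≤ v x) → MemH1 (ball x₀ r) v gv →
      MemH10 (ball x₀ r) (fun x => v x - u x) (fun x => gv x - g x) →
      energy (ball x₀ r) u g ≤ energy (ball x₀ r) v gv

/-- `u` is positively one-homogeneous. -/
def IsOneHomogeneous {d : ℕ} (u : E d → ℝ) : Prop :=
  ∀ r : ℝ, 0 < r → ∀ᵐ x : E d, u (r • x) = r * u x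

/-- Away from the origin, `u` is smooth up to its free boundary: on `{u > 0}` it agrees with a
function `U` that is smooth on a neighbourhood of the closure of `{u > 0}` without the origin, and
the free boundary condition `|∇U| = 1` holds on the free boundary without the origin. -/
def IsRegularAwayFromZero {d : ℕ} (u : E d → ℝ) : Prop :=
  Continuous u ∧ ∃ (V : Set (E d)) (U : E d → ℝ), IsOpen V ∧
    closure {x | 0 < u x} \ {0} ⊆ V ∧ ContDiffOn ℝ ∞ U V ∧
    (∀ x, 0 < u x → U x = u x) ∧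
    ∀ x ∈ frontier {x | 0 < u x}, x ≠ 0 → ‖gradient U x‖ = 1

end Vale.Agent.P098
end

section

open MeasureTheory Set Metric Filter
open scoped ContDiff RealInnerProductSpace Topology

namespace Vale.Agent.P098

variable {d : ℕ}

/-- Minimality against compactly supported Lipschitz perturbations, with pointwise gradients. -/
def LipMin (u : E d → ℝ) : Prop :=
  ∀ v : E d → ℝ, (∃ K : NNReal, LipschitzWith K v) → (∀ x, 0 ≤ v x) →
    HasCompactSupport (fun x => v x - u x) →
    0 ≤ ∫ x, ((‖fderiv ℝ v x‖ ^ 2 - ‖fderiv ℝ u x‖ ^ 2) +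
      ({y | 0 < v y}.indicator (fun _ => (1 : ℝ)) x - {y | 0 < u y}.indicator (fun _ => (1 : ℝ)) x))

/-- The `i`-th coordinate vector. -/
noncomputable abbrev ee (i : Fin d) : E d := EuclideanSpace.single i (1 : ℝ)

/-- Divergence of a vector field. -/
noncomputable def divg (F : E d → E d) (x : E d) : ℝ :=
  ∑ i, fderiv ℝ F x (ee i) i

/-- `-D²U(∇U, ∇U)`: on the free boundary this is the mean curvature. -/
noncomputable def curv (U : E d → ℝ) (x : E d) : ℝ :=
  - ⟪fderiv ℝ (gradient U) x (gradient U x), gradient U x⟫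

/-- First partial derivatives. -/
noncomputable def P1 (U : E d → ℝ) (i : Fin d) (x : E d) : ℝ := fderiv ℝ U x (ee i)

/-- Second partial derivatives `∂_j ∂_i U`. -/
noncomputable def P2 (U : E d → ℝ) (i j : Fin d) (x : E d) : ℝ := fderiv ℝ (P1 U i) x (ee j)

/-- Third partial derivatives `∂_k ∂_j ∂_i U`. -/
noncomputable def P3 (U : E d → ℝ) (i j k : Fin d) (x : E d) : ℝ := fderiv ℝ (P2 U i j) x (ee k)

/-- The Laplacian as a sum of second partial derivatives. -/
noncomputable def lap (U : E d → ℝ) (x : E d) : ℝ := ∑ i, P2 U i i x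

/-- `U` is a smooth extension of `u` across the free boundary inside the open set `N`,
satisfying the free boundary condition. -/
structure LocalExt (u : E d → ℝ) (N : Set (E d)) (U : E d → ℝ) : Prop where
  isOpen : IsOpen N
  smooth : ContDiffOn ℝ ∞ U N
  eq : ∀ x ∈ N, 0 < u x → U x = u x
  grad : ∀ x ∈ N, x ∈ frontier {y | 0 < u y} → ‖gradient U x‖ = 1

/-- `S = |D²U|² + δ`. -/
noncomputable def SS (δ : ℝ) (U : E d → ℝ) (x : E d) : ℝ := (∑ i, ∑ j, P2 U i j x ^ 2) + δ

/-- `v = |∇U|²`. -/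
noncomputable def vv (U : E d → ℝ) (x : E d) : ℝ := ∑ i, P1 U i x ^ 2

/-- `|D³U|²`. -/
noncomputable def TT (U : E d → ℝ) (x : E d) : ℝ := ∑ i, ∑ j, ∑ k, P3 U i j k x ^ 2

/-- `tr (D²U)³`. -/
noncomputable def tr3 (U : E d → ℝ) (x : E d) : ℝ :=
  ∑ i, ∑ j, ∑ k, P2 U i j x * P2 U j k x * P2 U k i x

/-- `g = ½ ∇|D²U|²`, component `k`. -/
noncomputable def gg (U : E d → ℝ) (k : Fin d) (x : E d) : ℝ :=
  ∑ i, ∑ j, P2 U i j x * P3 U i j k x

/-- `D²U ∇U`, component `i`. -/
noncomputable def Q1 (U : E d → ℝ) (i : Fin d) (x : E d) : ℝ := ∑ j, P2 U i j x * P1 U j x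

/-- `(D²U)² ∇U`, component `i`. -/
noncomputable def Q2 (U : E d → ℝ) (i : Fin d) (x : E d) : ℝ := ∑ j, P2 U i j x * Q1 U j x

/-- A function of two real variables with its first and second partial derivatives on `D`. -/
structure Jet2 (D : Set (ℝ × ℝ)) (Φ Φ1 Φ2 Φ11 Φ12 Φ22 : ℝ × ℝ → ℝ) : Prop where
  isOpen : IsOpen D
  smooth : ContDiffOn ℝ ∞ Φ D
  d0 : ∀ q ∈ D, HasFDerivAt Φ
    (Φ1 q • ContinuousLinearMap.fst ℝ ℝ ℝ + Φ2 q • ContinuousLinearMap.snd ℝ ℝ ℝ) q
  d1 : ∀ q ∈ D, HasFDerivAt Φ1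
    (Φ11 q • ContinuousLinearMap.fst ℝ ℝ ℝ + Φ12 q • ContinuousLinearMap.snd ℝ ℝ ℝ) q
  d2 : ∀ q ∈ D, HasFDerivAt Φ2
    (Φ12 q • ContinuousLinearMap.fst ℝ ℝ ℝ + Φ22 q • ContinuousLinearMap.snd ℝ ℝ ℝ) q

/-- A function of three real variables with its first partial derivatives on `D`. -/
structure Jet3 (D : Set (ℝ × ℝ × ℝ)) (ψ ψ1 ψ2 ψ3 : ℝ × ℝ × ℝ → ℝ) : Prop where
  isOpen : IsOpen D
  smooth : ContDiffOn ℝ ∞ ψ D
  d0 : ∀ q ∈ D, ∀ a b c : ℝ, fderiv ℝ ψ q (a, b, c) = ψ1 q * a + ψ2 q * b + ψ3 q * c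

end Vale.Agent.P098
end

section

/-! Definitions for the regularity theory of minimizers (removal of the assumption
`IsRegularAwayFromZero`). -/

open MeasureTheory Set Metric Filter
open scoped ContDiff RealInnerProductSpace Topology NNReal

namespace Vale.Agent.P098

variable {d : ℕ}

/-- The positivity set. -/
abbrev pos (u : E d → ℝ) : Set (E d) := {x | 0 < u x}

/-- Nonnegative `L`-Lipschitz minimizers (against compactly supported Lipschitz perturbations). -/
structure MinL (L : ℝ≥0) (u : E d → ℝ) : Prop where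
  lip : LipschitzWith L u
  nonneg : ∀ x, 0 ≤ u x
  min : LipMin u

/-- Classically harmonic functions on a set. -/
def Harm (s : Set (E d)) (f : E d → ℝ) : Prop := ContDiffOn ℝ ∞ f s ∧ ∀ x ∈ s, lap f x = 0

/-- Positive one-homogeneity (everywhere). -/
def Hom1 (u : E d → ℝ) : Prop := ∀ r : ℝ, 0 < r → ∀ x, u (r • x) = r * u x

/-- A radial kernel supported in the unit ball. -/
noncomputable def mk (y : E d) : ℝ := Real.smoothTransition (2 - 2 * ‖y‖ ^ 2)

/-- The radial average of `f` at `x` at scale `r`. -/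
noncomputable def av (f : E d → ℝ) (r : ℝ) (x : E d) : ℝ :=
  (∫ y : E d, mk y * f (x + r • y)) / ∫ y : E d, mk y

/-- Nondegeneracy with constant `c`. -/
def NonDeg (c : ℝ) (u : E d → ℝ) : Prop :=
  ∀ x, 0 < u x → ∀ r : ℝ, 0 < r → ∃ y ∈ closedBall x r, c * r ≤ u y

/-- `u` is trapped between `(P + a)₊` and `(P + b)₊` in the ball `B(x₀, r)`. -/
def Trap (u P : E d → ℝ) (a b : ℝ) (x₀ : E d) (r : ℝ) : Prop :=
  ∀ x ∈ ball x₀ r, max (P x + a) 0 ≤ u x ∧ u x ≤ max (P x + b) 0

/-- The rescaling `x ↦ u (x₀ + r x) / r`. -/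
noncomputable def resc (u : E d → ℝ) (x₀ : E d) (r : ℝ) (x : E d) : ℝ := u (x₀ + r • x) / r

/-- Weiss' energy with a smooth weight, centred at the origin. -/
noncomputable def weiss (u : E d → ℝ) (r : ℝ) : ℝ :=
  (∫ y : E d, (‖fderiv ℝ u (r • y)‖ ^ 2 + (pos u).indicator (fun _ => (1 : ℝ)) (r • y))
      * max (1 - ‖y‖ ^ 2) 0 ^ 3)
    - ∫ y : E d, (u (r • y) / r) ^ 2 * (6 * max (1 - ‖y‖ ^ 2) 0 ^ 2)

/-! ### Polynomials -/

/-- Evaluation of a polynomial at a point of `E d`. -/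
noncomputable def ev (p : MvPolynomial (Fin d) ℝ) (x : E d) : ℝ :=
  MvPolynomial.eval (fun i => x i) p

/-- The coefficient norm. -/
noncomputable def cn (p : MvPolynomial (Fin d) ℝ) : ℝ := ∑ m ∈ p.support, |p.coeff m|

/-- The Laplacian of a polynomial. -/
noncomputable def lapP (p : MvPolynomial (Fin d) ℝ) : MvPolynomial (Fin d) ℝ :=
  ∑ i, MvPolynomial.pderiv i (MvPolynomial.pderiv i p)

/-- `|∇P|² - 1 - P Q`. -/
noncomputable def remP (P Q : MvPolynomial (Fin d) ℝ) : MvPolynomial (Fin d) ℝ :=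
  ∑ i, MvPolynomial.pderiv i P ^ 2 - 1 - P * Q

/-- All coefficients of degree `< K` vanish. -/
def LowZero (K : ℕ) (R : MvPolynomial (Fin d) ℝ) : Prop :=
  ∀ m : Fin d →₀ ℕ, m.degree < K → R.coeff m = 0

/-- Even in the variable `X 0`. -/
def EvenP {n : ℕ} (p : MvPolynomial (Fin (n + 1)) ℝ) : Prop :=
  ∀ m, p.coeff m ≠ 0 → Even (m 0)

/-- Approximate solutions: `P` harmonic of degree `≤ K`, `P(0) = 0`, and `|∇P|² - 1` vanishes to
order `K` on `{P = 0}` (with the polynomial `Q` as witness). -/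
structure AdmS {n : ℕ} (K : ℕ) (P Q : MvPolynomial (Fin (n + 1)) ℝ) : Prop where
  degP : P.totalDegree ≤ K
  degQ : Q.totalDegree ≤ K
  harm : lapP P = 0
  zero : P.coeff 0 = 0
  low : LowZero K (remP P Q)

/-- The reflection `x₀ ↦ -x₀`. -/
noncomputable def flip0 {n : ℕ} (x : E (n + 1)) : E (n + 1) := x - (2 * x 0) • ee 0

/-- Flatness of all homogeneous minimizers in dimension `d`. -/
def FL (d : ℕ) : Prop := ∀ (L : ℝ≥0) (u : E d → ℝ), MinL L u → Hom1 u →
  (∀ x, u x = 0) ∨ ∃ e : E d, ‖e‖ = 1 ∧ ∀ x, u x = max ⟪x, e⟫ 0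

end Vale.Agent.P098
end

section

/-! Module B, preliminaries: gradients of Lipschitz functions. -/

open MeasureTheory Set Metric Filter
open scoped ContDiff RealInnerProductSpace Topology NNReal

namespace Vale.Agent.P098

variable {d : ℕ}

theorem mb_inner_gradient (f : E d → ℝ) (x y : E d) : ⟪gradient f x, y⟫ = fderiv ℝ f x y := by
  unfold gradient
  rw [InnerProductSpace.toDual_symm_apply]

theorem mb_norm_gradient (f : E d → ℝ) (x : E d) : ‖gradient f x‖ = ‖fderiv ℝ f x‖ := by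
  unfold gradient
  rw [LinearIsometryEquiv.norm_map]

theorem mb_measurable_gradient (f : E d → ℝ) : Measurable (gradient f) := by
  have h : Measurable (fderiv ℝ f) := measurable_fderiv ℝ f
  exact ((InnerProductSpace.toDual ℝ (E d)).symm.continuous.measurable).comp h

theorem mb_gradient_le {f : E d → ℝ} {K : ℝ≥0} (hf : LipschitzWith K f) (x : E d) :
    ‖gradient f x‖ ≤ K := by
  rw [mb_norm_gradient]
  exact norm_fderiv_le_of_lipschitz ℝ hf

theorem mb_ae_diff {f : E d → ℝ} {K : ℝ≥0} (hf : LipschitzWith K f) :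
    ∀ᵐ x : E d, DifferentiableAt ℝ f x := hf.ae_differentiableAt

theorem mb_gradient_add {f g : E d → ℝ} {x : E d} (hf : DifferentiableAt ℝ f x)
    (hg : DifferentiableAt ℝ g x) :
    gradient (fun y => f y + g y) x = gradient f x + gradient g x := by
  unfold gradient
  rw [fderiv_fun_add hf hg, map_add]

theorem mb_gradient_sub {f g : E d → ℝ} {x : E d} (hf : DifferentiableAt ℝ f x)
    (hg : DifferentiableAt ℝ g x) :
    gradient (fun y => f y - g y) x = gradient f x - gradient g x := by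
  unfold gradient
  rw [fderiv_fun_sub hf hg, map_sub]

theorem mb_gradient_const_mul {f : E d → ℝ} {x : E d} (t : ℝ) (hf : DifferentiableAt ℝ f x) :
    gradient (fun y => t * f y) x = t • gradient f x := by
  unfold gradient
  rw [fderiv_const_mul hf, map_smulₛₗ]
  simp

/-- The gradient vanishes at a zero of a nonnegative function. -/
theorem mb_gradient_zero_of_min {f : E d → ℝ} {x : E d} (h0 : ∀ y, 0 ≤ f y) (hx : f x = 0) :
    gradient f x = 0 := by
  have h1 : IsLocalMin f x := Eventually.of_forall fun y => by rw [hx]; exact h0 y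
  have h2 : fderiv ℝ f x = 0 := h1.fderiv_eq_zero
  unfold gradient
  rw [h2, map_zero]

theorem mb_gradient_congr {f g : E d → ℝ} {x : E d} (h : f =ᶠ[𝓝 x] g) :
    gradient f x = gradient g x := by
  unfold gradient
  rw [h.fderiv_eq]

/-- The gradient vanishes off the topological support. -/
theorem mb_gradient_zero_of_notMem {f : E d → ℝ} {x : E d} (hx : x ∉ tsupport f) :
    gradient f x = 0 := by
  have h1 : f =ᶠ[𝓝 x] fun _ => 0 := by
    have := notMem_tsupport_iff_eventuallyEq.1 hx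
    exact this
  rw [mb_gradient_congr h1]
  exact gradient_fun_const x 0

theorem mb_lip_max_zero {f : E d → ℝ} {K : ℝ≥0} (hf : LipschitzWith K f) :
    LipschitzWith K fun x => max (f x) 0 := hf.max_const 0

theorem mb_lip_add {f g : E d → ℝ} {K K' : ℝ≥0} (hf : LipschitzWith K f)
    (hg : LipschitzWith K' g) : LipschitzWith (K + K') fun x => f x + g x := hf.add hg

theorem mb_lip_const_mul {f : E d → ℝ} {K : ℝ≥0} (t : ℝ) (hf : LipschitzWith K f) :
    LipschitzWith (‖t‖₊ * K) fun x => t * f x := by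
  refine LipschitzWith.of_dist_le_mul fun x y => ?_
  have := hf.dist_le_mul x y
  rw [Real.dist_eq] at this ⊢
  rw [← mul_sub, abs_mul]
  push_cast
  rw [mul_assoc]
  exact mul_le_mul_of_nonneg_left this (abs_nonneg t)

/-- A bounded measurable function vanishing off a compact set is integrable. -/
theorem mb_integrable {F : E d → ℝ} (hF : AEStronglyMeasurable F volume) {C : ℝ}
    (hC : ∀ x, |F x| ≤ C) {S : Set (E d)} (hS : IsCompact S) (h0 : ∀ x, x ∉ S → F x = 0) :
    Integrable F := by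
  have h1 : IntegrableOn F S := by
    refine Measure.integrableOn_of_bounded (M := C) hS.measure_ne_top hF ?_
    exact Eventually.of_forall fun x => by simpa using hC x
  refine (integrableOn_iff_integrable_of_support_subset ?_).1 h1
  intro x hx
  by_contra hxS
  exact hx (h0 x hxS)

end Vale.Agent.P098
end

section

/-! Module B: first variation, exact inequality, harmonicity. -/

open MeasureTheory Set Metric Filter
open scoped ContDiff RealInnerProductSpace Topology NNReal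

namespace Vale.Agent.P098

variable {d : ℕ}

theorem mb_quad {A B : ℝ} (hB : 0 ≤ B) (h : ∀ t : ℝ, 0 ≤ 2 * t * A + t ^ 2 * B) : A = 0 := by
  by_contra hA
  have h1 := h (-A / (B + 1))
  have hB1 : 0 < B + 1 := by linarith
  have h2 : 2 * (-A / (B + 1)) * A + (-A / (B + 1)) ^ 2 * B =
      -(A ^ 2 * (B + 2) / (B + 1) ^ 2) := by
    field_simp
    ring
  rw [h2] at h1
  have h3 : 0 < A ^ 2 * (B + 2) / (B + 1) ^ 2 := by
    have : 0 < A ^ 2 := by positivity
    positivity
  linarith only [h3, h1]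

/-- The energy density difference in `LipMin`. -/
noncomputable def mbJ (u v : E d → ℝ) (x : E d) : ℝ :=
  (‖fderiv ℝ v x‖ ^ 2 - ‖fderiv ℝ u x‖ ^ 2) +
      ({y | 0 < v y}.indicator (fun _ => (1 : ℝ)) x - {y | 0 < u y}.indicator (fun _ => (1 : ℝ)) x)

theorem mbJ_eq (u v : E d → ℝ) (x : E d) : mbJ u v x =
    (‖gradient v x‖ ^ 2 - ‖gradient u x‖ ^ 2) +
      ({y | 0 < v y}.indicator (fun _ => (1 : ℝ)) x -
        {y | 0 < u y}.indicator (fun _ => (1 : ℝ)) x) := by
  rw [mb_norm_gradient, mb_norm_gradient]; rfl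

theorem mbJ_integrable {u v : E d → ℝ} {K K' : ℝ≥0} (hu : LipschitzWith K u)
    (hv : LipschitzWith K' v) (hc : HasCompactSupport fun x => v x - u x) :
    Integrable (mbJ u v) := by
  have hm : Measurable (mbJ u v) := by
    unfold mbJ
    have m1 : Measurable fun x => ‖fderiv ℝ v x‖ := (measurable_fderiv ℝ v).norm
    have m2 : Measurable fun x => ‖fderiv ℝ u x‖ := (measurable_fderiv ℝ u).norm
    have m3 : MeasurableSet {y | 0 < v y} := (isOpen_lt continuous_const hv.continuous).measurableSet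
    have m4 : MeasurableSet {y | 0 < u y} := (isOpen_lt continuous_const hu.continuous).measurableSet
    exact ((m1.pow_const 2).sub (m2.pow_const 2)).add
      ((measurable_const.indicator m3).sub (measurable_const.indicator m4))
  refine mb_integrable hm.aestronglyMeasurable (C := (K' : ℝ) ^ 2 + (K : ℝ) ^ 2 + 2) ?_
    hc.isCompact ?_
  · intro x
    have a1 : ‖fderiv ℝ v x‖ ≤ K' := norm_fderiv_le_of_lipschitz ℝ hv
    have a2 : ‖fderiv ℝ u x‖ ≤ K := norm_fderiv_le_of_lipschitz ℝ hu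
    have b1 : ‖fderiv ℝ v x‖ ^ 2 ≤ (K' : ℝ) ^ 2 := by gcongr
    have b2 : ‖fderiv ℝ u x‖ ^ 2 ≤ (K : ℝ) ^ 2 := by gcongr
    have b3 : 0 ≤ ‖fderiv ℝ v x‖ ^ 2 := by positivity
    have b4 : 0 ≤ ‖fderiv ℝ u x‖ ^ 2 := by positivity
    have c1 : 0 ≤ {y | 0 < v y}.indicator (fun _ => (1 : ℝ)) x :=
      indicator_nonneg (fun _ _ => zero_le_one) x
    have c2 : {y | 0 < v y}.indicator (fun _ => (1 : ℝ)) x ≤ 1 :=
      indicator_le_self' (fun _ _ => zero_le_one) x
    have c3 : 0 ≤ {y | 0 < u y}.indicator (fun _ => (1 : ℝ)) x :=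
      indicator_nonneg (fun _ _ => zero_le_one) x
    have c4 : {y | 0 < u y}.indicator (fun _ => (1 : ℝ)) x ≤ 1 :=
      indicator_le_self' (fun _ _ => zero_le_one) x
    unfold mbJ
    rw [abs_le]
    constructor <;> linarith
  · intro x hx
    have h1 : (fun x => v x - u x) =ᶠ[𝓝 x] 0 := notMem_tsupport_iff_eventuallyEq.1 hx
    have h2 : v =ᶠ[𝓝 x] u := by
      filter_upwards [h1] with y hy
      simp only [Pi.zero_apply] at hy
      linarith
    have h3 : v x = u x := h2.eq_of_nhds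
    unfold mbJ
    rw [h2.fderiv_eq]
    have h4 : {y | 0 < v y}.indicator (fun _ => (1 : ℝ)) x =
        {y | 0 < u y}.indicator (fun _ => (1 : ℝ)) x := by
      by_cases h : 0 < u x
      · rw [indicator_of_mem (show x ∈ {y | 0 < u y} from h),
          indicator_of_mem (show x ∈ {y | 0 < v y} by rw [mem_ofPred_eq, h3]; exact h)]
      · rw [indicator_of_notMem (show x ∉ {y | 0 < u y} from h),
          indicator_of_notMem (show x ∉ {y | 0 < v y} by rw [mem_ofPred_eq, h3]; exact h)]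
    rw [h4]
    ring

theorem mb_gradient_max {w : E d → ℝ} (hw : Continuous w) (x : E d) :
    (0 < w x → gradient (fun y => max (w y) 0) x = gradient w x) ∧
      (w x ≤ 0 → gradient (fun y => max (w y) 0) x = 0) := by
  constructor
  · intro h
    refine mb_gradient_congr ?_
    filter_upwards [(isOpen_lt continuous_const hw).mem_nhds h] with y hy
    exact max_eq_left (le_of_lt hy)
  · intro h
    exact mb_gradient_zero_of_min (fun y => le_max_right _ _) (max_eq_right h)

theorem firstVar {u : E d → ℝ} {K : NNReal} (hK : LipschitzWith K u) (h0 : ∀ x, 0 ≤ u x)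
    (hmin : LipMin u) {ζ : E d → ℝ} {K' : NNReal} (hζ : LipschitzWith K' ζ)
    (hζc : HasCompactSupport ζ) (hζ0 : ∀ x, u x = 0 → ζ x = 0) :
    ∫ x, ⟪gradient u x, gradient ζ x⟫ = 0 := by
  have hmu := mb_measurable_gradient u
  have hmζ := mb_measurable_gradient ζ
  have i1 : Integrable fun x => ⟪gradient u x, gradient ζ x⟫ := by
    refine mb_integrable (hmu.inner hmζ).aestronglyMeasurable (C := K * K') ?_
      hζc.isCompact ?_
    · intro x
      refine (abs_real_inner_le_norm _ _).trans ?_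
      exact mul_le_mul (mb_gradient_le hK x) (mb_gradient_le hζ x) (norm_nonneg _) K.coe_nonneg
    · intro x hx
      rw [mb_gradient_zero_of_notMem hx, inner_zero_right]
  have i2 : Integrable fun x => ‖gradient ζ x‖ ^ 2 := by
    refine mb_integrable (hmζ.norm.pow_const 2).aestronglyMeasurable (C := (K' : ℝ) ^ 2) ?_
      hζc.isCompact ?_
    · intro x
      rw [abs_of_nonneg (by positivity)]
      have := mb_gradient_le hζ x
      gcongr
    · intro x hx
      rw [mb_gradient_zero_of_notMem hx, norm_zero]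
      simp
  refine mb_quad (B := ∫ x, ‖gradient ζ x‖ ^ 2) (integral_nonneg fun x => by positivity) ?_
  intro t
  set w : E d → ℝ := fun x => u x + t * ζ x with hw
  have hwL : LipschitzWith (K + ‖t‖₊ * K') w := mb_lip_add hK (mb_lip_const_mul t hζ)
  set v : E d → ℝ := fun x => max (w x) 0 with hv
  have hvL : LipschitzWith (K + ‖t‖₊ * K') v := mb_lip_max_zero hwL
  have hcs : HasCompactSupport fun x => v x - u x := by
    refine HasCompactSupport.intro hζc.isCompact fun x hx => ?_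
    have h1 : ζ x = 0 := image_eq_zero_of_notMem_tsupport hx
    simp only [hv, hw, h1, mul_zero, add_zero]
    rw [max_eq_left (h0 x), sub_self]
  have hJ := hmin v ⟨_, hvL⟩ (fun x => le_max_right _ _) hcs
  change 0 ≤ ∫ x, mbJ u v x at hJ
  have hle : ∫ x, mbJ u v x ≤
      ∫ x, (2 * t * ⟪gradient u x, gradient ζ x⟫ + t ^ 2 * ‖gradient ζ x‖ ^ 2) := by
    refine integral_mono_ae (mbJ_integrable hK hvL hcs)
      ((i1.const_mul (2 * t)).add (i2.const_mul (t ^ 2))) ?_
    filter_upwards [mb_ae_diff hK, mb_ae_diff hζ] with x hx1 hx2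
    rw [mbJ_eq]
    have hgw : gradient w x = gradient u x + t • gradient ζ x := by
      rw [hw, mb_gradient_add hx1 (hx2.const_mul t), mb_gradient_const_mul t hx2]
    have hgv : ‖gradient v x‖ ^ 2 ≤ ‖gradient w x‖ ^ 2 := by
      rcases lt_or_ge 0 (w x) with h | h
      · rw [hv, (mb_gradient_max hwL.continuous x).1 h]
      · rw [hv, (mb_gradient_max hwL.continuous x).2 h, norm_zero, zero_pow two_ne_zero]
        positivity
    have hind : {y | 0 < v y}.indicator (fun _ => (1 : ℝ)) x ≤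
        {y | 0 < u y}.indicator (fun _ => (1 : ℝ)) x := by
      refine indicator_le_indicator_of_subset ?_ (fun _ => zero_le_one) x
      intro y hy
      rw [mem_ofPred_eq] at hy ⊢
      by_contra hn
      have huy : u y = 0 := le_antisymm (not_lt.1 hn) (h0 y)
      have : v y = 0 := by
        simp only [hv, hw, huy, hζ0 y huy]
        simp
      linarith only [this, hy]
    have hexp : ‖gradient w x‖ ^ 2 = ‖gradient u x‖ ^ 2 +
        2 * t * ⟪gradient u x, gradient ζ x⟫ + t ^ 2 * ‖gradient ζ x‖ ^ 2 := by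
      rw [hgw, norm_add_sq_real, inner_smul_right, norm_smul, mul_pow, Real.norm_eq_abs, sq_abs]
      ring
    linarith
  rw [integral_add (i1.const_mul (2 * t)) (i2.const_mul (t ^ 2)), integral_const_mul,
    integral_const_mul] at hle
  linarith

theorem exactIneq {u : E d → ℝ} {K : NNReal} (hK : LipschitzWith K u) (h0 : ∀ x, 0 ≤ u x)
    (hmin : LipMin u) {φ : E d → ℝ} {K' : NNReal} (hφ : LipschitzWith K' φ)
    (hφc : HasCompactSupport φ) (hφ0 : ∀ x, 0 ≤ φ x) {ε : ℝ} (hε : 0 < ε) :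
    ∫ x in {y | 0 < u y ∧ u y ≤ ε * φ y}, (1 - ‖fderiv ℝ u x‖ ^ 2) ≤
      ε ^ 2 * ∫ x in {y | ε * φ y < u y}, ‖fderiv ℝ φ x‖ ^ 2 := by
  have hmu := mb_measurable_gradient u
  have hmφ := mb_measurable_gradient φ
  set S : Set (E d) := {y | 0 < u y ∧ u y ≤ ε * φ y} with hS
  set S' : Set (E d) := {y | ε * φ y < u y} with hS'
  have hSm : MeasurableSet S :=
    ((isOpen_lt continuous_const hK.continuous).measurableSet).inter
      (isClosed_le hK.continuous (continuous_const.mul hφ.continuous)).measurableSet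
  have hS'o : IsOpen S' := isOpen_lt (continuous_const.mul hφ.continuous) hK.continuous
  have hS'm : MeasurableSet S' := hS'o.measurableSet
  have hST : S ⊆ tsupport φ := by
    rintro y ⟨h1, h2⟩
    refine subset_tsupport φ ?_
    rw [Function.mem_support]
    intro h
    rw [h] at h2
    linarith
  set w : E d → ℝ := fun x => u x + (-ε) * φ x with hw
  have hwL : LipschitzWith (K + ‖(-ε)‖₊ * K') w := mb_lip_add hK (mb_lip_const_mul (-ε) hφ)
  set v : E d → ℝ := fun x => max (w x) 0 with hv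
  have hvL : LipschitzWith (K + ‖(-ε)‖₊ * K') v := mb_lip_max_zero hwL
  have hwS' : ∀ x, 0 < w x ↔ x ∈ S' := by
    intro x
    simp only [hw, hS', mem_ofPred_eq]
    constructor <;> intro h <;> linarith
  have hzero : ∀ x, φ x = 0 → v x = u x := by
    intro x h
    simp only [hv, hw, h, mul_zero, add_zero]
    exact max_eq_left (h0 x)
  have hcs : HasCompactSupport fun x => v x - u x := by
    refine HasCompactSupport.intro hφc.isCompact fun x hx => ?_
    rw [hzero x (image_eq_zero_of_notMem_tsupport hx), sub_self]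
  have hJ := hmin v ⟨_, hvL⟩ (fun x => le_max_right _ _) hcs
  change 0 ≤ ∫ x, mbJ u v x at hJ
  have iJ := mbJ_integrable hK hvL hcs
  -- the first variation with `ζ = u - v`
  set ζ : E d → ℝ := fun x => u x - v x with hζ
  have hζL : LipschitzWith (K + (K + ‖(-ε)‖₊ * K')) ζ := hK.sub hvL
  have hζc : HasCompactSupport ζ := by
    refine HasCompactSupport.intro hφc.isCompact fun x hx => ?_
    simp only [hζ]
    rw [hzero x (image_eq_zero_of_notMem_tsupport hx), sub_self]
  have hζ0 : ∀ x, u x = 0 → ζ x = 0 := by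
    intro x hx
    have h1 : w x ≤ 0 := by
      simp only [hw, hx]
      have := mul_nonneg hε.le (hφ0 x)
      linarith
    simp only [hζ, hv]
    rw [max_eq_right h1, hx, sub_zero]
  have hfv := firstVar hK h0 hmin hζL hζc hζ0
  have iζ : Integrable fun x => ⟪gradient u x, gradient ζ x⟫ := by
    refine mb_integrable (hmu.inner (mb_measurable_gradient ζ)).aestronglyMeasurable
      (C := K * (K + (K + ‖(-ε)‖₊ * K') : ℝ≥0)) ?_ hζc.isCompact ?_
    · intro x
      refine (abs_real_inner_le_norm _ _).trans ?_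
      exact mul_le_mul (mb_gradient_le hK x) (mb_gradient_le hζL x) (norm_nonneg _) K.coe_nonneg
    · intro x hx
      rw [mb_gradient_zero_of_notMem hx, inner_zero_right]
  -- the pointwise identity
  have hpt : ∀ᵐ x : E d, mbJ u v x + 2 * ⟪gradient u x, gradient ζ x⟫ =
      S'.indicator (fun x => ε ^ 2 * ‖fderiv ℝ φ x‖ ^ 2) x -
        S.indicator (fun x => 1 - ‖fderiv ℝ u x‖ ^ 2) x := by
    filter_upwards [mb_ae_diff hK, mb_ae_diff hφ, mb_ae_diff hvL] with x hx1 hx2 hx3
    rw [mbJ_eq]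
    have hgζ : gradient ζ x = gradient u x - gradient v x := mb_gradient_sub hx1 hx3
    rw [hgζ]
    by_cases hxS' : x ∈ S'
    · have hwx := (hwS' x).2 hxS'
      have hgv : gradient v x = gradient u x + (-ε) • gradient φ x := by
        rw [hv, (mb_gradient_max hwL.continuous x).1 hwx, hw,
          mb_gradient_add hx1 (hx2.const_mul (-ε)), mb_gradient_const_mul (-ε) hx2]
      have hxS : x ∉ S := fun h => absurd h.2 (not_le.2 hxS')
      have hux : 0 < u x := lt_of_le_of_lt (mul_nonneg hε.le (hφ0 x)) hxS'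
      have hvx : 0 < v x := lt_max_of_lt_left hwx
      rw [indicator_of_mem hxS', indicator_of_notMem hxS,
        indicator_of_mem (show x ∈ {y | 0 < v y} from hvx),
        indicator_of_mem (show x ∈ {y | 0 < u y} from hux), hgv, norm_add_sq_real,
        inner_smul_right, norm_smul, mul_pow, ← mb_norm_gradient φ x, inner_sub_right,
        inner_add_right, inner_smul_right, Real.norm_eq_abs, sq_abs]
      ring
    · have hwx : w x ≤ 0 := not_lt.1 fun h => hxS' ((hwS' x).1 h)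
      have hgv : gradient v x = 0 := by
        rw [hv, (mb_gradient_max hwL.continuous x).2 hwx]
      have hvx : ¬ 0 < v x := by
        simp only [hv]
        rw [max_eq_right hwx]
        exact lt_irrefl 0
      rw [indicator_of_notMem hxS', indicator_of_notMem (show x ∉ {y | 0 < v y} from hvx), hgv,
        sub_zero, real_inner_self_eq_norm_sq, norm_zero]
      by_cases hux : 0 < u x
      · have hxS : x ∈ S := ⟨hux, not_lt.1 hxS'⟩
        rw [indicator_of_mem hxS, indicator_of_mem (show x ∈ {y | 0 < u y} from hux),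
          ← mb_norm_gradient u x]
        ring
      · have hux0 : u x = 0 := le_antisymm (not_lt.1 hux) (h0 x)
        have hxS : x ∉ S := fun h => hux h.1
        rw [indicator_of_notMem hxS, indicator_of_notMem (show x ∉ {y | 0 < u y} from hux),
          mb_gradient_zero_of_min h0 hux0, norm_zero]
        ring
  have i3 : Integrable (S'.indicator fun x => ε ^ 2 * ‖fderiv ℝ φ x‖ ^ 2) := by
    refine Integrable.indicator ?_ hS'm
    refine mb_integrable
      (((measurable_fderiv ℝ φ).norm.pow_const 2).const_mul (ε ^ 2)).aestronglyMeasurable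
      (C := ε ^ 2 * (K' : ℝ) ^ 2) ?_ hφc.isCompact ?_
    · intro x
      rw [abs_of_nonneg (by (clear * - hε; positivity))]
      have : ‖fderiv ℝ φ x‖ ≤ K' := norm_fderiv_le_of_lipschitz ℝ hφ
      gcongr
    · intro x hx
      rw [← mb_norm_gradient, mb_gradient_zero_of_notMem hx, norm_zero]
      simp
  have i4 : Integrable (S.indicator fun x => 1 - ‖fderiv ℝ u x‖ ^ 2) := by
    refine mb_integrable ((measurable_const.sub
      ((measurable_fderiv ℝ u).norm.pow_const 2)).indicator hSm).aestronglyMeasurable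
      (C := 1 + (K : ℝ) ^ 2) ?_ hφc.isCompact ?_
    · intro x
      have a2 : ‖fderiv ℝ u x‖ ≤ K := norm_fderiv_le_of_lipschitz ℝ hK
      have b2 : ‖fderiv ℝ u x‖ ^ 2 ≤ (K : ℝ) ^ 2 := by gcongr
      have b4 : 0 ≤ ‖fderiv ℝ u x‖ ^ 2 := by (clear * -; positivity)
      by_cases hx : x ∈ S
      · rw [indicator_of_mem hx, abs_le]
        constructor <;> linarith
      · rw [indicator_of_notMem hx, abs_zero]
        (clear * -; positivity)
    · intro x hx
      exact indicator_of_notMem (fun h => hx (hST h)) _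
  have hfinal : 0 ≤ ∫ x, (S'.indicator (fun x => ε ^ 2 * ‖fderiv ℝ φ x‖ ^ 2) x -
        S.indicator (fun x => 1 - ‖fderiv ℝ u x‖ ^ 2) x) := by
    rw [← integral_congr_ae hpt, integral_add iJ (iζ.const_mul 2), integral_const_mul, hfv,
      mul_zero, add_zero]
    exact hJ
  rw [integral_sub i3 i4, integral_indicator hS'm, integral_indicator hSm, integral_const_mul]
    at hfinal
  linarith

/-- A product of a function continuous on `tsupport g` and a function vanishing off `tsupport g`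
is continuous. -/
theorem mb_continuous_mul {f g h : E d → ℝ} (hf : ∀ x ∈ tsupport g, ContinuousAt f x)
    (hh : Continuous h) (h0 : ∀ x, x ∉ tsupport g → h =ᶠ[𝓝 x] fun _ => 0) :
    Continuous fun x => f x * h x := by
  rw [continuous_iff_continuousAt]
  intro x
  by_cases hx : x ∈ tsupport g
  · exact (hf x hx).mul hh.continuousAt
  · have h1 : (fun x => f x * h x) =ᶠ[𝓝 x] fun _ => (0 : ℝ) := by
      filter_upwards [h0 x hx] with y hy
      rw [hy, mul_zero]
    exact continuousAt_const.congr h1.symm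

/-- Integration by parts against a test function supported where `f` is smooth. -/
theorem mb_ibp {f g : E d → ℝ} (hg : ContDiff ℝ ∞ g) (hgc : HasCompactSupport g)
    (hf : ∀ x ∈ tsupport g, ContDiffAt ℝ ∞ f x) (e : E d) :
    ∫ x, f x * fderiv ℝ g x e = - ∫ x, fderiv ℝ f x e * g x := by
  have hz : ∀ x, x ∉ tsupport g → g =ᶠ[𝓝 x] fun _ => 0 := fun x hx => by
    have := notMem_tsupport_iff_eventuallyEq.1 hx
    exact this
  have hz' : ∀ x, x ∉ tsupport g → (fun y => fderiv ℝ g y e) =ᶠ[𝓝 x] fun _ => 0 := by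
    intro x hx
    filter_upwards [(hz x hx).eventuallyEq_nhds] with y hy
    rw [hy.fderiv_eq]
    simp
  have hfc : ∀ x ∈ tsupport g, ContinuousAt f x := fun x hx => (hf x hx).continuousAt
  have hf'c : ∀ x ∈ tsupport g, ContinuousAt (fun y => fderiv ℝ f y e) x := by
    intro x hx
    have h1 : ContDiffAt ℝ 0 (fderiv ℝ f) x := (hf x hx).fderiv_right (by norm_num)
    exact h1.continuousAt.clm_apply continuousAt_const
  have hg'c : Continuous fun y => fderiv ℝ g y e :=
    (hg.continuous_fderiv (by simp)).clm_apply continuous_const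
  have hcs : ∀ {h : E d → ℝ} {k : E d → ℝ}, (∀ x, x ∉ tsupport g → h =ᶠ[𝓝 x] fun _ => 0) →
      HasCompactSupport fun x => k x * h x := by
    intro h k hh
    refine HasCompactSupport.intro hgc.isCompact fun x hx => ?_
    rw [(hh x hx).eq_of_nhds, mul_zero]
  refine integral_mul_fderiv_eq_neg_fderiv_mul_of_integrable ?_ ?_ ?_
    (fun x hx => (hf x hx).differentiableAt (by simp))
    (fun x _ => (hg.differentiable (by simp)).differentiableAt)
  · exact (mb_continuous_mul hf'c hg.continuous hz).integrable_of_hasCompactSupport (hcs hz)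
  · exact (mb_continuous_mul hfc hg'c hz').integrable_of_hasCompactSupport (hcs hz')
  · exact (mb_continuous_mul hfc hg.continuous hz).integrable_of_hasCompactSupport (hcs hz)

theorem mb_P1_contDiffAt {U : E d → ℝ} {x : E d} (h : ContDiffAt ℝ ∞ U x) (i : Fin d) :
    ContDiffAt ℝ ∞ (P1 U i) x := by
  have h1 : ContDiffAt ℝ ∞ (fderiv ℝ U) x := h.fderiv_right (by norm_num)
  exact h1.clm_apply contDiffAt_const

theorem mb_P2_contDiffAt {U : E d → ℝ} {x : E d} (h : ContDiffAt ℝ ∞ U x) (i j : Fin d) :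
    ContDiffAt ℝ ∞ (P2 U i j) x := by
  have h1 : ContDiffAt ℝ ∞ (fderiv ℝ (P1 U i)) x :=
    (mb_P1_contDiffAt h i).fderiv_right (by norm_num)
  exact h1.clm_apply contDiffAt_const

theorem mb_inner_gradient_eq_sum (f g : E d → ℝ) (x : E d) :
    ⟪gradient f x, gradient g x⟫ = ∑ i, P1 f i x * P1 g i x := by
  have hc : ∀ (h : E d → ℝ) (i : Fin d), gradient h x i = P1 h i x := by
    intro h i
    have := mb_inner_gradient h x (ee i)
    rw [EuclideanSpace.inner_single_right] at this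
    simpa [P1] using this
  rw [PiLp.inner_apply]
  refine Finset.sum_congr rfl fun i _ => ?_
  rw [hc f i, hc g i]
  simp [mul_comm]

/-- `U` is harmonic in `Ω ∩ N`. -/
theorem LocalExt.lap_eq_zero {u : E d → ℝ} {K : NNReal} (hK : LipschitzWith K u)
    (h0 : ∀ x, 0 ≤ u x) (hmin : LipMin u) {N : Set (E d)} {U : E d → ℝ} (hU : LocalExt u N U)
    {x : E d} (hx : x ∈ N) (hux : 0 < u x) : lap U x = 0 := by
  set O : Set (E d) := N ∩ {y | 0 < u y} with hO
  have hOo : IsOpen O := hU.isOpen.inter (isOpen_lt continuous_const hK.continuous)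
  have hxO : x ∈ O := ⟨hx, hux⟩
  have hsm : ∀ y ∈ O, ContDiffAt ℝ ∞ U y := fun y hy =>
    hU.smooth.contDiffAt (hU.isOpen.mem_nhds hy.1)
  have heq : ∀ y ∈ O, u =ᶠ[𝓝 y] U := by
    intro y hy
    filter_upwards [hOo.mem_nhds hy] with z hz
    exact (hU.eq z hz.1 hz.2).symm
  have hlapc : ContinuousOn (lap U) O := by
    intro y hy
    unfold lap
    exact (tendsto_finsetSum _ fun i _ => (mb_P2_contDiffAt (hsm y hy) i i).continuousAt.tendsto
      ).mono_left nhdsWithin_le_nhds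
  -- test functions
  have htest : ∀ ζ : E d → ℝ, ContDiff ℝ ∞ ζ → HasCompactSupport ζ → tsupport ζ ⊆ O →
      ∫ y, lap U y * ζ y = 0 := by
    intro ζ hζ hζc hζO
    obtain ⟨L, hL⟩ := hζ.lipschitzWith_of_hasCompactSupport hζc (by simp)
    have h1 := firstVar hK h0 hmin hL hζc (by
      intro y hy
      by_contra hne
      have : y ∈ O := hζO (subset_tsupport ζ hne)
      exact absurd hy (ne_of_gt this.2))
    have h2 : (fun y => ⟪gradient u y, gradient ζ y⟫) =
        fun y => ∑ i, P1 U i y * fderiv ℝ ζ y (ee i) := by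
      funext y
      by_cases hy : y ∈ tsupport ζ
      · rw [mb_gradient_congr (heq y (hζO hy)), mb_inner_gradient_eq_sum]
        rfl
      · have h3 : ζ =ᶠ[𝓝 y] fun _ => 0 := by
          have := notMem_tsupport_iff_eventuallyEq.1 hy
          exact this
        rw [mb_gradient_zero_of_notMem hy, inner_zero_right, h3.fderiv_eq]
        simp
    have hcont : ∀ i, Continuous fun y => P1 U i y * fderiv ℝ ζ y (ee i) := by
      intro i
      refine mb_continuous_mul (g := ζ)
        (fun y hy => (mb_P1_contDiffAt (hsm y (hζO hy)) i).continuousAt)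
        ((hζ.continuous_fderiv (by simp)).clm_apply continuous_const) ?_
      intro y hy
      have h3 : ζ =ᶠ[𝓝 y] fun _ => 0 := by
        have := notMem_tsupport_iff_eventuallyEq.1 hy
        exact this
      filter_upwards [h3.eventuallyEq_nhds] with z hz
      rw [hz.fderiv_eq]
      simp
    have hcs : ∀ i, HasCompactSupport fun y => P1 U i y * fderiv ℝ ζ y (ee i) := by
      intro i
      refine HasCompactSupport.intro hζc.isCompact fun y hy => ?_
      have h3 : ζ =ᶠ[𝓝 y] fun _ => 0 := by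
        have := notMem_tsupport_iff_eventuallyEq.1 hy
        exact this
      rw [h3.fderiv_eq]
      simp
    have hcont2 : ∀ i, Continuous fun y => P2 U i i y * ζ y := by
      intro i
      refine mb_continuous_mul (g := ζ)
        (fun y hy => (mb_P2_contDiffAt (hsm y (hζO hy)) i i).continuousAt) hζ.continuous ?_
      intro y hy
      have := notMem_tsupport_iff_eventuallyEq.1 hy
      exact this
    have hcs2 : ∀ i, HasCompactSupport fun y => P2 U i i y * ζ y := by
      intro i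
      refine HasCompactSupport.intro hζc.isCompact fun y hy => ?_
      rw [image_eq_zero_of_notMem_tsupport hy, mul_zero]
    rw [h2, integral_finsetSum _ fun i _ =>
      (hcont i).integrable_of_hasCompactSupport (hcs i)] at h1
    have h4 : ∀ i, ∫ y, P1 U i y * fderiv ℝ ζ y (ee i) = - ∫ y, P2 U i i y * ζ y := fun i =>
      mb_ibp hζ hζc (fun y hy => mb_P1_contDiffAt (hsm y (hζO hy)) i) (ee i)
    simp only [h4, Finset.sum_neg_distrib, neg_eq_zero] at h1
    rw [← integral_finsetSum _ fun i _ =>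
      (hcont2 i).integrable_of_hasCompactSupport (hcs2 i)] at h1
    have h5 : (fun y => lap U y * ζ y) = fun y => ∑ i, P2 U i i y * ζ y := by
      funext y
      rw [lap, Finset.sum_mul]
    rw [h5]
    exact h1
  -- conclude by a bump function
  have key : ∀ s : ℝ, (s = 1 ∨ s = -1) → ¬ 0 < s * lap U x := by
    intro s hs hpos
    have h1 : {y ∈ O | 0 < s * lap U y} ∈ 𝓝 x := by
      have hc : ContinuousAt (fun y => s * lap U y) x :=
        continuousAt_const.mul (hlapc.continuousAt (hOo.mem_nhds hxO))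
      filter_upwards [hOo.mem_nhds hxO, hc.eventually (lt_mem_nhds hpos)] with y h1 h2
      exact ⟨h1, h2⟩
    obtain ⟨r, hr, hball⟩ := Metric.nhds_basis_closedBall.mem_iff.1 h1
    let ζ : ContDiffBump x := ⟨r / 2, r, by positivity, by linarith⟩
    have hts : tsupport (ζ : E d → ℝ) = closedBall x r := ζ.tsupport_eq
    have h2 := htest ζ ζ.contDiff ζ.hasCompactSupport (by
      rw [hts]; exact fun y hy => (hball hy).1)
    have h3 : 0 < ∫ y, s * (lap U y * ζ y) := by
      have hcont : Continuous fun y => s * (lap U y * ζ y) := by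
        refine continuous_const.mul (mb_continuous_mul (g := (ζ : E d → ℝ)) ?_ ζ.continuous ?_)
        · intro y hy
          rw [hts] at hy
          exact hlapc.continuousAt (hOo.mem_nhds (hball hy).1)
        · intro y hy
          have := notMem_tsupport_iff_eventuallyEq.1 hy
          exact this
      have hcs : HasCompactSupport fun y => s * (lap U y * ζ y) := by
        refine HasCompactSupport.intro ζ.hasCompactSupport.isCompact fun y hy => ?_
        rw [image_eq_zero_of_notMem_tsupport hy, mul_zero, mul_zero]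
      refine hcont.integral_pos_of_hasCompactSupport_nonneg_nonzero hcs ?_ (x := x) ?_
      · intro y
        by_cases hy : y ∈ closedBall x r
        · have h4 := (hball hy).2
          have h5 := ζ.nonneg (x := y)
          have h6 := mul_nonneg h4.le h5
          simp only [Pi.zero_apply]
          linarith
        · have h4 : (ζ : E d → ℝ) y = 0 := by
            rw [← hts] at hy
            exact image_eq_zero_of_notMem_tsupport hy
          simp [h4]
      · have h4 : (ζ : E d → ℝ) x = 1 :=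
          ζ.one_of_mem_closedBall (mem_closedBall_self (by positivity))
        rw [h4, mul_one]
        exact hpos.ne'
    rw [integral_const_mul, h2, mul_zero] at h3
    exact lt_irrefl _ h3
  have k1 := key 1 (Or.inl rfl)
  have k2 := key (-1) (Or.inr rfl)
  rw [one_mul] at k1
  rw [neg_one_mul] at k2
  linarith [not_lt.1 k1, not_lt.1 k2]

end Vale.Agent.P098
end

section

open MeasureTheory Set Metric Filter
open scoped ContDiff RealInnerProductSpace Topology

namespace Vale.Agent.P098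

variable {d : ℕ}

/-! Module F: jets calculus -/

theorem P1_congr {f g : E d → ℝ} {x : E d} (h : f =ᶠ[𝓝 x] g) (k : Fin d) :
    P1 f k x = P1 g k x := by
  unfold P1
  rw [h.fderiv_eq]

theorem P1_congr_on {f g : E d → ℝ} {N : Set (E d)} (hN : IsOpen N) (h : ∀ y ∈ N, f y = g y)
    {x : E d} (hx : x ∈ N) (k : Fin d) : P1 f k x = P1 g k x :=
  P1_congr (Filter.eventually_of_mem (hN.mem_nhds hx) h) k

theorem P1_mul {f g : E d → ℝ} {x : E d} (hf : DifferentiableAt ℝ f x)
    (hg : DifferentiableAt ℝ g x) (k : Fin d) :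
    P1 (fun y => f y * g y) k x = f x * P1 g k x + g x * P1 f k x := by
  unfold P1
  rw [fderiv_fun_mul hf hg]
  simp

theorem P1_add {f g : E d → ℝ} {x : E d} (hf : DifferentiableAt ℝ f x)
    (hg : DifferentiableAt ℝ g x) (k : Fin d) :
    P1 (fun y => f y + g y) k x = P1 f k x + P1 g k x := by
  unfold P1
  rw [fderiv_fun_add hf hg]
  simp

theorem P1_sum {ι : Type*} (s : Finset ι) {f : ι → E d → ℝ} {x : E d}
    (hf : ∀ i ∈ s, DifferentiableAt ℝ (f i) x) (k : Fin d) :
    P1 (fun y => ∑ i ∈ s, f i y) k x = ∑ i ∈ s, P1 (f i) k x := by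
  unfold P1
  rw [fderiv_fun_sum hf]
  simp

theorem P1_sq {f : E d → ℝ} {x : E d} (hf : DifferentiableAt ℝ f x) (k : Fin d) :
    P1 (fun y => f y ^ 2) k x = 2 * (f x * P1 f k x) := by
  have h : (fun y => f y ^ 2) = fun y => f y * f y := by
    funext y; ring
  rw [h, P1_mul hf hf]
  ring

theorem P1_const (c : ℝ) (x : E d) (k : Fin d) : P1 (fun _ : E d => c) k x = 0 := by
  unfold P1
  simp

theorem P1_coord (i : Fin d) (x : E d) (k : Fin d) :
    P1 (fun y : E d => y i) k x = if i = k then 1 else 0 := by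
  have h : (fun y : E d => y i) = fun y => (EuclideanSpace.proj i : E d →L[ℝ] ℝ) y := by
    funext y; simp
  unfold P1
  rw [h, ContinuousLinearMap.fderiv]
  simp [ee]

theorem diffAt_coord (i : Fin d) (x : E d) : DifferentiableAt ℝ (fun y : E d => y i) x := by
  have h : (fun y : E d => y i) = fun y => (EuclideanSpace.proj i : E d →L[ℝ] ℝ) y := by
    funext y; simp
  rw [h]
  exact ContinuousLinearMap.differentiableAt _

theorem contDiffOn_P1 {U : E d → ℝ} {N : Set (E d)} (hN : IsOpen N) (hU : ContDiffOn ℝ ∞ U N)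
    (i : Fin d) : ContDiffOn ℝ ∞ (P1 U i) N := by
  have h := hU.fderiv_of_isOpen (m := ∞) hN (by norm_num)
  exact h.clm_apply contDiffOn_const

theorem contDiffOn_P2 {U : E d → ℝ} {N : Set (E d)} (hN : IsOpen N) (hU : ContDiffOn ℝ ∞ U N)
    (i j : Fin d) : ContDiffOn ℝ ∞ (P2 U i j) N :=
  contDiffOn_P1 hN (contDiffOn_P1 hN hU i) j

theorem contDiffOn_P3 {U : E d → ℝ} {N : Set (E d)} (hN : IsOpen N) (hU : ContDiffOn ℝ ∞ U N)
    (i j k : Fin d) : ContDiffOn ℝ ∞ (P3 U i j k) N :=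
  contDiffOn_P1 hN (contDiffOn_P2 hN hU i j) k

theorem diffAt_of {U : E d → ℝ} {N : Set (E d)} (hN : IsOpen N) (hU : ContDiffOn ℝ ∞ U N)
    {x : E d} (hx : x ∈ N) : DifferentiableAt ℝ U x :=
  (hU.contDiffAt (hN.mem_nhds hx)).differentiableAt (by norm_num)

theorem diffAt_P1 {U : E d → ℝ} {N : Set (E d)} (hN : IsOpen N) (hU : ContDiffOn ℝ ∞ U N)
    {x : E d} (hx : x ∈ N) (i : Fin d) : DifferentiableAt ℝ (P1 U i) x :=
  diffAt_of hN (contDiffOn_P1 hN hU i) hx

theorem diffAt_P2 {U : E d → ℝ} {N : Set (E d)} (hN : IsOpen N) (hU : ContDiffOn ℝ ∞ U N)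
    {x : E d} (hx : x ∈ N) (i j : Fin d) : DifferentiableAt ℝ (P2 U i j) x :=
  diffAt_of hN (contDiffOn_P2 hN hU i j) hx

theorem diffAt_P3 {U : E d → ℝ} {N : Set (E d)} (hN : IsOpen N) (hU : ContDiffOn ℝ ∞ U N)
    {x : E d} (hx : x ∈ N) (i j k : Fin d) : DifferentiableAt ℝ (P3 U i j k) x :=
  diffAt_of hN (contDiffOn_P3 hN hU i j k) hx

theorem P2_eq_fderiv {U : E d → ℝ} {N : Set (E d)} (hN : IsOpen N) (hU : ContDiffOn ℝ ∞ U N)
    {x : E d} (hx : x ∈ N) (i j : Fin d) :
    P2 U i j x = fderiv ℝ (fderiv ℝ U) x (ee j) (ee i) := by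
  have hd : DifferentiableAt ℝ (fderiv ℝ U) x :=
    ((hU.fderiv_of_isOpen (m := ∞) hN (by norm_num)).contDiffAt
      (hN.mem_nhds hx)).differentiableAt (by norm_num)
  unfold P2 P1
  rw [fderiv_clm_apply hd (differentiableAt_const _)]
  simp

theorem P2_symm {U : E d → ℝ} {N : Set (E d)} (hN : IsOpen N) (hU : ContDiffOn ℝ ∞ U N)
    {x : E d} (hx : x ∈ N) (i j : Fin d) : P2 U i j x = P2 U j i x := by
  rw [P2_eq_fderiv hN hU hx, P2_eq_fderiv hN hU hx]
  have h : IsSymmSndFDerivAt ℝ U x :=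
    (hU.contDiffAt (hN.mem_nhds hx)).isSymmSndFDerivAt (by simp; exact WithTop.coe_le_coe.2 le_top)
  exact h (ee j) (ee i)

theorem P3_symm12 {U : E d → ℝ} {N : Set (E d)} (hN : IsOpen N) (hU : ContDiffOn ℝ ∞ U N)
    {x : E d} (hx : x ∈ N) (i j k : Fin d) : P3 U i j k x = P3 U j i k x :=
  P1_congr_on hN (fun _ hy => P2_symm hN hU hy i j) hx k

theorem P3_symm23 {U : E d → ℝ} {N : Set (E d)} (hN : IsOpen N) (hU : ContDiffOn ℝ ∞ U N)
    {x : E d} (hx : x ∈ N) (i j k : Fin d) : P3 U i j k x = P3 U i k j x :=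
  P2_symm hN (contDiffOn_P1 hN hU i) hx j k

theorem P3_trace {U : E d → ℝ} {N : Set (E d)} (hN : IsOpen N) (hU : ContDiffOn ℝ ∞ U N)
    (hlap : ∀ x ∈ N, lap U x = 0) {x : E d} (hx : x ∈ N) (k : Fin d) :
    ∑ i, P3 U i i k x = 0 := by
  have h1 : P1 (fun y => ∑ i, P2 U i i y) k x = ∑ i, P1 (P2 U i i) k x :=
    P1_sum Finset.univ (fun i _ => diffAt_P2 hN hU hx i i) k
  have h2 : P1 (fun y => ∑ i, P2 U i i y) k x = P1 (fun _ => (0 : ℝ)) k x :=
    P1_congr_on hN (fun y hy => hlap y hy) hx k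
  rw [P1_const] at h2
  rw [h2] at h1
  exact h1.symm

/-- The Laplacian commutes with partial derivatives. -/
theorem lap_P1 {V : E d → ℝ} {N : Set (E d)} (hN : IsOpen N) (hV : ContDiffOn ℝ ∞ V N)
    {x : E d} (hx : x ∈ N) (j : Fin d) : lap (P1 V j) x = P1 (lap V) j x := by
  have h1 : P1 (lap V) j x = ∑ k, P1 (P2 V k k) j x :=
    P1_sum Finset.univ (fun i _ => diffAt_P2 hN hV hx i i) j
  rw [h1]
  unfold lap
  refine Finset.sum_congr rfl (fun k _ => ?_)
  calc P2 (P1 V j) k k x = P3 V j k k x := rfl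
    _ = P3 V k j k x := P3_symm12 hN hV hx j k k
    _ = P3 V k k j x := P3_symm23 hN hV hx k j k
    _ = P1 (P2 V k k) j x := rfl

theorem P3_div {U : E d → ℝ} {N : Set (E d)} (hN : IsOpen N) (hU : ContDiffOn ℝ ∞ U N)
    (hlap : ∀ x ∈ N, lap U x = 0) {x : E d} (hx : x ∈ N) (i j : Fin d) :
    ∑ k, fderiv ℝ (P3 U i j k) x (ee k) = 0 := by
  have h1 : ∀ y ∈ N, lap (P1 U i) y = 0 := by
    intro y hy
    rw [lap_P1 hN hU hy i, P1_congr_on hN hlap hy i, P1_const]
  have h2 : lap (P1 (P1 U i) j) x = 0 := by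
    rw [lap_P1 hN (contDiffOn_P1 hN hU i) hx j, P1_congr_on hN h1 hx j, P1_const]
  exact h2

/-! Euler relations for a one-homogeneous function on a cone -/

theorem fderiv_apply_eq_sum (U : E d → ℝ) (x v : E d) :
    fderiv ℝ U x v = ∑ i, v i * P1 U i x := by
  have hv : v = ∑ i, v i • (ee i : E d) := by
    ext k
    simp [ee, Finset.sum_apply, Pi.single_apply]
  conv_lhs => rw [hv]
  simp [map_sum, P1]

theorem euler1 {u U : E d → ℝ} (hhom : ∀ r : ℝ, 0 < r → ∀ x, u (r • x) = r * u x)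
    {N : Set (E d)} (hU : LocalExt u N U) (hc : Continuous u) {x : E d} (hx : x ∈ N)
    (hux : 0 < u x) : ∑ i, x i * P1 U i x = U x := by
  rw [← fderiv_apply_eq_sum]
  have hdiff : DifferentiableAt ℝ U x := diffAt_of hU.isOpen hU.smooth hx
  have hcurve : HasDerivAt (fun t : ℝ => t • x) x 1 := by
    simpa using (hasDerivAt_id (1 : ℝ)).smul_const x
  have hdiff' : HasFDerivAt U (fderiv ℝ U x) ((fun t : ℝ => t • x) 1) := by
    simpa using hdiff.hasFDerivAt
  have h1 : HasDerivAt (fun t : ℝ => U (t • x)) (fderiv ℝ U x x) 1 :=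
    hdiff'.comp_hasDerivAt (1 : ℝ) hcurve
  have hopen : IsOpen ({y | 0 < u y} ∩ N) := (isOpen_lt continuous_const hc).inter hU.isOpen
  have hmem : ∀ᶠ t in 𝓝 (1 : ℝ), t • x ∈ {y | 0 < u y} ∩ N := by
    have hcont : ContinuousAt (fun t : ℝ => t • x) 1 := by fun_prop
    exact hcont.eventually_mem (by simpa using hopen.mem_nhds ⟨hux, hx⟩)
  have hpos : ∀ᶠ t in 𝓝 (1 : ℝ), 0 < t := lt_mem_nhds one_pos
  have heq : (fun t : ℝ => U (t • x)) =ᶠ[𝓝 1] fun t => t * U x := by
    filter_upwards [hmem, hpos] with t ht ht0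
    rw [hU.eq _ ht.2 ht.1, hU.eq _ hx hux, hhom t ht0]
  have h2 : HasDerivAt (fun t : ℝ => U (t • x)) (U x) 1 := by
    have h3 : HasDerivAt (fun t : ℝ => t * U x) (U x) 1 := by
      simpa using (hasDerivAt_id (1 : ℝ)).mul_const (U x)
    exact h3.congr_of_eventuallyEq heq
  exact h1.unique h2

theorem euler2 {u U : E d → ℝ} (hhom : ∀ r : ℝ, 0 < r → ∀ x, u (r • x) = r * u x)
    {N : Set (E d)} (hU : LocalExt u N U) (hc : Continuous u) {x : E d} (hx : x ∈ N)
    (hux : 0 < u x) (i : Fin d) : ∑ j, P2 U i j x * x j = 0 := by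
  have hopen : IsOpen ({y | 0 < u y} ∩ N) := (isOpen_lt continuous_const hc).inter hU.isOpen
  have hxO : x ∈ {y | 0 < u y} ∩ N := ⟨hux, hx⟩
  have h1 : P1 (fun y => ∑ j, y j * P1 U j y) i x = P1 U i x :=
    P1_congr_on hopen (fun y hy => euler1 hhom hU hc hy.2 hy.1) hxO i
  rw [P1_sum Finset.univ (f := fun j y => y j * P1 U j y) (fun j _ => (diffAt_coord j x).mul
    (diffAt_P1 hU.isOpen hU.smooth hx j)) i] at h1
  have h2 : ∀ j, P1 (fun y : E d => y j * P1 U j y) i x
      = P2 U i j x * x j + (if j = i then P1 U j x else 0) := by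
    intro j
    rw [P1_mul (diffAt_coord j x) (diffAt_P1 hU.isOpen hU.smooth hx j), P1_coord]
    have h3 : P1 (P1 U j) i x = P2 U i j x := P2_symm hU.isOpen hU.smooth hx j i
    rw [h3]
    split_ifs <;> ring
  simp only [h2, Finset.sum_add_distrib, Finset.sum_ite_eq', Finset.mem_univ, if_true] at h1
  linarith

theorem euler3 {u U : E d → ℝ} (hhom : ∀ r : ℝ, 0 < r → ∀ x, u (r • x) = r * u x)
    {N : Set (E d)} (hU : LocalExt u N U) (hc : Continuous u) {x : E d} (hx : x ∈ N)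
    (hux : 0 < u x) (i j : Fin d) : ∑ k, P3 U i j k x * x k = - P2 U i j x := by
  have hopen : IsOpen ({y | 0 < u y} ∩ N) := (isOpen_lt continuous_const hc).inter hU.isOpen
  have hxO : x ∈ {y | 0 < u y} ∩ N := ⟨hux, hx⟩
  have h1 : P1 (fun y => ∑ k, P2 U i k y * y k) j x = P1 (fun _ => (0 : ℝ)) j x :=
    P1_congr_on hopen (fun y hy => euler2 hhom hU hc hy.2 hy.1 i) hxO j
  rw [P1_const, P1_sum Finset.univ (f := fun k y => P2 U i k y * y k)
    (fun k _ => (diffAt_P2 hU.isOpen hU.smooth hx i k).mul (diffAt_coord k x)) j] at h1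
  have h2 : ∀ k, P1 (fun y : E d => P2 U i k y * y k) j x
      = P3 U i j k x * x k + (if k = j then P2 U i k x else 0) := by
    intro k
    rw [P1_mul (diffAt_P2 hU.isOpen hU.smooth hx i k) (diffAt_coord k x), P1_coord]
    have h3 : P1 (P2 U i k) j x = P3 U i j k x := P3_symm23 hU.isOpen hU.smooth hx i k j
    rw [h3]
    split_ifs <;> ring
  simp only [h2, Finset.sum_add_distrib, Finset.sum_ite_eq', Finset.mem_univ, if_true] at h1
  linarith

end Vale.Agent.P098
end

section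

open MeasureTheory Set Metric Filter
open scoped ContDiff RealInnerProductSpace Topology

namespace Vale.Agent.P098

variable {d m : ℕ}

/-! ### Index expressions of the jets of `U` -/

/-- The Hessian matrix. -/
noncomputable def MM (U : E d → ℝ) (x : E d) : Matrix (Fin d) (Fin d) ℝ := fun i j => P2 U i j x

/-- `(D²U)^j : D³U`, component `k`. -/
noncomputable def GG (U : E d → ℝ) (j : ℕ) (k : Fin d) (x : E d) : ℝ :=
  ∑ i, ∑ l, (MM U x ^ j) i l * P3 U i l k x

/-- `(D²U)^j ∇U`, component `k`. -/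
noncomputable def QQ (U : E d → ℝ) (j : ℕ) (k : Fin d) (x : E d) : ℝ :=
  ∑ i, (MM U x ^ j) k i * P1 U i x

/-- The trace of `(D²U)^j`. -/
noncomputable def tt (U : E d → ℝ) (j : ℕ) (x : E d) : ℝ := Matrix.trace (MM U x ^ j)

/-- `div ((D²U)^j : D³U) = ∑_{a+b=j-1} ∑_k tr ((D²U)^a T_k (D²U)^b T_k)`. -/
noncomputable def DG (U : E d → ℝ) (j : ℕ) (x : E d) : ℝ :=
  ∑ a ∈ Finset.range j, ∑ k, ∑ i, ∑ l, ∑ q, ∑ s,
    (MM U x ^ a) i l * P3 U l q k x * (MM U x ^ (j - 1 - a)) q s * P3 U s i k x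

/-- `(D²U)^a ((D²U)^j : D³U)`, component `k`. -/
noncomputable def MG (U : E d → ℝ) (a j : ℕ) (k : Fin d) (x : E d) : ℝ :=
  ∑ l, (MM U x ^ a) k l * GG U j l x

/-- The antisymmetric field `(D²U)^a ((D²U)^j : D³U) - (D²U)^j ((D²U)^a : D³U)`,
component `k`. -/
noncomputable def EE (U : E d → ℝ) (a j : ℕ) (k : Fin d) (x : E d) : ℝ :=
  MG U a j k x - MG U j a k x

/-- `∑_{k,l} ((D²U)^a)_{kl} ∑_{b+c=j-1} ((D²U)^b T_k (D²U)^c) : T_l`. -/
noncomputable def DT (U : E d → ℝ) (a j : ℕ) (x : E d) : ℝ :=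
  ∑ b ∈ Finset.range j, ∑ k, ∑ l, ∑ i, ∑ n, ∑ q, ∑ s,
    (MM U x ^ a) k l * ((MM U x ^ b) i q * P3 U q s k x * (MM U x ^ (j - 1 - b)) s n)
      * P3 U i n l x

/-- A smooth function of `(y, v, τ, ι)` with its first partial derivatives. -/
structure SF where
  g : ℝ → ℝ → ℝ → ℝ → ℝ
  gy : ℝ → ℝ → ℝ → ℝ → ℝ
  gv : ℝ → ℝ → ℝ → ℝ → ℝ
  gt : ℝ → ℝ → ℝ → ℝ → ℝ
  gi : ℝ → ℝ → ℝ → ℝ → ℝ
  smooth : ContDiff ℝ ∞ (fun q : ℝ × ℝ × ℝ × ℝ => g q.1 q.2.1 q.2.2.1 q.2.2.2)
  hy : ∀ y v t i, HasDerivAt (fun s => g s v t i) (gy y v t i) y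
  hv : ∀ y v t i, HasDerivAt (fun s => g y s t i) (gv y v t i) v
  ht : ∀ y v t i, HasDerivAt (fun s => g y v s i) (gt y v t i) t
  hi : ∀ y v t i, HasDerivAt (fun s => g y v t s) (gi y v t i) i

/-- The Euler derivative `z ∂_z - 3 τ ∂_τ - 4 ι ∂_ι`, where `y = 1 / (1 + z)`. -/
noncomputable def SF.zd (f : SF) (y v t i : ℝ) : ℝ :=
  -(y * (1 - y)) * f.gy y v t i - 3 * t * f.gt y v t i - 4 * i * f.gi y v t i

/-- `∂_z`, where `y = 1 / (1 + z)`. -/
noncomputable def SF.gz (f : SF) (y v t i : ℝ) : ℝ := -(y ^ 2) * f.gy y v t i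

/-- The coefficient functions of a certificate: `w`, `a_1, …, a_na`, `f_0, …, f_(nf-1)` and
`e_0, …, e_(ne-1)`. The index `j` of `a` stands for `a_{j+1}`; `e_q` is the coefficient of the
antisymmetric field with exponents `ea q`, `ej q`. -/
structure Fam where
  na : ℕ
  nf : ℕ
  ne : ℕ
  w : SF
  a : ℕ → SF
  f : ℕ → SF
  e : ℕ → SF
  ea : ℕ → ℕ
  ej : ℕ → ℕ
  hea : ∀ q, 1 ≤ ea q
  hej : ∀ q, 1 ≤ ej q

/-- Power sums. -/
noncomputable def pw (lam : Fin m → ℝ) (j : ℕ) : ℝ := ∑ i, lam i ^ j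

/-- `∑_{i<j} a^i b^(j-1-i)`. -/
noncomputable def hh (j : ℕ) (a b : ℝ) : ℝ := ∑ i ∈ Finset.range j, a ^ i * b ^ (j - 1 - i)

/-- `∑_i lam_i^j x_i`. -/
noncomputable def XX (lam x : Fin m → ℝ) (j : ℕ) : ℝ := ∑ i, lam i ^ j * x i

/-- The weighted square `∑_i (h_j(lam_i, lam_i) + 2 h_j(lam_i, lam_k)) x_i²` (for `i = k` the
weight is `h_j(lam_k, lam_k)`). -/
noncomputable def qf (lam x : Fin m → ℝ) (k : Fin m) (j : ℕ) : ℝ :=
  ∑ i, (if i = k then hh j (lam k) (lam k) else hh j (lam i) (lam i) + 2 * hh j (lam i) (lam k))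
    * x i ^ 2

/-- The vector `lam_k^a X_j - lam_k^j X_a`. -/
noncomputable def XE (lam x : Fin m → ℝ) (k : Fin m) (a j : ℕ) : ℝ :=
  lam k ^ a * XX lam x j - lam k ^ j * XX lam x a

/-- The quadratic form of the divergence of the antisymmetric field. -/
noncomputable def qe (lam x : Fin m → ℝ) (k : Fin m) (a j : ℕ) : ℝ :=
  (∑ i, (if i = k then lam k ^ a * hh j (lam k) (lam k) - lam k ^ j * hh a (lam k) (lam k)
      else lam k ^ a * hh j (lam i) (lam i) - lam k ^ j * hh a (lam i) (lam i)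
        + 2 * (lam i ^ a * hh j (lam i) (lam k) - lam i ^ j * hh a (lam i) (lam k))) * x i ^ 2)
  + (∑ b ∈ Finset.range (a - 1), XX lam x (b + 1) * lam k ^ (a - 2 - b) * XX lam x j)
  - (∑ b ∈ Finset.range (j - 1), XX lam x (b + 1) * lam k ^ (j - 2 - b) * XX lam x a)

/-- The `(x, t)` block of the quadratic form. -/
noncomputable def formC (Φ : Fam) (α y v : ℝ) (lam : Fin m → ℝ) (k : Fin m) (x : Fin m → ℝ)
    (t : ℝ) : ℝ :=
  (∑ j ∈ Finset.range Φ.na,
    ((Φ.a j).g y v (pw lam 3) (pw lam 4) * qf lam x k (j + 1)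
      + (((2 * α - 2 - j) * (Φ.a j).g y v (pw lam 3) (pw lam 4)
          + (Φ.a j).zd y v (pw lam 3) (pw lam 4)) * XX lam x 1
        + 3 * (Φ.a j).gt y v (pw lam 3) (pw lam 4) * XX lam x 2
        + 4 * (Φ.a j).gi y v (pw lam 3) (pw lam 4) * XX lam x 3) * XX lam x (j + 1)))
  + (∑ q ∈ Finset.range Φ.ne,
    ((Φ.e q).g y v (pw lam 3) (pw lam 4) * qe lam x k (Φ.ea q) (Φ.ej q)
      + (((2 * α - 1 - Φ.ea q - Φ.ej q) * (Φ.e q).g y v (pw lam 3) (pw lam 4)
          + (Φ.e q).zd y v (pw lam 3) (pw lam 4)) * XX lam x 1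
        + 3 * (Φ.e q).gt y v (pw lam 3) (pw lam 4) * XX lam x 2
        + 4 * (Φ.e q).gi y v (pw lam 3) (pw lam 4) * XX lam x 3)
        * XE lam x k (Φ.ea q) (Φ.ej q)))
  + Φ.w.g y v (pw lam 3) (pw lam 4) * t ^ 2
  + t * ((2 * α * Φ.w.g y v (pw lam 3) (pw lam 4) + Φ.w.zd y v (pw lam 3) (pw lam 4)) * XX lam x 1
        + 3 * Φ.w.gt y v (pw lam 3) (pw lam 4) * XX lam x 2
        + 4 * Φ.w.gi y v (pw lam 3) (pw lam 4) * XX lam x 3)

/-- The linear form multiplying `ξ`. -/
noncomputable def formB (Φ : Fam) (α y v : ℝ) (lam : Fin m → ℝ) (k : Fin m) (x : Fin m → ℝ)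
    (t : ℝ) : ℝ :=
  (∑ j ∈ Finset.range Φ.na,
    ((Φ.a j).gz y v (pw lam 3) (pw lam 4) + 2 * lam k * (Φ.a j).gv y v (pw lam 3) (pw lam 4))
      * XX lam x (j + 1))
  + (∑ q ∈ Finset.range Φ.ne,
    ((Φ.e q).gz y v (pw lam 3) (pw lam 4) + 2 * lam k * (Φ.e q).gv y v (pw lam 3) (pw lam 4))
      * XE lam x k (Φ.ea q) (Φ.ej q))
  - (∑ j ∈ Finset.range Φ.nf,
    (lam k ^ j * ((((2 * α + 1 - j) * (Φ.f j).g y v (pw lam 3) (pw lam 4))
          + (Φ.f j).zd y v (pw lam 3) (pw lam 4)) * XX lam x 1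
        + 3 * (Φ.f j).gt y v (pw lam 3) (pw lam 4) * XX lam x 2
        + 4 * (Φ.f j).gi y v (pw lam 3) (pw lam 4) * XX lam x 3)
      + (Φ.f j).g y v (pw lam 3) (pw lam 4)
        * ∑ i ∈ Finset.range (j - 1), XX lam x (i + 1) * lam k ^ (j - 2 - i)))
  + t * (Φ.w.gz y v (pw lam 3) (pw lam 4) + 2 * lam k * Φ.w.gv y v (pw lam 3) (pw lam 4))

/-- `- ∑_{j ≥ 1} f_j p_{j+1}`. -/
noncomputable def formG (Φ : Fam) (y v : ℝ) (lam : Fin m → ℝ) : ℝ :=
  - ∑ j ∈ Finset.range Φ.nf, if j = 0 then 0 else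
      (Φ.f j).g y v (pw lam 3) (pw lam 4) * pw lam (j + 1)

/-- The coefficient of `ξ²` (after scaling `ξ` by `√v`). -/
noncomputable def formA (Φ : Fam) (y v : ℝ) (lam : Fin m → ℝ) (k : Fin m) : ℝ :=
  formG Φ y v lam - v * ∑ j ∈ Finset.range Φ.nf,
    ((Φ.f j).gz y v (pw lam 3) (pw lam 4) + 2 * lam k * (Φ.f j).gv y v (pw lam 3) (pw lam 4))
      * lam k ^ j

/-- `y²` times the coefficient of `κ`. -/
noncomputable def formK (Φ : Fam) (y v : ℝ) (lam : Fin m → ℝ) : ℝ :=
  y ^ 2 * ((∑ j ∈ Finset.range Φ.na, m * (Φ.a j).g y v (pw lam 3) (pw lam 4) * pw lam (j + 2))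
      + (∑ q ∈ Finset.range Φ.ne, (Φ.e q).g y v (pw lam 3) (pw lam 4)
        * ((if Φ.ea q = 1 then 0 else pw lam (Φ.ea q) * pw lam (Φ.ej q + 1))
          - (if Φ.ej q = 1 then 0 else pw lam (Φ.ej q) * pw lam (Φ.ea q + 1))))
      - ((m - 1 : ℝ) / 2) ^ 2 * Φ.w.g y v (pw lam 3) (pw lam 4))
  + y * (1 - y) * ∑ j ∈ Finset.range Φ.nf,
      (Φ.f j).g y v (pw lam 3) (pw lam 4) * (if j = 0 then (m : ℝ) else if j = 1 then 0 else pw lam j)

/-- The boundary expression, at `y = v = 1`. -/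
noncomputable def formN (Φ : Fam) (lam : Fin m → ℝ) (k : Fin m) : ℝ :=
  (∑ j ∈ Finset.range Φ.na, (Φ.a j).g 1 1 (pw lam 3) (pw lam 4)
      * (lam k ^ (j + 1) * pw lam 2 + lam k * pw lam (j + 2) - pw lam (j + 3)))
  + (∑ q ∈ Finset.range Φ.ne, (Φ.e q).g 1 1 (pw lam 3) (pw lam 4)
      * (lam k ^ Φ.ea q * (lam k * pw lam (Φ.ej q + 1) - pw lam (Φ.ej q + 2))
        - lam k ^ Φ.ej q * (lam k * pw lam (Φ.ea q + 1) - pw lam (Φ.ea q + 2))))
  - Φ.w.g 1 1 (pw lam 3) (pw lam 4) * lam k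
  - ∑ j ∈ Finset.range Φ.nf, (Φ.f j).g 1 1 (pw lam 3) (pw lam 4) * lam k ^ j

/-- A certificate in dimension `m + 1` with exponent `α`: the strict algebraic inequalities, on
traceless `lam ∈ ℝ^m` of length one (or at most one). -/
structure Cert (m : ℕ) (α : ℝ) (Φ : Fam) : Prop where
  hα : 1 / 2 ≤ α
  w_pos : ∀ y v : ℝ, 0 ≤ y → y ≤ 1 → 0 ≤ v → v ≤ 1 → ∀ lam : Fin m → ℝ, pw lam 1 = 0 →
    pw lam 2 ≤ 1 → 0 < Φ.w.g y v (pw lam 3) (pw lam 4)
  form_pos : ∀ y ρ : ℝ, 0 ≤ y → y ≤ 1 → 0 ≤ ρ → ρ ≤ 1 → ∀ lam : Fin m → ℝ, pw lam 1 = 0 →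
    pw lam 2 = 1 → ∀ (k : Fin m) (ξ t : ℝ) (x : Fin m → ℝ), ∑ i, x i = 0 →
      ¬ (ξ = 0 ∧ t = 0 ∧ x = 0) →
      0 < formA Φ y (ρ ^ 2) lam k * ξ ^ 2 + ρ * ξ * formB Φ α y (ρ ^ 2) lam k x t
        + formC Φ α y (ρ ^ 2) lam k x t
  formC_pos : ∀ y v : ℝ, 0 ≤ y → y ≤ 1 → 0 ≤ v → v ≤ 1 → ∀ lam : Fin m → ℝ, pw lam 1 = 0 →
    pw lam 2 ≤ 1 → ∀ (k : Fin m) (t : ℝ) (x : Fin m → ℝ), ∑ i, x i = 0 →
      ¬ (t = 0 ∧ x = 0) → 0 < formC Φ α y v lam k x t
  triple : ∀ y v : ℝ, 0 ≤ y → y ≤ 1 → 0 ≤ v → v ≤ 1 → ∀ lam : Fin m → ℝ, pw lam 1 = 0 →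
    pw lam 2 ≤ 1 → ∀ i j k : Fin m, i ≠ j → j ≠ k → i ≠ k →
      0 ≤ (∑ q ∈ Finset.range Φ.na, (Φ.a q).g y v (pw lam 3) (pw lam 4)
        * (hh (q + 1) (lam i) (lam j) + hh (q + 1) (lam j) (lam k) + hh (q + 1) (lam i) (lam k)))
        + (∑ q ∈ Finset.range Φ.ne, (Φ.e q).g y v (pw lam 3) (pw lam 4)
        * (lam i ^ Φ.ea q * hh (Φ.ej q) (lam j) (lam k) - lam i ^ Φ.ej q * hh (Φ.ea q) (lam j) (lam k)
          + lam j ^ Φ.ea q * hh (Φ.ej q) (lam i) (lam k) - lam j ^ Φ.ej q * hh (Φ.ea q) (lam i) (lam k)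
          + lam k ^ Φ.ea q * hh (Φ.ej q) (lam i) (lam j)
          - lam k ^ Φ.ej q * hh (Φ.ea q) (lam i) (lam j)))
  kappa : ∃ ε : ℝ, 0 < ε ∧ ∀ y v : ℝ, 0 ≤ y → y ≤ 1 → 0 ≤ v → v ≤ 1 → ∀ lam : Fin m → ℝ,
    pw lam 1 = 0 → pw lam 2 = 1 →
      ε * (v + (1 - y) ^ 2) ≤ v * formK Φ y v lam + (1 - y) ^ 2 * formG Φ y v lam
  bdry : ∀ lam : Fin m → ℝ, pw lam 1 = 0 → pw lam 2 = 1 → ∀ k : Fin m, lam k ≤ 0 →
    0 ≤ formN Φ lam k

end Vale.Agent.P098
end

section

open MeasureTheory Set Metric Filter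
open scoped ContDiff RealInnerProductSpace Topology

namespace Vale.Agent.P098

variable {m : ℕ}

theorem m3_hh_comm (j : ℕ) (a b : ℝ) : hh j a b = hh j b a := by
  unfold hh
  rw [← Finset.sum_range_reflect]
  refine Finset.sum_congr rfl fun i hi => ?_
  have hi' := Finset.mem_range.1 hi
  have e : j - 1 - (j - 1 - i) = i := by omega
  rw [e, mul_comm]

/-- The part of the triple sum with three distinct indices. -/
noncomputable def m3_TR (c T : Fin m → Fin m → Fin m → ℝ) : ℝ :=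
  ∑ i, ∑ l, ∑ k, if i = l ∨ l = k ∨ i = k then 0 else c i l k * T i l k ^ 2

theorem m3_triple_decomp {c T : Fin m → Fin m → Fin m → ℝ} (hc : ∀ i l k, c i l k = c l i k)
    (h12 : ∀ i j k, T i j k = T j i k) (h23 : ∀ i j k, T i j k = T i k j) :
    ∑ i, ∑ l, ∑ k, c i l k * T i l k ^ 2
      = (∑ k, ∑ i, (if i = k then c k k k else c i i k + 2 * c i k i) * T i i k ^ 2)
        + m3_TR c T := by
  classical
  set h : Fin m → Fin m → Fin m → ℝ := fun i l k => c i l k * T i l k ^ 2 with hdef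
  have e1 : ∀ i l k, h i l k = (if i = l then h i l k else 0)
      + (if l = k then (if i = l then 0 else h i l k) else 0)
      + (if i = k then (if i = l then 0 else h i l k) else 0)
      + (if i = l ∨ l = k ∨ i = k then 0 else h i l k) := by
    intro i l k
    by_cases h1 : i = l
    · subst h1
      by_cases h2 : i = k <;> simp [h2]
    · by_cases h2 : l = k
      · subst h2
        simp [h1]
      · by_cases h3 : i = k
        · subst h3
          simp [h1, h2]
        · simp [h1, h2, h3]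
  have e2 : ∑ i, ∑ l, ∑ k, h i l k = (∑ i, ∑ l, ∑ k, if i = l then h i l k else 0)
      + (∑ i, ∑ l, ∑ k, if l = k then (if i = l then 0 else h i l k) else 0)
      + (∑ i, ∑ l, ∑ k, if i = k then (if i = l then 0 else h i l k) else 0)
      + m3_TR c T := by
    unfold m3_TR
    simp only [← Finset.sum_add_distrib]
    exact Finset.sum_congr rfl fun i _ => Finset.sum_congr rfl fun l _ =>
      Finset.sum_congr rfl fun k _ => e1 i l k
  have e3 : (∑ i, ∑ l, ∑ k, if i = l then h i l k else 0) = ∑ i, ∑ k, h i i k := by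
    refine Finset.sum_congr rfl fun i _ => ?_
    rw [Finset.sum_comm]
    refine Finset.sum_congr rfl fun k _ => ?_
    rw [Finset.sum_ite_eq]
    simp
  have e4 : (∑ i, ∑ l, ∑ k, if l = k then (if i = l then 0 else h i l k) else 0)
      = ∑ i, ∑ l, if i = l then 0 else h i l l := by
    refine Finset.sum_congr rfl fun i _ => Finset.sum_congr rfl fun l _ => ?_
    rw [Finset.sum_ite_eq]
    simp
  have e5 : (∑ i, ∑ l, ∑ k, if i = k then (if i = l then 0 else h i l k) else 0)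
      = ∑ i, ∑ l, if i = l then 0 else h i l i := by
    refine Finset.sum_congr rfl fun i _ => Finset.sum_congr rfl fun l _ => ?_
    rw [Finset.sum_ite_eq]
    simp
  have e6 : (∑ i, ∑ l, if i = l then 0 else h i l l)
      = ∑ k, ∑ i, if i = k then 0 else c i k i * T i i k ^ 2 := by
    refine Finset.sum_congr rfl fun k _ => Finset.sum_congr rfl fun i _ => ?_
    by_cases hik : i = k
    · simp [hik]
    · have hki : k ≠ i := fun h => hik h.symm
      simp only [hdef, if_neg hki, if_neg hik]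
      rw [hc, h12 k i i, h23 i k i]
  have e7 : (∑ i, ∑ l, if i = l then 0 else h i l i)
      = ∑ k, ∑ i, if i = k then 0 else c i k i * T i i k ^ 2 := by
    rw [Finset.sum_comm]
    refine Finset.sum_congr rfl fun k _ => Finset.sum_congr rfl fun i _ => ?_
    by_cases hik : i = k
    · simp [hik]
    · simp only [hdef, if_neg hik]
      rw [h23 i k i]
  have e8 : (∑ k, ∑ i, (if i = k then c k k k else c i i k + 2 * c i k i) * T i i k ^ 2)
      = (∑ k, ∑ i, h i i k)
      + (∑ k, ∑ i, if i = k then 0 else c i k i * T i i k ^ 2)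
      + (∑ k, ∑ i, if i = k then 0 else c i k i * T i i k ^ 2) := by
    simp only [← Finset.sum_add_distrib]
    refine Finset.sum_congr rfl fun k _ => Finset.sum_congr rfl fun i _ => ?_
    by_cases hik : i = k
    · subst hik; simp [hdef]
    · simp only [hdef, if_neg hik]; ring
  rw [e2, e3, e4, e5, e6, e7, e8, Finset.sum_comm (f := fun i k => h i i k)]

/-- the distinct triples contribute nonnegatively -/
theorem m3_TR_nonneg {c T : Fin m → Fin m → Fin m → ℝ}
    (h12 : ∀ i j k, T i j k = T j i k) (h23 : ∀ i j k, T i j k = T i k j)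
    (h : ∀ i l k : Fin m, i ≠ l → l ≠ k → i ≠ k → 0 ≤ c i l k + c l k i + c i k l) :
    0 ≤ m3_TR c T := by
  classical
  set φ : Fin m → Fin m → Fin m → ℝ := fun i l k =>
    if i = l ∨ l = k ∨ i = k then 0 else c i l k * T i l k ^ 2 with hφ
  have hTR : m3_TR c T = ∑ i, ∑ l, ∑ k, φ i l k := rfl
  have s1 : m3_TR c T = ∑ i, ∑ l, ∑ k, φ l k i := by
    rw [hTR]
    calc ∑ i, ∑ l, ∑ k, φ i l k = ∑ i, ∑ k, ∑ l, φ i l k := by
          refine Finset.sum_congr rfl fun i _ => Finset.sum_comm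
      _ = ∑ k, ∑ i, ∑ l, φ i l k := Finset.sum_comm
  have s2 : m3_TR c T = ∑ i, ∑ l, ∑ k, φ i k l := by
    rw [hTR]
    exact Finset.sum_congr rfl fun i _ => Finset.sum_comm
  have key : 3 * m3_TR c T = ∑ i, ∑ l, ∑ k, (if i = l ∨ l = k ∨ i = k then 0 else
      (c i l k + c l k i + c i k l) * T i l k ^ 2) := by
    have e : 3 * m3_TR c T = m3_TR c T + m3_TR c T + m3_TR c T := by ring
    rw [e]
    nth_rewrite 2 [s1]
    nth_rewrite 2 [s2]
    rw [hTR]
    simp only [← Finset.sum_add_distrib]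
    refine Finset.sum_congr rfl fun i _ => Finset.sum_congr rfl fun l _ =>
      Finset.sum_congr rfl fun k _ => ?_
    by_cases hd : i = l ∨ l = k ∨ i = k
    · have hd2 : l = k ∨ k = i ∨ l = i := by tauto
      have hd3 : i = k ∨ k = l ∨ i = l := by tauto
      simp only [hφ, if_pos hd, if_pos hd2, if_pos hd3, add_zero]
    · have hd2 : ¬ (l = k ∨ k = i ∨ l = i) := by tauto
      have hd3 : ¬ (i = k ∨ k = l ∨ i = l) := by tauto
      simp only [hφ, if_neg hd, if_neg hd2, if_neg hd3]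
      rw [h23 l k i, h12 l i k, h23 i k l]
      ring
  have e3 : 0 ≤ 3 * m3_TR c T := by
    rw [key]
    refine Finset.sum_nonneg fun i _ => Finset.sum_nonneg fun l _ =>
      Finset.sum_nonneg fun k _ => ?_
    by_cases hd : i = l ∨ l = k ∨ i = k
    · rw [if_pos hd]
    · rw [if_neg hd]
      push Not at hd
      exact mul_nonneg (h i l k hd.1 hd.2.1 hd.2.2) (sq_nonneg _)
  linarith

theorem m3_TR_add (c c' T : Fin m → Fin m → Fin m → ℝ) :
    m3_TR (fun i l k => c i l k + c' i l k) T = m3_TR c T + m3_TR c' T := by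
  unfold m3_TR
  simp only [← Finset.sum_add_distrib]
  refine Finset.sum_congr rfl fun i _ => Finset.sum_congr rfl fun l _ =>
      Finset.sum_congr rfl fun k _ => ?_
  split_ifs
  · ring
  · ring

theorem m3_TR_sum {ι : Type*} (s : Finset ι) (b : ι → ℝ) (c : ι → Fin m → Fin m → Fin m → ℝ)
    (T : Fin m → Fin m → Fin m → ℝ) :
    m3_TR (fun i l k => ∑ q ∈ s, b q * c q i l k) T = ∑ q ∈ s, b q * m3_TR (c q) T := by
  classical
  unfold m3_TR
  simp only [Finset.mul_sum]
  symm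
  rw [Finset.sum_comm]
  refine Finset.sum_congr rfl fun i _ => ?_
  rw [Finset.sum_comm]
  refine Finset.sum_congr rfl fun l _ => ?_
  rw [Finset.sum_comm]
  refine Finset.sum_congr rfl fun k _ => ?_
  by_cases hd : i = l ∨ l = k ∨ i = k
  · simp only [if_pos hd, mul_zero, Finset.sum_const_zero]
  · simp only [if_neg hd]
    rw [Finset.sum_mul]
    exact Finset.sum_congr rfl fun q _ => by ring

/-- the weight of an `a`-term -/
noncomputable def m3_ca (lam : Fin m → ℝ) (J : ℕ) (i l _ : Fin m) : ℝ := hh J (lam i) (lam l)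

/-- the weight of an `e`-term -/
noncomputable def m3_ce (lam : Fin m → ℝ) (a j : ℕ) (i l k : Fin m) : ℝ :=
  lam k ^ a * hh j (lam i) (lam l) - lam k ^ j * hh a (lam i) (lam l)

theorem m3_decomp_a (lam : Fin m → ℝ) {T : Fin m → Fin m → Fin m → ℝ}
    (h12 : ∀ i j k, T i j k = T j i k) (h23 : ∀ i j k, T i j k = T i k j) (J : ℕ) :
    ∑ i, ∑ l, ∑ k, hh J (lam i) (lam l) * T i l k ^ 2
      = (∑ k, qf lam (fun l => T l l k) k J) + m3_TR (m3_ca lam J) T :=
  m3_triple_decomp (c := m3_ca lam J) (fun i l _ => m3_hh_comm J (lam i) (lam l)) h12 h23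

/-- the first part of `qe` -/
noncomputable def m3_qe1 (lam x : Fin m → ℝ) (k : Fin m) (a j : ℕ) : ℝ :=
  ∑ i, (if i = k then lam k ^ a * hh j (lam k) (lam k) - lam k ^ j * hh a (lam k) (lam k)
      else lam k ^ a * hh j (lam i) (lam i) - lam k ^ j * hh a (lam i) (lam i)
        + 2 * (lam i ^ a * hh j (lam i) (lam k) - lam i ^ j * hh a (lam i) (lam k))) * x i ^ 2

theorem m3_decomp_e (lam : Fin m → ℝ) {T : Fin m → Fin m → Fin m → ℝ}
    (h12 : ∀ i j k, T i j k = T j i k) (h23 : ∀ i j k, T i j k = T i k j) (a j : ℕ) :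
    (∑ i, ∑ l, ∑ k, lam k ^ a * hh j (lam i) (lam l) * T i l k ^ 2)
      - (∑ i, ∑ l, ∑ k, lam k ^ j * hh a (lam i) (lam l) * T i l k ^ 2)
      = (∑ k, m3_qe1 lam (fun l => T l l k) k a j) + m3_TR (m3_ce lam a j) T := by
  have h := m3_triple_decomp (c := m3_ce lam a j) (fun i l k => by
    unfold m3_ce
    rw [m3_hh_comm j (lam i) (lam l), m3_hh_comm a (lam i) (lam l)]) h12 h23
  have e : ∑ i, ∑ l, ∑ k, m3_ce lam a j i l k * T i l k ^ 2 =
      (∑ i, ∑ l, ∑ k, lam k ^ a * hh j (lam i) (lam l) * T i l k ^ 2)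
      - (∑ i, ∑ l, ∑ k, lam k ^ j * hh a (lam i) (lam l) * T i l k ^ 2) := by
    simp only [← Finset.sum_sub_distrib]
    refine Finset.sum_congr rfl fun i _ => Finset.sum_congr rfl fun l _ =>
      Finset.sum_congr rfl fun k _ => ?_
    unfold m3_ce
    ring
  rw [← e, h]
  rfl

end Vale.Agent.P098
end
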