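import Mathlib
import Vale.Agent.P098.Bdl.B2
attribute [-instance] ProperSMul.toContinuousSMul IsTopologicalTorsor.toContinuousSMul IdemSemiring.toCanonicallyOrderedAdd IdemSemiring.toMulLeftMono IdemSemiring.toMulRightMono AddQuantale.instAddLeftMono AddQuantale.instAddRightMono Quantale.instMulLeftMono Quantale.instMulRightMono FiniteDimensional.rclike_to_real IsScalarTower.complexToReal FiniteDimensional.complexToReal

set_option linter.all false

section

open MeasureTheory Set Metric Filter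
open scoped ContDiff RealInnerProductSpace Topology

namespace Vale.Agent.P098

variable {d : ℕ}

theorem hom_everywhere {u : E d → ℝ} (hc : Continuous u) (h : IsOneHomogeneous u) :
    ∀ r : ℝ, 0 < r → ∀ x, u (r • x) = r * u x := by
  intro r hr x
  have h1 := h r hr
  have hc1 : Continuous fun x : E d => u (r • x) := hc.comp (continuous_const_smul r)
  have hc2 : Continuous fun x : E d => r * u x := continuous_const.mul hc
  exact congrFun ((Continuous.ae_eq_iff_eq volume hc1 hc2).1 h1) x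

/-- one-dimensional comparison for a nonnegative function that is Lipschitz where positive -/
lemma oneD_le {f f' : ℝ → ℝ} {c : ℝ} (hc : 0 ≤ c) (hf : Continuous f) (h0 : ∀ s, 0 ≤ f s)
    (hd : ∀ s, 0 < f s → HasDerivAt f (f' s) s ∧ |f' s| ≤ c) : f 1 ≤ f 0 + c := by
  by_contra hcon
  push Not at hcon
  obtain ⟨c', hc'⟩ : ∃ c', c' = c + (f 1 - f 0 - c) / 2 := ⟨_, rfl⟩
  have hcc' : c < c' := by linarith only [hcon, hc']
  have hg1 : 0 < f 1 - f 0 - c' * 1 := by linarith only [hc', hcc']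
  set g : ℝ → ℝ := fun s => f s - f 0 - c' * s with hg
  have hgc : Continuous g := by (clear * - hf; fun_prop)
  -- last zero of `g` in `[0, 1]`
  set S : Set ℝ := Icc 0 1 ∩ g ⁻¹' (Iic 0) with hS
  have hSc : IsCompact S := isCompact_Icc.inter_right (isClosed_Iic.preimage hgc)
  have hSn : S.Nonempty := ⟨0, ⟨le_rfl, zero_le_one⟩, by simp only [hg, mem_preimage, sub_self, mul_zero, mem_Iic, Std.le_refl]⟩
  obtain ⟨a, haS, hau⟩ := hSc.exists_isGreatest hSn
  have ha1 : a < 1 := by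
    refine lt_of_le_of_ne haS.1.2 ?_
    rintro rfl
    have : g 1 ≤ 0 := haS.2
    simp only [hg] at this
    linarith only [hc', hcc', this]
  have hpos : ∀ s ∈ Ioc a 1, 0 < g s := by
    intro s hs
    by_contra hcon
    push Not at hcon
    have : s ∈ S := ⟨⟨haS.1.1.trans hs.1.le, hs.2⟩, hcon⟩
    exact absurd (hau this) (not_le.2 hs.1)
  have hfpos : ∀ s ∈ Ioc a 1, 0 < f s := by
    intro s hs
    have h1 := hpos s hs
    simp only [hg] at h1
    have h2 : 0 ≤ c' * s := mul_nonneg (by linarith only [hc, hcc']) (haS.1.1.trans hs.1.le)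
    have := h0 0
    linarith only [h1, h2, this]
  have hanti : AntitoneOn g (Icc a 1) := by
    have hder : ∀ s ∈ Ioo a 1, HasDerivAt g (f' s - c') s := by
      intro s hs
      have h1 := (hd s (hfpos s ⟨hs.1, hs.2.le⟩)).1
      have h2 : HasDerivAt (fun s : ℝ => c' * s) (c' * 1) s := (hasDerivAt_id s).const_mul c'
      have h3 := (h1.sub_const (f 0)).sub h2
      rw [mul_one] at h3
      exact h3
    refine antitoneOn_of_deriv_nonpos (convex_Icc a 1) hgc.continuousOn ?_ ?_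
    · rw [interior_Icc]
      exact fun s hs => (hder s hs).differentiableAt.differentiableWithinAt
    · rw [interior_Icc]
      intro s hs
      rw [(hder s hs).deriv]
      have := (abs_le.1 (hd s (hfpos s ⟨hs.1, hs.2.le⟩)).2).2
      linarith only [hcc', this]
  have h1 := hanti ⟨le_rfl, ha1.le⟩ ⟨ha1.le, le_rfl⟩ ha1.le
  have h2 : g a ≤ 0 := haS.2
  have h3 := hpos 1 ⟨ha1, le_rfl⟩
  linarith only [hc', hcc', h1, h2]

lemma isOpen_pos {u : E d → ℝ} (hc : Continuous u) : IsOpen {x | 0 < u x} :=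
  isOpen_lt continuous_const hc

/-- `u` is differentiable on `{u > 0}` and its derivative is that of `U` -/
lemma hasFDerivAt_of_pos {u : E d → ℝ} (hc : Continuous u) (hu0 : u 0 = 0)
    {V : Set (E d)} {U : E d → ℝ} (hV : IsOpen V)
    (hcl : closure {x | 0 < u x} \ {0} ⊆ V) (hU : ContDiffOn ℝ ∞ U V)
    (hUu : ∀ x, 0 < u x → U x = u x) {x : E d} (hx : 0 < u x) :
    HasFDerivAt u (fderiv ℝ U x) x := by
  have hx0 : x ≠ 0 := by rintro rfl; rw [hu0] at hx; exact lt_irrefl _ hx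
  have hxV : x ∈ V := hcl ⟨subset_closure hx, hx0⟩
  have h1 : DifferentiableAt ℝ U x :=
    ((hU x hxV).contDiffAt (hV.mem_nhds hxV)).differentiableAt (by simp)
  refine h1.hasFDerivAt.congr_of_eventuallyEq ?_
  filter_upwards [(isOpen_pos hc).mem_nhds hx] with y hy
  exact (hUu y hy).symm

theorem exists_lipschitz (hd : 2 ≤ d) {u : E d → ℝ} (h0 : ∀ x, 0 ≤ u x)
    (hhom : ∀ r : ℝ, 0 < r → ∀ x, u (r • x) = r * u x) (hreg : IsRegularAwayFromZero u) :
    ∃ K : NNReal, LipschitzWith K u := by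
  obtain ⟨hc, V, U, hV, hcl, hU, hUu, -⟩ := hreg
  have hu0 : u 0 = 0 := by
    have := hhom 2 (by norm_num) 0
    rw [smul_zero] at this
    linarith only [this]
  have hder := fun {x : E d} (hx : 0 < u x) => hasFDerivAt_of_pos hc hu0 hV hcl hU hUu hx
  -- bound on the compact annulus
  have hKc : IsCompact (closure {x | 0 < u x} ∩ {x : E d | 1 ≤ ‖x‖ ∧ ‖x‖ ≤ 2}) := by
    refine (isCompact_closedBall (0 : E d) 2).of_isClosed_subset ?_ ?_
    · exact isClosed_closure.inter ((isClosed_le continuous_const continuous_norm).inter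
        (isClosed_le continuous_norm continuous_const))
    · rintro x ⟨_, _, h⟩
      simpa only [mem_closedBall, dist_zero_right] using h
  have hKV : (closure {x | 0 < u x} ∩ {x : E d | 1 ≤ ‖x‖ ∧ ‖x‖ ≤ 2}) ⊆ V := by
    rintro x ⟨h1, h2, _⟩
    refine hcl ⟨h1, ?_⟩
    rintro rfl
    simp only [norm_zero] at h2
    linarith only [h2]
  have hcont : ContinuousOn (fderiv ℝ U) V := hU.continuousOn_fderiv_of_isOpen hV (by simp only [WithTop.one_le_coe, le_top])
  obtain ⟨L, hL⟩ := hKc.exists_bound_of_continuousOn (hcont.mono hKV)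
  -- homogeneity of the derivative
  have hbound : ∀ x, 0 < u x → ‖fderiv ℝ U x‖ ≤ L := by
    intro x hx
    have hx0 : x ≠ 0 := by rintro rfl; rw [hu0] at hx; exact lt_irrefl _ hx
    have hn : 0 < ‖x‖ := norm_pos_iff.2 hx0
    obtain ⟨r, hr⟩ : ∃ r, r = ‖x‖⁻¹ := ⟨_, rfl⟩
    have hr0 : 0 < r := by rw [hr]; (clear * - hx0; positivity)
    have hux : 0 < u (r • x) := by rw [hhom r hr0]; (clear * - hr0 hx; positivity)
    have h1 := hder hux
    have h2 : HasFDerivAt (fun y : E d => r • y) (r • ContinuousLinearMap.id ℝ (E d)) x :=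
      (hasFDerivAt_id x).const_smul r
    have h3 := HasFDerivAt.comp x h1 h2
    have h4 : HasFDerivAt (fun y => r * u y) (r • fderiv ℝ U x) x := (hder hx).const_mul r
    have h5 : (u ∘ fun y : E d => r • y) = fun y => r * u y := by
      funext y; exact hhom r hr0 y
    rw [h5] at h3
    have h6 := h3.unique h4
    have h7 : fderiv ℝ U (r • x) = fderiv ℝ U x := by
      ext v
      have := congrArg (fun L : E d →L[ℝ] ℝ => L v) h6
      simp only [ContinuousLinearMap.comp_smul, ContinuousLinearMap.comp_id, ContinuousLinearMap.smul_apply, smul_eq_mul] at this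
      exact mul_left_cancel₀ hr0.ne' this
    rw [← h7]
    refine hL _ ⟨subset_closure hux, ?_⟩
    have : ‖r • x‖ = 1 := by
      rw [norm_smul, Real.norm_of_nonneg hr0.le, hr]; field_simp
    simp only [this, mem_setOf_eq]
    norm_num
  have hL0 : 0 ≤ max L 0 := le_max_right _ _
  have key : ∀ x y : E d, u y ≤ u x + max L 0 * ‖y - x‖ := by
    intro x y
    have h1 := oneD_le (f := fun s : ℝ => u (x + s • (y - x)))
      (f' := fun s => fderiv ℝ U (x + s • (y - x)) (y - x)) (c := max L 0 * ‖y - x‖)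
      (by (clear * -; positivity)) (by fun_prop) (fun s => h0 _) (fun s hs => by
        constructor
        · have e1 : HasDerivAt (fun s : ℝ => x + s • (y - x)) (y - x) s := by
            have := ((hasDerivAt_id s).smul_const (y - x)).const_add x
            simpa using this
          exact (hder hs).comp_hasDerivAt s e1
        · have := (fderiv ℝ U (x + s • (y - x))).le_opNorm (y - x)
          rw [Real.norm_eq_abs] at this
          refine this.trans ?_
          have h2 := (hbound _ hs).trans (le_max_left L 0)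
          (clear * - h2; gcongr))
    simpa only [ge_iff_le, one_smul, add_sub_cancel, zero_smul, add_zero] using h1
  refine ⟨(max L 0).toNNReal, LipschitzWith.of_dist_le_mul fun x y => ?_⟩
  rw [Real.coe_toNNReal _ hL0, Real.dist_eq, dist_eq_norm, abs_le]
  have h1 := key x y
  have h2 := key y x
  rw [norm_sub_rev] at h1
  constructor <;> linarith only [h1, h2]

end Vale.Agent.P098
end

section

open MeasureTheory Set Metric Filter
open scoped ContDiff RealInnerProductSpace Topology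

namespace Vale.Agent.P098

variable {d : ℕ}

/-- a nonzero vector in the kernel -/
lemma exists_ne_zero_ker (hd : 2 ≤ d) (L : E d →L[ℝ] ℝ) : ∃ x : E d, x ≠ 0 ∧ L x = 0 := by
  have h1 : LinearMap.ker (L : E d →ₗ[ℝ] ℝ) ≠ ⊥ := by
    apply LinearMap.ker_ne_bot_of_finrank_lt
    rw [Module.finrank_self, finrank_euclideanSpace_fin]
    omega
  obtain ⟨x, hx, hx0⟩ := Submodule.exists_mem_ne_zero_of_ne_bot h1
  exact ⟨x, hx0, by simpa only [LinearMap.mem_ker, ContinuousLinearMap.coe_coe] using hx⟩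

/-- Euler's identity -/
lemma euler_of_pos {u : E d → ℝ} (hhom : ∀ r : ℝ, 0 < r → ∀ x, u (r • x) = r * u x)
    {x : E d} {L : E d →L[ℝ] ℝ} (h : HasFDerivAt u L x) : L x = u x := by
  have e1 : HasDerivAt (fun s : ℝ => s • x) x 1 := by
    simpa only [id_eq, one_smul] using (hasDerivAt_id (1 : ℝ)).smul_const x
  have h' : HasFDerivAt u L ((1 : ℝ) • x) := by rwa [one_smul]
  have e2 : HasDerivAt (fun s : ℝ => u (s • x)) (L x) 1 := h'.comp_hasDerivAt 1 e1
  have e3 : HasDerivAt (fun s : ℝ => s * u x) (u x) 1 := by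
    simpa using (hasDerivAt_id (1 : ℝ)).mul_const (u x)
  have e4 : (fun s : ℝ => u (s • x)) =ᶠ[𝓝 1] fun s : ℝ => s * u x := by
    filter_upwards [lt_mem_nhds (zero_lt_one : (0 : ℝ) < 1)] with s hs
    exact hhom s hs x
  exact e2.unique (e3.congr_of_eventuallyEq e4)

theorem rigidity (hd : 2 ≤ d) {u : E d → ℝ} (hc : Continuous u) (h0 : ∀ x, 0 ≤ u x)
    (hhom : ∀ r : ℝ, 0 < r → ∀ x, u (r • x) = r * u x)
    (hreg : IsRegularAwayFromZero u)
    (hD2 : ∀ x, 0 < u x → fderiv ℝ (fderiv ℝ u) x = 0) :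
    (∀ x, u x = 0) ∨ ∃ e : E d, ‖e‖ = 1 ∧ ∀ x, u x = max ⟪x, e⟫ 0 := by
  by_cases hz : ∀ x, u x = 0
  · exact Or.inl hz
  right
  push Not at hz
  obtain ⟨x0, hx0⟩ := hz
  have hx0 : 0 < u x0 := lt_of_le_of_ne (h0 x0) (Ne.symm hx0)
  obtain ⟨-, V, U, hV, hcl, hU, hUu, hfb⟩ := hreg
  have hu0 : u 0 = 0 := by
    have := hhom 2 (by norm_num) 0
    rw [smul_zero] at this
    linarith only [this]
  have hΩ := isOpen_pos hc
  have hder : ∀ {x : E d}, 0 < u x → HasFDerivAt u (fderiv ℝ U x) x :=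
    fun {x} hx => hasFDerivAt_of_pos hc hu0 hV hcl hU hUu hx
  have hne : ∀ {x : E d}, 0 < u x → x ≠ 0 := by
    rintro x hx rfl
    rw [hu0] at hx
    exact lt_irrefl _ hx
  have hΩV : {x | 0 < u x} ⊆ V := fun x hx => hcl ⟨subset_closure hx, hne hx⟩
  have hfd : ∀ x, 0 < u x → fderiv ℝ u x = fderiv ℝ U x := fun x hx => (hder hx).fderiv
  -- smoothness of `fderiv U` on `V`
  have hcV : ContinuousOn (fderiv ℝ U) V := hU.continuousOn_fderiv_of_isOpen hV (by simp only [WithTop.one_le_coe, le_top])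
  have hdV : DifferentiableOn ℝ (fderiv ℝ U) V := by
    have : ContDiffOn ℝ 1 (fderiv ℝ U) V := hU.fderiv_of_isOpen hV (by
      rw [one_add_one_eq_two]
      exact WithTop.coe_le_coe.2 le_top)
    exact this.differentiableOn (by simp)
  have hdu : ∀ x, 0 < u x → HasFDerivAt (fderiv ℝ u) (0 : E d →L[ℝ] (E d →L[ℝ] ℝ)) x := by
    intro x hx
    have h1 : DifferentiableAt ℝ (fderiv ℝ U) x :=
      (hdV x (hΩV hx)).differentiableAt (hV.mem_nhds (hΩV hx))
    have h2 : fderiv ℝ u =ᶠ[𝓝 x] fderiv ℝ U := by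
      filter_upwards [hΩ.mem_nhds hx] with y hy
      exact hfd y hy
    have h3 : DifferentiableAt ℝ (fderiv ℝ u) x := h2.differentiableAt_iff.2 h1
    have := h3.hasFDerivAt
    rwa [hD2 x hx] at this
  -- the half-space of a gradient
  have half : ∀ y, 0 < u y → ∀ x, 0 < fderiv ℝ u y x → 0 < u x ∧ fderiv ℝ u x = fderiv ℝ u y := by
    intro y hy x hx
    obtain ⟨L, hL⟩ : ∃ L, L = fderiv ℝ u y := ⟨_, rfl⟩
    rw [← hL] at hx ⊢
    have hPo : IsOpen {x | 0 < L x} := isOpen_lt continuous_const L.continuous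
    have hPc : IsPreconnected {x | 0 < L x} := by
      apply Convex.isPreconnected
      exact convex_halfSpace_gt (f := (L : E d → ℝ)) L.isBoundedLinearMap.toIsLinearMap 0
    set A : Set (E d) := {x | 0 < u x ∧ fderiv ℝ u x = L} with hA
    have hAo : IsOpen A := by
      rw [isOpen_iff_mem_nhds]
      rintro z ⟨hz, hzL⟩
      obtain ⟨ρ, hρ, hball⟩ := Metric.isOpen_iff.1 hΩ z hz
      refine Filter.mem_of_superset (ball_mem_nhds z hρ) fun w hw => ⟨hball hw, ?_⟩
      rw [← hzL]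
      have hconv : Convex ℝ (ball z ρ) := convex_ball z ρ
      exact hconv.is_const_of_fderivWithin_eq_zero (𝕜 := ℝ)
        (fun v hv => (hdu v (hball hv)).differentiableAt.differentiableWithinAt)
        (fun v hv => by
          rw [fderivWithin_of_isOpen isOpen_ball hv]
          exact hD2 v (hball hv)) hw (mem_ball_self hρ)
    have hyA : y ∈ A := ⟨hy, hL.symm⟩
    have hyP : y ∈ {x | 0 < L x} := by
      have := euler_of_pos hhom (hder hy)
      rw [← hfd y hy, ← hL] at this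
      change 0 < L y
      rw [this]
      exact hy
    -- closure of `A` inside the half-space
    have hAcl : closure A ∩ {x | 0 < L x} ⊆ A := by
      rintro z ⟨hz, hzP⟩
      have e1 : ∀ w ∈ A, u w = L w := by
        intro w hw
        have := euler_of_pos hhom (hder hw.1)
        rw [← hfd w hw.1, hw.2] at this
        exact this.symm
      have e2 : u z = L z := by
        have hcl2 : closure A ⊆ {w | u w = L w} :=
          closure_minimal e1 (isClosed_eq hc L.continuous)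
        exact hcl2 hz
      have e3 : 0 < u z := by rw [e2]; exact hzP
      refine ⟨e3, ?_⟩
      obtain ⟨s, hs, hsz⟩ := mem_closure_iff_seq_limit.1 hz
      have hcont : ContinuousAt (fderiv ℝ u) z := (hdu z e3).continuousAt
      have e4 : Tendsto (fun n => fderiv ℝ u (s n)) atTop (𝓝 (fderiv ℝ u z)) :=
        hcont.tendsto.comp hsz
      have e5 : (fun n => fderiv ℝ u (s n)) = fun _ => L := by
        funext n; exact (hs n).2
      rw [e5] at e4
      exact tendsto_nhds_unique e4 tendsto_const_nhds |>.symm ▸ rfl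
    have hsub : {x | 0 < L x} ⊆ A :=
      hPc.subset_of_closure_inter_subset hAo ⟨y, hyP, hyA⟩ hAcl
    exact hsub hx
  obtain ⟨L, hL⟩ : ∃ L, L = fderiv ℝ u x0 := ⟨_, rfl⟩
  have eul : ∀ x, 0 < u x → fderiv ℝ u x x = u x := by
    intro x hx
    have := euler_of_pos hhom (hder hx)
    rwa [← hfd x hx] at this
  -- value of `fderiv U` at the limit points of a half-space
  have lim : ∀ y, 0 < u y → ∀ x, x ≠ 0 → fderiv ℝ u y x = 0 →
      x ∈ closure {z | 0 < u z} ∧ fderiv ℝ U x = fderiv ℝ u y := by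
    intro y hy x hx hxy
    have hs : Tendsto (fun n : ℕ => x + (1 / ((n : ℝ) + 1)) • y) atTop (𝓝 x) := by
      have h1 : Tendsto (fun n : ℕ => (1 / ((n : ℝ) + 1)) • y) atTop (𝓝 ((0 : ℝ) • y)) :=
        tendsto_one_div_add_atTop_nhds_zero_nat.smul_const y
      rw [zero_smul] at h1
      simpa only [one_div, add_zero] using h1.const_add x
    have hpos : ∀ n : ℕ, 0 < fderiv ℝ u y (x + (1 / ((n : ℝ) + 1)) • y) := by
      intro n
      rw [map_add, map_smul, hxy, zero_add, eul y hy, smul_eq_mul]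
      (clear * - hy; positivity)
    have hmem : ∀ n : ℕ, x + (1 / ((n : ℝ) + 1)) • y ∈ {z | 0 < u z} := fun n =>
      (half y hy _ (hpos n)).1
    have hxcl : x ∈ closure {z | 0 < u z} := mem_closure_of_tendsto hs (Eventually.of_forall hmem)
    refine ⟨hxcl, ?_⟩
    have hxV : x ∈ V := hcl ⟨hxcl, hx⟩
    have hcont : ContinuousAt (fderiv ℝ U) x := hcV.continuousAt (hV.mem_nhds hxV)
    have e4 := hcont.tendsto.comp hs
    have e5 : (fderiv ℝ U ∘ fun n : ℕ => x + (1 / ((n : ℝ) + 1)) • y) = fun _ => fderiv ℝ u y := by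
      funext n
      simp only [Function.comp_apply]
      rw [← hfd _ (hmem n)]
      exact (half y hy _ (hpos n)).2
    rw [e5] at e4
    exact tendsto_nhds_unique tendsto_const_nhds e4 |>.symm
  -- uniqueness of the gradient
  have uniq : ∀ x1, 0 < u x1 → fderiv ℝ u x1 = L := by
    intro x1 hx1
    by_contra hcon
    obtain ⟨x, hx, hLx⟩ := exists_ne_zero_ker hd L
    obtain ⟨L1, hL1⟩ : ∃ L1, L1 = fderiv ℝ u x1 := ⟨_, rfl⟩
    rw [← hL1] at hcon
    have hdisj : ∀ z, 0 < L z → L1 z ≤ 0 := by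
      intro z hz
      by_contra hzz
      push Not at hzz
      have e1 := (half x0 hx0 z (by rw [← hL]; exact hz)).2
      have e2 := (half x1 hx1 z (by rw [← hL1]; exact hzz)).2
      rw [← hL] at e1
      rw [← hL1] at e2
      exact hcon (e2.symm.trans e1)
    have hLx0 : 0 < L x0 := by rw [hL, eul x0 hx0]; exact hx0
    have key : ∀ z, L z = 0 → L1 z ≤ 0 := by
      intro z hz
      by_contra hzz
      push Not at hzz
      have e1 := hdisj x0 hLx0
      -- choose a small multiple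
      have e2 := hdisj (z + (L1 z / (2 * (1 - L1 x0))) • x0) (by
        rw [map_add, map_smul, hz, zero_add, smul_eq_mul]
        have : 0 < 1 - L1 x0 := by linarith only [e1]
        (clear * - hzz this hLx0; (clear * - hzz this hLx0; positivity)))
      rw [map_add, map_smul, smul_eq_mul] at e2
      have h3 : 0 < 1 - L1 x0 := by linarith only [e1]
      have h4 : L1 z / (2 * (1 - L1 x0)) * L1 x0 = L1 z * (L1 x0 / (2 * (1 - L1 x0))) := by
        ring
      have h5 : -(1 / 2) ≤ L1 x0 / (2 * (1 - L1 x0)) := by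
        rw [le_div_iff₀ (by (clear * - h3; positivity))]
        linarith only []
      nlinarith only [hzz, e2, h4, h5]
    have hL1x : L1 x = 0 := by
      have h1 := key x hLx
      have h2 := key (-x) (by rw [map_neg, hLx, neg_zero])
      rw [map_neg] at h2
      linarith only [h2, h1]
    have e1 := (lim x0 hx0 x hx (by rw [← hL]; exact hLx)).2
    have e2 := (lim x1 hx1 x hx (by rw [← hL1]; exact hL1x)).2
    rw [← hL] at e1
    rw [← hL1] at e2
    exact hcon (e2.symm.trans e1)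
  have hLu : ∀ x, 0 < u x → u x = L x := by
    intro x hx
    rw [← uniq x hx, eul x hx]
  have hLpos : ∀ x, 0 < L x → 0 < u x := fun x hx => (half x0 hx0 x (by rw [← hL]; exact hx)).1
  refine ⟨(InnerProductSpace.toDual ℝ (E d)).symm L, ?_, ?_⟩
  · obtain ⟨x, hx, hLx⟩ := exists_ne_zero_ker hd L
    obtain ⟨h1, h2⟩ := lim x0 hx0 x hx (by rw [← hL]; exact hLx)
    have h3 : ¬ 0 < u x := by
      intro h
      have := hLu x h
      rw [hLx] at this
      linarith only [h, this]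
    have h4 : x ∈ frontier {z | 0 < u z} := by
      rw [hΩ.frontier_eq]
      exact ⟨h1, h3⟩
    have h5 := hfb x h4 hx
    rw [gradient, h2, ← hL] at h5
    exact h5
  · intro x
    have h1 : ⟪x, (InnerProductSpace.toDual ℝ (E d)).symm L⟫ = L x := by
      rw [real_inner_comm, InnerProductSpace.toDual_symm_apply]
    rw [h1]
    by_cases hx : 0 < u x
    · rw [max_eq_left]
      · exact hLu x hx
      · rw [← hLu x hx]; exact hx.le
    · have h2 : u x = 0 := le_antisymm (not_lt.1 hx) (h0 x)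
      have h3 : L x ≤ 0 := by
        by_contra hcon
        exact hx (hLpos x (not_le.1 hcon))
      rw [h2, max_eq_right h3]

end Vale.Agent.P098
end

section

/-! # M6: inner variations

Let `ξ` be a `C¹` vector field with compact support, `Φ_t = id + t ξ`; for small `|t|` it is a
bi-Lipschitz `C¹` diffeomorphism of `E d` equal to `id` off a compact set. `v_t = u ∘ Φ_t⁻¹` is a
Lipschitz competitor, and with `y = Φ_t x` (change of variables
`integral_image_eq_integral_abs_det_fderiv_smul`)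
`∫ (|∇v_t|² - |∇u|²) + (χ_{v_t>0} - χ_{u>0})
 = ∫ [ |∇u(x) (DΦ_t(x))⁻¹|² + χ_{u>0}(x) ] det DΦ_t(x) - |∇u(x)|² - χ_{u>0}(x) dx =: F(t)`
(everything supported in `supp ξ`). `F(t) ≥ 0 = F(0)` for small `|t|` (both signs), and
`F'(0) = ∫ (|∇u|² + χ) div ξ - 2 ∇u(Dξ ∇u)` by dominated convergence
(`(I + tDξ)⁻¹ = I - tDξ + O(t²)`, `det(I + tDξ) = 1 + t div ξ + O(t²)` uniformly). So `F'(0) = 0`.
Here `fderiv ℝ u x (fderiv ℝ ξ x (gradient u x))` is `∇u·(Dξ ∇u)`. -/

open MeasureTheory Set Metric Filter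
open scoped ContDiff RealInnerProductSpace Topology NNReal

namespace Vale.Agent.P098

variable {d : ℕ}

lemma rM6_poly (T : ℝ) (P : Polynomial ℝ) :
    HasDerivAt (fun t => 1 + T * t + P.eval t * t ^ 2) T 0 := by
  have h1 : HasDerivAt (fun t : ℝ => 1 + T * t) T 0 := by
    simpa using ((hasDerivAt_id (0 : ℝ)).const_mul T).const_add 1
  have h2 : HasDerivAt (fun t : ℝ => P.eval t * t ^ 2)
      (P.derivative.eval 0 * 0 ^ 2 + P.eval 0 * (2 * 0)) 0 :=
    (P.hasDerivAt 0).mul (by simpa only [mul_zero, Nat.cast_ofNat, Nat.add_one_sub_one, pow_one] using hasDerivAt_pow 2 (0 : ℝ))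
  exact (h1.add h2).congr_deriv (by ring)

/-- First order expansion of the determinant at the identity. -/
lemma rM6_det (d : ℕ) {ε : ℝ} (hε : 0 < ε) : ∃ δ : ℝ, 0 < δ ∧ ∀ M : E d →L[ℝ] E d, ‖M‖ ≤ δ →
    |(ContinuousLinearMap.id ℝ (E d) + M).det - 1 - ∑ i, (M (ee i)) i| ≤ ε * ‖M‖ := by
  set toM : (E d →L[ℝ] E d) → Matrix (Fin d) (Fin d) ℝ := fun M => Matrix.of fun i j => (M (ee j)) i with htoM
  set g : (E d →L[ℝ] E d) → ℝ := fun M => (1 + toM M).det with hg
  have hdet : ∀ M : E d →L[ℝ] E d, (ContinuousLinearMap.id ℝ (E d) + M).det = g M := by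
    intro M
    have h1 : (ContinuousLinearMap.id ℝ (E d) + M).det
        = LinearMap.det ((ContinuousLinearMap.id ℝ (E d) + M : E d →L[ℝ] E d) : E d →ₗ[ℝ] E d) := rfl
    rw [h1, ← LinearMap.det_toMatrix (EuclideanSpace.basisFun (Fin d) ℝ).toBasis]
    congr 1
    ext i j
    rw [LinearMap.toMatrix_apply]
    simp [htoM, Matrix.one_apply]
  have hentry : ∀ i j, ContDiff ℝ 1 (fun M : E d →L[ℝ] E d => toM M i j) := by
    intro i j
    have : (fun M : E d →L[ℝ] E d => toM M i j)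
        = fun M => (EuclideanSpace.proj i : E d →L[ℝ] ℝ) (M (ee j)) := by
      ext M; simp only [htoM, Matrix.of_apply, PiLp.proj_apply]
    rw [this]
    (clear * -; fun_prop)
  have hgd : ContDiff ℝ 1 g := by
    have : g = fun M => ∑ σ : Equiv.Perm (Fin d), Equiv.Perm.sign σ • ∏ i, (1 + toM M) (σ i) i := by
      ext M; simp only [hg]; rw [Matrix.det_apply]
    rw [this]
    apply ContDiff.sum
    intro σ _
    have h2 : ContDiff ℝ 1 (fun M : E d →L[ℝ] E d => ∏ i, (1 + toM M) (σ i) i) := by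
      apply contDiff_prod
      intro i _
      have : (fun M : E d →L[ℝ] E d => (1 + toM M) (σ i) i)
          = fun M => (1 : Matrix (Fin d) (Fin d) ℝ) (σ i) i + toM M (σ i) i := by
        ext M; simp [Matrix.add_apply]
      rw [this]
      exact contDiff_const.add (hentry _ _)
    exact h2.const_smul _
  have hdiff : DifferentiableAt ℝ g 0 := (hgd.differentiable (by norm_num)) 0
  have hg0 : g 0 = 1 := by
    have : toM 0 = 0 := by ext i j; simp only [htoM, Matrix.of_apply, zero_apply, PiLp.zero_apply, Matrix.zero_apply]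
    simp only [hg, this, add_zero, Matrix.det_one]
  have hfd : ∀ M : E d →L[ℝ] E d, fderiv ℝ g 0 M = ∑ i, (M (ee i)) i := by
    intro M
    have h3 : HasDerivAt (fun t : ℝ => g (t • M)) (fderiv ℝ g 0 M) 0 := by
      have h4 : HasDerivAt (fun t : ℝ => t • M) M 0 := by
        simpa using (hasDerivAt_id (0 : ℝ)).smul_const M
      have h5 : HasFDerivAt g (fderiv ℝ g 0) ((fun t : ℝ => t • M) 0) := by
        have h0 : (fun t : ℝ => t • M) 0 = 0 := by ext1 y; simp
        rw [h0]; exact hdiff.hasFDerivAt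
      exact h5.comp_hasDerivAt (0 : ℝ) h4
    have h6 : HasDerivAt (fun t : ℝ => g (t • M)) (∑ i, (M (ee i)) i) 0 := by
      have h7 : (fun t : ℝ => g (t • M)) = fun t => 1 + (toM M).trace * t +
          (Matrix.det (1 + (Polynomial.X : Polynomial ℝ) • (toM M).map Polynomial.C)).divX.divX.eval t
            * t ^ 2 := by
        ext t
        have h8 : toM (t • M) = t • toM M := by ext i j; simp only [htoM, Matrix.of_apply, smul_apply, PiLp.smul_apply, smul_eq_mul, Matrix.smul_apply]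
        simp only [hg, h8]
        exact Matrix.det_one_add_smul t (toM M)
      rw [h7]
      have h9 : (toM M).trace = ∑ i, (M (ee i)) i := by simp only [Matrix.trace, htoM, Matrix.diag_apply, Matrix.of_apply]
      rw [← h9]
      exact rM6_poly _ _
    exact h3.unique h6
  have hlo := hdiff.hasFDerivAt.isLittleO
  have hev := hlo.bound hε
  rw [Metric.eventually_nhds_iff_ball] at hev
  obtain ⟨δ, hδ, hb⟩ := hev
  refine ⟨δ / 2, by (clear * - hδ; positivity), fun M hM => ?_⟩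
  have := hb M (by rw [mem_ball_zero_iff]; linarith)
  rw [sub_zero, hfd, hg0, Real.norm_eq_abs] at this
  rw [hdet]
  exact this

/-- Second order expansion of the pulled back gradient. -/
lemma rM6_grad {a b : E d} {M : E d →L[ℝ] E d} (hM : ‖M‖ ≤ 1 / 2)
    (h : ∀ y, ⟪b, y + M y⟫ = ⟪a, y⟫) :
    |‖b‖ ^ 2 - (‖a‖ ^ 2 - 2 * ⟪a, M a⟫)| ≤ 8 * ‖a‖ ^ 2 * ‖M‖ ^ 2 ∧ ‖b‖ ≤ 2 * ‖a‖ := by
  set r := b - a with hr
  have hb : b = a + r := by rw [hr]; abel
  have h1 : ∀ y, ⟪r, y⟫ = - ⟪b, M y⟫ := by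
    intro y
    have := h y
    rw [inner_add_right] at this
    rw [hr, inner_sub_left]; linarith only [this]
  have hr1 : ‖r‖ ≤ ‖b‖ * ‖M‖ := by
    by_cases h0 : ‖r‖ = 0
    · rw [h0]; (clear * -; positivity)
    · have h2 : ‖r‖ * ‖r‖ ≤ (‖b‖ * ‖M‖) * ‖r‖ := by
        rw [← real_inner_self_eq_norm_mul_norm, h1 r]
        calc - ⟪b, M r⟫ ≤ ‖b‖ * ‖M r‖ := by
              have := abs_real_inner_le_norm b (M r)
              linarith only [this, neg_abs_le (⟪b, M r⟫ : ℝ)]
          _ ≤ ‖b‖ * (‖M‖ * ‖r‖) := by gcongr; exact M.le_opNorm r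
          _ = (‖b‖ * ‖M‖) * ‖r‖ := by ring
      have h3 : 0 < ‖r‖ := lt_of_le_of_ne (norm_nonneg _) (Ne.symm h0)
      exact le_of_mul_le_mul_right h2 h3
  have hb2 : ‖b‖ ≤ 2 * ‖a‖ := by
    have h4 : ‖b‖ ≤ ‖a‖ + ‖r‖ := by rw [hb]; exact norm_add_le _ _
    have h5 : ‖b‖ * ‖M‖ ≤ ‖b‖ * (1 / 2) := by (clear * - hM; gcongr)
    linarith only [hr1, h4, h5]
  refine ⟨?_, hb2⟩
  have hr2 : ‖r‖ ≤ 2 * ‖a‖ * ‖M‖ := hr1.trans (by gcongr)
  have h6 : ‖b‖ ^ 2 - (‖a‖ ^ 2 - 2 * ⟪a, M a⟫) = - (2 * ⟪r, M a⟫) + ‖r‖ ^ 2 := by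
    have h7 : ‖b‖ ^ 2 = ‖a‖ ^ 2 + 2 * ⟪a, r⟫ + ‖r‖ ^ 2 := by
      rw [hb, norm_add_sq_real]
    have h8 : ⟪a, r⟫ = - ⟪a, M a⟫ - ⟪r, M a⟫ := by
      rw [real_inner_comm, h1 a, hb, inner_add_left]; ring
    rw [h7, h8]; ring
  rw [h6]
  have h9 : |⟪r, M a⟫| ≤ ‖r‖ * (‖M‖ * ‖a‖) :=
    (abs_real_inner_le_norm _ _).trans (by gcongr; exact M.le_opNorm a)
  calc |-(2 * ⟪r, M a⟫) + ‖r‖ ^ 2| ≤ |-(2 * ⟪r, M a⟫)| + |‖r‖ ^ 2| := abs_add_le _ _
    _ = 2 * |⟪r, M a⟫| + ‖r‖ ^ 2 := by
        rw [abs_neg, abs_mul, abs_of_pos (by norm_num : (0:ℝ) < 2), abs_of_nonneg (sq_nonneg ‖r‖)]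
    _ ≤ 2 * (‖r‖ * (‖M‖ * ‖a‖)) + ‖r‖ ^ 2 := by linarith only [h9]
    _ ≤ 2 * ((2 * ‖a‖ * ‖M‖) * (‖M‖ * ‖a‖)) + (2 * ‖a‖ * ‖M‖) ^ 2 := by (clear * - hr2; gcongr)
    _ = 8 * ‖a‖ ^ 2 * ‖M‖ ^ 2 := by ring

lemma rM6_real {L K D s ε m χ a2 β X Y τ : ℝ} (hK : 0 ≤ K) (hD : 0 ≤ D)
    (hs : 0 ≤ s) (hs1 : s * (K * (D + 1)) ≤ 1 / 2) (hε : 0 ≤ ε) (hε1 : ε ≤ 1) (hm : 0 ≤ m)
    (hm1 : m ≤ s * K) (hχ : 0 ≤ χ) (hχ1 : χ ≤ 1) (ha : 0 ≤ a2) (ha2 : a2 ≤ L ^ 2)
    (hβ : |β| ≤ L ^ 2 * m) (hX : |X - (a2 - 2 * β)| ≤ 8 * a2 * m ^ 2)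
    (hY : |Y - 1 - τ| ≤ ε * m) (hτ : |τ| ≤ D * (s * K)) :
    |Y| * (X + χ) - (a2 + χ) ≤ (a2 + χ) * τ - 2 * β +
      ((L ^ 2 + 1) * K + 2 * L ^ 2 * K ^ 2 * (D + 1) + 16 * L ^ 2 * K ^ 2) * (s * (s + ε)) := by
  have hsK : 0 ≤ s * K := mul_nonneg hs hK
  have hem : ε * m ≤ s * K := by
    calc ε * m ≤ 1 * m := by gcongr
      _ ≤ s * K := by linarith only [hm1]
  have hY1 := abs_le.1 hY
  have hτ1 := abs_le.1 hτ
  have hY0 : 0 ≤ Y := by linarith
  have hY2 : Y ≤ 2 := by linarith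
  rw [abs_of_nonneg hY0]
  set e1 := X - (a2 - 2 * β) with he1
  set e2 := Y - 1 - τ with he2
  have hid : Y * (X + χ) - (a2 + χ) = (a2 + χ) * τ - 2 * β + ((a2 + χ) * e2 - 2 * β * (τ + e2)
      + Y * e1) := by
    rw [he1, he2]; ring
  rw [hid]
  have t1 : (a2 + χ) * e2 ≤ (L ^ 2 + 1) * (ε * (s * K)) := by
    calc (a2 + χ) * e2 ≤ (a2 + χ) * (ε * m) := by
          apply mul_le_mul_of_nonneg_left hY1.2 (by linarith only [hχ, ha])
      _ ≤ (L ^ 2 + 1) * (ε * (s * K)) := by (clear * - ha2 hχ1 hm1 hε hm; gcongr)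
  have t2 : - (2 * β * (τ + e2)) ≤ 2 * L ^ 2 * (s * K) * (D * (s * K) + s * K) := by
    have h1 : |τ + e2| ≤ D * (s * K) + s * K := (abs_add_le _ _).trans (by linarith only [hτ, hem, hY])
    calc - (2 * β * (τ + e2)) ≤ |2 * β * (τ + e2)| := neg_le_abs _
      _ = 2 * |β| * |τ + e2| := by rw [abs_mul, abs_mul, abs_two]
      _ ≤ 2 * (L ^ 2 * (s * K)) * (D * (s * K) + s * K) := by
          gcongr
          exact hβ.trans (by (clear * - hm1; gcongr))
      _ = _ := by ring
  have t3 : Y * e1 ≤ 2 * (8 * L ^ 2 * (s * K) ^ 2) := by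
    calc Y * e1 ≤ Y * |e1| := by gcongr; exact le_abs_self _
      _ ≤ 2 * (8 * L ^ 2 * (s * K) ^ 2) := by
          gcongr
          exact hX.trans (by (clear * - ha2 hm hm1; gcongr))
  have hid2 : ((L ^ 2 + 1) * K + 2 * L ^ 2 * K ^ 2 * (D + 1) + 16 * L ^ 2 * K ^ 2) * (s * (s + ε))
      = (L ^ 2 + 1) * (ε * (s * K)) + 2 * L ^ 2 * (s * K) * (D * (s * K) + s * K)
        + 2 * (8 * L ^ 2 * (s * K) ^ 2) + ((L ^ 2 + 1) * K * s ^ 2
        + 2 * L ^ 2 * K ^ 2 * (D + 1) * (s * ε) + 16 * L ^ 2 * K ^ 2 * (s * ε)) := by ring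
  have t4 : 0 ≤ (L ^ 2 + 1) * K * s ^ 2
        + 2 * L ^ 2 * K ^ 2 * (D + 1) * (s * ε) + 16 * L ^ 2 * K ^ 2 * (s * ε) := by (clear * - hK hD hs hε; positivity)
  linarith only [t1, t2, t3, t4]

/-- The perturbation `x + t ξ x` of the identity, as a homeomorphism with Lipschitz inverse. -/
lemma rM6_homeo {ξ : E d → E d} {K : ℝ≥0} (hK : LipschitzWith K ξ) {t : ℝ}
    (ht : |t| * K ≤ 1 / 2) :
    ∃ Ψ : E d ≃ₜ E d, (∀ x, Ψ x = x + t • ξ x) ∧ LipschitzWith 2 Ψ.symm := by
  have hd : ∀ x y, ‖t • ξ x - t • ξ y‖ ≤ 1 / 2 * ‖x - y‖ := by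
    intro x y
    rw [← smul_sub, norm_smul, Real.norm_eq_abs]
    calc |t| * ‖ξ x - ξ y‖ ≤ |t| * (K * ‖x - y‖) := by
          gcongr
          simpa only [dist_eq_norm] using hK.dist_le_mul x y
      _ = (|t| * K) * ‖x - y‖ := by ring
      _ ≤ 1 / 2 * ‖x - y‖ := by gcongr
  have hA : ApproximatesLinearOn (fun x => x + t • ξ x)
      ((ContinuousLinearEquiv.refl ℝ (E d) : E d ≃L[ℝ] E d) : E d →L[ℝ] E d) univ
      (1 / 2 : ℝ≥0) := by
    intro x _ y _
    have : (x + t • ξ x) - (y + t • ξ y) -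
        ((ContinuousLinearEquiv.refl ℝ (E d) : E d ≃L[ℝ] E d) : E d →L[ℝ] E d) (x - y)
        = t • ξ x - t • ξ y := by
      simp only [ContinuousLinearEquiv.coe_coe, ContinuousLinearEquiv.refl_apply]
      abel
    rw [this]
    have h2 : ((1 / 2 : ℝ≥0) : ℝ) = 1 / 2 := by push_cast; ring
    rw [h2]
    exact hd x y
  have hc : Subsingleton (E d) ∨ (1 / 2 : ℝ≥0) <
      ‖(((ContinuousLinearEquiv.refl ℝ (E d)).symm : E d ≃L[ℝ] E d) : E d →L[ℝ] E d)‖₊⁻¹ := by
    rcases subsingleton_or_nontrivial (E d) with h | h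
    · exact Or.inl h
    · right
      have h1 : ‖(((ContinuousLinearEquiv.refl ℝ (E d)).symm : E d ≃L[ℝ] E d) : E d →L[ℝ] E d)‖₊
          = 1 := by
        have : (((ContinuousLinearEquiv.refl ℝ (E d)).symm : E d ≃L[ℝ] E d) : E d →L[ℝ] E d)
            = ContinuousLinearMap.id ℝ (E d) := rfl
        rw [this]
        exact ContinuousLinearMap.nnnorm_id
      rw [h1, inv_one]
      exact NNReal.half_lt_self one_ne_zero
  set Ψ := hA.toHomeomorph _ hc with hΨ
  have hΨx : ∀ x, Ψ x = x + t • ξ x := fun x => rfl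
  refine ⟨Ψ, hΨx, ?_⟩
  apply LipschitzWith.of_dist_le_mul
  intro x y
  have h1 := hd (Ψ.symm x) (Ψ.symm y)
  have h2 : x - y = (Ψ.symm x - Ψ.symm y) + (t • ξ (Ψ.symm x) - t • ξ (Ψ.symm y)) := by
    conv_lhs => rw [← Ψ.apply_symm_apply x, ← Ψ.apply_symm_apply y, hΨx, hΨx]
    abel
  rw [dist_eq_norm, dist_eq_norm]
  have h3 : ‖Ψ.symm x - Ψ.symm y‖ ≤ ‖x - y‖ + ‖t • ξ (Ψ.symm x) - t • ξ (Ψ.symm y)‖ := by
    have : Ψ.symm x - Ψ.symm y = (x - y) - (t • ξ (Ψ.symm x) - t • ξ (Ψ.symm y)) := by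
      rw [h2]; abel
    calc _ = ‖(x - y) - (t • ξ (Ψ.symm x) - t • ξ (Ψ.symm y))‖ := by rw [← this]
      _ ≤ _ := norm_sub_le _ _
  push_cast
  linarith only [h1, h3]

/-- The Bernoulli energy density. -/
noncomputable def rM6_dens (v : E d → ℝ) (x : E d) : ℝ :=
  ‖fderiv ℝ v x‖ ^ 2 + {y | 0 < v y}.indicator (fun _ => (1 : ℝ)) x

lemma rM6_ind_nonneg (v : E d → ℝ) (x : E d) :
    0 ≤ {y | 0 < v y}.indicator (fun _ => (1 : ℝ)) x :=
  indicator_nonneg (fun _ _ => zero_le_one) _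

lemma rM6_ind_le (v : E d → ℝ) (x : E d) :
    {y | 0 < v y}.indicator (fun _ => (1 : ℝ)) x ≤ 1 :=
  indicator_le_self' (fun _ _ => zero_le_one) x

lemma rM6_dens_meas {v : E d → ℝ} (hv : Continuous v) : Measurable (rM6_dens v) := by
  unfold rM6_dens
  exact ((measurable_fderiv ℝ v).norm.pow_const 2).add
    (measurable_const.indicator (measurableSet_lt measurable_const hv.measurable))

lemma rM6_dens_int {v : E d → ℝ} {K : ℝ≥0} (hv : LipschitzWith K v) {S : Set (E d)}
    (hS : volume S ≠ ⊤) : IntegrableOn (rM6_dens v) S volume := by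
  refine Measure.integrableOn_of_bounded (M := (K : ℝ) ^ 2 + 1) hS
    (rM6_dens_meas hv.continuous).aestronglyMeasurable (Eventually.of_forall fun x => ?_)
  have h1 : 0 ≤ rM6_dens v x := add_nonneg (sq_nonneg _) (rM6_ind_nonneg v x)
  rw [Real.norm_eq_abs, abs_of_nonneg h1]
  unfold rM6_dens
  have h2 : ‖fderiv ℝ v x‖ ≤ K := norm_fderiv_le_of_lipschitz ℝ hv
  have h3 := rM6_ind_le v x
  gcongr

/-- The integrand of the inner variation formula. -/
noncomputable def rM6_F (u : E d → ℝ) (ξ : E d → E d) (x : E d) : ℝ :=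
  (‖fderiv ℝ u x‖ ^ 2 + (pos u).indicator (fun _ => (1 : ℝ)) x) * divg ξ x
      - 2 * fderiv ℝ u x (fderiv ℝ ξ x (gradient u x))

lemma rM6_grad_inner (u : E d → ℝ) (x y : E d) : fderiv ℝ u x y = ⟪gradient u x, y⟫ := by
  unfold gradient
  rw [InnerProductSpace.toDual_symm_apply]

lemma rM6_grad_norm (u : E d → ℝ) (x : E d) : ‖gradient u x‖ = ‖fderiv ℝ u x‖ := by
  unfold gradient
  exact LinearIsometryEquiv.norm_map _ _

lemma rM6_F_meas {u : E d → ℝ} (hu : Continuous u) {ξ : E d → E d} (hξ : ContDiff ℝ 1 ξ) :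
    Measurable (rM6_F u ξ) := by
  have h1 : Measurable (gradient u) := by
    unfold gradient
    exact (LinearIsometryEquiv.continuous _).measurable.comp (measurable_fderiv ℝ u)
  have h2 : Continuous (fderiv ℝ ξ) := hξ.continuous_fderiv (by norm_num)
  have h3 : Measurable (divg ξ) := by
    have : Continuous (divg ξ) := by
      unfold divg
      apply continuous_finsetSum
      intro i _
      exact (EuclideanSpace.proj (𝕜 := ℝ) i).continuous.comp (h2.clm_apply continuous_const)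
    exact this.measurable
  have h4 : Measurable (fun x => fderiv ℝ u x (fderiv ℝ ξ x (gradient u x))) := by
    have h5 : (fun x => fderiv ℝ u x (fderiv ℝ ξ x (gradient u x)))
        = fun x => ⟪gradient u x, fderiv ℝ ξ x (gradient u x)⟫ := by
      ext x; rw [rM6_grad_inner]
    rw [h5]
    apply h1.inner
    have h6 : Continuous (fun p : (E d →L[ℝ] E d) × E d => p.1 p.2) :=
      isBoundedBilinearMap_apply.continuous
    exact h6.measurable.comp (h2.measurable.prodMk h1)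
  unfold rM6_F
  exact (((measurable_fderiv ℝ u).norm.pow_const 2).add
    (measurable_const.indicator (measurableSet_lt measurable_const hu.measurable))).mul h3
    |>.sub (h4.const_mul 2)

lemma rM6_div_le {ξ : E d → E d} {K : ℝ≥0} (hK : LipschitzWith K ξ) (x : E d) :
    |divg ξ x| ≤ d * K := by
  unfold divg
  calc |∑ i, fderiv ℝ ξ x (ee i) i| ≤ ∑ i : Fin d, |fderiv ℝ ξ x (ee i) i| :=
        Finset.abs_sum_le_sum_abs _ _
    _ ≤ ∑ i : Fin d, (K : ℝ) := by
        apply Finset.sum_le_sum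
        intro i _
        have h1 : |fderiv ℝ ξ x (ee i) i| ≤ ‖fderiv ℝ ξ x (ee i)‖ := by
          have := PiLp.norm_apply_le (fderiv ℝ ξ x (ee i)) i
          simpa only [ge_iff_le, Real.norm_eq_abs] using this
        have h2 : ‖fderiv ℝ ξ x (ee i)‖ ≤ K * 1 := by
          refine (ContinuousLinearMap.le_opNorm _ _).trans ?_
          gcongr
          · exact norm_fderiv_le_of_lipschitz ℝ hK
          · simp
        linarith only [h1, h2]
    _ = d * K := by simp only [Finset.sum_const, Finset.card_univ, Fintype.card_fin, nsmul_eq_mul]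

lemma rM6_F_int {u : E d → ℝ} {L : ℝ≥0} (hu : LipschitzWith L u) {ξ : E d → E d}
    (hξ : ContDiff ℝ 1 ξ) {K : ℝ≥0} (hK : LipschitzWith K ξ) {S : Set (E d)}
    (hS : volume S ≠ ⊤) : IntegrableOn (rM6_F u ξ) S volume := by
  refine Measure.integrableOn_of_bounded (M := ((L : ℝ) ^ 2 + 1) * (d * K) + 2 * (L * (K * L))) hS
    (rM6_F_meas hu.continuous hξ).aestronglyMeasurable (Eventually.of_forall fun x => ?_)
  have h1 : ‖fderiv ℝ u x‖ ≤ L := norm_fderiv_le_of_lipschitz ℝ hu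
  have h2 : ‖fderiv ℝ ξ x‖ ≤ K := norm_fderiv_le_of_lipschitz ℝ hK
  have h3 : ‖gradient u x‖ ≤ L := by rw [rM6_grad_norm]; exact h1
  rw [Real.norm_eq_abs]
  unfold rM6_F
  have h4 : |(‖fderiv ℝ u x‖ ^ 2 + (pos u).indicator (fun _ => (1 : ℝ)) x) * divg ξ x|
      ≤ ((L : ℝ) ^ 2 + 1) * (d * K) := by
    rw [abs_mul]
    have h5 : |‖fderiv ℝ u x‖ ^ 2 + (pos u).indicator (fun _ => (1 : ℝ)) x| ≤ (L : ℝ) ^ 2 + 1 := by
      rw [abs_of_nonneg (add_nonneg (sq_nonneg _) (rM6_ind_nonneg u x))]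
      have h3 := rM6_ind_le u x
      (clear * - h1 h3; gcongr)
    exact mul_le_mul h5 (rM6_div_le hK x) (abs_nonneg _) (by (clear * -; positivity))
  have h6 : |2 * fderiv ℝ u x (fderiv ℝ ξ x (gradient u x))| ≤ 2 * (L * (K * L)) := by
    rw [abs_mul, abs_two]
    gcongr
    rw [← Real.norm_eq_abs]
    refine (ContinuousLinearMap.le_opNorm _ _).trans ?_
    gcongr
    refine (ContinuousLinearMap.le_opNorm _ _).trans ?_
    (clear * - h2 h3; gcongr)
  exact (abs_sub _ _).trans (add_le_add h4 h6)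

/-- Differentiability of the competitor and the pulled back gradient. -/
lemma rM6_pull {u : E d → ℝ} {ξ : E d → E d} (hξ : ContDiff ℝ 1 ξ) {K : ℝ≥0}
    (hK : LipschitzWith K ξ) {t : ℝ} (ht : |t| * K ≤ 1 / 2) (Ψ : E d ≃ₜ E d)
    (hΨ : ∀ x, Ψ x = x + t • ξ x) {x : E d} (hx : DifferentiableAt ℝ u x) (y : E d) :
    fderiv ℝ (u ∘ Ψ.symm) (Ψ x) (y + (t • fderiv ℝ ξ x) y) = fderiv ℝ u x y := by
  set M : E d →L[ℝ] E d := t • fderiv ℝ ξ x with hM
  have hMn : ‖M‖ ≤ 1 / 2 := by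
    rw [hM, norm_smul, Real.norm_eq_abs]
    refine le_trans ?_ ht
    gcongr
    exact norm_fderiv_le_of_lipschitz ℝ hK
  have hlt : ‖-M‖ < 1 := by rw [norm_neg]; linarith only [hMn]
  set e : E d ≃L[ℝ] E d := ContinuousLinearEquiv.unitsEquiv ℝ (E d) (Units.oneSub (-M) hlt) with he
  have hex : ∀ z, e z = z + M z := by
    intro z
    rw [he, ContinuousLinearEquiv.unitsEquiv_apply]
    simp only [Units.oneSub, sub_neg_eq_add, add_apply, one_apply_eq_self]
  have hec : (e : E d →L[ℝ] E d) = ContinuousLinearMap.id ℝ (E d) + M := by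
    ext z i
    simp only [ContinuousLinearEquiv.coe_coe, hex, PiLp.add_apply, add_apply, ContinuousLinearMap.id_apply]
  have hd : HasFDerivAt Ψ (e : E d →L[ℝ] E d) x := by
    have h1 : (Ψ : E d → E d) = fun x => x + t • ξ x := funext hΨ
    rw [h1, hec, hM]
    exact (hasFDerivAt_id x).add (((hξ.differentiable (by norm_num)) x).hasFDerivAt.const_smul t)
  have hs : HasFDerivAt Ψ.symm (e.symm : E d →L[ℝ] E d) (Ψ x) := by
    apply HasFDerivAt.of_local_left_inverse Ψ.symm.continuous.continuousAt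
    · rw [Ψ.symm_apply_apply]; exact hd
    · exact Eventually.of_forall fun z => Ψ.apply_symm_apply z
  have hv : HasFDerivAt (u ∘ Ψ.symm) ((fderiv ℝ u x).comp (e.symm : E d →L[ℝ] E d)) (Ψ x) := by
    have h2 : HasFDerivAt u (fderiv ℝ u x) (Ψ.symm (Ψ x)) := by
      rw [Ψ.symm_apply_apply]; exact hx.hasFDerivAt
    exact h2.comp (Ψ x) hs
  rw [hv.fderiv, ← hex]
  simp only [ContinuousLinearMap.comp_apply, ContinuousLinearEquiv.coe_coe, ContinuousLinearEquiv.symm_apply_apply]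

lemma rM6_core {L : ℝ≥0} {u : E d → ℝ} (hu : MinL L u) {ξ : E d → E d}
    (hξ : ContDiff ℝ 1 ξ) (hc : HasCompactSupport ξ) :
    ∃ C : ℝ, 0 ≤ C ∧ ∀ ε : ℝ, 0 < ε → ε ≤ 1 → ∃ δ : ℝ, 0 < δ ∧ ∀ t : ℝ, |t| ≤ δ →
      0 ≤ t * (∫ x in tsupport ξ, rM6_F u ξ x) + C * (|t| * (|t| + ε)) := by
  obtain ⟨K, hK⟩ := hξ.lipschitzWith_of_hasCompactSupport hc (by norm_num)
  have hSm : MeasurableSet (tsupport ξ) := (isClosed_tsupport ξ).measurableSet
  have hSc : IsCompact (tsupport ξ) := hc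
  have hSv : volume (tsupport ξ) ≠ ⊤ := hSc.measure_lt_top.ne
  obtain ⟨D, hD⟩ : ∃ D : ℝ, D = (d : ℝ) := ⟨_, rfl⟩
  have hDn : (0 : ℝ) ≤ D := by rw [hD]; (clear * -; positivity)
  set C0 : ℝ := ((L : ℝ) ^ 2 + 1) * K + 2 * (L : ℝ) ^ 2 * (K : ℝ) ^ 2 * (D + 1)
    + 16 * (L : ℝ) ^ 2 * (K : ℝ) ^ 2 with hC0
  have hC0n : 0 ≤ C0 := by (clear * - hDn; positivity)
  refine ⟨C0 * (volume (tsupport ξ)).toReal, by (clear * - hDn; positivity), fun ε hε hε1 => ?_⟩
  obtain ⟨δ0, hδ0, hdet⟩ := rM6_det d hε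
  refine ⟨min (1 / (2 * (K * (D + 1) + 1))) (δ0 / (K + 1)), by (clear * - hDn hδ0; positivity), fun t ht => ?_⟩
  have ht1 : |t| * (K * (D + 1)) ≤ 1 / 2 := by
    have h1 : |t| ≤ 1 / (2 * (K * (D + 1) + 1)) := ht.trans (min_le_left _ _)
    have h2 : 0 < 2 * ((K : ℝ) * (D + 1) + 1) := by (clear * - hDn; positivity)
    rw [le_div_iff₀ h2] at h1
    have h3 : 0 ≤ |t| := abs_nonneg t
    linarith
  have hD0 : (0 : ℝ) ≤ D := hDn
  have ht2 : |t| * K ≤ 1 / 2 := by
    have h3 : 0 ≤ |t| * K * D := by (clear * - hDn; positivity)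
    linarith
  have ht3 : |t| * K ≤ δ0 := by
    have h1 : |t| ≤ δ0 / (K + 1) := ht.trans (min_le_right _ _)
    have h2 : 0 < (K : ℝ) + 1 := by (clear * -; positivity)
    rw [le_div_iff₀ h2] at h1
    have h3 : 0 ≤ |t| := abs_nonneg t
    nlinarith only [h1, h3]
  obtain ⟨Ψ, hΨ, hΨL⟩ := rM6_homeo hK ht2
  set v : E d → ℝ := u ∘ Ψ.symm with hv
  have hvL : LipschitzWith (L * 2) v := hu.lip.comp hΨL
  have hξ0 : ∀ x, x ∉ tsupport ξ → ξ x = 0 := fun x hx => image_eq_zero_of_notMem_tsupport hx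
  have hfix : ∀ x, x ∉ tsupport ξ → Ψ x = x := by
    intro x hx; rw [hΨ, hξ0 x hx]; simp
  have hfix' : ∀ x, x ∉ tsupport ξ → Ψ.symm x = x := by
    intro x hx
    rw [Homeomorph.symm_apply_eq]; exact (hfix x hx).symm
  have hvu : ∀ x, x ∉ tsupport ξ → v x = u x := by
    intro x hx; simp [hv, hfix' x hx]
  have hcs : HasCompactSupport (fun x => v x - u x) := by
    apply HasCompactSupport.intro hSc
    intro x hx
    rw [hvu x hx, sub_self]
  have hmin := hu.min v ⟨_, hvL⟩ (fun x => hu.nonneg _) hcs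
  have hder : ∀ x, x ∉ tsupport ξ → fderiv ℝ v x = fderiv ℝ u x := by
    intro x hx
    apply Filter.EventuallyEq.fderiv_eq
    filter_upwards [(isClosed_tsupport ξ).isOpen_compl.mem_nhds hx] with y hy
    exact hvu y hy
  have hG : (fun x => ((‖fderiv ℝ v x‖ ^ 2 - ‖fderiv ℝ u x‖ ^ 2) +
      ({y | 0 < v y}.indicator (fun _ => (1 : ℝ)) x - {y | 0 < u y}.indicator (fun _ => (1 : ℝ)) x)))
      = fun x => rM6_dens v x - rM6_dens u x := by
    ext x; unfold rM6_dens; ring
  rw [hG] at hmin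
  have hzero : ∀ x, x ∉ tsupport ξ → rM6_dens v x - rM6_dens u x = 0 := by
    intro x hx
    unfold rM6_dens
    rw [hder x hx]
    have : {y | 0 < v y}.indicator (fun _ => (1 : ℝ)) x
        = {y | 0 < u y}.indicator (fun _ => (1 : ℝ)) x := by
      simp only [indicator, mem_ofPred_eq, hvu x hx]
    rw [this]; ring
  rw [← setIntegral_eq_integral_of_forall_compl_eq_zero hzero,
    integral_sub (rM6_dens_int hvL hSv) (rM6_dens_int hu.lip hSv)] at hmin
  -- image of the support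
  have himg : Ψ '' (tsupport ξ) = tsupport ξ := by
    ext y
    constructor
    · rintro ⟨x, hx, rfl⟩
      by_contra h
      have h1 := hfix' _ h
      rw [Ψ.symm_apply_apply] at h1
      rw [← h1] at h
      exact h hx
    · intro hy
      refine ⟨Ψ.symm y, ?_, Ψ.apply_symm_apply y⟩
      by_contra h
      have h1 := hfix _ h
      rw [Ψ.apply_symm_apply] at h1
      rw [← h1] at h
      exact h hy
  have hder' : ∀ x ∈ tsupport ξ, HasFDerivWithinAt Ψ
      (ContinuousLinearMap.id ℝ (E d) + t • fderiv ℝ ξ x) (tsupport ξ) x := by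
    intro x _
    have h1 : (Ψ : E d → E d) = fun x => x + t • ξ x := funext hΨ
    rw [h1]
    exact ((hasFDerivAt_id x).add
      (((hξ.differentiable (by norm_num)) x).hasFDerivAt.const_smul t)).hasFDerivWithinAt
  have hcv := integral_image_eq_integral_abs_det_fderiv_smul volume hSm hder'
    (Ψ.injective.injOn) (rM6_dens v)
  have hint := (integrableOn_image_iff_integrableOn_abs_det_fderiv_smul volume hSm hder'
    (Ψ.injective.injOn) (rM6_dens v)).1 (by rw [himg]; exact rM6_dens_int hvL hSv)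
  rw [himg] at hcv
  rw [hcv, ← integral_sub hint (rM6_dens_int hu.lip hSv)] at hmin
  refine hmin.trans ?_
  have hR : ∫ x in tsupport ξ, (t * rM6_F u ξ x + C0 * (|t| * (|t| + ε)))
      = t * (∫ x in tsupport ξ, rM6_F u ξ x) + C0 * (volume (tsupport ξ)).toReal
        * (|t| * (|t| + ε)) := by
    rw [integral_add ((rM6_F_int hu.lip hξ hK hSv).const_mul t) (integrableOn_const hSv),
      integral_const_mul]
    simp only [integral_const, smul_eq_mul, Measure.real, Measure.restrict_apply MeasurableSet.univ,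
      univ_inter]
    ring
  rw [← hR]
  apply integral_mono_ae (hint.sub (rM6_dens_int hu.lip hSv))
    (((rM6_F_int hu.lip hξ hK hSv).const_mul t).add (integrableOn_const hSv))
  have hae : ∀ᵐ x ∂(volume.restrict (tsupport ξ)), DifferentiableAt ℝ u x :=
    ae_restrict_of_ae hu.lip.ae_differentiableAt
  filter_upwards [hae] with x hx
  set M : E d →L[ℝ] E d := t • fderiv ℝ ξ x with hM
  have hMn : ‖M‖ ≤ |t| * K := by
    rw [hM, norm_smul, Real.norm_eq_abs]
    gcongr
    exact norm_fderiv_le_of_lipschitz ℝ hK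
  set a := gradient u x with ha
  set b := gradient v (Ψ x) with hb
  have hab : ∀ y, ⟪b, y + M y⟫ = ⟪a, y⟫ := by
    intro y
    rw [ha, hb, ← rM6_grad_inner, ← rM6_grad_inner]
    exact rM6_pull hξ hK ht2 Ψ hΨ hx y
  obtain ⟨hX, -⟩ := rM6_grad (hMn.trans ht2) hab
  have han : ‖a‖ ≤ L := by
    rw [ha, rM6_grad_norm]; exact norm_fderiv_le_of_lipschitz ℝ hu.lip
  have hβ : |(⟪a, M a⟫ : ℝ)| ≤ (L : ℝ) ^ 2 * ‖M‖ := by
    calc |(⟪a, M a⟫ : ℝ)| ≤ ‖a‖ * ‖M a‖ := abs_real_inner_le_norm _ _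
      _ ≤ ‖a‖ * (‖M‖ * ‖a‖) := by gcongr; exact M.le_opNorm a
      _ ≤ L * (‖M‖ * L) := by (clear * - han; gcongr)
      _ = _ := by ring
  have hτe : ∑ i, (M (ee i)) i = t * divg ξ x := by
    unfold divg
    rw [Finset.mul_sum]
    apply Finset.sum_congr rfl
    intro i _
    simp only [hM, smul_apply, PiLp.smul_apply, smul_eq_mul]
  have hτ : |t * divg ξ x| ≤ D * (|t| * K) := by
    rw [abs_mul]
    have := rM6_div_le hK x
    calc |t| * |divg ξ x| ≤ |t| * (d * K) := by (clear * - this; gcongr)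
      _ = _ := by rw [hD]; ring
  have hY := hdet M (hMn.trans ht3)
  rw [hτe] at hY
  have hreal := rM6_real (L := L) (K := K) (D := D) (s := |t|) (ε := ε) (m := ‖M‖)
    (χ := (pos u).indicator (fun _ => (1 : ℝ)) x) (a2 := ‖a‖ ^ 2) (β := ⟪a, M a⟫) (X := ‖b‖ ^ 2)
    (Y := (ContinuousLinearMap.id ℝ (E d) + M).det) (τ := t * divg ξ x) (by (clear * -; positivity)) hD0
    (abs_nonneg t) ht1 hε.le hε1 (norm_nonneg M) hMn (rM6_ind_nonneg u x) (rM6_ind_le u x)
    (sq_nonneg _) (by (clear * - han; gcongr)) hβ hX hY hτ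
  have hdv : rM6_dens v (Ψ x) = ‖b‖ ^ 2 + (pos u).indicator (fun _ => (1 : ℝ)) x := by
    unfold rM6_dens
    rw [hb, rM6_grad_norm]
    congr 1
    have : v (Ψ x) = u x := by simp [hv]
    simp only [indicator, mem_ofPred_eq, this]
  have hdu : rM6_dens u x = ‖a‖ ^ 2 + (pos u).indicator (fun _ => (1 : ℝ)) x := by
    unfold rM6_dens
    rw [ha, rM6_grad_norm]
  have hFx : t * rM6_F u ξ x = (‖a‖ ^ 2 + (pos u).indicator (fun _ => (1 : ℝ)) x) * (t * divg ξ x)
      - 2 * ⟪a, M a⟫ := by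
    unfold rM6_F
    rw [rM6_grad_inner u x, ha, rM6_grad_norm, hM]
    simp only [_root_.smul_apply, inner_smul_right]
    ring
  show |(ContinuousLinearMap.id ℝ (E d) + M).det| • rM6_dens v (Ψ x) - rM6_dens u x
    ≤ t * rM6_F u ξ x + C0 * (|t| * (|t| + ε))
  rw [hdv, hdu, hFx, smul_eq_mul, hC0]
  exact hreal

theorem inner_variation {L : ℝ≥0} {u : E d → ℝ} (hu : MinL L u) {ξ : E d → E d}
    (hξ : ContDiff ℝ 1 ξ) (hc : HasCompactSupport ξ) :
    ∫ x, ((‖fderiv ℝ u x‖ ^ 2 + (pos u).indicator (fun _ => (1 : ℝ)) x) * divg ξ x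
      - 2 * fderiv ℝ u x (fderiv ℝ ξ x (gradient u x))) = 0 := by
  obtain ⟨C, hC, h⟩ := rM6_core hu hξ hc
  have hz : ∀ x, x ∉ tsupport ξ → rM6_F u ξ x = 0 := by
    intro x hx
    have h1 : fderiv ℝ ξ x = 0 := by
      have : ξ =ᶠ[𝓝 x] fun _ => 0 := by
        filter_upwards [(isClosed_tsupport ξ).isOpen_compl.mem_nhds hx] with y hy
        exact image_eq_zero_of_notMem_tsupport hy
      rw [this.fderiv_eq]; simp only [fderiv_fun_const, Pi.zero_apply]
    unfold rM6_F divg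
    simp [h1]
  have hI : ∫ x, ((‖fderiv ℝ u x‖ ^ 2 + (pos u).indicator (fun _ => (1 : ℝ)) x) * divg ξ x
      - 2 * fderiv ℝ u x (fderiv ℝ ξ x (gradient u x))) = ∫ x in tsupport ξ, rM6_F u ξ x := by
    rw [setIntegral_eq_integral_of_forall_compl_eq_zero hz]
    rfl
  rw [hI]
  set I := ∫ x in tsupport ξ, rM6_F u ξ x with hIdef
  have hb : ∀ ε : ℝ, 0 < ε → ε ≤ 1 → |I| ≤ 2 * C * ε := by
    intro ε hε hε1
    obtain ⟨δ, hδ, hδt⟩ := h ε hε hε1
    set s := min δ ε with hs
    have hs0 : 0 < s := lt_min hδ hε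
    have h1 := hδt s (by rw [abs_of_pos hs0]; exact min_le_left _ _)
    have h2 := hδt (-s) (by rw [abs_neg, abs_of_pos hs0]; exact min_le_left _ _)
    rw [abs_neg] at h2
    rw [abs_of_pos hs0] at h1 h2
    have h3 : s ≤ ε := min_le_right _ _
    have h4 : C * (s * (s + ε)) ≤ s * (2 * C * ε) := by
      have : C * (s * (s + ε)) = s * (C * (s + ε)) := by ring
      rw [this]
      have h5 : C * (s + ε) ≤ C * (ε + ε) := by (clear * - h3 hC; gcongr)
      have h6 : s * (C * (s + ε)) ≤ s * (C * (ε + ε)) := by (clear * - h5 hδ hε; gcongr)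
      calc s * (C * (s + ε)) ≤ s * (C * (ε + ε)) := h6
        _ = _ := by ring
    rw [abs_le]
    constructor
    · have : 0 ≤ s * (I + 2 * C * ε) := by linarith
      have := nonneg_of_mul_nonneg_right this hs0
      linarith only [this]
    · have : 0 ≤ s * (- I + 2 * C * ε) := by linarith
      have := nonneg_of_mul_nonneg_right this hs0
      linarith only [this]
  have hI0 : |I| ≤ 0 := by
    apply le_of_forall_pos_le_add
    intro η hη
    have h1 := hb (min 1 (η / (2 * C + 1))) (by positivity) (min_le_left _ _)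
    have h2 : 2 * C * min 1 (η / (2 * C + 1)) ≤ η := by
      calc 2 * C * min 1 (η / (2 * C + 1)) ≤ 2 * C * (η / (2 * C + 1)) := by
            gcongr; exact min_le_right _ _
        _ ≤ (2 * C + 1) * (η / (2 * C + 1)) := by gcongr; linarith only []
        _ = η := by (clear * - hC hη; field_simp)
    linarith
  exact abs_nonpos_iff.1 hI0

end Vale.Agent.P098
end

section

open MeasureTheory Set Metric Filter
open scoped ContDiff RealInnerProductSpace Topology

namespace Vale.Agent.P098.ModI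

variable {d : ℕ}

/-- Second derivative test (necessary condition at a local maximum). -/
theorem secondTest_max {f f' : ℝ → ℝ} {c : ℝ} (hf : ∀ᶠ t in 𝓝 (0 : ℝ), HasDerivAt f (f' t) t)
    (hf' : HasDerivAt f' c 0) (hmax : IsLocalMax f 0) : c ≤ 0 := by
  by_contra hlt
  push Not at hlt
  have e1 : deriv f =ᶠ[𝓝 0] f' := by
    filter_upwards [hf] with t ht using ht.deriv
  have e2 : deriv (deriv f) 0 = c := by
    rw [e1.deriv_eq]; exact hf'.deriv
  have hc : ContinuousAt f 0 := (hf.self_of_nhds).continuousAt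
  have hmin := isLocalMin_of_deriv_deriv_pos (by rw [e2]; exact hlt) hmax.deriv_eq_zero hc
  have hconst : f =ᶠ[𝓝 0] fun _ => f 0 := by
    filter_upwards [hmin, hmax] with t h2 h3
    exact le_antisymm h3 h2
  have h4 : deriv f =ᶠ[𝓝 0] fun _ => 0 := by
    have := hconst.deriv
    refine this.trans ?_
    filter_upwards with t
    simp
  have h5 := h4.deriv_eq
  simp only [deriv_const] at h5
  linarith

/-- Derivatives along a coordinate line. -/
theorem line_derivs {w : E d → ℝ} {N : Set (E d)} (hN : IsOpen N) (hw : ContDiffOn ℝ ∞ w N)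
    {x : E d} (hx : x ∈ N) (i : Fin d) :
    (∀ᶠ t in 𝓝 (0 : ℝ), HasDerivAt (fun t : ℝ => w (x + t • ee i)) (P1 w i (x + t • ee i)) t) ∧
      HasDerivAt (fun t : ℝ => P1 w i (x + t • ee i)) (P2 w i i x) 0 := by
  have hl : ∀ t : ℝ, HasDerivAt (fun t : ℝ => x + t • (ee i : E d)) (ee i) t := by
    intro t
    have := ((hasDerivAt_id t).smul_const (ee i : E d)).const_add x
    simpa using this
  have hcont : Continuous fun t : ℝ => x + t • (ee i : E d) := by fun_prop
  have h0 : x + (0 : ℝ) • (ee i : E d) = x := by simp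
  constructor
  · have h1 : ∀ᶠ t in 𝓝 (0 : ℝ), x + t • (ee i : E d) ∈ N :=
      hcont.continuousAt.eventually_mem (by rw [h0]; exact hN.mem_nhds hx)
    filter_upwards [h1] with t ht
    have h2 : HasFDerivAt w (fderiv ℝ w (x + t • ee i)) (x + t • ee i) :=
      ((hw.contDiffAt (hN.mem_nhds ht)).differentiableAt (by norm_num)).hasFDerivAt
    exact h2.comp_hasDerivAt t (hl t)
  · have h3 : ContDiffOn ℝ ∞ (P1 w i) N := by
      have h4 : ContDiffOn ℝ ∞ (fderiv ℝ w) N := hw.fderiv_of_isOpen hN (by norm_num)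
      exact h4.clm_apply contDiffOn_const
    have h2 : HasFDerivAt (P1 w i) (fderiv ℝ (P1 w i) (x + (0 : ℝ) • ee i))
        (x + (0 : ℝ) • ee i) := by
      rw [h0]
      exact ((h3.contDiffAt (hN.mem_nhds hx)).differentiableAt (by norm_num)).hasFDerivAt
    have h5 := h2.comp_hasDerivAt (0 : ℝ) (hl 0)
    rw [h0] at h5
    exact h5

section OneD

/-- squared norm along a line through a unit vector -/
noncomputable def qq (c t : ℝ) : ℝ := 1 + 2 * t * c + t ^ 2

theorem qq_zero (c : ℝ) : qq c 0 = 1 := by simp only [qq, mul_zero, zero_mul, add_zero, ne_eq, OfNat.ofNat_ne_zero, not_false_eq_true, zero_pow]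

theorem qq_pos_near (c : ℝ) : ∀ᶠ t in 𝓝 (0 : ℝ), 0 < qq c t := by
  have hc : Continuous (qq c) := by unfold qq; fun_prop
  exact hc.continuousAt.eventually (lt_mem_nhds (by rw [qq_zero]; norm_num))

theorem hasDerivAt_qq (c t : ℝ) : HasDerivAt (qq c) (2 * (c + t)) t := by
  unfold qq
  have h := (((hasDerivAt_id t).const_mul 2).mul_const c).const_add 1 |>.add
    (hasDerivAt_pow 2 t)
  refine (h.congr_deriv ?_)
  simp only [mul_one, Nat.cast_ofNat, Nat.add_one_sub_one, pow_one]; ring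

theorem hasDerivAt_nn {c t : ℝ} (ht : 0 < qq c t) :
    HasDerivAt (fun t => √(qq c t)) ((c + t) / √(qq c t)) t := by
  have h := (hasDerivAt_qq c t).sqrt ht.ne'
  refine h.congr_deriv ?_
  field_simp

theorem hasDerivAt_nn' (c : ℝ) :
    HasDerivAt (fun t => (c + t) / √(qq c t)) (1 - c ^ 2) 0 := by
  have h1 : HasDerivAt (fun t : ℝ => c + t) 1 0 := (hasDerivAt_id (0 : ℝ)).const_add c
  have h2 : HasDerivAt (fun t => √(qq c t)) _ 0 := hasDerivAt_nn (c := c) (t := 0)
    (by rw [qq_zero]; norm_num)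
  have h := h1.div h2 (by rw [qq_zero]; norm_num)
  refine h.congr_deriv ?_
  rw [qq_zero]
  simp only [Real.sqrt_one, mul_one, add_zero, div_one, one_pow, sub_right_inj]
  ring

/-- cosine of the angle along a line -/
noncomputable def tt (a b c t : ℝ) : ℝ := (a + t * b) / √(qq c t)

/-- its derivative -/
noncomputable def tt' (a b c t : ℝ) : ℝ :=
  b / √(qq c t) - (a + t * b) * (c + t) / √(qq c t) ^ 3

theorem hasDerivAt_tt {a b c t : ℝ} (ht : 0 < qq c t) :
    HasDerivAt (tt a b c) (tt' a b c t) t := by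
  have h1 : HasDerivAt (fun t : ℝ => a + t * b) b t := by
    have := ((hasDerivAt_id t).mul_const b).const_add a
    simpa using this
  have hs : √(qq c t) ≠ 0 := (Real.sqrt_pos.mpr ht).ne'
  have h := h1.div (hasDerivAt_nn ht) hs
  refine h.congr_deriv ?_
  unfold tt'
  field_simp

theorem hasDerivAt_tt' (a b c : ℝ) :
    HasDerivAt (tt' a b c) (-2 * b * c - a + 3 * a * c ^ 2) 0 := by
  have h1 : HasDerivAt (fun t : ℝ => a + t * b) b 0 := by
    have := ((hasDerivAt_id (0 : ℝ)).mul_const b).const_add a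
    simpa using this
  have h2 : HasDerivAt (fun t : ℝ => c + t) 1 0 := (hasDerivAt_id (0 : ℝ)).const_add c
  have hn : HasDerivAt (fun t => √(qq c t)) _ 0 := hasDerivAt_nn (c := c) (t := 0)
    (by rw [qq_zero]; norm_num)
  have hs : √(qq c 0) ≠ 0 := by rw [qq_zero]; norm_num
  have h3 := ((hasDerivAt_const (0 : ℝ) b).div hn hs).sub
    ((h1.mul h2).div (hn.pow 3) (pow_ne_zero 3 hs))
  refine h3.congr_deriv ?_
  simp only [Pi.mul_apply, Pi.pow_apply]
  rw [qq_zero]
  simp only [Real.sqrt_one, mul_one, add_zero, div_one, zero_sub, one_pow, zero_mul, Nat.cast_ofNat, Nat.add_one_sub_one, neg_mul]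
  ring

/-- the barrier along a line -/
theorem hasDerivAt_bar {lam a b c t : ℝ} (ht : 0 < qq c t) :
    HasDerivAt (fun t => Real.exp (lam * tt a b c t))
      (Real.exp (lam * tt a b c t) * (lam * tt' a b c t)) t :=
  ((hasDerivAt_tt ht).const_mul lam).exp

theorem hasDerivAt_bar' (lam a b c : ℝ) :
    HasDerivAt (fun t => Real.exp (lam * tt a b c t) * (lam * tt' a b c t))
      (Real.exp (lam * a) * (lam ^ 2 * (b - a * c) ^ 2
        + lam * (-2 * b * c - a + 3 * a * c ^ 2))) 0 := by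
  have h1 : HasDerivAt (fun t => Real.exp (lam * tt a b c t)) _ 0 :=
    hasDerivAt_bar (lam := lam) (a := a) (b := b) (c := c) (t := 0) (by rw [qq_zero]; norm_num)
  have h := h1.mul ((hasDerivAt_tt' a b c).const_mul lam)
  refine h.congr_deriv ?_
  have e1 : tt a b c 0 = a := by unfold tt; rw [qq_zero]; simp
  have e2 : tt' a b c 0 = b - a * c := by unfold tt'; rw [qq_zero]; simp
  rw [e1, e2]
  ring

end OneD

end Vale.Agent.P098.ModI
end

section

/-! # H2: maximum principle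

If `lap g > 0` on the ball then a continuous `g` on the closed ball cannot have an interior
maximum (at an interior local maximum every second derivative `P2 g i i ≤ 0`). Apply this to
`g y = f y + ε ‖y - x‖²` (`lap = 2 d ε > 0`, here `1 ≤ d` is used) and let `ε → 0`. -/

open MeasureTheory Set Metric Filter
open scoped ContDiff RealInnerProductSpace Topology NNReal

namespace Vale.Agent.P098

variable {d : ℕ}

/-- Second derivative of `f + ε ‖y - x‖²` in a coordinate direction at a local maximum. -/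
theorem rH2_second {f : E d → ℝ} {N : Set (E d)} (hN : IsOpen N) (hf : ContDiffOn ℝ ∞ f N)
    {x z : E d} (hz : z ∈ N) {ε : ℝ} (hmax : IsLocalMax (fun y => f y + ε * ‖y - x‖ ^ 2) z)
    (i : Fin d) : P2 f i i z + 2 * ε ≤ 0 := by
  obtain ⟨h1, h2⟩ := ModI.line_derivs hN hf hz i
  have hq : ∀ t : ℝ, ‖z + t • (ee i : E d) - x‖ ^ 2 =
      ‖z - x‖ ^ 2 + 2 * t * ⟪z - x, (ee i : E d)⟫ + t ^ 2 := by
    intro t
    have e1 : z + t • (ee i : E d) - x = (z - x) + t • (ee i : E d) := by abel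
    rw [e1, norm_add_sq_real, inner_smul_right, norm_smul]
    have e2 : ‖(ee i : E d)‖ = 1 := by simp only [ee, PiLp.norm_single, norm_one]
    rw [e2, mul_one, Real.norm_eq_abs, sq_abs]
    ring
  have hqd : ∀ t : ℝ, HasDerivAt (fun t : ℝ => ε * ‖z + t • (ee i : E d) - x‖ ^ 2)
      (ε * (2 * ⟪z - x, (ee i : E d)⟫ + 2 * t)) t := by
    intro t
    have e3 : (fun t : ℝ => ε * ‖z + t • (ee i : E d) - x‖ ^ 2) = fun t : ℝ =>
        ε * (‖z - x‖ ^ 2 + 2 * t * ⟪z - x, (ee i : E d)⟫ + t ^ 2) := by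
      funext t
      rw [hq]
    rw [e3]
    have h3 : HasDerivAt (fun t : ℝ => ‖z - x‖ ^ 2 + 2 * t * ⟪z - x, (ee i : E d)⟫ + t ^ 2)
        (2 * ⟪z - x, (ee i : E d)⟫ + 2 * t) t := by
      have h4 := (((hasDerivAt_id t).const_mul 2).mul_const
        ⟪z - x, (ee i : E d)⟫).const_add (‖z - x‖ ^ 2)
      have h5 := h4.add ((hasDerivAt_id t).pow 2)
      simp only [id, mul_one] at h5
      refine h5.congr_deriv ?_
      simp only [Nat.cast_ofNat, Nat.add_one_sub_one, pow_one]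
    exact h3.const_mul ε
  have hcont : Continuous fun t : ℝ => z + t • (ee i : E d) := by fun_prop
  have h0 : z + (0 : ℝ) • (ee i : E d) = z := by simp
  have hmax' : IsLocalMax (fun t : ℝ => f (z + t • ee i) + ε * ‖z + t • (ee i : E d) - x‖ ^ 2)
      0 := by
    have h6 : Tendsto (fun t : ℝ => z + t • (ee i : E d)) (𝓝 0) (𝓝 z) := by
      have := hcont.tendsto 0
      rwa [h0] at this
    have h7 := h6.eventually hmax
    filter_upwards [h7] with t ht
    rw [h0]
    exact ht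
  refine ModI.secondTest_max
    (f' := fun t => P1 f i (z + t • ee i) + ε * (2 * ⟪z - x, (ee i : E d)⟫ + 2 * t)) ?_ ?_ hmax'
  · filter_upwards [h1] with t ht
    exact ht.add (hqd t)
  · have h8 : HasDerivAt (fun t : ℝ => ε * (2 * ⟪z - x, (ee i : E d)⟫ + 2 * t)) (2 * ε) 0 := by
      have h9 := (((hasDerivAt_id (0 : ℝ)).const_mul 2).const_add
        (2 * ⟪z - x, (ee i : E d)⟫)).const_mul ε
      refine h9.congr_deriv ?_
      ring
    exact h2.add h8

theorem Harm.le_of_sphere (hd : 1 ≤ d) {f : E d → ℝ} {x : E d} {r M : ℝ} (hr : 0 < r)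
    (hf : Harm (ball x r) f) (hc : ContinuousOn f (closedBall x r))
    (hb : ∀ y ∈ sphere x r, f y ≤ M) : ∀ y ∈ closedBall x r, f y ≤ M := by
  intro y0 hy0
  by_contra hlt
  push Not at hlt
  obtain ⟨ε, hε⟩ : ∃ ε : ℝ, ε = (f y0 - M) / (2 * r ^ 2) := ⟨_, rfl⟩
  have hε0 : 0 < ε := by
    rw [hε]
    apply div_pos (by linarith only [hlt])
    positivity
  have hεr : ε * r ^ 2 = (f y0 - M) / 2 := by
    rw [hε]
    field_simp
  have hgc : ContinuousOn (fun y => f y + ε * ‖y - x‖ ^ 2) (closedBall x r) :=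
    hc.add (by fun_prop)
  obtain ⟨z, hz, hzmax⟩ := (isCompact_closedBall x r).exists_isMaxOn ⟨y0, hy0⟩ hgc
  have h1 : f y0 ≤ f z + ε * ‖z - x‖ ^ 2 := by
    have h2 := hzmax hy0
    simp only [Set.mem_ofPred_eq] at h2
    have h3 : 0 ≤ ε * ‖y0 - x‖ ^ 2 := by (clear * - hε0; positivity)
    linarith only [h2, h3]
  have hzb : z ∈ ball x r := by
    rw [mem_closedBall, dist_eq_norm] at hz
    rw [mem_ball, dist_eq_norm]
    rcases hz.lt_or_eq with h | h
    · exact h
    · exfalso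
      have h4 := hb z (by rw [mem_sphere, dist_eq_norm]; exact h)
      rw [h, hεr] at h1
      linarith only [hlt, h1, h4]
  have hloc : IsLocalMax (fun y => f y + ε * ‖y - x‖ ^ 2) z :=
    hzmax.isLocalMax (mem_of_superset (isOpen_ball.mem_nhds hzb) ball_subset_closedBall)
  have hsum : ∑ i : Fin d, (P2 f i i z + 2 * ε) ≤ 0 :=
    Finset.sum_nonpos fun i _ => rH2_second isOpen_ball hf.1 hzb hloc i
  rw [Finset.sum_add_distrib] at hsum
  have hlap := hf.2 z hzb
  unfold lap at hlap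
  rw [hlap, zero_add, Finset.sum_const, Finset.card_univ, Fintype.card_fin, nsmul_eq_mul] at hsum
  have hd1 : (1 : ℝ) ≤ d := by exact_mod_cast hd
  nlinarith only [hlt, hsum, hεr, hd1]

theorem rH2_neg {s : Set (E d)} {f : E d → ℝ} (hf : Harm s f) : Harm s (fun y => -f y) := by
  refine ⟨hf.1.neg, fun x hx => ?_⟩
  have h1 : ∀ i : Fin d, P1 (fun y => -f y) i = fun y => -P1 f i y := by
    intro i
    funext y
    unfold P1
    rw [fderiv_fun_neg]
    rfl
  have h2 : ∀ i : Fin d, P2 (fun y => -f y) i i x = -P2 f i i x := by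
    intro i
    unfold P2
    rw [h1, fderiv_fun_neg]
    rfl
  have h3 := hf.2 x hx
  unfold lap at h3 ⊢
  simp only [h2, Finset.sum_neg_distrib, h3, neg_zero]

theorem Harm.abs_le_of_sphere (hd : 1 ≤ d) {f : E d → ℝ} {x : E d} {r M : ℝ} (hr : 0 < r)
    (hf : Harm (ball x r) f) (hc : ContinuousOn f (closedBall x r))
    (hb : ∀ y ∈ sphere x r, |f y| ≤ M) : ∀ y ∈ closedBall x r, |f y| ≤ M := by
  intro y hy
  rw [abs_le]
  constructor
  · have h := Harm.le_of_sphere hd hr (rH2_neg hf) hc.neg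
      (fun z hz => neg_le.1 (abs_le.1 (hb z hz)).1) y hy
    linarith only [h]
  · exact Harm.le_of_sphere hd hr hf hc (fun z hz => (abs_le.1 (hb z hz)).2) y hy

end Vale.Agent.P098
end
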