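import Mathlib
import Vale.Agent.P098.Bdl.B2
import Vale.Agent.P098.Bdl.B1
attribute [-instance] ProperSMul.toContinuousSMul IsTopologicalTorsor.toContinuousSMul IdemSemiring.toCanonicallyOrderedAdd IdemSemiring.toMulLeftMono IdemSemiring.toMulRightMono AddQuantale.instAddLeftMono AddQuantale.instAddRightMono Quantale.instMulLeftMono Quantale.instMulRightMono FiniteDimensional.rclike_to_real IsScalarTower.complexToReal FiniteDimensional.complexToReal

set_option linter.all false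

section

/-!
# P073: a scaled family of mollifiers
-/

set_option linter.unusedSectionVars false

namespace Vale.Agent.P073

open MeasureTheory Set Filter Topology Metric Module
open scoped ENNReal ContDiff

section

variable {E : Type*} [NormedAddCommGroup E] [InnerProductSpace ℝ E] [FiniteDimensional ℝ E]
  [MeasurableSpace E] [BorelSpace E] (μ : Measure E) [μ.IsAddHaarMeasure]

/-- A fixed bump function of the unit ball. -/
noncomputable def baseBump (E : Type*) [NormedAddCommGroup E] : ContDiffBump (0 : E) :=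
  ⟨1 / 2, 1, by norm_num, by norm_num⟩

/-- The normalized mollifier of scale `ε`. -/
noncomputable def eta (ε : ℝ) (z : E) : ℝ :=
  (ε ^ finrank ℝ E)⁻¹ * (baseBump E).normed μ (ε⁻¹ • z)

theorem eta_nonneg {ε : ℝ} (hε : 0 ≤ ε) (z : E) : 0 ≤ eta μ ε z := by
  unfold eta
  have := (baseBump E).nonneg_normed (μ := μ) (ε⁻¹ • z)
  positivity

theorem contDiff_eta (ε : ℝ) {n : ℕ∞} : ContDiff ℝ n (eta (E := E) μ ε) := by
  unfold eta
  exact contDiff_const.mul ((baseBump E).contDiff_normed.comp (contDiff_const_smul _))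

theorem support_eta {ε : ℝ} (hε : 0 < ε) : Function.support (eta (E := E) μ ε) = ball 0 ε := by
  ext z
  have h := (baseBump E).support_normed_eq (μ := μ)
  have h2 : (ε⁻¹ • z ∈ Function.support ((baseBump E).normed μ)) ↔ ε⁻¹ • z ∈ ball (0 : E) 1 := by
    rw [h]; rfl
  rw [Function.mem_support] at h2 ⊢
  unfold eta
  rw [mul_ne_zero_iff]
  constructor
  · rintro ⟨-, h3⟩
    have h4 := h2.1 h3
    rw [mem_ball_zero_iff, norm_smul, norm_inv, Real.norm_of_nonneg hε.le] at h4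
    rw [mem_ball_zero_iff]
    rwa [inv_mul_lt_iff₀ hε, mul_one] at h4
  · intro h3
    refine ⟨by positivity, h2.2 ?_⟩
    rw [mem_ball_zero_iff] at h3 ⊢
    rw [norm_smul, norm_inv, Real.norm_of_nonneg hε.le, inv_mul_lt_iff₀ hε, mul_one]
    exact h3

theorem tsupport_eta {ε : ℝ} (hε : 0 < ε) : tsupport (eta (E := E) μ ε) ⊆ closedBall 0 ε := by
  rw [tsupport, support_eta μ hε]
  exact closure_ball_subset_closedBall

theorem hasCompactSupport_eta {ε : ℝ} (hε : 0 < ε) : HasCompactSupport (eta (E := E) μ ε) :=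
  HasCompactSupport.of_support_subset_isCompact (isCompact_closedBall 0 ε)
    ((subset_tsupport _).trans (tsupport_eta μ hε))

theorem eta_eq_zero {ε : ℝ} (hε : 0 < ε) {z : E} (hz : ε ≤ ‖z‖) : eta μ ε z = 0 := by
  by_contra h
  have : z ∈ Function.support (eta (E := E) μ ε) := h
  rw [support_eta μ hε, mem_ball_zero_iff] at this
  linarith only [hz, this]

theorem integral_eta {ε : ℝ} (hε : 0 < ε) : ∫ z, eta μ ε z ∂μ = 1 := by
  unfold eta
  rw [integral_const_mul]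
  have := Measure.integral_comp_smul μ (fun z => (baseBump E).normed μ z) (ε⁻¹)
  rw [this, (baseBump E).integral_normed]
  rw [inv_pow, inv_inv, abs_of_pos (by positivity), smul_eq_mul, mul_one]
  exact inv_mul_cancel₀ (by positivity)

theorem integrable_eta {ε : ℝ} (hε : 0 < ε) : Integrable (eta (E := E) μ ε) μ :=
  ((contDiff_eta μ ε (n := 0)).continuous).integrable_of_hasCompactSupport
    (hasCompactSupport_eta μ hε)

/-- the constant controlling the `L^1` norm of the gradient of the mollifiers -/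
noncomputable def etaC : ℝ := ∫ z, ‖fderiv ℝ ((baseBump E).normed μ) z‖ ∂μ

theorem etaC_nonneg : 0 ≤ etaC (E := E) μ := integral_nonneg fun _ => norm_nonneg _

theorem fderiv_eta (ε : ℝ) (z : E) :
    fderiv ℝ (eta μ ε) z =
      ((ε ^ finrank ℝ E)⁻¹ * ε⁻¹) • fderiv ℝ ((baseBump E).normed μ) (ε⁻¹ • z) := by
  have hd : DifferentiableAt ℝ ((baseBump E).normed μ) (ε⁻¹ • z) :=
    ((baseBump E).contDiff_normed (n := 1)).differentiable (by norm_num) _
  have h1 : HasFDerivAt (fun z : E => ε⁻¹ • z) (ε⁻¹ • ContinuousLinearMap.id ℝ E) z :=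
    (hasFDerivAt_id z).const_smul ε⁻¹
  have h2 := (hd.hasFDerivAt.comp z h1).const_mul ((ε ^ finrank ℝ E)⁻¹)
  have h3 : HasFDerivAt (eta μ ε) ((ε ^ finrank ℝ E)⁻¹ • (fderiv ℝ ((baseBump E).normed μ)
      (ε⁻¹ • z)).comp (ε⁻¹ • ContinuousLinearMap.id ℝ E)) z := h2
  rw [h3.fderiv]
  ext v
  simp only [ContinuousLinearMap.comp_smulₛₗ, map_inv₀, Real.ringHom_apply, ContinuousLinearMap.comp_id, smul_apply, smul_eq_mul, mul_assoc]

theorem integral_norm_fderiv_eta {ε : ℝ} (hε : 0 < ε) :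
    ∫ z, ‖fderiv ℝ (eta (E := E) μ ε) z‖ ∂μ = etaC (E := E) μ / ε := by
  simp_rw [fderiv_eta, norm_smul]
  rw [integral_const_mul]
  have := Measure.integral_comp_smul μ (fun z => ‖fderiv ℝ ((baseBump E).normed μ) z‖) (ε⁻¹)
  rw [this]
  unfold etaC
  rw [inv_pow, inv_inv, abs_of_pos (by positivity), smul_eq_mul, Real.norm_of_nonneg (by positivity)]
  field_simp

theorem continuous_fderiv_eta (ε : ℝ) : Continuous (fderiv ℝ (eta (E := E) μ ε)) :=
  (contDiff_eta μ ε (n := 1)).continuous_fderiv (by norm_num)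

theorem fderiv_eta_eq_zero {ε : ℝ} (hε : 0 < ε) {z : E} (hz : ε < ‖z‖) :
    fderiv ℝ (eta μ ε) z = 0 := by
  have hz' : z ∉ tsupport (eta (E := E) μ ε) := fun h => by
    have := tsupport_eta μ hε h
    rw [mem_closedBall_zero_iff] at this
    linarith only [hz, this]
  exact fderiv_of_notMem_tsupport ℝ hz'

theorem hasCompactSupport_fderiv_eta {ε : ℝ} (hε : 0 < ε) :
    HasCompactSupport (fderiv ℝ (eta (E := E) μ ε)) :=
  (hasCompactSupport_eta μ hε).fderiv (𝕜 := ℝ)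

theorem integrable_norm_fderiv_eta {ε : ℝ} (hε : 0 < ε) :
    Integrable (fun z => ‖fderiv ℝ (eta (E := E) μ ε) z‖) μ :=
  ((continuous_fderiv_eta μ ε).integrable_of_hasCompactSupport
    (hasCompactSupport_fderiv_eta μ hε)).norm

end

end Vale.Agent.P073
end

section

/-! # Auxiliary lemmas for G4 -/

open MeasureTheory Set Metric Filter
open scoped ContDiff RealInnerProductSpace Topology NNReal

namespace Vale.Agent.P098

theorem rG4_norm_ee {n : ℕ} : ‖(ee 0 : E (n + 1))‖ = 1 := by simp only [PiLp.norm_single, norm_one]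

theorem rG4_coord {n : ℕ} (x : E (n + 1)) (t : ℝ) : (x + t • ee 0 : E (n + 1)) 0 = x 0 + t := by
  simp only [PiLp.add_apply, PiLp.smul_apply, PiLp.single_eq_same, smul_eq_mul, mul_one]

theorem rG4_coord_sub {n : ℕ} (x : E (n + 1)) (t : ℝ) : (x - t • ee 0 : E (n + 1)) 0 = x 0 - t := by
  simp

theorem rG4_inner {n : ℕ} (y : E (n + 1)) : ⟪y, ee 0⟫ = y 0 := by
  simp [EuclideanSpace.inner_single_right]

theorem rG4_proj_norm {n : ℕ} (y : E (n + 1)) : ‖y - y 0 • ee 0‖ ≤ ‖y‖ := by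
  have h : ‖y - y 0 • (ee 0 : E (n + 1))‖ ^ 2 ≤ ‖y‖ ^ 2 := by
    rw [norm_sub_sq_real, inner_smul_right, rG4_inner, norm_smul, rG4_norm_ee]
    have : (‖y 0‖ * 1) ^ 2 = (y 0) ^ 2 := by rw [mul_one, Real.norm_eq_abs, sq_abs]
    rw [this]
    nlinarith only []
  exact (sq_le_sq₀ (norm_nonneg _) (norm_nonneg _)).1 h

/-- Sign of a function vanishing on `{x 0 = 0}` with positive `0`-th derivative. -/
theorem rG4_sign {n : ℕ} {F : E (n + 1) → ℝ} {ρ : ℝ}
    (hd : ∀ x ∈ ball (0 : E (n + 1)) ρ, DifferentiableAt ℝ F x)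
    (hp : ∀ x ∈ ball (0 : E (n + 1)) ρ, 0 < fderiv ℝ F x (ee 0))
    (h0 : ∀ x ∈ ball (0 : E (n + 1)) ρ, x 0 = 0 → F x = 0)
    {y : E (n + 1)} (hy : y ∈ ball (0 : E (n + 1)) ρ) : 0 < F y ↔ 0 < y 0 := by
  set z : E (n + 1) := y - y 0 • ee 0 with hz
  have hzb : z ∈ ball (0 : E (n + 1)) ρ := by
    rw [mem_ball_zero_iff] at hy ⊢
    exact lt_of_le_of_lt (rG4_proj_norm y) hy
  have hz0 : z 0 = 0 := by rw [hz, rG4_coord_sub]; ring
  have hseg : ∀ s ∈ Icc (0 : ℝ) 1, z + (s * y 0) • ee 0 ∈ ball (0 : E (n + 1)) ρ := by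
    intro s hs
    have e1 : z + (s * y 0) • (ee 0 : E (n + 1)) = (1 - s) • z + s • y := by
      rw [hz]
      module
    rw [e1]
    exact convex_ball (0 : E (n + 1)) ρ hzb hy (by linarith only [hs.2]) hs.1 (by ring)
  have hder : ∀ s ∈ Icc (0 : ℝ) 1, HasDerivAt (fun s : ℝ => F (z + (s * y 0) • ee 0))
      (y 0 * fderiv ℝ F (z + (s * y 0) • ee 0) (ee 0)) s := by
    intro s hs
    have h1 : HasDerivAt (fun s : ℝ => z + (s * y 0) • (ee 0 : E (n + 1)))
        ((y 0) • ee 0) s := by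
      have h2 : HasDerivAt (fun s : ℝ => s * y 0) (y 0) s := by
        simpa only [id_eq, one_mul] using (hasDerivAt_id s).mul_const (y 0)
      exact (h2.smul_const (ee 0 : E (n + 1))).const_add z
    have h3 := ((hd _ (hseg s hs)).hasFDerivAt).comp_hasDerivAt s h1
    rw [map_smul, smul_eq_mul] at h3
    exact h3
  obtain ⟨c, hc, hce⟩ := exists_hasDerivAt_eq_slope (fun s : ℝ => F (z + (s * y 0) • ee 0))
    (fun s => y 0 * fderiv ℝ F (z + (s * y 0) • ee 0) (ee 0)) (zero_lt_one)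
    (fun s hs => (hder s hs).continuousAt.continuousWithinAt)
    (fun s hs => hder s (Ioo_subset_Icc_self hs))
  have hcb := hseg c (Ioo_subset_Icc_self hc)
  have hpos := hp _ hcb
  have e2 : z + ((1 : ℝ) * y 0) • (ee 0 : E (n + 1)) = y := by rw [hz]; module
  have e3 : z + ((0 : ℝ) * y 0) • (ee 0 : E (n + 1)) = z := by module
  simp only [e2, e3, h0 z hzb hz0, sub_zero, div_one] at hce
  rw [← hce]
  exact mul_pos_iff_of_pos_right hpos

/-- The core of the local extension. -/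
theorem rG4_core {n : ℕ} {u g : E (n + 1) → ℝ}
    (hg : ∀ x (t : ℝ), g (x + t • ee 0) = g x)
    (hL : ∀ x ∈ ball (0 : E (n + 1)) (1 / 8), ∀ y ∈ ball (0 : E (n + 1)) (1 / 8),
      |g x - g y| ≤ ‖x - y‖ / 2)
    (hgr : ∀ x ∈ ball (0 : E (n + 1)) (1 / 8),
        (0 < u x ↔ g x < x 0) ∧ (x ∈ frontier (pos u) ↔ x 0 = g x) ∧
        (x ∈ closure (pos u) ↔ g x ≤ x 0))
    (h0 : (0 : E (n + 1)) ∈ frontier (pos u))
    (hgs : ContDiffOn ℝ ∞ g (ball 0 (1 / 8)))
    (hS : ContDiffOn ℝ ∞ u (closure (pos u) ∩ ball 0 (1 / 4)))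
    (hU : UniqueDiffOn ℝ (closure (pos u) ∩ ball 0 (1 / 4)))
    (hu0 : ∀ y ∈ frontier (pos u), u y = 0)
    (hν : ∀ y ∈ frontier (pos u), y ∈ ball (0 : E (n + 1)) (1 / 4) →
      ∃ ν : E (n + 1), ‖ν‖ = 1 ∧ ‖ν - ee 0‖ ≤ 1 / 2 ∧
        HasFDerivWithinAt u (innerSL ℝ ν) (closure (pos u)) y)
    (hext : ∀ f : E (n + 1) → ℝ, ContDiffOn ℝ ∞ f ({x | 0 ≤ x 0} ∩ ball 0 (1 / 16)) →
      ∃ F : E (n + 1) → ℝ, ContDiffOn ℝ ∞ F (ball 0 (1 / 32)) ∧
        ∀ x ∈ ball (0 : E (n + 1)) (1 / 32), 0 ≤ x 0 → F x = f x) :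
    ∃ (N : Set (E (n + 1))) (U : E (n + 1) → ℝ), IsOpen N ∧ 0 ∈ N ∧ ContDiffOn ℝ ∞ U N ∧
      (∀ x ∈ N, 0 < u x → U x = u x) ∧ (∀ x ∈ N, 0 < U x ↔ 0 < u x) ∧
      ∀ x ∈ N, x ∈ frontier (pos u) → ‖gradient U x‖ = 1 := by
  have h0b : (0 : E (n + 1)) ∈ ball (0 : E (n + 1)) (1 / 8) := by simp
  have hg0 : g 0 = 0 := by
    have := (hgr 0 h0b).2.1.1 h0
    simpa only [PiLp.zero_apply] using this.symm
  have hgb : ∀ x ∈ ball (0 : E (n + 1)) (1 / 8), |g x| ≤ ‖x‖ / 2 := by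
    intro x hx
    have := hL x hx 0 h0b
    rwa [hg0, sub_zero, sub_zero] at this
  have hg' : ∀ x (t : ℝ), g (x - t • ee 0) = g x := by
    intro x t
    have := hg x (-t)
    rwa [neg_smul, ← sub_eq_add_neg] at this
  -- the shift up
  have hup : ∀ x ∈ ball (0 : E (n + 1)) (1 / 16), x + g x • ee 0 ∈ ball (0 : E (n + 1)) (1 / 8) := by
    intro x hx
    have hx8 : x ∈ ball (0 : E (n + 1)) (1 / 8) := ball_subset_ball (by norm_num) hx
    rw [mem_ball_zero_iff] at hx ⊢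
    calc ‖x + g x • (ee 0 : E (n + 1))‖ ≤ ‖x‖ + ‖g x • (ee 0 : E (n + 1))‖ := norm_add_le _ _
      _ = ‖x‖ + |g x| := by rw [norm_smul, rG4_norm_ee, mul_one, Real.norm_eq_abs]
      _ ≤ ‖x‖ + ‖x‖ / 2 := by linarith only [hgb x hx8]
      _ < 1 / 8 := by linarith only [hx]
  have hf : ContDiffOn ℝ ∞ (fun x => u (x + g x • ee 0)) ({x | 0 ≤ x 0} ∩ ball 0 (1 / 16)) := by
    have h1 : ContDiffOn ℝ ∞ (fun x : E (n + 1) => x + g x • (ee 0 : E (n + 1)))
        ({x | 0 ≤ x 0} ∩ ball 0 (1 / 16)) := by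
      have h2 : ContDiffOn ℝ ∞ g ({x : E (n + 1) | 0 ≤ x 0} ∩ ball 0 (1 / 16)) :=
        hgs.mono (inter_subset_right.trans (ball_subset_ball (by norm_num)))
      exact contDiffOn_id.add (h2.smul contDiffOn_const)
    refine hS.comp h1 ?_
    rintro x ⟨hx0, hxb⟩
    have hy := hup x hxb
    refine ⟨((hgr _ hy).2.2).2 ?_, ball_subset_ball (by norm_num) hy⟩
    rw [hg, rG4_coord]
    have : (0 : ℝ) ≤ x 0 := hx0
    linarith only [this]
  obtain ⟨F, hFs, hFe⟩ := hext _ hf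
  -- values of `F` on the hyperplane
  have hF0 : ∀ x ∈ ball (0 : E (n + 1)) (1 / 32), x 0 = 0 → F x = 0 := by
    intro x hx hx0
    rw [hFe x hx hx0.ge]
    have hy := hup x (ball_subset_ball (by norm_num) hx)
    refine hu0 _ (((hgr _ hy).2.1).2 ?_)
    rw [hg, rG4_coord, hx0, zero_add]
  set ψ : E (n + 1) → E (n + 1) := fun x => x - g x • ee 0 with hψ
  have hψs : ContDiffOn ℝ ∞ ψ (ball 0 (1 / 8)) :=
    contDiffOn_id.sub (ContDiffOn.smul hgs contDiffOn_const)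
  have hψ0 : ψ 0 = 0 := by simp [hψ, hg0]
  set N₁ : Set (E (n + 1)) := ball 0 (1 / 8) ∩ ψ ⁻¹' ball 0 (1 / 32) with hN₁
  have hN₁o : IsOpen N₁ := hψs.continuousOn.isOpen_inter_preimage isOpen_ball isOpen_ball
  have h0N₁ : (0 : E (n + 1)) ∈ N₁ := ⟨h0b, by rw [mem_preimage, hψ0]; simp⟩
  have hUs : ContDiffOn ℝ ∞ (fun x => F (ψ x)) N₁ :=
    hFs.comp (hψs.mono inter_subset_left) (fun x hx => hx.2)
  have hUe : ∀ x ∈ N₁, x ∈ closure (pos u) → F (ψ x) = u x := by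
    intro x hx hxc
    have hx1 : g x ≤ x 0 := ((hgr x hx.1).2.2).1 hxc
    have h2 : (0 : ℝ) ≤ (ψ x) 0 := by
      rw [hψ]
      show (0 : ℝ) ≤ (x - g x • ee 0 : E (n + 1)) 0
      rw [rG4_coord_sub]
      linarith only [hx1]
    rw [hFe _ hx.2 h2]
    have h3 : g (ψ x) = g x := hg' x (g x)
    show u (ψ x + g (ψ x) • ee 0) = u x
    rw [h3]
    congr 1
    rw [hψ]
    show x - g x • ee 0 + g x • ee 0 = x
    abel
  -- the gradient at frontier points
  have hgrad : ∀ x ∈ N₁, x ∈ frontier (pos u) → ∃ ν : E (n + 1), ‖ν‖ = 1 ∧ ‖ν - ee 0‖ ≤ 1 / 2 ∧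
      HasFDerivAt (fun x => F (ψ x)) (innerSL ℝ ν) x := by
    intro x hx hxf
    have hx4 : x ∈ ball (0 : E (n + 1)) (1 / 4) := ball_subset_ball (by norm_num) hx.1
    obtain ⟨ν, hν1, hν2, hν3⟩ := hν x hxf hx4
    refine ⟨ν, hν1, hν2, ?_⟩
    have hxc : x ∈ closure (pos u) := frontier_subset_closure hxf
    have hd : DifferentiableAt ℝ (fun x => F (ψ x)) x :=
      (hUs.contDiffAt (hN₁o.mem_nhds hx)).differentiableAt (by simp)
    have hxS : x ∈ closure (pos u) ∩ ball (0 : E (n + 1)) (1 / 4) := ⟨hxc, hx4⟩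
    have h1 : HasFDerivWithinAt (fun x => F (ψ x)) (fderiv ℝ (fun x => F (ψ x)) x)
        (closure (pos u) ∩ ball 0 (1 / 4)) x := hd.hasFDerivAt.hasFDerivWithinAt
    have h2 : HasFDerivWithinAt (fun x => F (ψ x)) (innerSL ℝ ν)
        (closure (pos u) ∩ ball 0 (1 / 4)) x := by
      have h3 : HasFDerivWithinAt u (innerSL ℝ ν) (closure (pos u) ∩ ball 0 (1 / 4)) x :=
        hν3.mono inter_subset_left
      refine h3.congr_of_eventuallyEq ?_ (hUe x hx hxc)
      have h4 : N₁ ∈ 𝓝[closure (pos u) ∩ ball 0 (1 / 4)] x :=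
        mem_nhdsWithin_of_mem_nhds (hN₁o.mem_nhds hx)
      filter_upwards [h4, self_mem_nhdsWithin] with z hz1 hz2
      exact hUe z hz1 hz2.1
    have h5 := (hU x hxS).eq h1 h2
    rw [← h5]
    exact hd.hasFDerivAt
  -- derivative of `F` at `0`
  have hFd : ∀ x ∈ ball (0 : E (n + 1)) (1 / 32), DifferentiableAt ℝ F x := fun x hx =>
    (hFs.contDiffAt (isOpen_ball.mem_nhds hx)).differentiableAt (by simp)
  have h032 : (0 : E (n + 1)) ∈ ball (0 : E (n + 1)) (1 / 32) := by simp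
  have hF1 : 0 < fderiv ℝ F 0 (ee 0) := by
    obtain ⟨ν, hν1, hν2, hν3⟩ := hgrad 0 h0N₁ h0
    have hline : HasDerivAt (fun t : ℝ => (0 : E (n + 1)) + t • (ee 0 : E (n + 1))) (ee 0) 0 := by
      have := ((hasDerivAt_id (0 : ℝ)).smul_const (ee 0 : E (n + 1))).const_add (0 : E (n + 1))
      simpa only [zero_add, id_eq, one_smul] using this
    have h00 : (0 : E (n + 1)) + (0 : ℝ) • (ee 0 : E (n + 1)) = 0 := by simp only [zero_smul, add_zero]
    have h1 : HasDerivAt (fun t : ℝ => F (ψ ((0 : E (n + 1)) + t • ee 0))) (innerSL ℝ ν (ee 0)) 0 := by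
      have h2 : HasFDerivAt (fun x => F (ψ x)) (innerSL ℝ ν) ((0 : E (n + 1)) + (0 : ℝ) • ee 0) := by
        rw [h00]; exact hν3
      have h6 := HasFDerivAt.comp_hasDerivAt (l := fun x => F (ψ x)) (0 : ℝ) h2 hline
      exact h6
    have h3 : HasDerivAt (fun t : ℝ => F ((0 : E (n + 1)) + t • ee 0)) (fderiv ℝ F 0 (ee 0)) 0 := by
      have h2 : HasFDerivAt F (fderiv ℝ F 0) ((0 : E (n + 1)) + (0 : ℝ) • ee 0) := by
        rw [h00]; exact (hFd 0 h032).hasFDerivAt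
      have h6 := h2.comp_hasDerivAt (0 : ℝ) hline
      exact h6
    have h4 : (fun t : ℝ => F (ψ ((0 : E (n + 1)) + t • ee 0)))
        = fun t : ℝ => F ((0 : E (n + 1)) + t • ee 0) := by
      funext t
      have : ψ ((0 : E (n + 1)) + t • ee 0) = (0 : E (n + 1)) + t • ee 0 := by
        show (0 : E (n + 1)) + t • ee 0 - g ((0 : E (n + 1)) + t • ee 0) • ee 0 = _
        rw [hg, hg0, zero_smul, sub_zero]
      rw [this]
    rw [h4] at h1
    have h5 := h3.unique h1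
    rw [h5, innerSL_apply_apply]
    have h6 : ⟪ν, (ee 0 : E (n + 1))⟫ = 1 + ⟪ν - ee 0, (ee 0 : E (n + 1))⟫ := by
      rw [inner_sub_left, real_inner_self_eq_norm_sq, rG4_norm_ee]
      ring
    have h7 : |⟪ν - ee 0, (ee 0 : E (n + 1))⟫| ≤ 1 / 2 := by
      refine (abs_real_inner_le_norm _ _).trans ?_
      rw [rG4_norm_ee, mul_one]
      exact hν2
    rw [h6]
    linarith only [(abs_le.1 h7).1]
  -- a ball on which the derivative is positive
  have hcont : ContinuousAt (fun x => fderiv ℝ F x (ee 0)) 0 := by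
    have h1 : ContinuousOn (fderiv ℝ F) (ball (0 : E (n + 1)) (1 / 32)) :=
      hFs.continuousOn_fderiv_of_isOpen isOpen_ball (by simp only [WithTop.one_le_coe, le_top])
    exact (h1.continuousAt (isOpen_ball.mem_nhds h032)).clm_apply continuousAt_const
  obtain ⟨ρ, hρ, hρb⟩ : ∃ ρ : ℝ, 0 < ρ ∧ ∀ x ∈ ball (0 : E (n + 1)) ρ,
      x ∈ ball (0 : E (n + 1)) (1 / 32) ∧ 0 < fderiv ℝ F x (ee 0) := by
    have h1 : ∀ᶠ x in 𝓝 (0 : E (n + 1)), x ∈ ball (0 : E (n + 1)) (1 / 32) ∧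
        0 < fderiv ℝ F x (ee 0) := by
      filter_upwards [isOpen_ball.mem_nhds h032, hcont.eventually (lt_mem_nhds hF1)] with x h2 h3
      exact ⟨h2, h3⟩
    obtain ⟨ρ, hρ, hρb⟩ := Metric.eventually_nhds_iff_ball.1 h1
    exact ⟨ρ, hρ, hρb⟩
  have hsign : ∀ y ∈ ball (0 : E (n + 1)) ρ, (0 < F y ↔ 0 < y 0) := fun y hy =>
    rG4_sign (fun x hx => hFd x (hρb x hx).1) (fun x hx => (hρb x hx).2)
      (fun x hx h => hF0 x (hρb x hx).1 h) hy
  have hψc : ContinuousOn ψ (ball 0 (1 / 8)) := hψs.continuousOn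
  refine ⟨ball 0 (1 / 8) ∩ ψ ⁻¹' ball 0 ρ, fun x => F (ψ x),
    hψc.isOpen_inter_preimage isOpen_ball isOpen_ball, ⟨h0b, ?_⟩, ?_, ?_, ?_, ?_⟩
  · rw [mem_preimage, hψ0]
    exact mem_ball_self hρ
  · exact hUs.mono (fun x hx => ⟨hx.1, (hρb _ hx.2).1⟩)
  · intro x hx hux
    exact hUe x ⟨hx.1, (hρb _ hx.2).1⟩ (subset_closure hux)
  · intro x hx
    rw [hsign (ψ x) hx.2, (hgr x hx.1).1]
    show 0 < (x - g x • ee 0 : E (n + 1)) 0 ↔ _
    rw [rG4_coord_sub]
    exact sub_pos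
  · intro x hx hxf
    obtain ⟨ν, hν1, -, hν3⟩ := hgrad x ⟨hx.1, (hρb _ hx.2).1⟩ hxf
    have h1 : HasGradientAt (fun x => F (ψ x)) ν x := by
      rw [hasGradientAt_iff_hasFDerivAt]
      exact hν3
    rw [h1.gradient]
    exact hν1

end Vale.Agent.P098
end

section

open MeasureTheory Set Metric Filter
open scoped ContDiff RealInnerProductSpace Topology

namespace Vale.Agent.P098

variable {d m : ℕ}

/-! ### Regularised fields and frames -/

/-- `F = √(|D²U|² + δ)`. -/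
noncomputable def FF (δ : ℝ) (U : E d → ℝ) (x : E d) : ℝ := √(SS δ U x)

/-- `y = 1 / (1 + U F)`. -/
noncomputable def yy (δ : ℝ) (U : E d → ℝ) (x : E d) : ℝ := 1 / (1 + U x * FF δ U x)

/-- A coefficient function `g(y, v, τ, ι)` evaluated at the jets of `U`; here
`τ = tr (D²U)³ / F³` and `ι = tr (D²U)⁴ / F⁴`. -/
noncomputable def lift (g : ℝ → ℝ → ℝ → ℝ → ℝ) (δ : ℝ) (U : E d → ℝ) (x : E d) : ℝ :=
  g (yy δ U x) (vv U x) (tt U 3 x / FF δ U x ^ 3) (tt U 4 x / FF δ U x ^ 4)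

/-- `W = F^(2α) w`. -/
noncomputable def WW (Φ : Fam) (α δ : ℝ) (U : E d → ℝ) (x : E d) : ℝ :=
  FF δ U x ^ (2 * α) * lift Φ.w.g δ U x

/-- The vector field
`Z = ∑_j F^(2α-2-j) a_j (D²U)^(j+1) : D³U + ∑_q F^(2α-1-a-b) e_q E_{a,b}
  - ∑_j F^(2α+1-j) f_j (D²U)^j ∇U + K ∇U`, `a = ea q`, `b = ej q`. -/
noncomputable def ZZ (Φ : Fam) (α δ K : ℝ) (U : E d → ℝ) (x : E d) : E d :=
  WithLp.toLp 2 (fun k =>
    (∑ j ∈ Finset.range Φ.na,
      FF δ U x ^ (2 * α - 2 - j) * lift (Φ.a j).g δ U x * GG U (j + 1) k x)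
    + (∑ q ∈ Finset.range Φ.ne,
      FF δ U x ^ (2 * α - 1 - Φ.ea q - Φ.ej q) * lift (Φ.e q).g δ U x
        * EE U (Φ.ea q) (Φ.ej q) k x)
    - (∑ j ∈ Finset.range Φ.nf,
      FF δ U x ^ (2 * α + 1 - j) * lift (Φ.f j).g δ U x * QQ U j k x)
    + K * P1 U k x)

/-- Scalar data of the jets of `U` at `x` in an orthonormal frame `x/|x|, e_1, …, e_m` of
eigenvectors of `D²U`, normalised by `F`: eigenvalues `lam`, `ξ_k = ∂_k U` (not normalised),
`T_ijk = D³U(e_i,e_j,e_k)/F²`. -/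
structure FrameData (δ : ℝ) (U : E (m + 1) → ℝ) (x : E (m + 1)) (lam ξ : Fin m → ℝ)
    (T : Fin m → Fin m → Fin m → ℝ) : Prop where
  T12 : ∀ i j k, T i j k = T j i k
  T23 : ∀ i j k, T i j k = T i k j
  Ttr : ∀ k, ∑ i, T i i k = 0
  lam1 : pw lam 1 = 0
  lam2 : pw lam 2 = 1 - δ / SS δ U x
  ht : ∀ j, 1 ≤ j → tt U j x = FF δ U x ^ j * pw lam j
  hv : vv U x = ∑ k, ξ k ^ 2 + (U x / ‖x‖) ^ 2
  hGG : ∀ i j, 1 ≤ i → 1 ≤ j → ∑ k, GG U i k x * GG U j k x =
    FF δ U x ^ (i + j + 4) * ((∑ k, XX lam (fun l => T l l k) i * XX lam (fun l => T l l k) j)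
      + 1 / (‖x‖ ^ 2 * SS δ U x) * pw lam (i + 1) * pw lam (j + 1))
  hGp : ∀ j, 1 ≤ j → ∑ k, GG U j k x * P1 U k x =
    FF δ U x ^ (j + 2) * ((∑ k, XX lam (fun l => T l l k) j * ξ k)
      - 1 / (‖x‖ ^ 2 * SS δ U x) * (U x * FF δ U x) * pw lam (j + 1))
  hGQ : ∀ i j, 1 ≤ i → 1 ≤ j → ∑ k, GG U i k x * QQ U j k x =
    FF δ U x ^ (i + j + 2) * (∑ k, XX lam (fun l => T l l k) i * lam k ^ j * ξ k)
  hpQ : ∀ j, 1 ≤ j → ∑ k, P1 U k x * QQ U j k x = FF δ U x ^ j * ∑ k, lam k ^ j * ξ k ^ 2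
  hQQ : ∀ i j, 1 ≤ i → 1 ≤ j → ∑ k, QQ U i k x * QQ U j k x =
    FF δ U x ^ (i + j) * ∑ k, lam k ^ (i + j) * ξ k ^ 2
  hDG : ∀ j, 1 ≤ j → DG U j x =
    FF δ U x ^ (j + 3) * ((∑ i, ∑ l, ∑ k, hh j (lam i) (lam l) * T i l k ^ 2)
      + 1 / (‖x‖ ^ 2 * SS δ U x) * (j + 2) * pw lam (j + 1))
  hGM : ∀ i a j, 1 ≤ i → 1 ≤ a → 1 ≤ j → ∑ k, GG U i k x * MG U a j k x =
    FF δ U x ^ (i + a + j + 4) *
      (∑ k, XX lam (fun l => T l l k) i * lam k ^ a * XX lam (fun l => T l l k) j)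
  hQM : ∀ i a j, 1 ≤ a → 1 ≤ j → ∑ k, QQ U i k x * MG U a j k x =
    FF δ U x ^ (i + a + j + 2) * (∑ k, lam k ^ (i + a) * ξ k * XX lam (fun l => T l l k) j)
  hDT : ∀ a j, 1 ≤ a → 1 ≤ j → DT U a j x =
    FF δ U x ^ (a + j + 3) *
      ((∑ i, ∑ l, ∑ k, lam k ^ a * hh j (lam i) (lam l) * T i l k ^ 2)
        + 1 / (‖x‖ ^ 2 * SS δ U x) * 2 * pw lam (a + j + 1))
  hxM : ∀ a j, 1 ≤ a → 1 ≤ j → ∑ k, MG U a j k x * x k = 0
  hxG : ∀ j, 1 ≤ j → ∑ k, GG U j k x * x k = - tt U (j + 1) x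
  hxQ : ∀ j, 1 ≤ j → ∑ k, QQ U j k x * x k = 0
  hxp : ∑ k, P1 U k x * x k = U x

end Vale.Agent.P098
end

section

/-!
Module C2: from the global stability inequality to the inequality with fields and cutoffs.
-/

open MeasureTheory Set Metric Filter
open scoped ContDiff RealInnerProductSpace Topology Manifold

namespace Vale.Agent.P098

variable {d : ℕ}

namespace C2

lemma exists_cutoff {K N : Set (E d)} (hK : IsCompact K) (hN : IsOpen N) (hKN : K ⊆ N) :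
    ∃ χ : E d → ℝ, ContDiff ℝ ∞ χ ∧ HasCompactSupport χ ∧ tsupport χ ⊆ N ∧
      (∀ᶠ x in 𝓝ˢ K, χ x = 1) ∧ ∀ x, 0 ≤ χ x := by
  obtain ⟨L, hL, hKL, hLN⟩ := exists_compact_between hK hN hKN
  obtain ⟨f, h1, h0, hf⟩ := exists_contMDiffMap_one_nhds_of_subset_interior (n := ⊤) 𝓘(ℝ, E d)
    hK.isClosed hKL
  have hsub : tsupport (f : E d → ℝ) ⊆ L := by
    refine closure_minimal ?_ hL.isClosed
    intro x hx
    by_contra hxL
    exact hx (h0 x hxL)
  exact ⟨f, contMDiff_iff_contDiff.mp f.contMDiff, hL.of_isClosed_subset (isClosed_tsupport _) hsub,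
    hsub.trans hLN, h1, fun x => (hf x).1⟩

lemma contDiff_smul {G : Type*} [NormedAddCommGroup G] [NormedSpace ℝ G] {χ : E d → ℝ}
    {f : E d → G} {N : Set (E d)} (hN : IsOpen N) (hχ : ContDiff ℝ ∞ χ)
    (hf : ContDiffOn ℝ ∞ f N) (hs : tsupport χ ⊆ N) : ContDiff ℝ ∞ (fun x => χ x • f x) := by
  rw [contDiff_iff_contDiffAt]
  intro x
  by_cases hx : x ∈ N
  · exact hχ.contDiffAt.smul (hf.contDiffAt (hN.mem_nhds hx))
  · have hx' : x ∉ tsupport χ := fun h => hx (hs h)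
    have h1 : (fun x => χ x • f x) =ᶠ[𝓝 x] fun _ => 0 := by
      filter_upwards [notMem_tsupport_iff_eventuallyEq.mp hx'] with y hy
      rw [hy]; simp
    exact contDiffAt_const.congr_of_eventuallyEq h1

lemma gradient_apply (f : E d → ℝ) (x : E d) (i : Fin d) :
    gradient f x i = fderiv ℝ f x (ee i) := by
  rw [← inner_gradient_left, EuclideanSpace.inner_single_right]
  simp

lemma fderiv_eq_sum (f : E d → ℝ) (x v : E d) :
    fderiv ℝ f x v = ∑ i, gradient f x i * v i := by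
  rw [← inner_gradient_left, PiLp.inner_apply]
  refine Finset.sum_congr rfl fun i _ => ?_
  simp [mul_comm]

lemma inner_eq_sum (v w : E d) : ⟪v, w⟫ = ∑ i, v i * w i := by
  rw [PiLp.inner_apply]
  refine Finset.sum_congr rfl fun i _ => ?_
  simp [mul_comm]

lemma contDiff_gradient {f : E d → ℝ} (hf : ContDiff ℝ ∞ f) : ContDiff ℝ ∞ (gradient f) := by
  have h : ContDiff ℝ ∞ (fderiv ℝ f) := hf.fderiv_right (by simp)
  exact (InnerProductSpace.toDual ℝ (E d)).symm.contDiff.comp h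

lemma gradient_mul {f g : E d → ℝ} {x : E d} (hf : DifferentiableAt ℝ f x)
    (hg : DifferentiableAt ℝ g x) :
    gradient (fun y => f y * g y) x = f x • gradient g x + g x • gradient f x := by
  ext i
  rw [gradient_apply, fderiv_fun_mul hf hg]
  simp [gradient_apply]

lemma divg_smul {g : E d → ℝ} {W : E d → E d} {x : E d} (hg : DifferentiableAt ℝ g x)
    (hW : DifferentiableAt ℝ W x) :
    divg (fun y => g y • W y) x = g x * divg W x + ⟪gradient g x, W x⟫ := by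
  rw [divg, divg, inner_eq_sum, Finset.mul_sum, ← Finset.sum_add_distrib]
  refine Finset.sum_congr rfl fun i _ => ?_
  rw [fderiv_fun_smul hg hW, gradient_apply]
  simp only [add_apply, smul_apply, ContinuousLinearMap.smulRight_apply, PiLp.add_apply, PiLp.smul_apply, smul_eq_mul]

lemma divg_sub {W W' : E d → E d} {x : E d} (hW : DifferentiableAt ℝ W x)
    (hW' : DifferentiableAt ℝ W' x) :
    divg (fun y => W y - W' y) x = divg W x - divg W' x := by
  rw [divg, divg, divg, ← Finset.sum_sub_distrib]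
  refine Finset.sum_congr rfl fun i _ => ?_
  rw [fderiv_fun_sub hW hW']
  simp

lemma divg_gradient {c : E d → ℝ} (hc : ContDiff ℝ ∞ c) (x : E d) :
    divg (gradient c) x = lap c x := by
  rw [divg, lap]
  refine Finset.sum_congr rfl fun i _ => ?_
  have h1 : DifferentiableAt ℝ (gradient c) x :=
    (contDiff_gradient hc).differentiable (by simp) x
  have h2 : P1 c i = fun y => (EuclideanSpace.proj i : E d →L[ℝ] ℝ) (gradient c y) := by
    funext y
    simp only [P1, PiLp.proj_apply, gradient_apply]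
  rw [P2, h2]
  have h3 := ((EuclideanSpace.proj i : E d →L[ℝ] ℝ).hasFDerivAt.comp x h1.hasFDerivAt).fderiv
  have h4 : ((EuclideanSpace.proj i : E d →L[ℝ] ℝ) ∘ gradient c) =
      fun y => (EuclideanSpace.proj i : E d →L[ℝ] ℝ) (gradient c y) := rfl
  rw [← h4, h3]
  simp

lemma contDiff_divg {W : E d → E d} (hW : ContDiff ℝ ∞ W) : Continuous (divg W) := by
  unfold divg
  refine continuous_finsetSum _ fun i _ => ?_
  have h : Continuous (fderiv ℝ W) := hW.continuous_fderiv (by simp)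
  (clear * - h; fun_prop)

lemma continuous_lap {c : E d → ℝ} (hc : ContDiff ℝ ∞ c) : Continuous (lap c) := by
  have h : lap c = divg (gradient c) := by
    funext x; rw [divg_gradient hc]
  rw [h]
  exact contDiff_divg (contDiff_gradient hc)

lemma gradient_sq {f : E d → ℝ} {x : E d} (hf : DifferentiableAt ℝ f x) :
    gradient (fun y => f y ^ 2) x = (2 * f x) • gradient f x := by
  have h : (fun y => f y ^ 2) = fun y => f y * f y := by funext y; ring
  rw [h, gradient_mul hf hf, ← add_smul]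
  congr 1; ring

/-- the pointwise identity -/
lemma pointwise {c ψ : E d → ℝ} {V : E d → E d} (hc : ContDiff ℝ ∞ c) (hψ : ContDiff ℝ ∞ ψ)
    (hV : ContDiff ℝ ∞ V) (x : E d) :
    ‖fderiv ℝ (fun y => ψ y * c y) x‖ ^ 2 -
      divg (fun y => (ψ y ^ 2) • (c y • gradient c y - V y)) x =
    (c x ^ 2 * ‖gradient ψ x‖ ^ 2 + 2 * ψ x * ⟪gradient ψ x, V x⟫) -
      ψ x ^ 2 * (c x * lap c x - divg V x) := by
  have hcd : DifferentiableAt ℝ c x := hc.differentiable (by simp) x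
  have hψd : DifferentiableAt ℝ ψ x := hψ.differentiable (by simp) x
  have hVd : DifferentiableAt ℝ V x := hV.differentiable (by simp) x
  have hgd : DifferentiableAt ℝ (gradient c) x :=
    (contDiff_gradient hc).differentiable (by simp) x
  have hcg : DifferentiableAt ℝ (fun y => c y • gradient c y) x := hcd.smul hgd
  have hW : DifferentiableAt ℝ (fun y => c y • gradient c y - V y) x := hcg.sub hVd
  have h1 : ‖fderiv ℝ (fun y => ψ y * c y) x‖ = ‖gradient (fun y => ψ y * c y) x‖ := by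
    rw [gradient, LinearIsometryEquiv.norm_map]
  rw [h1, gradient_mul hψd hcd, divg_smul (g := fun y => ψ y ^ 2) (hψd.pow 2) hW, divg_sub hcg hVd, divg_smul hcd hgd,
    divg_gradient hc, gradient_sq hψd, norm_add_sq_real, inner_sub_right]
  simp only [norm_smul, mul_pow, inner_smul_left, inner_smul_right, Real.norm_eq_abs, sq_abs,
    real_inner_self_eq_norm_sq, RCLike.conj_to_real]
  rw [real_inner_comm (gradient c x) (gradient ψ x)]
  ring

lemma gradient_eq_zero_off {f : E d → ℝ} {x : E d} (h : x ∉ tsupport f) : gradient f x = 0 := by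
  have h1 : f =ᶠ[𝓝 x] fun _ => 0 := notMem_tsupport_iff_eventuallyEq.mp h
  rw [h1.gradient_eq]
  exact gradient_fun_const x (0 : ℝ)

end C2

/-- The statement of the global stability inequality. -/
def StabilityGlobal (u : E d → ℝ) : Prop :=
  ∀ (N : Set (E d)) (U : E d → ℝ), LocalExt u N U → ContDiff ℝ ∞ U →
    ∀ (φ : E d → ℝ), ContDiff ℝ 1 φ → (∀ x, 0 ≤ φ x) → HasCompactSupport φ →
    tsupport φ ⊆ N → ∀ (F : E d → E d), ContDiff ℝ 1 F → HasCompactSupport F → tsupport F ⊆ N →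
    (∀ x ∈ N, x ∈ frontier {y | 0 < u y} → 0 ≤ ⟪F x, gradient U x⟫ + curv U x * φ x ^ 2) →
    ∫ x in {y | 0 < u y}, divg F x ≤ ∫ x in {y | 0 < u y}, ‖fderiv ℝ φ x‖ ^ 2

namespace C2

/-- the inequality with globally smooth data -/
lemma global {u : E d → ℝ} (H : StabilityGlobal u) {N : Set (E d)} {U : E d → ℝ}
    (hU : LocalExt u N U) (hUs : ContDiff ℝ ∞ U) {c ψ : E d → ℝ} {V : E d → E d}
    (hc : ContDiff ℝ ∞ c) (hψ : ContDiff ℝ ∞ ψ) (hV : ContDiff ℝ ∞ V) (hc0 : ∀ x, 0 ≤ c x)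
    (hψ0 : ∀ x, 0 ≤ ψ x) (hψc : HasCompactSupport ψ) (hψN : tsupport ψ ⊆ N)
    (hb : ∀ x ∈ N, x ∈ frontier {y | 0 < u y} →
      ⟪V x, gradient U x⟫ ≤ c x * (⟪gradient c x, gradient U x⟫ + curv U x * c x)) :
    ∫ x in {y | 0 < u y}, ψ x ^ 2 * (c x * lap c x - divg V x) ≤
      ∫ x in {y | 0 < u y}, (c x ^ 2 * ‖gradient ψ x‖ ^ 2 + 2 * ψ x * ⟪gradient ψ x, V x⟫) := by
  have hgc := contDiff_gradient hc
  have hgψ := contDiff_gradient hψ
  have hW : ContDiff ℝ ∞ (fun y => c y • gradient c y - V y) := (hc.smul hgc).sub hV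
  have hφs : ContDiff ℝ ∞ (fun y => ψ y * c y) := hψ.mul hc
  have hFs : ContDiff ℝ ∞ (fun y => (ψ y ^ 2) • (c y • gradient c y - V y)) :=
    (hψ.pow 2).smul hW
  have hφt : tsupport (fun y => ψ y * c y) ⊆ tsupport ψ := tsupport_mul_subset_left
  have hFt : tsupport (fun y => (ψ y ^ 2) • (c y • gradient c y - V y)) ⊆ tsupport ψ := by
    refine closure_minimal ?_ (isClosed_tsupport _)
    intro x hx
    refine subset_tsupport _ ?_
    intro h0
    apply hx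
    simp [h0]
  have hφc : HasCompactSupport (fun y => ψ y * c y) := hψc.of_isClosed_subset (isClosed_tsupport _) hφt
  have hFc : HasCompactSupport (fun y => (ψ y ^ 2) • (c y • gradient c y - V y)) :=
    hψc.of_isClosed_subset (isClosed_tsupport _) hFt
  have key := H N U hU hUs _ (hφs.of_le (by simp only [WithTop.one_le_coe, le_top])) (fun x => mul_nonneg (hψ0 x) (hc0 x)) hφc
    (hφt.trans hψN) _ (hFs.of_le (by simp only [WithTop.one_le_coe, le_top])) hFc (hFt.trans hψN) (by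
      intro x hx hxf
      have h1 := hb x hx hxf
      have h2 : ⟪(ψ x ^ 2) • (c x • gradient c x - V x), gradient U x⟫ +
          curv U x * (ψ x * c x) ^ 2 = ψ x ^ 2 *
          (c x * (⟪gradient c x, gradient U x⟫ + curv U x * c x) - ⟪V x, gradient U x⟫) := by
        rw [real_inner_smul_left, inner_sub_left, real_inner_smul_left]
        ring
      rw [h2]
      exact mul_nonneg (sq_nonneg _) (sub_nonneg.2 h1))
  -- the four functions
  have c1 : Continuous (fun x => ‖fderiv ℝ (fun y => ψ y * c y) x‖ ^ 2) :=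
    ((hφs.continuous_fderiv (by simp)).norm).pow 2
  have c2 : Continuous (divg (fun y => (ψ y ^ 2) • (c y • gradient c y - V y))) :=
    contDiff_divg hFs
  have c3 : Continuous (fun x => c x ^ 2 * ‖gradient ψ x‖ ^ 2 + 2 * ψ x * ⟪gradient ψ x, V x⟫) := by
    have e1 := hc.continuous
    have e2 := hψ.continuous
    have e3 := hgψ.continuous
    have e4 := hV.continuous
    fun_prop
  have c4 : Continuous (fun x => ψ x ^ 2 * (c x * lap c x - divg V x)) := by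
    have e1 := hc.continuous
    have e2 := hψ.continuous
    have e3 := continuous_lap hc
    have e4 := contDiff_divg hV
    fun_prop
  have hint : ∀ f : E d → ℝ, Continuous f → (∀ x, x ∉ tsupport ψ → f x = 0) →
      IntegrableOn f {y | 0 < u y} := by
    intro f hf h0
    exact (hf.integrable_of_hasCompactSupport (HasCompactSupport.intro hψc h0)).integrableOn
  have i1 := hint _ c1 (by
    intro x hx
    have : x ∉ tsupport (fun y => ψ y * c y) := fun h => hx (hφt h)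
    have h1 : (fun y => ψ y * c y) =ᶠ[𝓝 x] fun _ => 0 := notMem_tsupport_iff_eventuallyEq.mp this
    show ‖fderiv ℝ (fun y => ψ y * c y) x‖ ^ 2 = 0
    rw [h1.fderiv_eq]
    simp)
  have i2 := hint _ c2 (by
    intro x hx
    have : x ∉ tsupport (fun y => (ψ y ^ 2) • (c y • gradient c y - V y)) := fun h => hx (hFt h)
    have h1 : (fun y => (ψ y ^ 2) • (c y • gradient c y - V y)) =ᶠ[𝓝 x] fun _ => 0 :=
      notMem_tsupport_iff_eventuallyEq.mp this
    rw [divg, h1.fderiv_eq]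
    simp only [fderiv_fun_const, Pi.zero_apply, zero_apply, PiLp.zero_apply, Finset.sum_const_zero])
  have i3 := hint _ c3 (by
    intro x hx
    rw [gradient_eq_zero_off hx]
    simp)
  have i4 := hint _ c4 (by
    intro x hx
    rw [image_eq_zero_of_notMem_tsupport hx]
    simp only [ne_eq, OfNat.ofNat_ne_zero, not_false_eq_true, zero_pow, zero_mul])
  have e1 := integral_sub i1 i2
  have e2 := integral_sub i3 i4
  have e3 : ∫ x in {y | 0 < u y}, (‖fderiv ℝ (fun y => ψ y * c y) x‖ ^ 2 -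
      divg (fun y => (ψ y ^ 2) • (c y • gradient c y - V y)) x) =
      ∫ x in {y | 0 < u y}, ((c x ^ 2 * ‖gradient ψ x‖ ^ 2 + 2 * ψ x * ⟪gradient ψ x, V x⟫) -
        ψ x ^ 2 * (c x * lap c x - divg V x)) := by
    congr 1
    funext x
    exact pointwise hc hψ hV x
  have e4 : (0 : ℝ) ≤ (∫ x in {y | 0 < u y}, ‖fderiv ℝ (fun y => ψ y * c y) x‖ ^ 2) -
      ∫ x in {y | 0 < u y}, divg (fun y => (ψ y ^ 2) • (c y • gradient c y - V y)) x :=
    sub_nonneg.2 key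
  rw [← e1, e3, e2] at e4
  exact sub_nonneg.1 e4

lemma divg_congr {V W : E d → E d} {x : E d} (h : V =ᶠ[𝓝 x] W) : divg V x = divg W x := by
  rw [divg, divg, h.fderiv_eq]

lemma lap_congr {c c' : E d → ℝ} {x : E d} (h : c =ᶠ[𝓝 x] c') : lap c x = lap c' x := by
  rw [lap, lap]
  refine Finset.sum_congr rfl fun i _ => ?_
  have h1 : P1 c i =ᶠ[𝓝 x] P1 c' i := by
    filter_upwards [h.fderiv (𝕜 := ℝ)] with y hy
    rw [P1, P1, hy]
  rw [P2, P2, h1.fderiv_eq]

lemma curv_congr {U U' : E d → ℝ} {x : E d} (h : U =ᶠ[𝓝 x] U') : curv U x = curv U' x := by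
  have h1 : gradient U =ᶠ[𝓝 x] gradient U' := h.gradient
  rw [curv, curv, h1.fderiv_eq, h.gradient_eq]

end C2

theorem stability_fields_aux {u : E d → ℝ} (H : StabilityGlobal u) (huc : Continuous u)
    {N : Set (E d)} {U : E d → ℝ} (hU : LocalExt u N U)
    {c : E d → ℝ} (hc : ContDiffOn ℝ ∞ c N) (hc0 : ∀ x ∈ N, 0 ≤ c x)
    {V : E d → E d} (hV : ContDiffOn ℝ ∞ V N)
    (hb : ∀ x ∈ N, x ∈ frontier {y | 0 < u y} →
      ⟪V x, gradient U x⟫ ≤ c x * (⟪gradient c x, gradient U x⟫ + curv U x * c x))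
    {η : E d → ℝ} (hη : ContDiff ℝ ∞ η) (hη0 : ∀ x, 0 ≤ η x) (hηc : HasCompactSupport η)
    (hηN : closure {y | 0 < u y} ∩ tsupport η ⊆ N) :
    ∫ x in {y | 0 < u y}, η x ^ 2 * (c x * lap c x - divg V x) ≤
      ∫ x in {y | 0 < u y}, (c x ^ 2 * ‖gradient η x‖ ^ 2 + 2 * η x * ⟪gradient η x, V x⟫) := by
  have hN := hU.isOpen
  have hK : IsCompact (closure {y | 0 < u y} ∩ tsupport η) := hηc.inter_left isClosed_closure
  obtain ⟨χ₁, h₁s, -, h₁N, h₁1, h₁0⟩ := C2.exists_cutoff hK hN hηN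
  set N' : Set (E d) := interior {x | χ₁ x = 1} with hN'
  have hN'o : IsOpen N' := isOpen_interior
  have hKN' : closure {y | 0 < u y} ∩ tsupport η ⊆ N' :=
    subset_interior_iff_mem_nhdsSet.mpr h₁1
  have hN'1 : ∀ x ∈ N', ∀ᶠ y in 𝓝 x, χ₁ y = 1 := by
    intro x hx
    filter_upwards [hN'o.mem_nhds hx] with y hy
    have h : y ∈ {x | χ₁ x = 1} := interior_subset hy
    exact h
  have hN'N : N' ⊆ N := by
    intro x hx
    refine h₁N (subset_tsupport _ ?_)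
    have h : x ∈ {x | χ₁ x = 1} := interior_subset hx
    have h' : χ₁ x = 1 := h
    rw [Function.mem_support, h']
    exact one_ne_zero
  obtain ⟨χ, hχs, hχc, hχN, hχ1, hχ0⟩ := C2.exists_cutoff hK hN'o hKN'
  have heq : ∀ {G : Type} [NormedAddCommGroup G] [NormedSpace ℝ G] (f : E d → G), ∀ x ∈ N',
      (fun y => χ₁ y • f y) =ᶠ[𝓝 x] f := by
    intro G _ _ f x hx
    filter_upwards [hN'1 x hx] with y hy
    rw [hy, one_smul]
  have hpt : ∀ {G : Type} [NormedAddCommGroup G] [NormedSpace ℝ G] (f : E d → G), ∀ x ∈ N',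
      χ₁ x • f x = f x := by
    intro G _ _ f x hx
    rw [(hN'1 x hx).self_of_nhds, one_smul]
  have hUs : ContDiff ℝ ∞ (fun x => χ₁ x • U x) := C2.contDiff_smul hN h₁s hU.smooth h₁N
  have hcs : ContDiff ℝ ∞ (fun x => χ₁ x • c x) := C2.contDiff_smul hN h₁s hc h₁N
  have hVs : ContDiff ℝ ∞ (fun x => χ₁ x • V x) := C2.contDiff_smul hN h₁s hV h₁N
  have hU' : LocalExt u N' (fun x => χ₁ x • U x) := by
    refine ⟨hN'o, hUs.contDiffOn, ?_, ?_⟩
    · intro x hx hux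
      rw [hpt U x hx]
      exact hU.eq x (hN'N hx) hux
    · intro x hx hxf
      rw [(heq U x hx).gradient_eq]
      exact hU.grad x (hN'N hx) hxf
  have hcs0 : ∀ x, 0 ≤ χ₁ x • c x := by
    intro x
    by_cases hx : x ∈ N
    · exact mul_nonneg (h₁0 x) (hc0 x hx)
    · have : χ₁ x = 0 := image_eq_zero_of_notMem_tsupport fun h => hx (h₁N h)
      rw [this, zero_smul]
  have hψs : ContDiff ℝ ∞ (fun x => χ x * η x) := hχs.mul hη
  have hψχ : tsupport (fun x => χ x * η x) ⊆ tsupport χ := tsupport_mul_subset_left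
  have hψη : tsupport (fun x => χ x * η x) ⊆ tsupport η := tsupport_mul_subset_right
  have key := C2.global H hU' hUs hcs hψs hVs hcs0 (fun x => mul_nonneg (hχ0 x) (hη0 x))
    (hχc.of_isClosed_subset (isClosed_tsupport _) hψχ) (hψχ.trans hχN) (by
      intro x hx hxf
      rw [(heq U x hx).gradient_eq, (heq c x hx).gradient_eq, C2.curv_congr (heq U x hx),
        hpt c x hx, hpt V x hx]
      exact hb x (hN'N hx) hxf)
  have hΩ : MeasurableSet {y | 0 < u y} := (isOpen_lt continuous_const huc).measurableSet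
  have e1 : ∫ x in {y | 0 < u y}, (χ x * η x) ^ 2 *
      ((χ₁ x • c x) * lap (fun x => χ₁ x • c x) x - divg (fun x => χ₁ x • V x) x) =
      ∫ x in {y | 0 < u y}, η x ^ 2 * (c x * lap c x - divg V x) := by
    refine setIntegral_congr_fun hΩ ?_
    intro x hx
    by_cases hxη : x ∈ tsupport η
    · have hxK : x ∈ closure {y | 0 < u y} ∩ tsupport η := ⟨subset_closure hx, hxη⟩
      have hxN' := hKN' hxK
      have h1 : χ x = 1 := hχ1.self_of_nhdsSet x hxK
      simp only [h1, one_mul]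
      rw [hpt c x hxN', C2.lap_congr (heq c x hxN'), C2.divg_congr (heq V x hxN')]
    · have h0 : η x = 0 := image_eq_zero_of_notMem_tsupport hxη
      simp [h0]
  have e2 : ∫ x in {y | 0 < u y}, ((χ₁ x • c x) ^ 2 * ‖gradient (fun x => χ x * η x) x‖ ^ 2 +
      2 * (χ x * η x) * ⟪gradient (fun x => χ x * η x) x, χ₁ x • V x⟫) =
      ∫ x in {y | 0 < u y}, (c x ^ 2 * ‖gradient η x‖ ^ 2 + 2 * η x * ⟪gradient η x, V x⟫) := by
    refine setIntegral_congr_fun hΩ ?_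
    intro x hx
    by_cases hxη : x ∈ tsupport η
    · have hxK : x ∈ closure {y | 0 < u y} ∩ tsupport η := ⟨subset_closure hx, hxη⟩
      have hxN' := hKN' hxK
      have h1 : χ x = 1 := hχ1.self_of_nhdsSet x hxK
      have h2 : (fun x => χ x * η x) =ᶠ[𝓝 x] η := by
        have h3 : ∀ᶠ y in 𝓝 x, χ y = 1 := hχ1.filter_mono (nhds_le_nhdsSet hxK)
        filter_upwards [h3] with y hy
        rw [hy, one_mul]
      simp only
      rw [hpt c x hxN', hpt V x hxN', h2.gradient_eq, h1, one_mul]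
    · have h0 : η x = 0 := image_eq_zero_of_notMem_tsupport hxη
      have h1 : gradient η x = 0 := C2.gradient_eq_zero_off hxη
      have h2 : gradient (fun x => χ x * η x) x = 0 :=
        C2.gradient_eq_zero_off fun h => hxη (hψη h)
      simp only [smul_eq_mul, h2, norm_zero, ne_eq, OfNat.ofNat_ne_zero, not_false_eq_true, zero_pow, mul_zero, h0, inner_zero_left, add_zero, h1]
  rw [e1, e2] at key
  exact key

end Vale.Agent.P098
end

section

/-!
Module M5a, part 2: bounds of the jets of a one-homogeneous function.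
-/

open MeasureTheory Set Metric Filter
open scoped ContDiff RealInnerProductSpace Topology

namespace Vale.Agent.P098

variable {d : ℕ}

namespace M5a

lemma P1_hom {Ω : Set (E d)} (hΩ : IsOpen Ω) {f : E d → ℝ} {r c : ℝ} (hr : 0 < r)
    (h : ∀ y ∈ Ω, f (r • y) = c * f y) {x : E d} (hx : x ∈ Ω)
    (hf : DifferentiableAt ℝ f x) (hf' : DifferentiableAt ℝ f (r • x)) (i : Fin d) :
    P1 f i (r • x) = r⁻¹ * c * P1 f i x := by
  have h1 : (fun y => f (r • y)) =ᶠ[𝓝 x] fun y => c * f y := by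
    filter_upwards [hΩ.mem_nhds hx] with y hy using h y hy
  have h2 : HasFDerivAt (fun y => f (r • y))
      ((fderiv ℝ f (r • x)).comp (r • ContinuousLinearMap.id ℝ (E d))) x := by
    have h3 : HasFDerivAt (fun y : E d => r • y) (r • ContinuousLinearMap.id ℝ (E d)) x :=
      (hasFDerivAt_id x).const_smul r
    exact HasFDerivAt.comp x hf'.hasFDerivAt h3
  have h4 : HasFDerivAt (fun y => c * f y) (c • fderiv ℝ f x) x := hf.hasFDerivAt.const_mul c
  have h5 := (h4.congr_of_eventuallyEq h1).unique h2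
  have h6 := congrArg (fun L => L (ee i)) h5
  simp only [ContinuousLinearMap.comp_apply, smul_apply,
    ContinuousLinearMap.id_apply, map_smul, smul_eq_mul] at h6
  unfold P1
  rw [mul_assoc, h6]
  field_simp

/-- The jets of a one-homogeneous function. -/
lemma jets_hom {u U : E d → ℝ} (hc : Continuous u)
    (hhom : ∀ r : ℝ, 0 < r → ∀ x, u (r • x) = r * u x)
    {N : Set (E d)} (hU : LocalExt u N U) (hN : {y | 0 < u y} ⊆ N) {r : ℝ} (hr : 0 < r)
    {x : E d} (hx : 0 < u x) :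
    (∀ i j, P2 U i j (r • x) = r⁻¹ * P2 U i j x) ∧
    (∀ i j k, P3 U i j k (r • x) = r⁻¹ ^ 2 * P3 U i j k x) := by
  have hΩ : IsOpen {y | 0 < u y} := isOpen_lt continuous_const hc
  have hrx : ∀ y ∈ {y | 0 < u y}, r • y ∈ {y | 0 < u y} := by
    intro y hy
    show 0 < u (r • y)
    rw [hhom r hr]
    exact mul_pos hr hy
  have hUo := hU.isOpen
  have hUs := hU.smooth
  have h0 : ∀ y ∈ {y | 0 < u y}, U (r • y) = r * U y := by
    intro y hy
    rw [hU.eq _ (hN (hrx y hy)) (hrx y hy), hU.eq _ (hN hy) hy, hhom r hr]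
  have h1 : ∀ i, ∀ y ∈ {y | 0 < u y}, P1 U i (r • y) = 1 * P1 U i y := by
    intro i y hy
    rw [P1_hom hΩ hr h0 hy (diffAt_of hUo hUs (hN hy)) (diffAt_of hUo hUs (hN (hrx y hy)))]
    rw [inv_mul_cancel₀ hr.ne']
  have h2 : ∀ i j, ∀ y ∈ {y | 0 < u y}, P2 U i j (r • y) = r⁻¹ * P2 U i j y := by
    intro i j y hy
    have := P1_hom hΩ hr (h1 i) hy (diffAt_P1 hUo hUs (hN hy) i)
      (diffAt_P1 hUo hUs (hN (hrx y hy)) i) j
    rw [mul_one] at this
    exact this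
  refine ⟨fun i j => h2 i j x hx, fun i j k => ?_⟩
  have := P1_hom hΩ hr (h2 i j) hx (diffAt_P2 hUo hUs (hN hx) i j)
    (diffAt_P2 hUo hUs (hN (hrx x hx)) i j) k
  rw [sq]
  exact this

lemma exists_bound {ι : Type*} [Finite ι] {K : Set (E d)} (hK : IsCompact K) (f : ι → E d → ℝ)
    (hf : ∀ i, ContinuousOn (f i) K) : ∃ C : ℝ, 0 ≤ C ∧ ∀ x ∈ K, ∀ i, |f i x| ≤ C := by
  have h1 : ∀ i, ∃ C : ℝ, ∀ x ∈ K, ‖f i x‖ ≤ C := fun i => hK.exists_bound_of_continuousOn (hf i)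
  choose C hC using h1
  obtain ⟨M, hM⟩ := Finite.exists_le C
  refine ⟨max M 0, le_max_right _ _, fun x hx i => ?_⟩
  exact ((hC i x hx).trans (hM i)).trans (le_max_left _ _)

lemma u_zero {u : E d → ℝ} (hhom : ∀ r : ℝ, 0 < r → ∀ x, u (r • x) = r * u x) : u 0 = 0 := by
  have h := hhom 2 (by norm_num) 0
  rw [smul_zero] at h
  linarith

lemma pos_sub {u : E d → ℝ} (hhom : ∀ r : ℝ, 0 < r → ∀ x, u (r • x) = r * u x)
    {N₀ : Set (E d)} (hN₀ : closure {y | 0 < u y} \ {0} ⊆ N₀) : {y | 0 < u y} ⊆ N₀ := by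
  intro y hy
  refine hN₀ ⟨subset_closure hy, ?_⟩
  rintro rfl
  have h : 0 < u 0 := hy
  rw [u_zero hhom] at h
  exact lt_irrefl _ h

/-- `|D²U| ≤ C / |x|`, `|D³U| ≤ C / |x|²`. -/
lemma jets_bound {u U : E d → ℝ} (hc : Continuous u)
    (hhom : ∀ r : ℝ, 0 < r → ∀ x, u (r • x) = r * u x)
    {N₀ : Set (E d)} (hU : LocalExt u N₀ U)
    (hN₀ : closure {y | 0 < u y} \ {0} ⊆ N₀) :
    ∃ C : ℝ, 0 ≤ C ∧ ∀ x, 0 < u x → (∀ i j, |P2 U i j x| ≤ C * (1 / ‖x‖)) ∧
      (∀ i j k, |P3 U i j k x| ≤ C * (1 / ‖x‖ ^ 2)) := by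
  have hsub := pos_sub hhom hN₀
  have hKc : IsCompact (closure {y | 0 < u y} ∩ sphere (0 : E d) 1) :=
    (isCompact_sphere 0 1).inter_left isClosed_closure
  have hKN : closure {y | 0 < u y} ∩ sphere (0 : E d) 1 ⊆ N₀ := by
    rintro y ⟨hy1, hy2⟩
    refine hN₀ ⟨hy1, ?_⟩
    rintro rfl
    rw [mem_sphere_zero_iff_norm, norm_zero] at hy2
    exact zero_ne_one hy2
  obtain ⟨C2, hC2, hb2⟩ := exists_bound hKc (fun (p : Fin d × Fin d) => P2 U p.1 p.2)
    (fun p => ((contDiffOn_P2 hU.isOpen hU.smooth p.1 p.2).continuousOn).mono hKN)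
  obtain ⟨C3, hC3, hb3⟩ := exists_bound hKc (fun (p : Fin d × Fin d × Fin d) =>
    P3 U p.1 p.2.1 p.2.2)
    (fun p => ((contDiffOn_P3 hU.isOpen hU.smooth p.1 p.2.1 p.2.2).continuousOn).mono hKN)
  refine ⟨max C2 C3, le_max_of_le_left hC2, fun x hx => ?_⟩
  have hx0 : x ≠ 0 := by
    rintro rfl
    rw [u_zero hhom] at hx
    exact lt_irrefl _ hx
  have hr : 0 < ‖x‖ := norm_pos_iff.2 hx0
  have hω : 0 < u (‖x‖⁻¹ • x) := by
    rw [hhom _ (inv_pos.2 hr)]
    exact mul_pos (inv_pos.2 hr) hx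
  have hωK : ‖x‖⁻¹ • x ∈ closure {y | 0 < u y} ∩ sphere (0 : E d) 1 := by
    refine ⟨subset_closure hω, ?_⟩
    rw [mem_sphere_zero_iff_norm, norm_smul, norm_inv, norm_norm, inv_mul_cancel₀ hr.ne']
  obtain ⟨h2, h3⟩ := jets_hom hc hhom hU hsub hr hω
  rw [smul_inv_smul₀ hr.ne'] at h2 h3
  constructor
  · intro i j
    rw [h2 i j, abs_mul, abs_of_pos (inv_pos.2 hr), mul_comm, one_div]
    exact mul_le_mul_of_nonneg_right ((hb2 _ hωK (i, j)).trans (le_max_left _ _))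
      (inv_nonneg.2 hr.le)
  · intro i j k
    rw [h3 i j k, abs_mul, abs_of_pos (pow_pos (inv_pos.2 hr) 2), mul_comm, one_div, inv_pow]
    exact mul_le_mul_of_nonneg_right ((hb3 _ hωK (i, j, k)).trans (le_max_right _ _))
      (inv_nonneg.2 (sq_nonneg _))

/-! ### powers of the Hessian -/

lemma row_bound (M : Matrix (Fin d) (Fin d) ℝ) {F : ℝ} (hM : ∑ i, ∑ j, M i j ^ 2 ≤ F ^ 2)
    (j : ℕ) (i : Fin d) : ∑ l, (M ^ j) i l ^ 2 ≤ (F ^ 2) ^ j := by
  induction j with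
  | zero =>
    rw [pow_zero, pow_zero]
    rw [Finset.sum_eq_single i]
    · simp
    · intro l _ hl
      simp [Ne.symm hl]
    · intro h
      exact absurd (Finset.mem_univ i) h
  | succ j ih =>
    have h1 : ∀ l, (M ^ (j + 1)) i l ^ 2 ≤ (∑ q, (M ^ j) i q ^ 2) * ∑ q, M q l ^ 2 := by
      intro l
      rw [pow_succ M j, Matrix.mul_apply]
      exact Finset.sum_mul_sq_le_sq_mul_sq _ _ _
    calc ∑ l, (M ^ (j + 1)) i l ^ 2 ≤ ∑ l, (∑ q, (M ^ j) i q ^ 2) * ∑ q, M q l ^ 2 :=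
          Finset.sum_le_sum fun l _ => h1 l
      _ = (∑ q, (M ^ j) i q ^ 2) * ∑ l, ∑ q, M q l ^ 2 := by rw [Finset.mul_sum]
      _ = (∑ q, (M ^ j) i q ^ 2) * ∑ q, ∑ l, M q l ^ 2 := by rw [Finset.sum_comm]
      _ ≤ (F ^ 2) ^ j * F ^ 2 := mul_le_mul ih hM
          (Finset.sum_nonneg fun q _ => Finset.sum_nonneg fun l _ => sq_nonneg _) (by (clear * -; positivity))
      _ = (F ^ 2) ^ (j + 1) := (pow_succ _ _).symm

lemma entry_bound (M : Matrix (Fin d) (Fin d) ℝ) {F : ℝ} (hF : 0 ≤ F)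
    (hM : ∑ i, ∑ j, M i j ^ 2 ≤ F ^ 2) (j : ℕ) (i l : Fin d) : |(M ^ j) i l| ≤ F ^ j := by
  have h1 := row_bound M hM j i
  have h2 : (M ^ j) i l ^ 2 ≤ ∑ l, (M ^ j) i l ^ 2 :=
    Finset.single_le_sum (f := fun l => (M ^ j) i l ^ 2) (fun l _ => sq_nonneg _)
      (Finset.mem_univ l)
  have h3 : (M ^ j) i l ^ 2 ≤ (F ^ j) ^ 2 := by
    rw [← pow_mul, mul_comm, pow_mul]
    exact h2.trans h1
  exact abs_le_of_sq_le_sq h3 (by positivity)

lemma FF_sq {δ : ℝ} (hδ : 0 < δ) (U : E d → ℝ) (x : E d) : FF δ U x ^ 2 = SS δ U x :=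
  Real.sq_sqrt (add_nonneg (Finset.sum_nonneg fun _ _ => Finset.sum_nonneg fun _ _ =>
    sq_nonneg _) hδ.le)

lemma SS_pos {δ : ℝ} (hδ : 0 < δ) (U : E d → ℝ) (x : E d) : 0 < SS δ U x :=
  add_pos_of_nonneg_of_pos (Finset.sum_nonneg fun _ _ => Finset.sum_nonneg fun _ _ =>
    sq_nonneg _) hδ

lemma FF_pos {δ : ℝ} (hδ : 0 < δ) (U : E d → ℝ) (x : E d) : 0 < FF δ U x :=
  Real.sqrt_pos.2 (SS_pos hδ U x)

lemma MM_entry {δ : ℝ} (hδ : 0 < δ) (U : E d → ℝ) (x : E d) (j : ℕ) (i l : Fin d) :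
    |(MM U x ^ j) i l| ≤ FF δ U x ^ j := by
  refine entry_bound _ (FF_pos hδ U x).le ?_ j i l
  rw [FF_sq hδ]
  unfold SS MM
  linarith only [hδ]

lemma GG_bound {δ : ℝ} (hδ : 0 < δ) (U : E d → ℝ) (x : E d) {T : ℝ}
    (hT : ∀ i j k, |P3 U i j k x| ≤ T) (j : ℕ) (k : Fin d) :
    |GG U j k x| ≤ (d : ℝ) ^ 2 * FF δ U x ^ j * T := by
  unfold GG
  calc |∑ i, ∑ l, (MM U x ^ j) i l * P3 U i l k x|
      ≤ ∑ i : Fin d, ∑ l : Fin d, FF δ U x ^ j * T := by
        refine (Finset.abs_sum_le_sum_abs _ _).trans (Finset.sum_le_sum fun i _ => ?_)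
        refine (Finset.abs_sum_le_sum_abs _ _).trans (Finset.sum_le_sum fun l _ => ?_)
        rw [abs_mul]
        exact mul_le_mul (MM_entry hδ U x j i l) (hT i l k) (abs_nonneg _)
          (pow_nonneg (FF_pos hδ U x).le _)
    _ = (d : ℝ) ^ 2 * FF δ U x ^ j * T := by
        simp only [Finset.sum_const, Finset.card_univ, Fintype.card_fin, nsmul_eq_mul]
        ring

lemma P1_le {U : E d → ℝ} {x : E d} (hv : vv U x ≤ 1) (i : Fin d) : |P1 U i x| ≤ 1 := by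
  have h1 : P1 U i x ^ 2 ≤ 1 := (Finset.single_le_sum (f := fun i => P1 U i x ^ 2)
    (fun l _ => sq_nonneg _) (Finset.mem_univ i)).trans hv
  exact abs_le_of_sq_le_sq (by simpa only [one_pow, sq_le_one_iff_abs_le_one] using h1) (by norm_num)

lemma QQ_bound {δ : ℝ} (hδ : 0 < δ) {U : E d → ℝ} {x : E d} (hv : vv U x ≤ 1)
    (j : ℕ) (k : Fin d) : |QQ U j k x| ≤ (d : ℝ) * FF δ U x ^ j := by
  unfold QQ
  calc |∑ i, (MM U x ^ j) k i * P1 U i x|
      ≤ ∑ i : Fin d, FF δ U x ^ j * 1 := by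
        refine (Finset.abs_sum_le_sum_abs _ _).trans (Finset.sum_le_sum fun i _ => ?_)
        rw [abs_mul]
        exact mul_le_mul (MM_entry hδ U x j k i) (P1_le hv i) (abs_nonneg _)
          (pow_nonneg (FF_pos hδ U x).le _)
    _ = (d : ℝ) * FF δ U x ^ j := by
        simp only [Finset.sum_const, Finset.card_univ, Fintype.card_fin, nsmul_eq_mul, mul_one]

lemma tt_bound {δ : ℝ} (hδ : 0 < δ) (U : E d → ℝ) (x : E d) (j : ℕ) :
    |tt U j x / FF δ U x ^ j| ≤ d := by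
  have hF := pow_pos (FF_pos hδ U x) j
  rw [abs_div, abs_of_pos hF, div_le_iff₀ hF]
  unfold tt Matrix.trace
  calc |∑ i, Matrix.diag (MM U x ^ j) i|
      ≤ ∑ i : Fin d, FF δ U x ^ j :=
        (Finset.abs_sum_le_sum_abs _ _).trans (Finset.sum_le_sum fun i _ => MM_entry hδ U x j i i)
    _ = (d : ℝ) * FF δ U x ^ j := by
        simp only [Finset.sum_const, Finset.card_univ, Fintype.card_fin, nsmul_eq_mul]

end M5a

end Vale.Agent.P098
end

section

open MeasureTheory Set Metric Filter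
open scoped ContDiff RealInnerProductSpace Topology Pointwise

namespace Vale.Agent.P098

variable {d : ℕ}

/-- half-open annuli -/
def annD (Ω : Set (E d)) (j : ℕ) : Set (E d) := Ω ∩ {x | 2 ^ j ≤ ‖x‖ ∧ ‖x‖ < 2 ^ (j + 1)}

lemma smul_annD {Ω : Set (E d)} (hcone : ∀ r : ℝ, 0 < r → ∀ x ∈ Ω, r • x ∈ Ω) (j : ℕ) :
    ((2 : ℝ) ^ j) • annD Ω 0 = annD Ω j := by
  have h2 : (0 : ℝ) < 2 ^ j := by positivity
  ext x
  rw [mem_smul_set_iff_inv_smul_mem₀ h2.ne']
  simp only [annD, mem_inter_iff, mem_setOf_eq, norm_smul, norm_inv, norm_pow, Real.norm_ofNat,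
    pow_zero, zero_add, pow_one]
  have e1 : (1 : ℝ) ≤ (2 ^ j)⁻¹ * ‖x‖ ↔ 2 ^ j ≤ ‖x‖ := by
    rw [inv_mul_eq_div, le_div_iff₀ h2, one_mul]
  have e2 : (2 ^ j)⁻¹ * ‖x‖ < (2 : ℝ) ↔ ‖x‖ < 2 ^ (j + 1) := by
    rw [inv_mul_eq_div, div_lt_iff₀ h2, pow_succ]
    constructor <;> intro h <;> linarith
  rw [e1, e2]
  constructor
  · rintro ⟨h1, h⟩
    refine ⟨?_, h⟩
    have := hcone (2 ^ j) h2 _ h1
    rwa [smul_smul, mul_inv_cancel₀ h2.ne', one_smul] at this
  · rintro ⟨h1, h⟩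
    exact ⟨hcone _ (by positivity) _ h1, h⟩

lemma measurableSet_annD {Ω : Set (E d)} (hΩ : IsOpen Ω) (j : ℕ) :
    MeasurableSet (annD Ω j) := by
  refine hΩ.measurableSet.inter ?_
  exact (measurableSet_le measurable_const measurable_norm).inter
    (measurableSet_lt measurable_norm measurable_const)

theorem eq_zero_of_log_growth {Ω : Set (E d)} (hΩ : IsOpen Ω) (h0 : (0 : E d) ∉ Ω)
    (hcone : ∀ r : ℝ, 0 < r → ∀ x ∈ Ω, r • x ∈ Ω) {q : E d → ℝ} (hq : ContinuousOn q Ω)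
    (hq0 : ∀ x ∈ Ω, 0 ≤ q x) (hhom : ∀ r : ℝ, 0 < r → ∀ x ∈ Ω, q (r • x) = (r ^ d)⁻¹ * q x)
    (hint : IntegrableOn q (Ω ∩ {x | 1 ≤ ‖x‖ ∧ ‖x‖ ≤ 2}))
    {C : ℝ} (hC : ∀ k : ℕ, ∫ x in Ω ∩ {x | 1 ≤ ‖x‖ ∧ ‖x‖ ≤ 2 ^ k}, q x ≤ C) :
    ∀ x ∈ Ω, q x = 0 := by
  -- closed annuli
  have hclosed : ∀ (a b : ℝ), MeasurableSet (Ω ∩ {x | a ≤ ‖x‖ ∧ ‖x‖ ≤ b}) := fun a b =>
    hΩ.measurableSet.inter ((measurableSet_le measurable_const measurable_norm).inter
      (measurableSet_le measurable_norm measurable_const))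
  have hsub0 : annD Ω 0 ⊆ Ω ∩ {x | 1 ≤ ‖x‖ ∧ ‖x‖ ≤ 2} := by
    rintro x ⟨hx, h1, h2⟩
    exact ⟨hx, by simpa only [pow_zero] using h1, by simpa only [zero_add, pow_one] using h2.le⟩
  -- scaling of the integrals over half-open annuli
  have hscale : ∀ j : ℕ, ∫ x in annD Ω j, q x = ∫ x in annD Ω 0, q x := by
    intro j
    have h2 : (0 : ℝ) < 2 ^ j := by positivity
    have h3 := Measure.setIntegral_comp_smul_of_pos (volume : Measure (E d)) q (annD Ω 0) h2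
    rw [smul_annD hcone j] at h3
    have h4 : ∫ x in annD Ω 0, q ((2 : ℝ) ^ j • x)
        = ∫ x in annD Ω 0, (((2 : ℝ) ^ j) ^ d)⁻¹ * q x := by
      refine setIntegral_congr_fun (measurableSet_annD hΩ 0) ?_
      intro x hx
      exact hhom _ h2 x hx.1
    rw [h4, integral_const_mul] at h3
    simp only [finrank_euclideanSpace, Fintype.card_fin, smul_eq_mul] at h3
    have h5 : (((2 : ℝ) ^ j) ^ d)⁻¹ ≠ 0 := by positivity
    exact (mul_left_cancel₀ h5 h3).symm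
  -- integrability on closed annuli `1 ≤ |x| ≤ 2 ^ k`
  have hint' : ∀ k : ℕ, IntegrableOn q (Ω ∩ {x | 1 ≤ ‖x‖ ∧ ‖x‖ ≤ 2 ^ k}) := by
    intro k
    induction k with
    | zero =>
      refine hint.mono_set ?_
      rintro x ⟨hx, h1, h2⟩
      exact ⟨hx, h1, h2.trans (by norm_num)⟩
    | succ k ih =>
      have h2 : (0 : ℝ) < 2 ^ k := by positivity
      -- the next closed annulus is a dilate of the first
      have hnext : IntegrableOn q (Ω ∩ {x | 2 ^ k ≤ ‖x‖ ∧ ‖x‖ ≤ 2 ^ (k + 1)}) := by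
        rw [← integrable_indicator_iff (hclosed _ _)]
        rw [← integrable_comp_smul_iff (volume : Measure (E d)) _ h2.ne']
        have h3 : (fun x => (Ω ∩ {x | 2 ^ k ≤ ‖x‖ ∧ ‖x‖ ≤ 2 ^ (k + 1)}).indicator q
            ((2 : ℝ) ^ k • x)) = fun x => (((2 : ℝ) ^ k) ^ d)⁻¹ *
              (Ω ∩ {x | 1 ≤ ‖x‖ ∧ ‖x‖ ≤ 2}).indicator q x := by
          funext x
          have hiff : ((2 : ℝ) ^ k • x) ∈ (Ω ∩ {x | 2 ^ k ≤ ‖x‖ ∧ ‖x‖ ≤ 2 ^ (k + 1)}) ↔
              x ∈ Ω ∩ {x : E d | 1 ≤ ‖x‖ ∧ ‖x‖ ≤ 2} := by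
            simp only [mem_inter_iff, mem_setOf_eq, norm_smul, norm_pow, Real.norm_ofNat]
            have e1 : (2 : ℝ) ^ k ≤ 2 ^ k * ‖x‖ ↔ 1 ≤ ‖x‖ := by
              constructor
              · intro h; exact le_of_mul_le_mul_left (by linarith) h2
              · intro h; linarith only [mul_nonneg (le_of_lt (sub_pos.2 h2)) (sub_nonneg.2 h)]
            have e2 : (2 : ℝ) ^ k * ‖x‖ ≤ 2 ^ (k + 1) ↔ ‖x‖ ≤ 2 := by
              rw [pow_succ]
              constructor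
              · intro h; exact le_of_mul_le_mul_left (by linarith only [h]) h2
              · intro h; nlinarith only [h2, h]
            rw [e1, e2]
            constructor
            · rintro ⟨h1, h⟩
              refine ⟨?_, h⟩
              have := hcone (2 ^ k)⁻¹ (by positivity) _ h1
              rwa [smul_smul, inv_mul_cancel₀ h2.ne', one_smul] at this
            · rintro ⟨h1, h⟩
              exact ⟨hcone _ h2 _ h1, h⟩
          by_cases hx : x ∈ Ω ∩ {x : E d | 1 ≤ ‖x‖ ∧ ‖x‖ ≤ 2}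
          · rw [indicator_of_mem hx, indicator_of_mem (hiff.2 hx), hhom _ h2 x hx.1]
          · rw [indicator_of_notMem hx, indicator_of_notMem (fun h => hx (hiff.1 h)), mul_zero]
        rw [h3]
        exact ((integrable_indicator_iff (hclosed _ _)).2 hint).const_mul _
      refine (ih.union hnext).mono_set ?_
      rintro x ⟨hx, h1, h3⟩
      rcases le_total ‖x‖ (2 ^ k) with h | h
      · exact Or.inl ⟨hx, h1, h⟩
      · exact Or.inr ⟨hx, h, h3⟩
  -- lower bound by `k` times the first integral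
  have hlow : ∀ k : ℕ, (k : ℝ) * ∫ x in annD Ω 0, q x
      ≤ ∫ x in Ω ∩ {x | 1 ≤ ‖x‖ ∧ ‖x‖ < 2 ^ k}, q x := by
    intro k
    induction k with
    | zero =>
      simp only [Nat.cast_zero, zero_mul]
      refine setIntegral_nonneg ?_ (fun x hx => hq0 x hx.1)
      exact hΩ.measurableSet.inter ((measurableSet_le measurable_const measurable_norm).inter
        (measurableSet_lt measurable_norm measurable_const))
    | succ k ih =>
      have hk1 : (1 : ℝ) ≤ 2 ^ k := one_le_pow₀ (by norm_num)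
      have hun : Ω ∩ {x | 1 ≤ ‖x‖ ∧ ‖x‖ < 2 ^ (k + 1)}
          = (Ω ∩ {x | 1 ≤ ‖x‖ ∧ ‖x‖ < 2 ^ k}) ∪ annD Ω k := by
        ext x
        simp only [mem_inter_iff, mem_setOf_eq, annD, mem_union]
        constructor
        · rintro ⟨hx, h1, h3⟩
          rcases lt_or_ge ‖x‖ (2 ^ k) with h | h
          · exact Or.inl ⟨hx, h1, h⟩
          · exact Or.inr ⟨hx, h, h3⟩
        · rintro (⟨hx, h1, h3⟩ | ⟨hx, h1, h3⟩)
          · refine ⟨hx, h1, h3.trans ?_⟩
            rw [pow_succ]; linarith only [h1, h3]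
          · exact ⟨hx, hk1.trans h1, h3⟩
      have hdisj : Disjoint (Ω ∩ {x | 1 ≤ ‖x‖ ∧ ‖x‖ < 2 ^ k}) (annD Ω k) := by
        rw [Set.disjoint_left]
        rintro x ⟨_, _, h1⟩ ⟨_, h2, _⟩
        exact absurd h1 (not_lt.2 h2)
      have hi1 : IntegrableOn q (Ω ∩ {x | 1 ≤ ‖x‖ ∧ ‖x‖ < 2 ^ k}) :=
        (hint' k).mono_set (fun x hx => ⟨hx.1, hx.2.1, hx.2.2.le⟩)
      have hi2 : IntegrableOn q (annD Ω k) :=
        (hint' (k + 1)).mono_set (fun x hx => ⟨hx.1, hk1.trans hx.2.1, hx.2.2.le⟩)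
      rw [hun, setIntegral_union hdisj (measurableSet_annD hΩ k) hi1 hi2, hscale k]
      push_cast
      linarith only [ih]
  have hI0 : 0 ≤ ∫ x in annD Ω 0, q x :=
    setIntegral_nonneg (measurableSet_annD hΩ 0) (fun x hx => hq0 x hx.1)
  have hIk : ∀ k : ℕ, (k : ℝ) * ∫ x in annD Ω 0, q x ≤ C := by
    intro k
    refine (hlow k).trans (le_trans ?_ (hC k))
    refine setIntegral_mono_set (hint' k) ?_ ?_
    · filter_upwards [ae_restrict_mem (hclosed _ _)] with x hx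
      exact hq0 x hx.1
    · exact (show Ω ∩ {x | 1 ≤ ‖x‖ ∧ ‖x‖ < 2 ^ k} ⊆ Ω ∩ {x | 1 ≤ ‖x‖ ∧ ‖x‖ ≤ 2 ^ k} from
        fun x hx => ⟨hx.1, hx.2.1, hx.2.2.le⟩).eventuallyLE
  have hI : ∫ x in annD Ω 0, q x = 0 := by
    by_contra hne
    have hpos : 0 < ∫ x in annD Ω 0, q x := lt_of_le_of_ne hI0 (Ne.symm hne)
    obtain ⟨k, hk⟩ := exists_nat_gt (C / ∫ x in annD Ω 0, q x)
    rw [div_lt_iff₀ hpos] at hk
    linarith only [hk, hIk k]
  have hint0 : IntegrableOn q (annD Ω 0) := hint.mono_set hsub0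
  have hae : q =ᵐ[volume.restrict (annD Ω 0)] 0 := by
    refine (setIntegral_eq_zero_iff_of_nonneg_ae ?_ hint0).1 hI
    filter_upwards [ae_restrict_mem (measurableSet_annD hΩ 0)] with x hx
    exact hq0 x hx.1
  -- open part of the annulus
  set U : Set (E d) := Ω ∩ {x | 1 < ‖x‖ ∧ ‖x‖ < 2} with hU
  have hUo : IsOpen U := hΩ.inter ((isOpen_lt continuous_const continuous_norm).inter
    (isOpen_lt continuous_norm continuous_const))
  have hUs : U ⊆ annD Ω 0 := by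
    rintro x ⟨hx, h1, h2⟩
    exact ⟨hx, by simpa only [pow_zero] using h1.le, by simpa using h2⟩
  have hEq : EqOn q 0 U := Measure.eqOn_open_of_ae_eq
    (ae_restrict_of_ae_restrict_of_subset hUs hae) hUo (hq.mono inter_subset_left)
    continuousOn_const
  intro x hx
  have hx0 : x ≠ 0 := fun h => h0 (h ▸ hx)
  have hn : 0 < ‖x‖ := norm_pos_iff.2 hx0
  have hr : (0 : ℝ) < 3 / (2 * ‖x‖) := by positivity
  have hmem : (3 / (2 * ‖x‖)) • x ∈ U := by
    refine ⟨hcone _ hr x hx, ?_, ?_⟩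
    all_goals
      rw [norm_smul, Real.norm_of_nonneg hr.le]
      have : 3 / (2 * ‖x‖) * ‖x‖ = 3 / 2 := by field_simp
      rw [this]; norm_num
  have h1 := hEq hmem
  rw [hhom _ hr x hx] at h1
  have h2 : (((3 / (2 * ‖x‖)) ^ d)⁻¹ : ℝ) ≠ 0 := by positivity
  simpa only [Pi.zero_apply, mul_eq_zero, h2, false_or] using h1

end Vale.Agent.P098
end

section

/-!
# Nested lists: bounds and reduction modulo the sphere (radix `8` for `y`)
-/

namespace Vale.Agent.P098.N.R8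

open Vale.Agent.P098.K

/-! ### The concrete radices -/

/-- Radices of `y, v, l`. -/
abbrev rs3 : List ℕ := [8, 4, 17]
/-- Radices of `y, v, l, a`. -/
abbrev rs4 : List ℕ := [8, 4, 17, 17]
/-- Radices of `y, v, l, a, b`. -/
abbrev rs5 : List ℕ := [8, 4, 17, 17, 17]
/-- Radices of `y, v, l, a, b, c`. -/
abbrev rs6 : List ℕ := [8, 4, 17, 17, 17, 9]

/-- Weighted sums. -/
def ws1 (B h : ℕ) : ℕ → P1 → ℕ := wsg (dg B h 5 17)
def ws2 (B h : ℕ) : ℕ → P2 → ℕ := wsg (ws1 B h)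

variable {B h b : ℕ} {X : ℕ → ℝ}

theorem bound1 (hX : Pt X) {d0 d1 d2 d3 : ℕ} {p : P1} {v : ℝ}
    (hR : Rep B rs4 X [d0, d1, d2, d3] b (fv1 ((B : ℤ) ^ 544) p) v)
    (hf : fits rs3 [d0, d1, d2] = true) (hb : b < h) (hB : 2 * h ≤ B)
    (hr : rng1 (B ^ 544) 17 p = true) (n : ℕ) : |v| * 2 ^ n ≤ ws1 B h n p := by
  obtain ⟨hl, hx⟩ := rng1_lt hr
  have hx' : ∀ x ∈ p, 2 * |x| < (B : ℤ) ^ rs3.prod := by
    intro x hxp
    have := hx x hxp
    push_cast at this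
    exact this
  obtain ⟨vs, h1, h2⟩ := rep_split (rs := rs3) (ds := [d0, d1, d2]) (r := 17) (d := d3) hR rfl
    (by norm_num) (by norm_num) hb hB hx' hl rfl
  refine level_bound (f := dg B h 5 17) (z := (0 : ℤ)) (fun m => rfl) hl hX.h3 h2 ?_ n
  intro k hk m
  exact dg_bound (h1 k hk) hf (by norm_num) hb hB hX.h0 hX.h1 hX.h2

theorem bound2 (hX : Pt X) {d0 d1 d2 d3 d4 : ℕ} {p : P2} {v : ℝ}
    (hR : Rep B rs5 X [d0, d1, d2, d3, d4] b (fv2 ((B : ℤ) ^ 544) ((B : ℤ) ^ 9248) p) v)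
    (hf : fits rs3 [d0, d1, d2] = true) (hb : b < h) (hB : 2 * h ≤ B)
    (hr : rng2 (B ^ 544) 17 17 p = true) (n : ℕ) : |v| * 2 ^ n ≤ ws2 B h n p := by
  have hr' := hr
  simp only [rng2, Bool.and_eq_true, List.all_eq_true] at hr'
  have hl := Nat.le_of_ble_eq_true hr'.1
  have hB1 : 1 ≤ B ^ 544 := Nat.one_le_pow _ _ (by omega)
  have hx' : ∀ x ∈ p.map (fv1 ((B : ℤ) ^ 544)), 2 * |x| < (B : ℤ) ^ rs4.prod := by
    intro x hxp
    obtain ⟨y, hy, rfl⟩ := List.mem_map.mp hxp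
    have := fv1_range hB1 (hr'.2 y hy)
    push_cast at this
    rw [← pow_mul] at this
    exact this
  obtain ⟨vs, h1, h2⟩ := rep_split (rs := rs4) (ds := [d0, d1, d2, d3]) (r := 17) (d := d4) hR rfl
    (by norm_num) (by norm_num) hb hB hx' (by simpa only [List.length_map] using hl) (fv2_eq_pev _ _ _).symm
  refine level_bound (f := ws1 B h) (z := ([] : P1)) (fun m => rfl) hl hX.h4 h2 ?_ n
  intro k hk m
  have h3 : (p.map (fv1 ((B : ℤ) ^ 544))).getD k 0 = fv1 ((B : ℤ) ^ 544) (p.getD k []) := by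
    rw [List.getD_eq_getElem?_getD, List.getD_eq_getElem?_getD, List.getElem?_map]
    cases p[k]? <;> rfl
  have h4 := h1 k hk
  rw [h3] at h4
  refine bound1 hX h4 hf hb hB ?_ m
  rcases lt_or_ge k p.length with h' | h'
  · rw [List.getD_eq_getElem?_getD, List.getElem?_eq_getElem h']
    exact hr'.2 _ (List.getElem_mem h')
  · rw [List.getD_eq_default _ _ h']
    rfl

/-! ### Reduction -/

/-- `4 c² = 1 - 20 l² - 4 a² - 4 b²`. -/
def e0 (B : ℕ) : P2 := [[1 - 20 * (B : ℤ) ^ 64, 0, -4], [], [-4]]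

theorem rep_e0 : Rep B rs5 X [0, 0, 2, 2, 2] 29
    (fv2 ((B : ℤ) ^ 544) ((B : ℤ) ^ 9248) (e0 B))
    (1 - 20 * X 2 ^ 2 - 4 * X 3 ^ 2 - 4 * X 4 ^ 2) := by
  refine ⟨[(1, 0), (-20, 64), (-4, 1088), (-4, 18496)], ?_, ?_, ?_, ?_⟩
  · simp only [kr, List.map_cons, List.map_nil, List.sum_cons, List.sum_nil, fv2, fv1, e0, pev]
    ring
  · simp only [l1, Int.reduceNeg, List.map_cons, isUnit_one, Int.natAbs_of_isUnit, Int.natAbs_neg, Int.reduceAbs, List.map_nil, List.sum_cons, List.sum_nil, add_zero, Nat.reduceAdd, Std.le_refl]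
  · intro t ht
    simp only [List.mem_cons, List.not_mem_nil, or_false] at ht
    rcases ht with rfl | rfl | rfl | rfl <;> simp [ok]
  · simp only [K.ev, mono, zero_add, Nat.reduceAdd, mul_one, Int.reduceNeg, List.map_cons, Int.cast_one, Nat.zero_mod, pow_zero, Nat.zero_div, Int.cast_neg, Int.cast_ofNat, Nat.reduceMod, Nat.reduceDiv, one_mul, neg_mul, List.map_nil, List.sum_cons, List.sum_nil, add_zero]
    ring

/-- The even part in `c`, times `256`. -/
def redE (B : ℕ) (p : P3) : P2 :=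
  add2 (scl2 256 (p.getD 0 [])) (mul2 (e0 B) (add2 (scl2 64 (p.getD 2 [])) (mul2 (e0 B)
    (add2 (scl2 16 (p.getD 4 [])) (mul2 (e0 B) (add2 (scl2 4 (p.getD 6 []))
      (mul2 (e0 B) (p.getD 8 []))))))))

/-- The odd part in `c`, times `64`. -/
def redO (B : ℕ) (p : P3) : P2 :=
  add2 (scl2 64 (p.getD 1 [])) (mul2 (e0 B) (add2 (scl2 16 (p.getD 3 [])) (mul2 (e0 B)
    (add2 (scl2 4 (p.getD 5 [])) (mul2 (e0 B) (p.getD 7 []))))))

/-- The full check of a residual. -/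
def rchk (B : ℕ) (p : P3) : Bool :=
  Nat.ble p.length 9 && p.all (fun x => rng2 (B ^ 544) 17 17 x)
    && rng2 (B ^ 544) 17 17 (redE B p) && rng2 (B ^ 544) 17 17 (redO B p)

/-- The bound of a residual. -/
def rbd (B h : ℕ) (p : P3) : ℕ := ws2 B h 16 (redE B p) + 2 * ws2 B h 16 (redO B p)

theorem rep_step {ds : List ℕ} {b1 b2 : ℕ} {M N : P2} {v w : ℝ} {c : ℕ}
    (h1 : Rep B rs5 X ds b1 (fv2 ((B : ℤ) ^ 544) ((B : ℤ) ^ 9248) M) v)
    (h2 : Rep B rs5 X ds b2 (fv2 ((B : ℤ) ^ 544) ((B : ℤ) ^ 9248) N) w)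
    (hf : fits rs5 (List.zipWith (· + ·) [0, 0, 2, 2, 2] ds) = true)
    (hle : leL ds (List.zipWith (· + ·) [0, 0, 2, 2, 2] ds) = true) :
    Rep B rs5 X (List.zipWith (· + ·) [0, 0, 2, 2, 2] ds) (c * b1 + 29 * b2)
      (fv2 ((B : ℤ) ^ 544) ((B : ℤ) ^ 9248) (add2 (scl2 c M) (mul2 (e0 B) N)))
      (c * v + (1 - 20 * X 2 ^ 2 - 4 * X 3 ^ 2 - 4 * X 4 ^ 2) * w) := by
  rw [fv2_add, fv2_scl, fv2_mul]
  refine Rep.add ?_ (rep_e0.mul h2 hf)
  have := (h1.smul (c : ℤ)).weaken hle (le_refl _)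
  simpa only [Int.natAbs_natCast, Int.cast_natCast] using this

theorem reduce_bound (hX : Pt X) (hs : 20 * X 2 ^ 2 + 4 * (X 3 ^ 2 + X 4 ^ 2 + X 5 ^ 2) = 1)
    {p : P3} {v : ℝ}
    (hR : Rep B rs6 X [4, 3, 8, 8, 8, 8] b
      (fv3 ((B : ℤ) ^ 544) ((B : ℤ) ^ 9248) ((B : ℤ) ^ 157216) p) v)
    (hb : b * 893101 < h) (hB : 2 * h ≤ B) (hr : rchk B p = true) :
    |v| * 2 ^ 24 ≤ rbd B h p := by
  simp only [rchk, Bool.and_eq_true, List.all_eq_true] at hr
  obtain ⟨⟨⟨hl, hall⟩, hE⟩, hO⟩ := hr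
  have hl := Nat.le_of_ble_eq_true hl
  have hB1 : 1 ≤ B ^ 544 := Nat.one_le_pow _ _ (by omega)
  have hb' : b < h := by omega
  have hx' : ∀ x ∈ p.map (fv2 ((B : ℤ) ^ 544) ((B : ℤ) ^ 9248)), 2 * |x| < (B : ℤ) ^ rs5.prod := by
    intro x hxp
    obtain ⟨y, hy, rfl⟩ := List.mem_map.mp hxp
    have := fv2_range hB1 (hall y hy)
    push_cast at this
    rw [← pow_mul, ← pow_mul] at this
    exact this
  obtain ⟨vs, h1, h2⟩ := rep_split (rs := rs5) (ds := [4, 3, 8, 8, 8]) (r := 9) (d := 8) hR rfl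
    (by norm_num) (by norm_num) hb' hB hx' (by simpa only [List.length_map] using hl) (fv3_eq_pev _ _ _ _).symm
  have h3 : ∀ k, (p.map (fv2 ((B : ℤ) ^ 544) ((B : ℤ) ^ 9248))).getD k 0
      = fv2 ((B : ℤ) ^ 544) ((B : ℤ) ^ 9248) (p.getD k []) := by
    intro k
    rw [List.getD_eq_getElem?_getD, List.getD_eq_getElem?_getD, List.getElem?_map]
    cases p[k]? <;> rfl
  have h4 : ∀ k < 9, Rep B rs5 X [4, 3, 8, 8, 8] b
      (fv2 ((B : ℤ) ^ 544) ((B : ℤ) ^ 9248) (p.getD k [])) (vs k) := by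
    intro k hk
    have := h1 k hk
    rwa [h3] at this
  have g8 := h4 8 (by norm_num)
  have g6 := rep_step (c := 4) (h4 6 (by norm_num)) g8 (by decide) (by decide)
  have g4 := rep_step (c := 16) ((h4 4 (by norm_num)).weaken (ds' := [4, 3, 10, 10, 10])
    (by decide) le_rfl) g6 (by decide) (by decide)
  have g2 := rep_step (c := 64) ((h4 2 (by norm_num)).weaken (ds' := [4, 3, 12, 12, 12])
    (by decide) le_rfl) g4 (by decide) (by decide)
  have g0 := rep_step (c := 256) ((h4 0 (by norm_num)).weaken (ds' := [4, 3, 14, 14, 14])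
    (by decide) le_rfl) g2 (by decide) (by decide)
  have g7 := h4 7 (by norm_num)
  have g5 := rep_step (c := 4) (h4 5 (by norm_num)) g7 (by decide) (by decide)
  have g3 := rep_step (c := 16) ((h4 3 (by norm_num)).weaken (ds' := [4, 3, 10, 10, 10])
    (by decide) le_rfl) g5 (by decide) (by decide)
  have g1 := rep_step (c := 64) ((h4 1 (by norm_num)).weaken (ds' := [4, 3, 12, 12, 12])
    (by decide) le_rfl) g3 (by decide) (by decide)
  have kE := bound2 hX (p := redE B p) g0 (by decide) (by (clear * - hb; omega)) hB hE 16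
  have kO := bound2 hX (p := redO B p) g1 (by decide) (by (clear * - hb; omega)) hB hO 16
  set e : ℝ := 1 - 20 * X 2 ^ 2 - 4 * X 3 ^ 2 - 4 * X 4 ^ 2 with he
  have hc : 4 * X 5 ^ 2 = e := by rw [he]; linarith only [hs]
  set E : ℝ := 256 * vs 0 + e * (64 * vs 2 + e * (16 * vs 4 + e * (4 * vs 6 + e * vs 8))) with hEd
  set O : ℝ := 64 * vs 1 + e * (16 * vs 3 + e * (4 * vs 5 + e * vs 7)) with hOd
  have key : 256 * v = E + 4 * X 5 * O := by
    rw [h2, hEd, hOd, ← hc]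
    simp only [Finset.sum_range_succ, Finset.sum_range_zero]
    simp only [List.length_cons, List.length_nil]
    ring
  push_cast at kE kO
  have kE' : |E| * 2 ^ 16 ≤ ws2 B h 16 (redE B p) := by
    rw [hEd]; exact kE
  have kO' : |O| * 2 ^ 16 ≤ ws2 B h 16 (redO B p) := by
    rw [hOd]; exact kO
  have h5 := hX.h5
  have habs : |v| * 256 ≤ |E| + 2 * |O| := by
    have : |v| * 256 = |E + 4 * X 5 * O| := by
      rw [← key, abs_mul]; norm_num; ring
    rw [this]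
    refine (abs_add_le _ _).trans (add_le_add le_rfl ?_)
    rw [abs_mul, abs_mul]
    have : |(4 : ℝ)| = 4 := by norm_num
    rw [this]
    linarith only [mul_nonneg (sub_nonneg.2 h5) (sub_nonneg.2 (abs_nonneg O))]
  rw [rbd]
  push_cast
  calc |v| * 2 ^ 24 = (|v| * 256) * 2 ^ 16 := by ring
    _ ≤ (|E| + 2 * |O|) * 2 ^ 16 := mul_le_mul_of_nonneg_right habs (by positivity)
    _ = |E| * 2 ^ 16 + 2 * (|O| * 2 ^ 16) := by ring
    _ ≤ _ := by linarith only [kE, kO]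

end Vale.Agent.P098.N.R8
end
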