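import Mathlib
import Vale.Agent.P098.Bdl.B7
import Vale.Agent.P098.Bdl.B2
import Vale.Agent.P098.Bdl.B6
import Vale.Agent.P098.Bdl.B1

set_option linter.all false

section

/-!
# P073: mollification of functions with weak derivatives
-/

set_option linter.unusedSectionVars false
set_option maxSynthPendingDepth 3

namespace Vale.Agent.P073

open MeasureTheory Set Filter Topology Metric Module
open scoped ENNReal ContDiff

section

variable {E : Type*} [NormedAddCommGroup E] [InnerProductSpace ℝ E] [FiniteDimensional ℝ E]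
  [MeasurableSpace E] [BorelSpace E] (μ : Measure E) [μ.IsAddHaarMeasure]
  {G : Type*} [NormedAddCommGroup G] [NormedSpace ℝ G] [CompleteSpace G]

/-- `U` is the weak derivative of `u` on `Ω`. -/
def HasWeakDerivOn (μ : Measure E) (Ω : Set E) (u : E → G) (U : E → (E →L[ℝ] G)) : Prop :=
  LocallyIntegrableOn u Ω μ ∧ LocallyIntegrableOn U Ω μ ∧
    ∀ φ : E → ℝ, ContDiff ℝ ∞ φ → HasCompactSupport φ → tsupport φ ⊆ Ω → ∀ v : E,
      ∫ x in Ω, φ x • U x v ∂μ = - ∫ x in Ω, (fderiv ℝ φ x v) • u x ∂μ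

/-- Mollification at scale `ε`. -/
noncomputable def moll (ε : ℝ) (u : E → G) (x : E) : G := ∫ y, eta μ ε (x - y) • u y ∂μ

theorem moll_eq_convolution (ε : ℝ) (u : E → G) :
    moll μ ε u = MeasureTheory.convolution u (eta μ ε)
      (ContinuousLinearMap.lsmul ℝ ℝ : ℝ →L[ℝ] G →L[ℝ] G).flip μ := by
  ext x
  rfl

theorem contDiff_moll {ε : ℝ} (hε : 0 < ε) {u : E → G} (hu : LocallyIntegrable u μ) :
    ContDiff ℝ ∞ (moll μ ε u) := by
  rw [moll_eq_convolution]
  exact (hasCompactSupport_eta μ hε).contDiff_convolution_right _ hu (contDiff_eta μ ε)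

theorem fderiv_moll_apply {ε : ℝ} (hε : 0 < ε) {u : E → G} (hu : LocallyIntegrable u μ)
    (x v : E) :
    fderiv ℝ (moll μ ε u) x v = ∫ y, (fderiv ℝ (eta μ ε) (x - y) v) • u y ∂μ := by
  rw [moll_eq_convolution]
  have h := (hasCompactSupport_eta μ hε).hasFDerivAt_convolution_right
    (ContinuousLinearMap.lsmul ℝ ℝ : ℝ →L[ℝ] G →L[ℝ] G).flip hu (contDiff_eta μ ε (n := 1)) x
  rw [h.fderiv, convolution_precompR_apply _ hu (hasCompactSupport_fderiv_eta μ hε)
    (continuous_fderiv_eta μ ε)]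
  rfl

theorem moll_congr {ε : ℝ} (hε : 0 < ε) {u w : E → G} {x : E} (h : ∀ y ∈ ball x ε, u y = w y) :
    moll μ ε u x = moll μ ε w x := by
  unfold moll
  congr 1
  ext y
  by_cases hy : y ∈ ball x ε
  · rw [h y hy]
  · rw [eta_eq_zero μ hε, zero_smul, zero_smul]
    rw [mem_ball, not_lt, dist_comm, dist_eq_norm] at hy
    exact hy

theorem integral_eta_sub {ε : ℝ} (hε : 0 < ε) (x : E) : ∫ y, eta μ ε (x - y) ∂μ = 1 := by
  rw [integral_sub_left_eq_self (fun z => eta μ ε z) μ x]
  exact integral_eta μ hε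

theorem continuous_eta_sub (ε : ℝ) (x : E) : Continuous fun y => eta μ ε (x - y) :=
  (contDiff_eta μ ε (n := 0)).continuous.comp (continuous_const.sub continuous_id)

theorem contDiff_eta_sub (ε : ℝ) (x : E) {n : ℕ∞} : ContDiff ℝ n fun y => eta μ ε (x - y) :=
  (contDiff_eta μ ε).comp (contDiff_const.sub contDiff_id)

theorem tsupport_eta_sub {ε : ℝ} (hε : 0 < ε) (x : E) :
    tsupport (fun y => eta μ ε (x - y)) ⊆ closedBall x ε := by
  apply closure_minimal _ isClosed_closedBall
  intro y hy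
  by_contra h
  apply hy
  rw [mem_closedBall, not_le, dist_comm, dist_eq_norm] at h
  exact eta_eq_zero μ hε h.le

theorem hasCompactSupport_eta_sub {ε : ℝ} (hε : 0 < ε) (x : E) :
    HasCompactSupport (fun y => eta μ ε (x - y)) :=
  HasCompactSupport.of_support_subset_isCompact (isCompact_closedBall x ε)
    ((subset_tsupport _).trans (tsupport_eta_sub μ hε x))

theorem integrable_eta_sub {ε : ℝ} (hε : 0 < ε) (x : E) :
    Integrable (fun y => eta μ ε (x - y)) μ :=
  (continuous_eta_sub μ ε x).integrable_of_hasCompactSupport (hasCompactSupport_eta_sub μ hε x)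

/-- A weighted integral against the mollifier is integrable. -/
theorem integrable_eta_smul {ε : ℝ} (hε : 0 < ε) {x : E} {w : E → G}
    (hw : IntegrableOn w (closedBall x ε) μ) :
    Integrable (fun y => eta μ ε (x - y) • w y) μ := by
  have h1 : IntegrableOn (fun y => eta μ ε (x - y) • w y) (closedBall x ε) μ :=
    hw.continuousOn_smul (continuous_eta_sub μ ε x).continuousOn (isCompact_closedBall x ε)
  refine (integrableOn_iff_integrable_of_support_subset ?_).1 h1
  intro y hy
  by_contra h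
  apply hy
  rw [mem_closedBall, not_le, dist_comm, dist_eq_norm] at h
  show eta μ ε (x - y) • w y = 0
  rw [eta_eq_zero μ hε h.le, zero_smul]

theorem norm_integral_eta_smul_le {ε : ℝ} (hε : 0 < ε) {x : E} {w : E → G} {s : ℝ}
    (hs : ∀ y ∈ ball x ε, ‖w y‖ ≤ s) :
    ‖∫ y, eta μ ε (x - y) • w y ∂μ‖ ≤ s := by
  have h1 : ‖∫ y, eta μ ε (x - y) • w y ∂μ‖ ≤ ∫ y, eta μ ε (x - y) * s ∂μ := by
    apply norm_integral_le_of_norm_le ((integrable_eta_sub μ hε x).mul_const s)
    refine Eventually.of_forall fun y => ?_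
    rw [norm_smul, Real.norm_of_nonneg (eta_nonneg μ hε.le _)]
    by_cases hy : y ∈ ball x ε
    · exact mul_le_mul_of_nonneg_left (hs y hy) (eta_nonneg μ hε.le _)
    · rw [mem_ball, not_lt, dist_comm, dist_eq_norm] at hy
      rw [eta_eq_zero μ hε hy, zero_mul, zero_mul]
  rwa [integral_mul_const, integral_eta_sub μ hε, one_mul] at h1

theorem moll_sub_eq {ε : ℝ} (hε : 0 < ε) {u : E → G} {x : E} (c : G)
    (hu : IntegrableOn u (closedBall x ε) μ) :
    moll μ ε u x - c = ∫ y, eta μ ε (x - y) • (u y - c) ∂μ := by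
  have h1 : c = ∫ y, eta μ ε (x - y) • c ∂μ := by
    rw [integral_smul_const, integral_eta_sub μ hε, one_smul]
  conv_lhs => rw [h1]
  unfold moll
  rw [← integral_sub (integrable_eta_smul μ hε hu)
    ((integrable_eta_sub μ hε x).smul_const c)]
  simp_rw [smul_sub]

theorem norm_moll_sub_le {ε : ℝ} (hε : 0 < ε) {u : E → G} {x : E} {c : G} {s : ℝ}
    (hu : IntegrableOn u (closedBall x ε) μ) (hs : ∀ y ∈ ball x ε, ‖u y - c‖ ≤ s) :
    ‖moll μ ε u x - c‖ ≤ s := by
  rw [moll_sub_eq μ hε c hu]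
  exact norm_integral_eta_smul_le μ hε hs

theorem fderiv_eta_sub (ε : ℝ) (x y v : E) :
    fderiv ℝ (fun y => eta μ ε (x - y)) y v = - fderiv ℝ (eta μ ε) (x - y) v := by
  have hd : DifferentiableAt ℝ (eta μ ε) (x - y) :=
    (contDiff_eta μ ε (n := 1)).differentiable (by norm_num) _
  have h1 : HasFDerivAt (fun y : E => x - y) (-ContinuousLinearMap.id ℝ E) y := by
    simpa using (hasFDerivAt_id y).const_sub x
  have h2 := hd.hasFDerivAt.comp y h1
  have h3 : HasFDerivAt (fun y => eta μ ε (x - y))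
      ((fderiv ℝ (eta μ ε) (x - y)).comp (-ContinuousLinearMap.id ℝ E)) y := h2
  rw [h3.fderiv]
  simp

/-- Restriction of the weak derivative identity to a compactly supported test function, written
with integrals over the whole space. -/
theorem HasWeakDerivOn.integral_eq {Ω : Set E} {u : E → G}
    {U : E → (E →L[ℝ] G)} (h : HasWeakDerivOn μ Ω u U) {φ : E → ℝ} (hφ : ContDiff ℝ ∞ φ)
    (hc : HasCompactSupport φ) (hs : tsupport φ ⊆ Ω) (v : E) :
    ∫ x, φ x • U x v ∂μ = - ∫ x, (fderiv ℝ φ x v) • u x ∂μ := by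
  have h1 := h.2.2 φ hφ hc hs v
  rw [setIntegral_eq_integral_of_forall_compl_eq_zero,
    setIntegral_eq_integral_of_forall_compl_eq_zero] at h1
  · exact h1
  · intro x hx
    rw [fderiv_of_notMem_tsupport ℝ (fun h => hx (hs h))]
    simp only [zero_apply, zero_smul]
  · intro x hx
    rw [image_eq_zero_of_notMem_tsupport (fun h => hx (hs h)), zero_smul]

theorem HasWeakDerivOn.integrableOn_left {Ω : Set E} {u : E → G}
    {U : E → (E →L[ℝ] G)} (h : HasWeakDerivOn μ Ω u U) {K : Set E} (hK : IsCompact K)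
    (hKΩ : K ⊆ Ω) : IntegrableOn u K μ :=
  h.1.integrableOn_compact_subset hKΩ hK

theorem HasWeakDerivOn.integrableOn_right {Ω : Set E} {u : E → G}
    {U : E → (E →L[ℝ] G)} (h : HasWeakDerivOn μ Ω u U) {K : Set E} (hK : IsCompact K)
    (hKΩ : K ⊆ Ω) : IntegrableOn U K μ :=
  h.2.1.integrableOn_compact_subset hKΩ hK

/-- The derivative of the mollification is the mollification of the weak derivative. -/
theorem fderiv_moll {Ω : Set E} {u : E → G}
    {U : E → (E →L[ℝ] G)} (h : HasWeakDerivOn μ Ω u U) {K : Set E} (hK : IsCompact K)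
    (hKΩ : K ⊆ Ω) {ε : ℝ} (hε : 0 < ε) {x : E} (hx : closedBall x ε ⊆ K) :
    fderiv ℝ (moll μ ε (K.indicator u)) x = moll μ ε (K.indicator U) x := by
  have hu : Integrable (K.indicator u) μ :=
    (h.integrableOn_left μ hK hKΩ).integrable_indicator hK.measurableSet
  have hU : Integrable (K.indicator U) μ :=
    (integrable_indicator_iff hK.measurableSet).2 (h.integrableOn_right μ hK hKΩ)
  ext v
  rw [fderiv_moll_apply μ hε hu.locallyIntegrable]
  have h1 := h.integral_eq μ (contDiff_eta_sub μ ε x) (hasCompactSupport_eta_sub μ hε x)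
    ((tsupport_eta_sub μ hε x).trans (hx.trans hKΩ)) v
  simp_rw [fderiv_eta_sub, neg_smul, integral_neg, neg_neg] at h1
  unfold moll
  rw [ContinuousLinearMap.integral_apply (integrable_eta_smul μ hε hU.integrableOn)]
  have h2 : ∫ y, (fderiv ℝ (eta μ ε) (x - y) v) • K.indicator u y ∂μ =
      ∫ y, (fderiv ℝ (eta μ ε) (x - y) v) • u y ∂μ := by
    congr 1
    ext y
    by_cases hy : y ∈ K
    · rw [indicator_of_mem hy]
    · have : ε < ‖x - y‖ := by
        by_contra h3
        apply hy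
        apply hx
        rw [mem_closedBall, dist_comm, dist_eq_norm]
        linarith only [h3]
      rw [fderiv_eta_eq_zero μ hε this]
      simp
  have h3 : ∫ y, (eta μ ε (x - y) • K.indicator U y) v ∂μ = ∫ y, eta μ ε (x - y) • U y v ∂μ := by
    congr 1
    ext y
    by_cases hy : y ∈ K
    · rw [indicator_of_mem hy]; rfl
    · have : ε ≤ ‖x - y‖ := by
        by_contra h3
        apply hy
        apply hx
        rw [mem_closedBall, dist_comm, dist_eq_norm]
        linarith only [h3]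
      rw [eta_eq_zero μ hε this]
      simp only [zero_smul, zero_apply]
  rw [h2, h3, ← h1]

end

end Vale.Agent.P073
end

section

/-!
# P073: convergence of mollifications in `L^p`
-/

set_option linter.unusedSectionVars false
set_option maxSynthPendingDepth 3

namespace Vale.Agent.P073

open MeasureTheory Set Filter Topology Metric Module
open scoped ENNReal ContDiff

section

variable {E : Type*} [NormedAddCommGroup E] [InnerProductSpace ℝ E] [FiniteDimensional ℝ E]
  [MeasurableSpace E] [BorelSpace E] (μ : Measure E) [μ.IsAddHaarMeasure]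
  {G : Type*} [NormedAddCommGroup G] [NormedSpace ℝ G] [CompleteSpace G]

theorem lintegral_eta_sub {ε : ℝ} (hε : 0 < ε) (x : E) :
    ∫⁻ y, ENNReal.ofReal (eta μ ε (x - y)) ∂μ = 1 := by
  rw [← ofReal_integral_eq_lintegral_ofReal (integrable_eta_sub μ hε x)
    (Eventually.of_forall fun y => eta_nonneg μ hε.le _), integral_eta_sub μ hε, ENNReal.ofReal_one]

theorem lintegral_eta_sub' {ε : ℝ} (hε : 0 < ε) (y : E) :
    ∫⁻ x, ENNReal.ofReal (eta μ ε (x - y)) ∂μ = 1 := by
  rw [lintegral_sub_right_eq_self (fun z => ENNReal.ofReal (eta μ ε z)) y]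
  rw [← ofReal_integral_eq_lintegral_ofReal (integrable_eta μ hε)
    (Eventually.of_forall fun y => eta_nonneg μ hε.le _), integral_eta μ hε, ENNReal.ofReal_one]

theorem measurable_eta_sub (ε : ℝ) (x : E) :
    Measurable fun y => ENNReal.ofReal (eta μ ε (x - y)) :=
  (continuous_eta_sub μ ε x).measurable.ennreal_ofReal

/-- Jensen's inequality for the mollification. -/
theorem enorm_moll_rpow_le {p : ℝ} (hp : 1 ≤ p) {ε : ℝ} (hε : 0 < ε) {W : E → G}
    (hW : AEStronglyMeasurable W μ) (x : E) :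
    ‖moll μ ε W x‖ₑ ^ p ≤ ∫⁻ y, ENNReal.ofReal (eta μ ε (x - y)) * ‖W y‖ₑ ^ p ∂μ := by
  have hp0 : 0 < p := by linarith
  set ν : Measure E := μ.withDensity (fun y => ENNReal.ofReal (eta μ ε (x - y))) with hν
  have hνac : ν ≪ μ := withDensity_absolutelyContinuous _ _
  have hprob : IsProbabilityMeasure ν := by
    constructor
    rw [hν, withDensity_apply _ MeasurableSet.univ, Measure.restrict_univ]
    exact lintegral_eta_sub μ hε x
  have h1 : ‖moll μ ε W x‖ₑ ≤ ∫⁻ y, ENNReal.ofReal (eta μ ε (x - y)) * ‖W y‖ₑ ∂μ := by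
    unfold moll
    refine (enorm_integral_le_lintegral_enorm _).trans (le_of_eq ?_)
    congr 1
    ext y
    rw [enorm_smul, Real.enorm_of_nonneg (eta_nonneg μ hε.le _)]
  have h2 : ∫⁻ y, ENNReal.ofReal (eta μ ε (x - y)) * ‖W y‖ₑ ∂μ = ∫⁻ y, ‖W y‖ₑ ∂ν := by
    rw [hν, lintegral_withDensity_eq_lintegral_mul₀ (measurable_eta_sub μ ε x).aemeasurable
      hW.enorm]
    rfl
  have h3 : ∫⁻ y, ENNReal.ofReal (eta μ ε (x - y)) * ‖W y‖ₑ ^ p ∂μ = ∫⁻ y, ‖W y‖ₑ ^ p ∂ν := by
    rw [hν, lintegral_withDensity_eq_lintegral_mul₀ (measurable_eta_sub μ ε x).aemeasurable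
      (hW.enorm.pow_const p)]
    rfl
  have h4 := eLpNorm'_le_eLpNorm'_of_exponent_le (one_pos) hp ν (hW.mono_ac hνac)
  unfold eLpNorm' at h4
  simp only [ENNReal.rpow_one, div_one] at h4
  rw [h3]
  calc ‖moll μ ε W x‖ₑ ^ p ≤ (∫⁻ y, ‖W y‖ₑ ∂ν) ^ p := by
        rw [← h2]; exact ENNReal.rpow_le_rpow h1 hp0.le
    _ ≤ ((∫⁻ y, ‖W y‖ₑ ^ p ∂ν) ^ (1 / p)) ^ p := ENNReal.rpow_le_rpow h4 hp0.le
    _ = ∫⁻ y, ‖W y‖ₑ ^ p ∂ν := by
        rw [← ENNReal.rpow_mul, one_div_mul_cancel hp0.ne', ENNReal.rpow_one]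

theorem lintegral_moll_rpow_le {p : ℝ} (hp : 1 ≤ p) {ε : ℝ} (hε : 0 < ε) {W : E → G}
    (hW : AEStronglyMeasurable W μ) :
    ∫⁻ x, ‖moll μ ε W x‖ₑ ^ p ∂μ ≤ ∫⁻ y, ‖W y‖ₑ ^ p ∂μ := by
  calc ∫⁻ x, ‖moll μ ε W x‖ₑ ^ p ∂μ
      ≤ ∫⁻ x, ∫⁻ y, ENNReal.ofReal (eta μ ε (x - y)) * ‖W y‖ₑ ^ p ∂μ ∂μ :=
        lintegral_mono fun x => enorm_moll_rpow_le μ hp hε hW x
    _ = ∫⁻ y, ∫⁻ x, ENNReal.ofReal (eta μ ε (x - y)) * ‖W y‖ₑ ^ p ∂μ ∂μ := by
        rw [lintegral_lintegral_swap]
        apply AEMeasurable.mul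
        · have : Continuous fun z : E × E => eta μ ε (z.1 - z.2) :=
            (contDiff_eta μ ε (n := 0)).continuous.comp (continuous_fst.sub continuous_snd)
          exact this.measurable.ennreal_ofReal.aemeasurable
        · exact (hW.enorm.pow_const p).comp_snd
    _ = ∫⁻ y, ‖W y‖ₑ ^ p ∂μ := by
        congr 1
        ext y
        rw [lintegral_mul_const'', lintegral_eta_sub' μ hε, one_mul]
        have : Continuous fun x : E => eta μ ε (x - y) :=
            (contDiff_eta μ ε (n := 0)).continuous.comp (continuous_id.sub continuous_const)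
        exact this.measurable.ennreal_ofReal.aemeasurable

theorem eLpNorm_moll_le {p : ℝ} (hp : 1 ≤ p) {ε : ℝ} (hε : 0 < ε) {W : E → G}
    (hW : AEStronglyMeasurable W μ) :
    eLpNorm (moll μ ε W) (ENNReal.ofReal p) μ ≤ eLpNorm W (ENNReal.ofReal p) μ := by
  have hp0 : 0 < p := by linarith only [hp]
  have hp1 : ENNReal.ofReal p ≠ 0 := by
    rw [Ne, ENNReal.ofReal_eq_zero]; linarith
  rw [eLpNorm_eq_lintegral_rpow_enorm_toReal hp1 ENNReal.ofReal_ne_top,
    eLpNorm_eq_lintegral_rpow_enorm_toReal hp1 ENNReal.ofReal_ne_top,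
    ENNReal.toReal_ofReal hp0.le]
  exact ENNReal.rpow_le_rpow (lintegral_moll_rpow_le μ hp hε hW) (by positivity)

theorem moll_sub {ε : ℝ} (hε : 0 < ε) {u w : E → G} (hu : LocallyIntegrable u μ)
    (hw : LocallyIntegrable w μ) : moll μ ε (u - w) = moll μ ε u - moll μ ε w := by
  ext x
  unfold moll
  rw [Pi.sub_apply, ← integral_sub]
  · congr 1
    ext y
    rw [Pi.sub_apply, smul_sub]
  · exact integrable_eta_smul μ hε (hu.integrableOn_isCompact (isCompact_closedBall x ε))
  · exact integrable_eta_smul μ hε (hw.integrableOn_isCompact (isCompact_closedBall x ε))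

/-- Mollifications of a compactly supported continuous function converge in `L^p`. -/
theorem exists_eLpNorm_moll_sub_le_of_continuous {p : ℝ} (hp : 1 ≤ p) {H : E → G}
    (hH : Continuous H) (hc : HasCompactSupport H) {τ : ℝ≥0∞} (hτ : τ ≠ 0) :
    ∃ ε₀ : ℝ, 0 < ε₀ ∧ ∀ ε : ℝ, 0 < ε → ε < ε₀ →
      eLpNorm (moll μ ε H - H) (ENNReal.ofReal p) μ ≤ τ := by
  have hp0 : 0 < p := by linarith
  have hp1 : ENNReal.ofReal p ≠ 0 := by
    rw [Ne, ENNReal.ofReal_eq_zero]; linarith only [hp]
  set K : Set E := cthickening 1 (tsupport H) with hK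
  have hKc : IsCompact K := IsCompact.cthickening hc
  have huc := hc.uniformContinuous_of_continuous hH
  -- choose the sup bound
  have hμK : μ K ^ (1 / p) ≠ ⊤ := by
    apply ENNReal.rpow_ne_top_of_nonneg (by positivity) hKc.measure_lt_top.ne
  obtain ⟨s, hs0, hs⟩ : ∃ s : ℝ, 0 < s ∧ ENNReal.ofReal s * μ K ^ (1 / p) ≤ τ := by
    have hT : Tendsto (fun s : ℝ => ENNReal.ofReal s * μ K ^ (1 / p)) (𝓝 0) (𝓝 0) := by
      have h1 : Tendsto (fun s : ℝ => ENNReal.ofReal s) (𝓝 0) (𝓝 0) := by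
        have := (ENNReal.continuous_ofReal.tendsto 0)
        rwa [ENNReal.ofReal_zero] at this
      have := ENNReal.Tendsto.mul_const h1 (Or.inr hμK)
      rwa [zero_mul] at this
    have h2 : ∀ᶠ s in 𝓝[>] (0 : ℝ), ENNReal.ofReal s * μ K ^ (1 / p) ≤ τ :=
      (hT.mono_left nhdsWithin_le_nhds).eventually_le_const (pos_iff_ne_zero.2 hτ)
    obtain ⟨s, hs1, hs2⟩ := (h2.and self_mem_nhdsWithin).exists
    exact ⟨s, hs2, hs1⟩
  obtain ⟨ε₁, hε₁, h1⟩ := Metric.uniformContinuous_iff.1 huc s hs0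
  refine ⟨min ε₁ 1, lt_min hε₁ one_pos, fun ε hε hεlt => ?_⟩
  have hεε₁ : ε < ε₁ := hεlt.trans_le (min_le_left _ _)
  have hε1 : ε < 1 := hεlt.trans_le (min_le_right _ _)
  have hsup : ∀ x, ‖moll μ ε H x - H x‖ ≤ s := fun x => by
    apply norm_moll_sub_le μ hε (hH.locallyIntegrable.integrableOn_isCompact
      (isCompact_closedBall x ε))
    intro y hy
    rw [← dist_eq_norm]
    exact (h1 ((mem_ball.1 hy).trans hεε₁)).le
  have hzero : ∀ x, x ∉ K → moll μ ε H x - H x = 0 := fun x hx => by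
    have hx1 : ∀ y ∈ ball x ε, H y = 0 := fun y hy => by
      by_contra hne
      apply hx
      rw [hK]
      apply mem_cthickening_of_dist_le x y 1 _ (subset_tsupport _ hne)
      rw [mem_ball, dist_comm] at hy
      linarith only [hε1, hy]
    have hx2 : H x = 0 := hx1 x (mem_ball_self hε)
    have hx3 : moll μ ε H x = moll μ ε (0 : E → G) x :=
      moll_congr μ hε (fun y hy => hx1 y hy)
    rw [hx2, hx3]
    simp [moll]
  have hle : ∀ x, ‖(moll μ ε H - H) x‖ ≤ ‖K.indicator (fun _ => s) x‖ := fun x => by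
    by_cases hx : x ∈ K
    · rw [indicator_of_mem hx, Real.norm_of_nonneg hs0.le]
      exact hsup x
    · rw [Pi.sub_apply, hzero x hx, norm_zero]
      exact norm_nonneg _
  calc eLpNorm (moll μ ε H - H) (ENNReal.ofReal p) μ
      ≤ eLpNorm (K.indicator (fun _ => s)) (ENNReal.ofReal p) μ :=
        eLpNorm_mono_ae (Eventually.of_forall hle)
    _ = ‖s‖ₑ * μ K ^ (1 / (ENNReal.ofReal p).toReal) :=
        eLpNorm_indicator_const hKc.measurableSet hp1 ENNReal.ofReal_ne_top
    _ = ENNReal.ofReal s * μ K ^ (1 / p) := by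
        rw [ENNReal.toReal_ofReal hp0.le, Real.enorm_of_nonneg hs0.le]
    _ ≤ τ := hs

/-- Mollifications converge in `L^p`. -/
theorem exists_eLpNorm_moll_sub_le {p : ℝ} (hp : 1 ≤ p) {W : E → G}
    (hW : MemLp W (ENNReal.ofReal p) μ) {τ : ℝ≥0∞} (hτ : τ ≠ 0) :
    ∃ ε₀ : ℝ, 0 < ε₀ ∧ ∀ ε : ℝ, 0 < ε → ε < ε₀ →
      eLpNorm (moll μ ε W - W) (ENNReal.ofReal p) μ ≤ τ := by
  have hp1 : (1 : ℝ≥0∞) ≤ ENNReal.ofReal p := by
    rw [← ENNReal.ofReal_one]; exact ENNReal.ofReal_le_ofReal hp
  have hτ3 : τ / 3 ≠ 0 := (ENNReal.div_pos hτ (by norm_num)).ne'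
  obtain ⟨H, hHc, hHW, hHcont, hHLp⟩ :=
    hW.exists_hasCompactSupport_eLpNorm_sub_le ENNReal.ofReal_ne_top hτ3
  obtain ⟨ε₀, hε₀, h0⟩ := exists_eLpNorm_moll_sub_le_of_continuous μ hp hHcont hHc hτ3
  refine ⟨ε₀, hε₀, fun ε hε hεlt => ?_⟩
  have hWloc : LocallyIntegrable W μ := hW.locallyIntegrable hp1
  have hHloc : LocallyIntegrable H μ := hHcont.locallyIntegrable
  have hdecomp : moll μ ε W - W = moll μ ε (W - H) + (moll μ ε H - H) - (W - H) := by
    rw [moll_sub μ hε hWloc hHloc]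
    abel
  have hm1 : AEStronglyMeasurable (moll μ ε (W - H)) μ :=
    (contDiff_moll μ hε (hWloc.sub hHloc)).continuous.aestronglyMeasurable
  have hm2 : AEStronglyMeasurable (moll μ ε H - H) μ :=
    ((contDiff_moll μ hε hHloc).continuous.sub hHcont).aestronglyMeasurable
  have hm3 : AEStronglyMeasurable (W - H) μ := hW.1.sub hHcont.aestronglyMeasurable
  rw [hdecomp]
  calc eLpNorm (moll μ ε (W - H) + (moll μ ε H - H) - (W - H)) (ENNReal.ofReal p) μ
      ≤ eLpNorm (moll μ ε (W - H) + (moll μ ε H - H)) (ENNReal.ofReal p) μ +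
        eLpNorm (W - H) (ENNReal.ofReal p) μ := eLpNorm_sub_le (hm1.add hm2) hm3 hp1
    _ ≤ (eLpNorm (moll μ ε (W - H)) (ENNReal.ofReal p) μ +
        eLpNorm (moll μ ε H - H) (ENNReal.ofReal p) μ) +
        eLpNorm (W - H) (ENNReal.ofReal p) μ := by
          gcongr
          exact eLpNorm_add_le hm1 hm2 hp1
    _ ≤ (τ / 3 + τ / 3) + τ / 3 := by
          gcongr
          · exact (eLpNorm_moll_le μ hp hε hm3).trans hHW
          · exact h0 ε hε hεlt
    _ = τ := ENNReal.add_thirds τ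

/-- Mollifications converge in `L^p`, version with integrals. -/
theorem exists_lintegral_moll_sub_le {p : ℝ} (hp : 1 ≤ p) {W : E → G}
    (hW : MemLp W (ENNReal.ofReal p) μ) {τ : ℝ} (hτ : 0 < τ) :
    ∃ ε₀ : ℝ, 0 < ε₀ ∧ ∀ ε : ℝ, 0 < ε → ε < ε₀ →
      ∫⁻ x, ‖moll μ ε W x - W x‖ₑ ^ p ∂μ ≤ ENNReal.ofReal τ := by
  have hp0 : 0 < p := by linarith only [hp]
  have hp1 : ENNReal.ofReal p ≠ 0 := by
    rw [Ne, ENNReal.ofReal_eq_zero]; linarith only [hp]
  have hτ' : (ENNReal.ofReal τ) ^ (1 / p) ≠ 0 := by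
    rw [Ne, ENNReal.rpow_eq_zero_iff]
    push Not
    refine ⟨fun h => ?_, fun _ => by positivity⟩
    rw [ENNReal.ofReal_eq_zero] at h
    linarith only [hτ, h]
  obtain ⟨ε₀, hε₀, h0⟩ := exists_eLpNorm_moll_sub_le μ hp hW hτ'
  refine ⟨ε₀, hε₀, fun ε hε hεlt => ?_⟩
  have h1 := h0 ε hε hεlt
  rw [eLpNorm_eq_lintegral_rpow_enorm_toReal hp1 ENNReal.ofReal_ne_top,
    ENNReal.toReal_ofReal hp0.le] at h1
  have h2 := ENNReal.rpow_le_rpow h1 hp0.le
  rw [← ENNReal.rpow_mul, ← ENNReal.rpow_mul, one_div_mul_cancel hp0.ne', ENNReal.rpow_one,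
    ENNReal.rpow_one] at h2
  exact h2

end

end Vale.Agent.P073
end

section

/-! # S1_aux: mollification of `H¹` functions, Cauchy-Schwarz -/

open MeasureTheory Set Metric Filter
open scoped ContDiff RealInnerProductSpace Topology NNReal ENNReal

namespace Vale.Agent.P098

variable {d : ℕ}

/-- Cauchy-Schwarz for integrals. -/
theorem rS1_cs {X : Type*} [MeasurableSpace X] {μ : Measure X} {f g : X → ℝ} (hf : MemLp f 2 μ)
    (hg : MemLp g 2 μ) : ∫ x, |f x| * |g x| ∂μ ≤ √(∫ x, f x ^ 2 ∂μ) * √(∫ x, g x ^ 2 ∂μ) := by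
  have h2 : (2 : ℝ≥0∞) = ENNReal.ofReal (2 : ℝ) := by norm_num
  have h := integral_mul_le_Lp_mul_Lq_of_nonneg (μ := μ) (p := 2) (q := 2)
    Real.HolderConjugate.two_two (f := fun x => |f x|) (g := fun x => |g x|)
    (Eventually.of_forall fun x => abs_nonneg _) (Eventually.of_forall fun x => abs_nonneg _)
    (by rw [← h2]; exact hf.abs) (by rw [← h2]; exact hg.abs)
  rw [Real.sqrt_eq_rpow, Real.sqrt_eq_rpow]
  refine h.trans (le_of_eq ?_)
  congr 3 <;> (ext x; rw [Real.rpow_two, sq_abs])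

theorem rS1_integrable_mul {X : Type*} [MeasurableSpace X] {μ : Measure X} {f g : X → ℝ}
    (hf : MemLp f 2 μ) (hg : MemLp g 2 μ) : Integrable (fun x => f x * g x) μ :=
  hf.integrable_mul hg

theorem rS1_locInt {G : Type*} [NormedAddCommGroup G] {x₀ : E d} {R : ℝ} {v : E d → G}
    (h : MemLp v 2 (volume.restrict (ball x₀ R))) : LocallyIntegrableOn v (ball x₀ R) volume := by
  have : IsFiniteMeasure ((volume : Measure (E d)).restrict (ball x₀ R)) :=
    ⟨by rw [Measure.restrict_apply_univ]; exact measure_ball_lt_top⟩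
  have h1 : IntegrableOn v (ball x₀ R) volume := h.integrable (by norm_num)
  exact h1.locallyIntegrableOn

theorem rS1_hasWeakDerivOn {x₀ : E d} {R : ℝ} {v : E d → ℝ} {g : E d → E d}
    (h : MemH1 (ball x₀ R) v g) : P073.HasWeakDerivOn volume (ball x₀ R) v
      (fun x => InnerProductSpace.toDual ℝ (E d) (g x)) := by
  have h2 : MemLp (fun x => InnerProductSpace.toDual ℝ (E d) (g x)) 2
      (volume.restrict (ball x₀ R)) := by
    refine h.2.1.of_le ?_ (Eventually.of_forall fun x => ?_)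
    · exact (InnerProductSpace.toDual ℝ (E d)).continuous.comp_aestronglyMeasurable h.2.1.1
    · rw [LinearIsometryEquiv.norm_map]
  refine ⟨rS1_locInt h.1, rS1_locInt h2, fun φ hφ hc hs e => ?_⟩
  have h3 := h.2.2 φ hφ hc hs e
  rw [eq_neg_iff_add_eq_zero, add_comm, ← eq_neg_iff_add_eq_zero] at h3
  refine (Eq.trans ?_ h3).trans ?_
  · congr 1
    ext x
    rw [InnerProductSpace.toDual_apply_apply, smul_eq_mul, mul_comm]
  · congr 1
    congr 1
    ext x
    rw [smul_eq_mul, mul_comm]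

/-- From an `eLpNorm` bound to an integral bound. -/
theorem rS1_int_le {X G : Type*} [MeasurableSpace X] [NormedAddCommGroup G] {μ : Measure X}
    {f : X → G} (hf : AEStronglyMeasurable f μ) {τ : ℝ} (hτ : 0 ≤ τ)
    (h : eLpNorm f 2 μ ≤ ENNReal.ofReal τ) : MemLp f 2 μ ∧ ∫ x, ‖f x‖ ^ 2 ∂μ ≤ τ ^ 2 := by
  have hm : MemLp f 2 μ := ⟨hf, h.trans_lt ENNReal.ofReal_lt_top⟩
  refine ⟨hm, ?_⟩
  rw [hm.eLpNorm_eq_integral_rpow_norm (by norm_num) (by norm_num),
    ENNReal.ofReal_le_ofReal_iff hτ] at h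
  have h0 : 0 ≤ ∫ x, ‖f x‖ ^ 2 ∂μ := integral_nonneg fun x => by positivity
  have h1 : ∫ x, ‖f x‖ ^ (2 : ℝ≥0∞).toReal ∂μ = ∫ x, ‖f x‖ ^ 2 ∂μ := by
    congr 1
    ext x
    simp
  rw [h1] at h
  have h2 : (2 : ℝ≥0∞).toReal⁻¹ = (1 / 2 : ℝ) := by norm_num
  rw [h2, ← Real.sqrt_eq_rpow] at h
  calc ∫ x, ‖f x‖ ^ 2 ∂μ = √(∫ x, ‖f x‖ ^ 2 ∂μ) ^ 2 := (Real.sq_sqrt h0).symm
    _ ≤ τ ^ 2 := by (clear * - h; gcongr)

theorem rS1_eLpNorm_congr_exp {X G : Type*} [MeasurableSpace X] [NormedAddCommGroup G] {μ : Measure X}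
    {p q : ℝ≥0∞} (h : p = q) (f : X → G) : eLpNorm f p μ = eLpNorm f q μ := by rw [h]

theorem rS1_moll {x₀ : E d} {R : ℝ} {v : E d → ℝ} {g : E d → E d}
    (h : MemH1 (ball x₀ R) v g) {K : Set (E d)} (hK : IsCompact K) (hKB : K ⊆ ball x₀ R)
    {τ : ℝ≥0∞} (hτ : τ ≠ 0) : ∃ ε₀ : ℝ, 0 < ε₀ ∧ ∀ ε : ℝ, 0 < ε → ε < ε₀ →
      eLpNorm (P073.moll volume ε (K.indicator v) - K.indicator v) 2 volume ≤ τ ∧
      eLpNorm (P073.moll volume ε
          (K.indicator fun x => InnerProductSpace.toDual ℝ (E d) (g x)) -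
        K.indicator fun x => InnerProductSpace.toDual ℝ (E d) (g x)) 2 volume ≤ τ ∧
      ContDiff ℝ ∞ (P073.moll volume ε (K.indicator v)) ∧
      ContDiff ℝ ∞ (P073.moll volume ε
          (K.indicator fun x => InnerProductSpace.toDual ℝ (E d) (g x))) ∧
      ∀ x, closedBall x ε ⊆ K → fderiv ℝ (P073.moll volume ε (K.indicator v)) x =
        P073.moll volume ε (K.indicator fun x => InnerProductSpace.toDual ℝ (E d) (g x)) x := by
  have hw := rS1_hasWeakDerivOn h
  have h2 : (2 : ℝ≥0∞) = ENNReal.ofReal (2 : ℝ) := by norm_num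
  have hvK : MemLp v 2 (volume.restrict K) :=
    h.1.mono_measure (Measure.restrict_mono hKB le_rfl)
  have hv : MemLp (K.indicator v) 2 volume :=
    (memLp_indicator_iff_restrict (p := 2) hK.measurableSet).2 hvK
  have hg : MemLp (K.indicator fun x => InnerProductSpace.toDual ℝ (E d) (g x)) 2 volume := by
    refine (memLp_indicator_iff_restrict (p := 2) (μ := volume)
      (f := fun x => InnerProductSpace.toDual ℝ (E d) (g x)) hK.measurableSet).2 ?_
    have hgK : MemLp g 2 (volume.restrict K) :=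
      h.2.1.mono_measure (Measure.restrict_mono hKB le_rfl)
    refine hgK.of_le ?_ (Eventually.of_forall fun x => ?_)
    · exact (InnerProductSpace.toDual ℝ (E d)).continuous.comp_aestronglyMeasurable hgK.1
    · rw [LinearIsometryEquiv.norm_map]
  have hv' : MemLp (K.indicator v) (ENNReal.ofReal 2) volume := h2 ▸ hv
  have hg' : MemLp (K.indicator fun x => InnerProductSpace.toDual ℝ (E d) (g x))
    (ENNReal.ofReal 2) volume := h2 ▸ hg
  obtain ⟨ε₁, hε₁, h11⟩ := P073.exists_eLpNorm_moll_sub_le volume (by norm_num) hv' hτ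
  obtain ⟨ε₂, hε₂, h22⟩ := P073.exists_eLpNorm_moll_sub_le volume (by norm_num) hg' hτ
  refine ⟨min ε₁ ε₂, lt_min hε₁ hε₂, fun ε hε hlt => ?_⟩
  refine ⟨(rS1_eLpNorm_congr_exp h2 _).trans_le (h11 ε hε (hlt.trans_le (min_le_left _ _))),
    (rS1_eLpNorm_congr_exp h2 _).trans_le (h22 ε hε (hlt.trans_le (min_le_right _ _))),
    P073.contDiff_moll volume hε (hv.locallyIntegrable (by norm_num)),
    P073.contDiff_moll volume hε (hg.locallyIntegrable (by norm_num)),
    fun x hx => P073.fderiv_moll volume hw hK hKB hε hx⟩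

/-- Smooth approximation on compact subsets. -/
theorem rS1_approx {x₀ : E d} {R : ℝ} {v : E d → ℝ} {g : E d → E d}
    (h : MemH1 (ball x₀ R) v g) {K : Set (E d)} (hK : IsCompact K) (hKB : K ⊆ ball x₀ R)
    {τ : ℝ} (hτ : 0 < τ) : ∃ ψ : E d → ℝ, ContDiff ℝ ∞ ψ ∧
      MemLp (fun x => ψ x - v x) 2 (volume.restrict K) ∧
      MemLp (fun x => fderiv ℝ ψ x - InnerProductSpace.toDual ℝ (E d) (g x)) 2
        (volume.restrict K) ∧
      ∫ x in K, (ψ x - v x) ^ 2 ≤ τ ^ 2 ∧
      ∫ x in K, ‖fderiv ℝ ψ x - InnerProductSpace.toDual ℝ (E d) (g x)‖ ^ 2 ≤ τ ^ 2 := by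
  obtain ⟨δ, hδ, hKδ⟩ := hK.exists_cthickening_subset_open isOpen_ball hKB
  have hK' : IsCompact (cthickening δ K) := hK.cthickening
  obtain ⟨ε₀, hε₀, hm⟩ := rS1_moll h hK' hKδ (τ := ENNReal.ofReal τ) (by simpa only [ne_eq, ENNReal.ofReal_eq_zero, not_le] using hτ)
  set ε := min (ε₀ / 2) δ with hε
  have hεpos : 0 < ε := lt_min (by linarith only [hε₀]) hδ
  obtain ⟨h1, h2, h3, h4, h5⟩ := hm ε hεpos ((min_le_left _ _).trans_lt (by linarith only [hε₀]))
  have hsub : K ⊆ cthickening δ K := self_subset_cthickening _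
  have hball : ∀ x ∈ K, closedBall x ε ⊆ cthickening δ K := fun x hx =>
    (closedBall_subset_closedBall (min_le_right _ _)).trans
      (closedBall_subset_cthickening hx δ)
  have e1 : eLpNorm (fun x => P073.moll volume ε ((cthickening δ K).indicator v) x - v x) 2
      (volume.restrict K) ≤ ENNReal.ofReal τ := by
    refine le_trans (le_of_eq ?_) ((eLpNorm_mono_measure _ (Measure.restrict_le_self (s := K))).trans h1)
    refine eLpNorm_congr_ae ?_
    filter_upwards [ae_restrict_mem hK.measurableSet] with x hx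
    rw [Pi.sub_apply, indicator_of_mem (hsub hx)]
  have e2 : eLpNorm (fun x => fderiv ℝ (P073.moll volume ε ((cthickening δ K).indicator v)) x -
      InnerProductSpace.toDual ℝ (E d) (g x)) 2 (volume.restrict K) ≤ ENNReal.ofReal τ := by
    refine le_trans (le_of_eq ?_) ((eLpNorm_mono_measure _ (Measure.restrict_le_self (s := K))).trans h2)
    refine eLpNorm_congr_ae ?_
    filter_upwards [ae_restrict_mem hK.measurableSet] with x hx
    rw [Pi.sub_apply, indicator_of_mem (hsub hx), h5 x (hball x hx)]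
  have m1 : AEStronglyMeasurable
      (fun x => P073.moll volume ε ((cthickening δ K).indicator v) x - v x)
      (volume.restrict K) :=
    h3.continuous.aestronglyMeasurable.sub
      (h.1.mono_measure (Measure.restrict_mono hKB le_rfl)).1
  have m2 : AEStronglyMeasurable
      (fun x => fderiv ℝ (P073.moll volume ε ((cthickening δ K).indicator v)) x -
      InnerProductSpace.toDual ℝ (E d) (g x)) (volume.restrict K) :=
    (h3.continuous_fderiv (by norm_num)).aestronglyMeasurable.sub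
      ((InnerProductSpace.toDual ℝ (E d)).continuous.comp_aestronglyMeasurable
        (h.2.1.mono_measure (Measure.restrict_mono hKB le_rfl)).1)
  obtain ⟨a1, a2⟩ := rS1_int_le m1 hτ.le e1
  obtain ⟨b1, b2⟩ := rS1_int_le m2 hτ.le e2
  refine ⟨_, h3, a1, b1, ?_, b2⟩
  simpa only [Real.norm_eq_abs, sq_abs] using a2

end Vale.Agent.P098
end

section

/-! # PB: basic facts about polynomials

All routine: `ev` is a polynomial function; coefficient norm `cn`. -/

open MeasureTheory Set Metric Filter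
open scoped ContDiff RealInnerProductSpace Topology NNReal

namespace Vale.Agent.P098

variable {d : ℕ}

open MvPolynomial in
theorem ev_add (p q : MvPolynomial (Fin d) ℝ) (x : E d) : ev (p + q) x = ev p x + ev q x := by
  simp [ev]

open MvPolynomial in
theorem ev_mul (p q : MvPolynomial (Fin d) ℝ) (x : E d) : ev (p * q) x = ev p x * ev q x := by
  simp [ev]

open MvPolynomial in
theorem ev_sub (p q : MvPolynomial (Fin d) ℝ) (x : E d) : ev (p - q) x = ev p x - ev q x := by
  simp [ev]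

theorem contDiff_ev (p : MvPolynomial (Fin d) ℝ) : ContDiff ℝ ∞ (ev p) := by
  induction p using MvPolynomial.induction_on with
  | C a =>
    have : ev (MvPolynomial.C a : MvPolynomial (Fin d) ℝ) = fun _ => a := by
      funext x; simp only [ev, MvPolynomial.eval_C]
    rw [this]
    exact contDiff_const
  | add p q hp hq =>
    have : ev (p + q) = fun x => ev p x + ev q x := funext fun x => ev_add p q x
    rw [this]
    exact hp.add hq
  | mul_X p i hp =>
    have : ev (p * MvPolynomial.X i) = fun x : E d => ev p x * x i := by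
      funext x; rw [ev_mul]; simp only [ev, MvPolynomial.eval_X]
    rw [this]
    refine hp.mul ?_
    exact (EuclideanSpace.proj (𝕜 := ℝ) i).contDiff

theorem rPB_diff (p : MvPolynomial (Fin d) ℝ) (x : E d) : DifferentiableAt ℝ (ev p) x :=
  (contDiff_ev p).differentiable (by simp) x

theorem P1_ev (p : MvPolynomial (Fin d) ℝ) (i : Fin d) (x : E d) :
    P1 (ev p) i x = ev (MvPolynomial.pderiv i p) x := by
  unfold P1
  induction p using MvPolynomial.induction_on with
  | C a =>
    have : ev (MvPolynomial.C a : MvPolynomial (Fin d) ℝ) = fun _ => a := by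
      funext x; simp only [ev, MvPolynomial.eval_C]
    rw [this]
    simp only [fderiv_fun_const, Pi.zero_apply, zero_apply, ev, MvPolynomial.derivation_C, map_zero]
  | add p q hp hq =>
    have : ev (p + q) = ev p + ev q := funext fun x => ev_add p q x
    rw [this, fderiv_add (rPB_diff p x) (rPB_diff q x), add_apply, hp, hq, map_add, ev_add]
  | mul_X p j hp =>
    have h1 : ev (p * MvPolynomial.X j) = fun x : E d => ev p x * x j := by
      funext x; rw [ev_mul]; simp only [ev, MvPolynomial.eval_X]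
    have h2 : HasFDerivAt (fun x : E d => x j) (EuclideanSpace.proj (𝕜 := ℝ) j) x :=
      (EuclideanSpace.proj (𝕜 := ℝ) j : E d →L[ℝ] ℝ).hasFDerivAt
    have h3 : HasFDerivAt (fun x : E d => ev p x * x j)
        (ev p x • EuclideanSpace.proj j + x j • fderiv ℝ (ev p) x) x :=
      (rPB_diff p x).hasFDerivAt.mul h2
    rw [h1, h3.fderiv, add_apply, smul_apply, smul_apply, hp, smul_eq_mul, smul_eq_mul]
    rw [Derivation.leibniz, MvPolynomial.pderiv_X, smul_eq_mul, smul_eq_mul, ev_add, ev_mul,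
      ev_mul]
    have h4 : ev (MvPolynomial.X j : MvPolynomial (Fin d) ℝ) x = x j := by simp [ev]
    have h5 : ev ((Pi.single i 1 : Fin d → MvPolynomial (Fin d) ℝ) j) x =
        if j = i then 1 else 0 := by
      by_cases hji : j = i
      · subst hji; simp only [ev, Pi.single_eq_same, map_one, ↓reduceIte]
      · rw [Pi.single_eq_of_ne hji]; simp only [ev, map_zero, hji, ↓reduceIte]
    rw [h4, h5]
    have h6 : (EuclideanSpace.proj (𝕜 := ℝ) j : E d →L[ℝ] ℝ) (ee i) = if j = i then 1 else 0 := by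
      simp only [ee, PiLp.proj_apply, PiLp.single_apply]
    rw [h6]

theorem P2_ev (p : MvPolynomial (Fin d) ℝ) (i j : Fin d) (x : E d) :
    P2 (ev p) i j x = ev (MvPolynomial.pderiv j (MvPolynomial.pderiv i p)) x := by
  have : P1 (ev p) i = ev (MvPolynomial.pderiv i p) := funext fun x => P1_ev p i x
  unfold P2
  rw [this]
  exact P1_ev _ j x

theorem rPB_ev_sum {ι : Type*} (s : Finset ι) (f : ι → MvPolynomial (Fin d) ℝ) (x : E d) :
    ev (∑ i ∈ s, f i) x = ∑ i ∈ s, ev (f i) x := by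
  simp [ev]

theorem lap_ev (p : MvPolynomial (Fin d) ℝ) (x : E d) : lap (ev p) x = ev (lapP p) x := by
  unfold lap lapP
  rw [rPB_ev_sum]
  exact Finset.sum_congr rfl fun i _ => P2_ev p i i x

theorem gradient_ev_apply (p : MvPolynomial (Fin d) ℝ) (i : Fin d) (x : E d) :
    gradient (ev p) x i = ev (MvPolynomial.pderiv i p) x := by
  rw [← P1_ev]
  unfold P1 gradient
  have h := InnerProductSpace.toDual_symm_apply (𝕜 := ℝ) (E := E d) (x := ee i)
    (y := fderiv ℝ (ev p) x)
  rw [← h, EuclideanSpace.inner_single_right]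
  simp only [Real.ringHom_apply, one_mul]

theorem norm_fderiv_ev_sq (p : MvPolynomial (Fin d) ℝ) (x : E d) :
    ‖fderiv ℝ (ev p) x‖ ^ 2 = ∑ i, ev (MvPolynomial.pderiv i p) x ^ 2 := by
  have h1 : ‖fderiv ℝ (ev p) x‖ = ‖gradient (ev p) x‖ := by
    unfold gradient
    rw [LinearIsometryEquiv.norm_map]
  rw [h1, EuclideanSpace.norm_sq_eq]
  exact Finset.sum_congr rfl fun i _ => by rw [gradient_ev_apply, Real.norm_eq_abs, sq_abs]

theorem harm_ev {p : MvPolynomial (Fin d) ℝ} (hp : lapP p = 0) (s : Set (E d)) :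
    Harm s (ev p) :=
  ⟨(contDiff_ev p).contDiffOn, fun x _ => by rw [lap_ev, hp]; simp only [ev, map_zero]⟩

theorem cn_nonneg (p : MvPolynomial (Fin d) ℝ) : 0 ≤ cn p :=
  Finset.sum_nonneg fun _ _ => abs_nonneg _

/-- The coefficient norm as a sum over any set containing the support. -/
theorem rPB_cn_eq (p : MvPolynomial (Fin d) ℝ) {s : Finset (Fin d →₀ ℕ)} (h : p.support ⊆ s) :
    cn p = ∑ m ∈ s, |p.coeff m| :=
  Finset.sum_subset h fun m _ hm => by rw [MvPolynomial.notMem_support_iff.1 hm, abs_zero]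

theorem rPB_le_cn (p : MvPolynomial (Fin d) ℝ) (s : Finset (Fin d →₀ ℕ)) :
    ∑ m ∈ s, |p.coeff m| ≤ cn p := by
  classical
  rw [rPB_cn_eq p (Finset.subset_union_left (s₂ := s))]
  exact Finset.sum_le_sum_of_subset_of_nonneg Finset.subset_union_right fun _ _ _ => abs_nonneg _

theorem abs_coeff_le_cn (p : MvPolynomial (Fin d) ℝ) (m : Fin d →₀ ℕ) : |p.coeff m| ≤ cn p := by
  simpa only [Finset.sum_singleton] using rPB_le_cn p { m }

theorem cn_zero : cn (0 : MvPolynomial (Fin d) ℝ) = 0 := by simp [cn]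

theorem cn_neg (p : MvPolynomial (Fin d) ℝ) : cn (-p) = cn p := by
  unfold cn
  rw [MvPolynomial.support_neg]
  exact Finset.sum_congr rfl fun m _ => by rw [MvPolynomial.coeff_neg, abs_neg]

theorem cn_add_le (p q : MvPolynomial (Fin d) ℝ) : cn (p + q) ≤ cn p + cn q := by
  classical
  have h1 : (p + q).support ⊆ p.support ∪ q.support := MvPolynomial.support_add
  rw [rPB_cn_eq (p + q) h1, rPB_cn_eq p (Finset.subset_union_left (s₂ := q.support)),
    rPB_cn_eq q (Finset.subset_union_right (s₁ := p.support)), ← Finset.sum_add_distrib]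
  exact Finset.sum_le_sum fun m _ => by rw [MvPolynomial.coeff_add]; exact abs_add_le _ _

theorem cn_sub_le (p q : MvPolynomial (Fin d) ℝ) : cn (p - q) ≤ cn p + cn q := by
  rw [sub_eq_add_neg, ← cn_neg q]
  exact cn_add_le _ _

theorem cn_smul (c : ℝ) (p : MvPolynomial (Fin d) ℝ) : cn (c • p) = |c| * cn p := by
  rw [rPB_cn_eq (c • p) (s := p.support) MvPolynomial.support_smul]
  unfold cn
  rw [Finset.mul_sum]
  exact Finset.sum_congr rfl fun m _ => by
    rw [MvPolynomial.coeff_smul, smul_eq_mul, abs_mul]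

theorem rPB_cn_sum_le {ι : Type*} (s : Finset ι) (f : ι → MvPolynomial (Fin d) ℝ) :
    cn (∑ i ∈ s, f i) ≤ ∑ i ∈ s, cn (f i) := by
  classical
  induction s using Finset.induction_on with
  | empty => simp only [Finset.sum_empty, cn_zero, Std.le_refl]
  | insert a s ha ih =>
    rw [Finset.sum_insert ha, Finset.sum_insert ha]
    exact (cn_add_le _ _).trans (add_le_add_right ih _)

theorem rPB_cn_monomial (m : Fin d →₀ ℕ) (a : ℝ) : cn (MvPolynomial.monomial m a) = |a| := by
  rw [rPB_cn_eq _ (s := {m}) MvPolynomial.support_monomial_subset]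
  simp only [MvPolynomial.coeff_monomial, Finset.sum_singleton, ↓reduceIte]

theorem cn_mul_le (p q : MvPolynomial (Fin d) ℝ) : cn (p * q) ≤ cn p * cn q := by
  have h1 : p * q = ∑ m ∈ p.support, ∑ n ∈ q.support,
      MvPolynomial.monomial (m + n) (p.coeff m * q.coeff n) := by
    conv_lhs => rw [p.as_sum, q.as_sum]
    rw [Finset.sum_mul_sum]
    simp only [MvPolynomial.monomial_mul]
  rw [h1]
  refine (rPB_cn_sum_le _ _).trans ?_
  unfold cn
  rw [Finset.sum_mul_sum]
  refine Finset.sum_le_sum fun m _ => ?_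
  refine (rPB_cn_sum_le _ _).trans (Finset.sum_le_sum fun n _ => ?_)
  rw [rPB_cn_monomial, abs_mul]

theorem cn_pderiv_le (p : MvPolynomial (Fin d) ℝ) (i : Fin d) :
    cn (MvPolynomial.pderiv i p) ≤ p.totalDegree * cn p := by
  have h1 : MvPolynomial.pderiv i p = ∑ m ∈ p.support,
      MvPolynomial.monomial (m - Finsupp.single i 1) (p.coeff m * m i) := by
    conv_lhs => rw [p.as_sum]
    rw [map_sum]
    simp only [MvPolynomial.pderiv_monomial]
  rw [h1]
  refine (rPB_cn_sum_le _ _).trans ?_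
  rw [show (p.totalDegree : ℝ) * cn p = ∑ m ∈ p.support, (p.totalDegree : ℝ) * |p.coeff m| from
    Finset.mul_sum _ _ _]
  refine Finset.sum_le_sum fun m hm => ?_
  rw [rPB_cn_monomial, abs_mul, mul_comm]
  have h2 : m i ≤ p.totalDegree :=
    (Finsupp.le_degree i m).trans (MvPolynomial.le_totalDegree hm)
  rw [Nat.abs_cast]
  exact mul_le_mul_of_nonneg_right (by exact_mod_cast h2) (abs_nonneg _)

theorem rPB_abs_coord_le (x : E d) (i : Fin d) : |x i| ≤ ‖x‖ := by
  rw [← Real.norm_eq_abs]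
  exact PiLp.norm_apply_le x i

theorem rPB_abs_monomial_le (m : Fin d →₀ ℕ) (x : E d) :
    |m.prod fun i k => x i ^ k| ≤ ‖x‖ ^ m.degree := by
  unfold Finsupp.prod
  rw [Finset.abs_prod, Finsupp.degree_apply, ← Finset.prod_pow_eq_pow_sum]
  refine Finset.prod_le_prod (fun i _ => abs_nonneg _) fun i _ => ?_
  rw [abs_pow]
  exact pow_le_pow_left₀ (abs_nonneg _) (rPB_abs_coord_le x i) _

theorem rPB_ev_eq (p : MvPolynomial (Fin d) ℝ) (x : E d) :
    ev p x = ∑ m ∈ p.support, p.coeff m * m.prod fun i k => x i ^ k := by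
  unfold ev
  rw [MvPolynomial.eval_eq]
  rfl

/-- If `p` has no terms of degree `< K` then `|p(x)| ≤ cn p |x|^K` on the unit ball. -/
theorem abs_ev_le_of_lowZero (p : MvPolynomial (Fin d) ℝ) {K : ℕ} (hp : LowZero K p) {x : E d}
    (hx : ‖x‖ ≤ 1) : |ev p x| ≤ cn p * ‖x‖ ^ K := by
  rw [rPB_ev_eq]
  refine (Finset.abs_sum_le_sum_abs _ _).trans ?_
  unfold cn
  rw [Finset.sum_mul]
  refine Finset.sum_le_sum fun m hm => ?_
  rw [abs_mul]
  refine mul_le_mul_of_nonneg_left ((rPB_abs_monomial_le m x).trans ?_) (abs_nonneg _)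
  refine pow_le_pow_of_le_one (norm_nonneg _) hx ?_
  by_contra h
  exact MvPolynomial.mem_support_iff.1 hm (hp m (not_le.1 h))

theorem abs_ev_le (p : MvPolynomial (Fin d) ℝ) {x : E d} (hx : ‖x‖ ≤ 1) : |ev p x| ≤ cn p := by
  have h := abs_ev_le_of_lowZero p (K := 0) (fun m hm => absurd hm (Nat.not_lt_zero _)) hx
  simpa only [ge_iff_le, pow_zero, mul_one] using h

/-- Scaling: `scP r p` is `p(r x) / r`. -/
theorem exists_scale (p : MvPolynomial (Fin d) ℝ) (r : ℝ) : ∃ q : MvPolynomial (Fin d) ℝ,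
    ∀ m, q.coeff m = r ^ m.degree * p.coeff m := by
  refine ⟨∑ m ∈ p.support, MvPolynomial.monomial m (r ^ m.degree * p.coeff m), fun m => ?_⟩
  classical
  rw [MvPolynomial.coeff_sum]
  simp only [MvPolynomial.coeff_monomial]
  rw [Finset.sum_ite_eq']
  split_ifs with h
  · rfl
  · rw [MvPolynomial.notMem_support_iff.1 h, mul_zero]

theorem ev_of_scale {p q : MvPolynomial (Fin d) ℝ} {r : ℝ}
    (h : ∀ m, q.coeff m = r ^ m.degree * p.coeff m) (x : E d) : ev q x = ev p (r • x) := by
  classical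
  have h1 : q.support ⊆ p.support := by
    intro m hm
    rw [MvPolynomial.mem_support_iff] at hm ⊢
    intro h0
    apply hm
    rw [h, h0, mul_zero]
  rw [rPB_ev_eq p, rPB_ev_eq q]
  rw [Finset.sum_subset h1 fun m _ hm => by
    rw [MvPolynomial.notMem_support_iff.1 hm, zero_mul]]
  refine Finset.sum_congr rfl fun m _ => ?_
  rw [h m]
  have h2 : (m.prod fun i k => (r • x) i ^ k) = r ^ m.degree * m.prod fun i k => x i ^ k := by
    unfold Finsupp.prod
    rw [Finsupp.degree_apply, ← Finset.prod_pow_eq_pow_sum, ← Finset.prod_mul_distrib]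
    refine Finset.prod_congr rfl fun i _ => ?_
    change (r • x) i ^ m i = r ^ m i * x i ^ m i
    rw [PiLp.smul_apply, smul_eq_mul, mul_pow]
  rw [h2]
  ring

end Vale.Agent.P098
end

section

/-! # E5a: the Dirichlet problem on the ball for polynomial data

Let `B = 1/4 - ∑ X_i²`. On the finite dimensional space of polynomials `q` with
`totalDegree ≤ N` consider `T q = lapP (B q)` (again degree `≤ N`). `T` is injective: if `T q = 0`,
then `ev (B q)` is harmonic and vanishes on `sphere 0 (1/2)`, so it vanishes on the ball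
(`Harm.abs_le_of_sphere` with `M = 0`), hence `ev q = 0` on the open ball and `q = 0`. So `T` is
surjective; solve `T q = lapP p` (`N = p.totalDegree`) and put `h = p - B q`. -/

open MeasureTheory Set Metric Filter
open scoped ContDiff RealInnerProductSpace Topology NNReal

namespace Vale.Agent.P098

variable {d : ℕ}

theorem rE5a_pderiv_le (i : Fin d) (p : MvPolynomial (Fin d) ℝ) :
    (MvPolynomial.pderiv i p).totalDegree ≤ p.totalDegree - 1 := by
  classical
  rw [MvPolynomial.totalDegree, Finset.sup_le_iff]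
  intro m hm
  rw [MvPolynomial.mem_support_iff, MvPolynomial.coeff_pderiv] at hm
  have h1 : p.coeff (m + Finsupp.single i 1) ≠ 0 := by
    intro h
    rw [h] at hm
    simp only [zero_mul, ne_eq, not_true_eq_false] at hm
  have h2 := MvPolynomial.le_totalDegree (MvPolynomial.mem_support_iff.2 h1)
  have h3 : ((m + Finsupp.single i 1).sum fun _ e => e) = (m.sum fun _ e => e) + 1 := by
    rw [Finsupp.sum_add_index' (fun _ => rfl) (fun _ _ _ => rfl), Finsupp.sum_single_index rfl]
  rw [h3] at h2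
  omega

theorem rE5a_lapP_le (p : MvPolynomial (Fin d) ℝ) :
    (lapP p).totalDegree ≤ p.totalDegree - 2 := by
  unfold lapP
  refine MvPolynomial.totalDegree_finsetSum_le fun i _ => ?_
  have h1 := rE5a_pderiv_le i (MvPolynomial.pderiv i p)
  have h2 := rE5a_pderiv_le i p
  omega

theorem rE5a_lapP_add (p q : MvPolynomial (Fin d) ℝ) : lapP (p + q) = lapP p + lapP q := by
  simp only [lapP, map_add, Finset.sum_add_distrib]

theorem rE5a_lapP_sub (p q : MvPolynomial (Fin d) ℝ) : lapP (p - q) = lapP p - lapP q := by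
  simp only [lapP, map_sub, Finset.sum_sub_distrib]

theorem rE5a_lapP_smul (c : ℝ) (p : MvPolynomial (Fin d) ℝ) : lapP (c • p) = c • lapP p := by
  simp only [lapP, Derivation.map_smul, Finset.smul_sum]

/-- The defining function of the ball of radius `1/2`. -/
noncomputable def rE5a_B (d : ℕ) : MvPolynomial (Fin d) ℝ :=
  MvPolynomial.C (1 / 4) - ∑ i, MvPolynomial.X i ^ 2

theorem rE5a_B_deg (d : ℕ) : (rE5a_B d).totalDegree ≤ 2 := by
  unfold rE5a_B
  rw [sub_eq_add_neg]
  refine (MvPolynomial.totalDegree_add _ _).trans (max_le ?_ ?_)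
  · simp only [one_div, MvPolynomial.totalDegree_C, zero_le]
  · rw [MvPolynomial.totalDegree_neg]
    refine MvPolynomial.totalDegree_finsetSum_le fun i _ => ?_
    exact (MvPolynomial.totalDegree_pow _ _).trans (by simp)

theorem rE5a_ev_B (x : E d) : ev (rE5a_B d) x = 1 / 4 - ‖x‖ ^ 2 := by
  unfold rE5a_B ev
  rw [EuclideanSpace.norm_sq_eq]
  simp only [one_div, map_sub, MvPolynomial.eval_C, map_sum, map_pow, MvPolynomial.eval_X, Real.norm_eq_abs, sq_abs]

/-- A polynomial which vanishes on the ball of radius `1/2` is zero. -/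
theorem rE5a_zero {q : MvPolynomial (Fin d) ℝ} (h : ∀ x ∈ ball (0 : E d) (1 / 2), ev q x = 0) :
    q = 0 := by
  have hpos : (0 : ℝ) < 1 / (4 * (d + 1)) := by (clear * -; positivity)
  refine MvPolynomial.funext_set (fun _ => Ioo (-(1 / (4 * ((d : ℝ) + 1)))) (1 / (4 * (d + 1))))
    (fun _ => Ioo_infinite (by linarith)) fun x hx => ?_
  have hx' : ∀ i, |x i| ≤ 1 / (4 * ((d : ℝ) + 1)) := fun i => by
    have := hx i (mem_univ i)
    rw [abs_le]
    exact ⟨this.1.le, this.2.le⟩
  have h1 : (WithLp.toLp 2 x : E d) ∈ ball (0 : E d) (1 / 2) := by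
    rw [mem_ball_zero_iff]
    refine lt_of_pow_lt_pow_left₀ 2 (by norm_num) ?_
    rw [EuclideanSpace.norm_sq_eq]
    have h2 : ∑ i, ‖(WithLp.toLp 2 x : E d) i‖ ^ 2 ≤ ∑ _i : Fin d, (1 / (4 * ((d : ℝ) + 1))) ^ 2 := by
      refine Finset.sum_le_sum fun i _ => ?_
      refine pow_le_pow_left₀ (norm_nonneg _) ?_ 2
      exact hx' i
    refine lt_of_le_of_lt h2 ?_
    rw [Finset.sum_const, Finset.card_univ, Fintype.card_fin, nsmul_eq_mul]
    have h3 : (d : ℝ) * (1 / (4 * ((d : ℝ) + 1))) ^ 2 =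
        (1 / 16) * (d / ((d + 1) * (d + 1))) := by
      field_simp
      norm_num
    rw [h3]
    have h4 : (d : ℝ) / ((d + 1) * (d + 1)) ≤ 1 := by
      rw [div_le_one (by (clear * -; positivity))]
      nlinarith only []
    linarith only [h4]
  have h5 := h _ h1
  rw [map_zero]
  exact h5

/-- The linear map `q ↦ lapP (B q)` on polynomials of degree `≤ N`. -/
noncomputable def rE5a_T (d N : ℕ) : MvPolynomial.restrictTotalDegree (Fin d) ℝ N →ₗ[ℝ]
    MvPolynomial.restrictTotalDegree (Fin d) ℝ N where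
  toFun q := ⟨lapP (rE5a_B d * q.1), by
    rw [MvPolynomial.mem_restrictTotalDegree]
    have h1 := rE5a_lapP_le (rE5a_B d * q.1)
    have h2 := MvPolynomial.totalDegree_mul (rE5a_B d) q.1
    have h3 := rE5a_B_deg d
    have h4 := (MvPolynomial.mem_restrictTotalDegree _ _ _).1 q.2
    omega⟩
  map_add' p q := by
    refine Subtype.ext ?_
    show lapP (rE5a_B d * (p.1 + q.1)) = lapP (rE5a_B d * p.1) + lapP (rE5a_B d * q.1)
    rw [mul_add, rE5a_lapP_add]
  map_smul' c q := by
    refine Subtype.ext ?_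
    show lapP (rE5a_B d * (c • q.1)) = c • lapP (rE5a_B d * q.1)
    rw [mul_smul_comm, rE5a_lapP_smul]

theorem rE5a_sphere {x : E d} (hx : x ∈ sphere (0 : E d) (1 / 2)) (q : MvPolynomial (Fin d) ℝ) :
    ev (rE5a_B d * q) x = 0 := by
  rw [ev_mul, rE5a_ev_B, mem_sphere_zero_iff_norm.1 hx]
  norm_num

theorem poly_dirichlet (n : ℕ) (p : MvPolynomial (Fin (n + 1)) ℝ) :
    ∃ h : MvPolynomial (Fin (n + 1)) ℝ, lapP h = 0 ∧
      ∀ x ∈ sphere (0 : E (n + 1)) (1 / 2), ev h x = ev p x := by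
  have hinj : Function.Injective (rE5a_T (n + 1) p.totalDegree) := by
    rw [injective_iff_map_eq_zero]
    intro q hq
    have hq' : lapP (rE5a_B (n + 1) * q.1) = 0 := congrArg Subtype.val hq
    refine Subtype.ext ?_
    show q.1 = 0
    refine rE5a_zero fun x hx => ?_
    have h1 := Harm.abs_le_of_sphere (by omega) (x := (0 : E (n + 1))) (r := 1 / 2) (M := 0)
      (by norm_num) (harm_ev hq' _) (contDiff_ev _).continuous.continuousOn
      (fun y hy => by rw [rE5a_sphere hy, abs_zero]) x (ball_subset_closedBall hx)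
    have h2 : ev (rE5a_B (n + 1) * q.1) x = 0 := abs_nonpos_iff.1 h1
    rw [ev_mul, rE5a_ev_B] at h2
    have h3 : ‖x‖ < 1 / 2 := mem_ball_zero_iff.1 hx
    have h4 : (1 : ℝ) / 4 - ‖x‖ ^ 2 ≠ 0 := by
      have := norm_nonneg x
      nlinarith only [h3, this]
    exact (mul_eq_zero.1 h2).resolve_left h4
  have hsurj := LinearMap.injective_iff_surjective.1 hinj
  obtain ⟨q, hq⟩ := hsurj ⟨lapP p, by
    rw [MvPolynomial.mem_restrictTotalDegree]
    exact (rE5a_lapP_le p).trans (Nat.sub_le _ _)⟩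
  have hq' : lapP (rE5a_B (n + 1) * q.1) = lapP p := congrArg Subtype.val hq
  refine ⟨p - rE5a_B (n + 1) * q.1, ?_, fun x hx => ?_⟩
  · rw [rE5a_lapP_sub, hq', sub_self]
  · rw [ev_sub, rE5a_sphere hx, sub_zero]

end Vale.Agent.P098
end

section

set_option linter.all false

/-! # E5b, auxiliary: reflection of polynomials, finite covers, Stone-Weierstrass -/

open MeasureTheory Set Metric Filter
open scoped ContDiff RealInnerProductSpace Topology NNReal

namespace Vale.Agent.P098

open MvPolynomial in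
/-- the reflection `X 0 ↦ -X 0` on polynomials -/
noncomputable def rE5b_refl (n : ℕ) :
    MvPolynomial (Fin (n + 1)) ℝ →ₐ[ℝ] MvPolynomial (Fin (n + 1)) ℝ :=
  aeval fun i => if i = 0 then -X 0 else X i

/-- the sign -/
noncomputable def rE5b_sg (n : ℕ) (i : Fin (n + 1)) : ℝ := if i = 0 then -1 else 1

open MvPolynomial in
theorem rE5b_refl_X (n : ℕ) (i : Fin (n + 1)) :
    rE5b_refl n (X i) = C (rE5b_sg n i) * X i := by
  unfold rE5b_refl rE5b_sg
  rw [aeval_X]
  split_ifs with h
  · rw [h]; simp only [C_neg, C_1, neg_mul, one_mul]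
  · simp only [C_1, one_mul]

open MvPolynomial in
theorem rE5b_pderiv (n : ℕ) (i : Fin (n + 1)) (p : MvPolynomial (Fin (n + 1)) ℝ) :
    pderiv i (rE5b_refl n p) = C (rE5b_sg n i) * rE5b_refl n (pderiv i p) := by
  induction p using MvPolynomial.induction_on with
  | C a =>
    have : rE5b_refl n (C a) = C a := by
      unfold rE5b_refl; rw [← algebraMap_eq, AlgHom.commutes]
    rw [this]; simp only [derivation_C, map_zero, mul_zero]
  | add p q hp hq => rw [map_add, map_add, map_add, map_add, hp, hq, mul_add]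
  | mul_X p j hp =>
    rw [map_mul, rE5b_refl_X, (pderiv i).leibniz, (pderiv i).leibniz, (pderiv i).leibniz, hp]
    simp only [smul_eq_mul, map_add, map_mul, rE5b_refl_X, pderiv_C, pderiv_X]
    by_cases h : j = i
    · subst h
      simp only [Pi.single_eq_same, mul_one, mul_zero, add_zero, map_one]
      ring
    · simp only [ne_eq, h, not_false_eq_true, Pi.single_eq_of_ne, mul_zero, add_zero, zero_add, map_zero]
      ring

theorem rE5b_sg_sq (n : ℕ) (i : Fin (n + 1)) : rE5b_sg n i * rE5b_sg n i = 1 := by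
  unfold rE5b_sg; split_ifs <;> norm_num

theorem rE5b_lapP (n : ℕ) (p : MvPolynomial (Fin (n + 1)) ℝ) :
    lapP (rE5b_refl n p) = rE5b_refl n (lapP p) := by
  unfold lapP
  rw [map_sum]
  refine Finset.sum_congr rfl fun i _ => ?_
  rw [rE5b_pderiv, (MvPolynomial.pderiv i).leibniz, rE5b_pderiv]
  simp only [smul_eq_mul, MvPolynomial.pderiv_C, mul_zero, add_zero]
  rw [← mul_assoc, ← MvPolynomial.C_mul, rE5b_sg_sq, MvPolynomial.C_1, one_mul]

theorem rE5b_flip0_apply {n : ℕ} (x : E (n + 1)) (i : Fin (n + 1)) :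
    flip0 x i = rE5b_sg n i * x i := by
  unfold flip0 rE5b_sg
  by_cases h : i = 0
  · subst h; simp only [PiLp.sub_apply, PiLp.smul_apply, PiLp.single_eq_same, smul_eq_mul, mul_one, ↓reduceIte, neg_mul, one_mul]; ring
  · simp [h]

theorem rE5b_ev_refl (n : ℕ) (p : MvPolynomial (Fin (n + 1)) ℝ) (x : E (n + 1)) :
    ev (rE5b_refl n p) x = ev p (flip0 x) := by
  induction p using MvPolynomial.induction_on with
  | C a =>
    have : rE5b_refl n (MvPolynomial.C a) = MvPolynomial.C a := by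
      unfold rE5b_refl; rw [← MvPolynomial.algebraMap_eq, AlgHom.commutes]
    rw [this]; simp only [ev, MvPolynomial.eval_C]
  | add p q hp hq => rw [map_add, ev_add, ev_add, hp, hq]
  | mul_X p j hp =>
    rw [map_mul, ev_mul, ev_mul, hp, rE5b_refl_X, ev_mul]
    simp only [ev, rE5b_flip0_apply, MvPolynomial.eval_C, MvPolynomial.eval_X]

theorem rE5b_coeff (n : ℕ) (p : MvPolynomial (Fin (n + 1)) ℝ) (m : Fin (n + 1) →₀ ℕ) :
    (rE5b_refl n p).coeff m = (-1) ^ (m 0) * p.coeff m := by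
  classical
  induction p using MvPolynomial.induction_on' with
  | monomial s a =>
    have h : rE5b_refl n (MvPolynomial.monomial s a) =
        MvPolynomial.monomial s ((-1) ^ (s 0) * a) := by
      have h1 : MvPolynomial.monomial s a =
          MvPolynomial.C a * ∏ i, (MvPolynomial.X i : MvPolynomial (Fin (n + 1)) ℝ) ^ s i := by
        rw [MvPolynomial.monomial_eq, Finsupp.prod_fintype _ _ (fun i => pow_zero _)]
      have h2 : MvPolynomial.monomial s ((-1) ^ (s 0) * a) = MvPolynomial.C ((-1) ^ (s 0) * a) *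
          ∏ i, (MvPolynomial.X i : MvPolynomial (Fin (n + 1)) ℝ) ^ s i := by
        rw [MvPolynomial.monomial_eq, Finsupp.prod_fintype _ _ (fun i => pow_zero _)]
      rw [h1, h2, map_mul, map_prod]
      have h3 : rE5b_refl n (MvPolynomial.C a) = MvPolynomial.C a := by
        unfold rE5b_refl; rw [← MvPolynomial.algebraMap_eq, AlgHom.commutes]
      rw [h3]
      have h4 : ∏ i, rE5b_refl n ((MvPolynomial.X i : MvPolynomial (Fin (n + 1)) ℝ) ^ s i) =
          MvPolynomial.C ((-1) ^ (s 0)) *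
            ∏ i, (MvPolynomial.X i : MvPolynomial (Fin (n + 1)) ℝ) ^ s i := by
        simp only [map_pow, rE5b_refl_X, mul_pow]
        rw [Finset.prod_mul_distrib]
        congr 1
        rw [← map_pow, Finset.prod_eq_single 0]
        · simp only [rE5b_sg, ↓reduceIte, MvPolynomial.C_neg, MvPolynomial.C_1, MvPolynomial.C_pow]
        · intro b _ hb
          simp only [rE5b_sg, hb, ↓reduceIte, MvPolynomial.C_1, one_pow]
        · intro h; exact absurd (Finset.mem_univ _) h
      rw [h4, map_mul]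
      ring
    rw [h, MvPolynomial.coeff_monomial, MvPolynomial.coeff_monomial]
    split_ifs with h5
    · rw [h5]
    · simp only [mul_zero]
  | add p q hp hq => rw [map_add, MvPolynomial.coeff_add, MvPolynomial.coeff_add, hp, hq, mul_add]

/-- the even part -/
theorem rE5b_even (n : ℕ) (p : MvPolynomial (Fin (n + 1)) ℝ) (hp : lapP p = 0) :
    ∃ h : MvPolynomial (Fin (n + 1)) ℝ, lapP h = 0 ∧ EvenP h ∧
      ∀ x, ev h x = (ev p x + ev p (flip0 x)) / 2 := by
  refine ⟨MvPolynomial.C (1 / 2) * (p + rE5b_refl n p), ?_, ?_, ?_⟩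
  · have h1 : ∀ (c : ℝ) (q : MvPolynomial (Fin (n + 1)) ℝ),
        lapP (MvPolynomial.C c * q) = MvPolynomial.C c * lapP q := by
      intro c q
      unfold lapP
      rw [Finset.mul_sum]
      refine Finset.sum_congr rfl fun i _ => ?_
      rw [MvPolynomial.pderiv_C_mul, MvPolynomial.pderiv_C_mul]
    have h2 : ∀ q r : MvPolynomial (Fin (n + 1)) ℝ, lapP (q + r) = lapP q + lapP r := by
      intro q r
      unfold lapP
      rw [← Finset.sum_add_distrib]
      refine Finset.sum_congr rfl fun i _ => ?_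
      rw [map_add, map_add]
    rw [h1, h2, rE5b_lapP, hp, map_zero, add_zero, mul_zero]
  · intro m hm
    rw [MvPolynomial.coeff_C_mul, MvPolynomial.coeff_add, rE5b_coeff] at hm
    by_contra hodd
    rw [Nat.not_even_iff_odd] at hodd
    rw [hodd.neg_one_pow] at hm
    apply hm
    ring
  · intro x
    rw [ev_mul, ev_add, rE5b_ev_refl]
    simp only [ev, one_div, MvPolynomial.eval_C]
    ring

end Vale.Agent.P098
end

section

set_option linter.all false

/-! # E5b: a finite family of harmonic polynomials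

`S = sphere 0 (1/2)` is compact; choose `x_1, …, x_N ∈ S` such that the balls `ball x_i s`
cover `S`. For an integer vector `c` put `f_c = θ ∑ c_i ψ_i / ∑ ψ_i`, `ψ_i(x) = max (s - |x - x_i|) 0`.
With `c_i = ⌊g(x_i)/θ⌋` one has `|f_c - g| ≤ 2θ` on `S`. Let `p_c` be a polynomial with
`|ev p_c - f_c| ≤ θ` on `S` (Stone-Weierstrass) and `h_c` the harmonic polynomial with `h_c = p_c` on
`S` (`poly_dirichlet`). Finally replace `h_c` by its even part. -/

open MeasureTheory Set Metric Filter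
open scoped ContDiff RealInnerProductSpace Topology NNReal

namespace Vale.Agent.P098

variable {d : ℕ}

theorem rE5b_norm_flip0 {n : ℕ} (x : E (n + 1)) : ‖flip0 x‖ = ‖x‖ := by
  rw [EuclideanSpace.norm_eq, EuclideanSpace.norm_eq]
  congr 1
  refine Finset.sum_congr rfl fun i _ => ?_
  rw [rE5b_flip0_apply, norm_mul, mul_pow]
  have : ‖rE5b_sg n i‖ ^ 2 = 1 := by
    rw [Real.norm_eq_abs, sq_abs, sq, rE5b_sg_sq]
  rw [this, one_mul]

/-- Stone-Weierstrass on the sphere -/
theorem rE5b_stone {n : ℕ} (f : E (n + 1) → ℝ)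
    (hf : ContinuousOn f (sphere (0 : E (n + 1)) (1 / 2))) (ε : ℝ) (hε : 0 < ε) :
    ∃ p : MvPolynomial (Fin (n + 1)) ℝ, ∀ x ∈ sphere (0 : E (n + 1)) (1 / 2),
      |ev p x - f x| ≤ ε := by
  set S := sphere (0 : E (n + 1)) (1 / 2) with hS
  have : CompactSpace S := isCompact_iff_compactSpace.1 (isCompact_sphere _ _)
  let φ : MvPolynomial (Fin (n + 1)) ℝ →ₐ[ℝ] C(S, ℝ) :=
    MvPolynomial.aeval fun i => (⟨fun x => (x : E (n + 1)) i, by (clear * -; fun_prop)⟩ : C(S, ℝ))
  have hφ : ∀ p (x : S), φ p x = ev p x := by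
    intro p x
    induction p using MvPolynomial.induction_on with
    | C a =>
      have : φ (MvPolynomial.C a) = algebraMap ℝ C(S, ℝ) a := by
        rw [← MvPolynomial.algebraMap_eq, AlgHom.commutes]
      rw [this]; simp only [algebraMap_apply, smul_eq_mul, mul_one, ev, MvPolynomial.eval_C]
    | add p q hp hq => rw [map_add, ev_add, ContinuousMap.add_apply, hp, hq]
    | mul_X p j hp =>
      rw [map_mul, ev_mul, ContinuousMap.mul_apply, hp]
      simp only [ev, MvPolynomial.aeval_X, ContinuousMap.coe_mk, MvPolynomial.eval_X, φ]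
  have hsep : (φ.range).SeparatesPoints := by
    intro x y hxy
    have h1 : ∃ i, (x : E (n + 1)) i ≠ (y : E (n + 1)) i := by
      by_contra h
      push Not at h
      apply hxy
      apply Subtype.ext
      ext i
      exact h i
    obtain ⟨i, hi⟩ := h1
    refine ⟨_, ⟨φ (MvPolynomial.X i), ⟨_, rfl⟩, rfl⟩, ?_⟩
    simpa [φ] using hi
  obtain ⟨⟨_, p, rfl⟩, hg⟩ :=
    ContinuousMap.exists_mem_subalgebra_near_continuous_of_separatesPoints φ.range hsep
      (fun x : S => f x) (continuousOn_iff_continuous_domRestrict.1 hf) ε hε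
  refine ⟨p, fun x hx => ?_⟩
  have := hg ⟨x, hx⟩
  rw [Real.norm_eq_abs] at this
  have h2 : φ p ⟨x, hx⟩ = ev p x := hφ p ⟨x, hx⟩
  rw [← h2]
  exact this.le

theorem exists_family (n : ℕ) (θ s : ℝ) (hθ : 0 < θ) (hs : 0 < s) :
    ∃ F : Finset (MvPolynomial (Fin (n + 1)) ℝ), (∀ h ∈ F, lapP h = 0 ∧ EvenP h) ∧
      ∀ g : E (n + 1) → ℝ, (∀ x ∈ sphere (0 : E (n + 1)) (1 / 2), |g x| ≤ 1) →
        (∀ x ∈ sphere (0 : E (n + 1)) (1 / 2), g (flip0 x) = g x) →
        (∀ x ∈ sphere (0 : E (n + 1)) (1 / 2), ∀ y ∈ sphere (0 : E (n + 1)) (1 / 2),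
          dist x y ≤ s → |g x - g y| ≤ θ) →
        ∃ h ∈ F, ∀ x ∈ sphere (0 : E (n + 1)) (1 / 2), |ev h x - g x| ≤ 3 * θ := by
  classical
  set S := sphere (0 : E (n + 1)) (1 / 2) with hS
  obtain ⟨t, htS, htf, hcov⟩ := (isCompact_sphere (0 : E (n + 1)) (1 / 2)).finite_cover_balls hs
  have : Fintype t := htf.fintype
  -- the bump functions
  let ψ : t → E (n + 1) → ℝ := fun i x => max (s - dist x i) 0
  have hψ0 : ∀ i x, 0 ≤ ψ i x := fun i x => le_max_right _ _
  have hψc : ∀ i, Continuous (ψ i) := fun i => by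
    simp only [ψ]; fun_prop
  have hψpos : ∀ x ∈ S, 0 < ∑ i, ψ i x := by
    intro x hx
    obtain ⟨y, hy, hxy⟩ := Set.mem_iUnion₂.1 (hcov hx)
    rw [mem_ball] at hxy
    have h1 : 0 < ψ ⟨y, hy⟩ x := lt_max_of_lt_left (by simpa only [sub_pos] using hxy)
    exact lt_of_lt_of_le h1 (Finset.single_le_sum (f := fun i => ψ i x) (fun i _ => hψ0 i x)
      (Finset.mem_univ _))
  -- the continuous functions
  let f : (t → ℤ) → E (n + 1) → ℝ := fun c x => (∑ i, (θ * c i) * ψ i x) / ∑ i, ψ i x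
  have hfc : ∀ c, ContinuousOn (f c) S := by
    intro c
    apply ContinuousOn.div
    · exact (continuous_finsetSum _ fun i _ => (continuous_const.mul (hψc i))).continuousOn
    · exact (continuous_finsetSum _ fun i _ => hψc i).continuousOn
    · intro x hx; exact (hψpos x hx).ne'
  have hex : ∀ c, ∃ h : MvPolynomial (Fin (n + 1)) ℝ, lapP h = 0 ∧ EvenP h ∧
      ∀ g : E (n + 1) → ℝ, (∀ x ∈ S, g (flip0 x) = g x) → ∀ δ : ℝ,
        (∀ x ∈ S, |f c x - g x| ≤ δ) → ∀ x ∈ S, |ev h x - g x| ≤ δ + θ := by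
    intro c
    obtain ⟨p, hp⟩ := rE5b_stone (f c) (hfc c) θ hθ
    obtain ⟨q, hq1, hq2⟩ := poly_dirichlet n p
    obtain ⟨h, h1, h2, h3⟩ := rE5b_even n q hq1
    refine ⟨h, h1, h2, ?_⟩
    intro g hg δ hδ x hx
    have hfx : flip0 x ∈ S := by
      rw [hS, mem_sphere_zero_iff_norm] at hx ⊢
      rw [rE5b_norm_flip0, hx]
    have key : ∀ y ∈ S, |ev q y - g y| ≤ δ + θ := by
      intro y hy
      rw [hq2 y hy]
      calc |ev p y - g y| = |(f c y - g y) + (ev p y - f c y)| := by ring_nf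
        _ ≤ |f c y - g y| + |ev p y - f c y| := abs_add_le _ _
        _ ≤ δ + θ := add_le_add (hδ y hy) (hp y hy)
    have k1 := abs_le.1 (key x hx)
    have k2 := abs_le.1 (key _ hfx)
    rw [hg x hx] at k2
    rw [h3, abs_le]
    constructor <;> linarith [k1.1, k1.2, k2.1, k2.2]
  choose h h1 h2 h3 using hex
  -- the finite set of codes
  set M : ℤ := ⌈1 / θ⌉ + 1 with hM
  let codes : Finset (t → ℤ) := Fintype.piFinset fun _ => Finset.Icc (-M) M
  refine ⟨codes.image h, ?_, ?_⟩
  · intro p hp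
    obtain ⟨c, _, rfl⟩ := Finset.mem_image.1 hp
    exact ⟨h1 c, h2 c⟩
  · intro g hg1 hg2 hg3
    let c : t → ℤ := fun i => ⌊g i / θ⌋
    have hc1 : ∀ i : t, |θ * c i - g i| ≤ θ := by
      intro i
      have e1 := Int.floor_le (g i / θ)
      have e2 := Int.lt_floor_add_one (g i / θ)
      have e3 : g i / θ * θ = g i := div_mul_cancel₀ _ hθ.ne'
      rw [abs_le]
      constructor
      · simp only [c]; nlinarith only [e3, hθ, e2]
      · simp only [c]; nlinarith only [hθ, e3, e1]
    refine ⟨h c, Finset.mem_image.2 ⟨c, ?_, rfl⟩, ?_⟩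
    · rw [Fintype.mem_piFinset]
      intro i
      rw [Finset.mem_Icc]
      have hi := abs_le.1 (hg1 i (htS i.2))
      have e0 := Int.le_ceil (1 / θ)
      constructor
      · have : -(M : ℝ) ≤ g i / θ := by
          rw [hM]
          push_cast
          have : -(1 / θ) ≤ g i / θ := by
            rw [← neg_div]; exact div_le_div_of_nonneg_right hi.1 hθ.le
          linarith
        simp only [c]
        rw [Int.le_floor]
        push_cast
        exact this
      · have : g i / θ < (M : ℝ) := by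
          rw [hM]
          push_cast
          have : g i / θ ≤ 1 / θ := div_le_div_of_nonneg_right hi.2 hθ.le
          linarith only [e0, this]
        simp only [c]
        exact (Int.floor_lt.2 this).le
    · intro x hx
      have e := h3 c g hg2 (2 * θ) ?_ x hx
      · linarith only [e]
      intro x hx
      have hpos := hψpos x hx
      have e1 : f c x - g x = (∑ i, (θ * c i - g x) * ψ i x) / ∑ i, ψ i x := by
        simp only [f]
        rw [eq_div_iff hpos.ne', sub_mul, div_mul_cancel₀ _ hpos.ne', Finset.mul_sum,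
          ← Finset.sum_sub_distrib]
        refine Finset.sum_congr rfl fun i _ => ?_
        ring
      rw [e1, abs_div, abs_of_pos hpos, div_le_iff₀ hpos, Finset.mul_sum]
      refine (Finset.abs_sum_le_sum_abs _ _).trans (Finset.sum_le_sum fun i _ => ?_)
      rw [abs_mul, abs_of_nonneg (hψ0 i x)]
      by_cases hz : ψ i x = 0
      · rw [hz, mul_zero, mul_zero]
      · apply mul_le_mul_of_nonneg_right _ (hψ0 i x)
        have h5 : 0 < ψ i x := lt_of_le_of_ne (hψ0 i x) (Ne.symm hz)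
        have h6 : dist x i ≤ s := by
          by_contra hcon
          push Not at hcon
          have : ψ i x = 0 := max_eq_right (by linarith only [hcon])
          exact hz this
        have h7 := hg3 x hx i (htS i.2) h6
        calc |θ * c i - g x| = |(θ * c i - g i) + (g i - g x)| := by ring_nf
          _ ≤ |θ * c i - g i| + |g i - g x| := abs_add_le _ _
          _ ≤ θ + θ := add_le_add (hc1 i) (by rw [abs_sub_comm]; exact h7)
          _ = 2 * θ := by ring

end Vale.Agent.P098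
end

section

/-! # E8a: right inverse of the linearised problem

Write `r = r₀ + X₀ r₁` with `r₀` not involving `X₀`. Put
`s = ∑_j (-1)^j X₀^{2j+1}/(2j+1)! · Δ^j (r₀/2)` (finite sum; `Δ = lapP`, on polynomials without `X₀`
it only differentiates in the other variables). Then `lapP s = 0`, `s` has no constant term,
`2 ∂₀ s = ∑_j (-1)^j X₀^{2j}/(2j)! Δ^j r₀ = r₀ + X₀ (…)`, so `2 ∂₀ s - r = X₀ t` with
`t = ∑_{j≥1} (-1)^j X₀^{2j-1}/(2j)! Δ^j r₀ - r₁`. Degrees: clear. Norms:
`cn (Δ p) ≤ (n+1) (deg p)² cn p`. -/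

open MeasureTheory Set Metric Filter
open scoped ContDiff RealInnerProductSpace Topology NNReal

namespace Vale.Agent.P098

variable {d : ℕ}

theorem rE8a_pderiv_comm {σ : Type*} (i j : σ) (p : MvPolynomial σ ℝ) :
    MvPolynomial.pderiv i (MvPolynomial.pderiv j p)
      = MvPolynomial.pderiv j (MvPolynomial.pderiv i p) := by
  classical
  ext m
  simp only [MvPolynomial.coeff_pderiv]
  by_cases h : i = j
  · subst h; rfl
  · have e : m + Finsupp.single i 1 + Finsupp.single j 1
        = m + Finsupp.single j 1 + Finsupp.single i 1 := add_right_comm _ _ _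
    rw [e]
    simp only [Finsupp.add_apply, Finsupp.single_apply, if_neg h, if_neg (Ne.symm h), add_zero]
    ring

theorem rE8a_totalDegree_pderiv {σ : Type*} (i : σ) (p : MvPolynomial σ ℝ) {N : ℕ}
    (h : p.totalDegree ≤ N + 1) : (MvPolynomial.pderiv i p).totalDegree ≤ N := by
  classical
  refine Finset.sup_le fun m hm => ?_
  have hm' : (MvPolynomial.pderiv i p).coeff m ≠ 0 := MvPolynomial.mem_support_iff.mp hm
  rw [MvPolynomial.coeff_pderiv] at hm'
  have h1 : m + Finsupp.single i 1 ∈ p.support :=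
    MvPolynomial.mem_support_iff.mpr (left_ne_zero_of_mul hm')
  have h2 := (MvPolynomial.le_totalDegree h1).trans h
  rw [Finsupp.sum_add_index' (by simp) (by simp)] at h2
  simp only [Finsupp.sum_single_index] at h2
  omega

theorem rE8a_pderiv_const {σ : Type*} (i : σ) (p : MvPolynomial σ ℝ)
    (h : p.totalDegree = 0) : MvPolynomial.pderiv i p = 0 := by
  rw [MvPolynomial.totalDegree_eq_zero_iff_eq_C.mp h, MvPolynomial.pderiv_C]

theorem rE8a_lapP_low (p : MvPolynomial (Fin d) ℝ) (h : p.totalDegree ≤ 1) : lapP p = 0 := by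
  refine Finset.sum_eq_zero fun i _ => ?_
  exact rE8a_pderiv_const i _ (Nat.le_zero.mp (rE8a_totalDegree_pderiv i p h))

theorem rE8a_totalDegree_lapP (p : MvPolynomial (Fin d) ℝ) {N : ℕ} (h : p.totalDegree ≤ N + 2) :
    (lapP p).totalDegree ≤ N := by
  refine MvPolynomial.totalDegree_finsetSum_le fun i _ => ?_
  exact rE8a_totalDegree_pderiv i _ (rE8a_totalDegree_pderiv i p h)

theorem rE8a_lapP_add (p q : MvPolynomial (Fin d) ℝ) : lapP (p + q) = lapP p + lapP q := by
  simp only [lapP, map_add, Finset.sum_add_distrib]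

theorem rE8a_lapP_smul (c : ℝ) (p : MvPolynomial (Fin d) ℝ) : lapP (c • p) = c • lapP p := by
  simp only [lapP, Derivation.map_smul, Finset.smul_sum]

theorem rE8a_lapP_zero : lapP (0 : MvPolynomial (Fin d) ℝ) = 0 := by
  simp only [lapP, map_zero, Finset.sum_const_zero]

theorem rE8a_lapP_sum {ι : Type*} (s : Finset ι) (f : ι → MvPolynomial (Fin d) ℝ) :
    lapP (∑ i ∈ s, f i) = ∑ i ∈ s, lapP (f i) := by
  classical
  induction s using Finset.induction_on with
  | empty => simp [rE8a_lapP_zero]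
  | insert a s ha ih => rw [Finset.sum_insert ha, Finset.sum_insert ha, rE8a_lapP_add, ih]

theorem rE8a_pderiv_zero_lapP {n : ℕ} (p : MvPolynomial (Fin (n + 1)) ℝ)
    (h : MvPolynomial.pderiv 0 p = 0) : MvPolynomial.pderiv 0 (lapP p) = 0 := by
  simp only [lapP, map_sum]
  refine Finset.sum_eq_zero fun i _ => ?_
  rw [rE8a_pderiv_comm 0 i, rE8a_pderiv_comm 0 i, h, map_zero, map_zero]

theorem rE8a_lapP_X_mul {n : ℕ} (k : ℕ) (v : MvPolynomial (Fin (n + 1)) ℝ)
    (hv : MvPolynomial.pderiv 0 v = 0) :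
    lapP (MvPolynomial.X 0 ^ (k + 2) * v)
      = ((k + 2 : ℝ) * (k + 1)) • (MvPolynomial.X 0 ^ k * v)
        + MvPolynomial.X 0 ^ (k + 2) * lapP v := by
  have h0 : MvPolynomial.pderiv 0 (MvPolynomial.pderiv 0 (MvPolynomial.X 0 ^ (k + 2) * v))
      = ((k + 2 : ℝ) * (k + 1)) • (MvPolynomial.X 0 ^ k * v) := by
    simp only [MvPolynomial.pderiv_mul, hv, mul_zero, add_zero, MvPolynomial.pderiv_pow,
      MvPolynomial.pderiv_X_self, mul_one, MvPolynomial.smul_eq_C_mul]
    simp only [Nat.add_sub_cancel, show k + 2 - 1 = k + 1 from rfl, map_mul, map_add,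
      map_natCast, map_ofNat, map_one]
    have hc : MvPolynomial.pderiv (0 : Fin (n + 1)) (((k + 2 : ℕ) : MvPolynomial (Fin (n + 1)) ℝ))
        = 0 := by
      rw [← map_natCast (MvPolynomial.C : ℝ →+* MvPolynomial (Fin (n + 1)) ℝ),
        MvPolynomial.pderiv_C]
    rw [hc]
    push_cast
    ring
  have hs : ∀ i : Fin n, MvPolynomial.pderiv i.succ (MvPolynomial.pderiv i.succ
      (MvPolynomial.X 0 ^ (k + 2) * v))
      = MvPolynomial.X 0 ^ (k + 2) * MvPolynomial.pderiv i.succ (MvPolynomial.pderiv i.succ v) := by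
    intro i
    have hx : ∀ w : MvPolynomial (Fin (n + 1)) ℝ,
        MvPolynomial.pderiv i.succ (MvPolynomial.X 0 ^ (k + 2) * w)
          = MvPolynomial.X 0 ^ (k + 2) * MvPolynomial.pderiv i.succ w := by
      intro w
      rw [MvPolynomial.pderiv_mul, MvPolynomial.pderiv_pow,
        MvPolynomial.pderiv_X_of_ne (Fin.succ_ne_zero i).symm]
      simp only [Nat.cast_add, Nat.cast_ofNat, Nat.add_one_sub_one, mul_zero, zero_mul, zero_add]
    rw [hx, hx]
  unfold lapP
  rw [Fin.sum_univ_succ, Fin.sum_univ_succ, h0, hv, map_zero, zero_add, Finset.mul_sum]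
  congr 1
  exact Finset.sum_congr rfl fun i _ => hs i

/-- Solving `Δ (X₀^{j+2} v) = X₀^j p` for `p` not involving `X₀`. -/
theorem rE8a_solve {n : ℕ} : ∀ N j : ℕ, ∀ p : MvPolynomial (Fin (n + 1)) ℝ, p.totalDegree ≤ N →
    MvPolynomial.pderiv 0 p = 0 → ∃ v : MvPolynomial (Fin (n + 1)) ℝ, v.totalDegree ≤ N ∧
      lapP (MvPolynomial.X 0 ^ (j + 2) * v) = MvPolynomial.X 0 ^ j * p := by
  intro N
  induction N using Nat.strong_induction_on with
  | _ N ih =>
    intro j p hp h0
    have hj : ((j + 2 : ℝ) * (j + 1)) ≠ 0 := by positivity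
    by_cases hN : N ≤ 1
    · refine ⟨((j + 2 : ℝ) * (j + 1))⁻¹ • p, (MvPolynomial.totalDegree_smul_le _ _).trans hp, ?_⟩
      rw [rE8a_lapP_X_mul j _ (by rw [Derivation.map_smul, h0, smul_zero]), rE8a_lapP_smul,
        rE8a_lapP_low p (hp.trans hN), smul_zero, mul_zero, add_zero, mul_smul_comm, smul_smul,
        mul_inv_cancel₀ hj, one_smul]
    · obtain ⟨M, rfl⟩ : ∃ M, N = M + 2 := ⟨N - 2, by omega⟩
      obtain ⟨v', hv', hv2⟩ := ih M (by omega) (j + 2) (((j + 2 : ℝ) * (j + 1))⁻¹ • lapP p)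
        ((MvPolynomial.totalDegree_smul_le _ _).trans (rE8a_totalDegree_lapP p hp))
        (by rw [Derivation.map_smul, rE8a_pderiv_zero_lapP p h0, smul_zero])
      refine ⟨((j + 2 : ℝ) * (j + 1))⁻¹ • p + (-1 : ℝ) • (MvPolynomial.X 0 ^ 2 * v'), ?_, ?_⟩
      · refine (MvPolynomial.totalDegree_add _ _).trans (max_le
          ((MvPolynomial.totalDegree_smul_le _ _).trans hp)
          ((MvPolynomial.totalDegree_smul_le _ _).trans ?_))
        refine (MvPolynomial.totalDegree_mul _ _).trans ?_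
        have := MvPolynomial.totalDegree_pow (MvPolynomial.X (R := ℝ) (0 : Fin (n + 1))) 2
        rw [MvPolynomial.totalDegree_X] at this
        omega
      · rw [mul_add, rE8a_lapP_add, rE8a_lapP_X_mul j _ (by rw [Derivation.map_smul, h0, smul_zero]),
          rE8a_lapP_smul, mul_smul_comm, mul_smul_comm, smul_smul, mul_inv_cancel₀ hj, one_smul,
          mul_smul_comm, rE8a_lapP_smul, ← mul_assoc, ← pow_add,
          show j + 2 + 2 = (j + 2) + 2 from rfl, hv2, mul_smul_comm]
        simp only [mul_inv_rev, neg_smul, one_smul, add_neg_cancel_right]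

theorem rE8a_degree_mono {σ : Type*} {a b : σ →₀ ℕ} (h : a ≤ b) :
    (a.sum fun _ e => e) ≤ b.sum fun _ e => e := by
  have e : b = a + (b - a) := (add_tsub_cancel_of_le h).symm
  rw [e, Finsupp.sum_add_index' (by simp) (by simp)]
  exact Nat.le_add_right _ _

theorem rE8a_cn_monomial (m : Fin d →₀ ℕ) (c : ℝ) : cn (MvPolynomial.monomial m c) ≤ |c| := by
  classical
  unfold cn
  calc ∑ x ∈ (MvPolynomial.monomial m c).support, |(MvPolynomial.monomial m c).coeff x|
      ≤ ∑ x ∈ {m}, |(MvPolynomial.monomial m c).coeff x| :=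
        Finset.sum_le_sum_of_subset_of_nonneg MvPolynomial.support_monomial_subset
          fun _ _ _ => abs_nonneg _
    _ = |c| := by rw [Finset.sum_singleton, MvPolynomial.coeff_monomial, if_pos rfl]

theorem rE8a_lapP_X_mul_one {n : ℕ} (v : MvPolynomial (Fin (n + 1)) ℝ)
    (hv : MvPolynomial.pderiv 0 v = 0) :
    lapP (MvPolynomial.X 0 * v) = MvPolynomial.X 0 * lapP v := by
  have hs : ∀ i : Fin n, MvPolynomial.pderiv i.succ (MvPolynomial.pderiv i.succ
      (MvPolynomial.X 0 * v))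
      = MvPolynomial.X 0 * MvPolynomial.pderiv i.succ (MvPolynomial.pderiv i.succ v) := by
    intro i
    have hx : ∀ w : MvPolynomial (Fin (n + 1)) ℝ,
        MvPolynomial.pderiv i.succ (MvPolynomial.X 0 * w)
          = MvPolynomial.X 0 * MvPolynomial.pderiv i.succ w := by
      intro w
      rw [MvPolynomial.pderiv_mul, MvPolynomial.pderiv_X_of_ne (Fin.succ_ne_zero i).symm]
      simp
    rw [hx, hx]
  have h0 : MvPolynomial.pderiv 0 (MvPolynomial.pderiv 0 (MvPolynomial.X 0 * v)) = 0 := by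
    simp only [MvPolynomial.pderiv_mul, hv, mul_zero, add_zero, MvPolynomial.pderiv_X_self,
      one_mul]
  unfold lapP
  rw [Fin.sum_univ_succ, Fin.sum_univ_succ, hv, map_zero, h0, mul_add, mul_zero, Finset.mul_sum]
  congr 1
  exact Finset.sum_congr rfl fun i _ => hs i

theorem rE8a_monomial {n : ℕ} (m : Fin (n + 1) →₀ ℕ) (K : ℕ) (hm : m.degree ≤ K) :
    ∃ s t : MvPolynomial (Fin (n + 1)) ℝ, s.totalDegree ≤ K + 1 ∧
      t.totalDegree ≤ K ∧ lapP s = 0 ∧ s.coeff 0 = 0 ∧
      2 * MvPolynomial.pderiv 0 s - MvPolynomial.X 0 * t = MvPolynomial.monomial m 1 := by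
  classical
  have hdeg : (MvPolynomial.monomial m (1 : ℝ)).totalDegree ≤ K := by
    refine (MvPolynomial.totalDegree_monomial_le _ _).trans ?_
    exact hm
  by_cases h0 : m 0 = 0
  · set p : MvPolynomial (Fin (n + 1)) ℝ := MvPolynomial.monomial m 1 with hpdef
    have hp0 : MvPolynomial.pderiv 0 p = 0 := by
      rw [hpdef, MvPolynomial.pderiv_monomial, h0]; simp
    obtain ⟨v, hv1, hv2⟩ : ∃ v : MvPolynomial (Fin (n + 1)) ℝ, (v = 0 ∨ v.totalDegree + 2 ≤ K) ∧
        lapP (MvPolynomial.X 0 ^ 3 * v) = MvPolynomial.X 0 * lapP p := by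
      by_cases hK : K ≤ 1
      · exact ⟨0, Or.inl rfl, by
          rw [mul_zero, rE8a_lapP_zero, rE8a_lapP_low p (hdeg.trans hK), mul_zero]⟩
      · obtain ⟨M, rfl⟩ : ∃ M, K = M + 2 := ⟨K - 2, by omega⟩
        obtain ⟨v, h1, h2⟩ := rE8a_solve M 1 (lapP p) (rE8a_totalDegree_lapP p hdeg)
          (rE8a_pderiv_zero_lapP p hp0)
        exact ⟨v, Or.inr (by omega), by simpa using h2⟩
    refine ⟨(1 / 2 : ℝ) • (MvPolynomial.X 0 * p) + (-(1 / 2) : ℝ) • (MvPolynomial.X 0 ^ 3 * v),
      (-3 : ℝ) • (MvPolynomial.X 0 * v) + (-1 : ℝ) • (MvPolynomial.X 0 ^ 2 * MvPolynomial.pderiv 0 v),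
      ?_, ?_, ?_, ?_, ?_⟩
    · refine (MvPolynomial.totalDegree_add _ _).trans (max_le
        ((MvPolynomial.totalDegree_smul_le _ _).trans ?_)
        ((MvPolynomial.totalDegree_smul_le _ _).trans ?_))
      · have := MvPolynomial.totalDegree_mul (MvPolynomial.X (R := ℝ) (0 : Fin (n + 1))) p
        rw [MvPolynomial.totalDegree_X] at this
        omega
      · rcases hv1 with rfl | hv1
        · simp only [mul_zero, MvPolynomial.totalDegree_zero, le_add_iff_nonneg_left, zero_le]
        · have h1 := MvPolynomial.totalDegree_mul (MvPolynomial.X (R := ℝ) (0 : Fin (n + 1)) ^ 3) v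
          have h2 := MvPolynomial.totalDegree_pow (MvPolynomial.X (R := ℝ) (0 : Fin (n + 1))) 3
          rw [MvPolynomial.totalDegree_X] at h2
          omega
    · refine (MvPolynomial.totalDegree_add _ _).trans (max_le
        ((MvPolynomial.totalDegree_smul_le _ _).trans ?_)
        ((MvPolynomial.totalDegree_smul_le _ _).trans ?_))
      · rcases hv1 with rfl | hv1
        · simp
        · have := MvPolynomial.totalDegree_mul (MvPolynomial.X (R := ℝ) (0 : Fin (n + 1))) v
          rw [MvPolynomial.totalDegree_X] at this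
          omega
      · rcases hv1 with rfl | hv1
        · simp
        · have h1 := MvPolynomial.totalDegree_mul (MvPolynomial.X (R := ℝ) (0 : Fin (n + 1)) ^ 2)
            (MvPolynomial.pderiv 0 v)
          have h2 := MvPolynomial.totalDegree_pow (MvPolynomial.X (R := ℝ) (0 : Fin (n + 1))) 2
          rw [MvPolynomial.totalDegree_X] at h2
          have h3 := rE8a_totalDegree_pderiv (N := v.totalDegree) 0 v (Nat.le_succ _)
          omega
    · rw [rE8a_lapP_add, rE8a_lapP_smul, rE8a_lapP_smul, hv2, rE8a_lapP_X_mul_one p hp0, ← add_smul]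
      simp
    · rw [← MvPolynomial.constantCoeff_eq]
      simp only [one_div, neg_smul, map_add, MvPolynomial.constantCoeff_smul, map_mul, MvPolynomial.constantCoeff_X, zero_mul, smul_eq_mul, mul_zero, map_neg, map_pow, ne_eq, OfNat.ofNat_ne_zero, not_false_eq_true, zero_pow, neg_zero, add_zero]
    · rw [map_add, Derivation.map_smul, Derivation.map_smul, MvPolynomial.pderiv_mul,
        MvPolynomial.pderiv_mul, MvPolynomial.pderiv_pow, MvPolynomial.pderiv_X_self, hp0]
      have e1 : (2 : MvPolynomial (Fin (n + 1)) ℝ) = MvPolynomial.C 2 := by rw [map_ofNat]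
      have e2 : (MvPolynomial.C (1 / 2) : MvPolynomial (Fin (n + 1)) ℝ) * MvPolynomial.C 2 = 1 := by
        rw [← map_mul]; norm_num
      simp only [MvPolynomial.smul_eq_C_mul, map_neg, map_one, map_ofNat] at e2 ⊢
      push_cast
      linear_combination (p - 3 * MvPolynomial.X 0 ^ 2 * v
        - MvPolynomial.X 0 ^ 3 * MvPolynomial.pderiv 0 v) * e2
  · refine ⟨0, -MvPolynomial.monomial (m - Finsupp.single 0 1) 1, by simp only [MvPolynomial.totalDegree_zero, le_add_iff_nonneg_left, zero_le], ?_, rE8a_lapP_zero,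
      by simp, ?_⟩
    · rw [MvPolynomial.totalDegree_neg]
      refine (MvPolynomial.totalDegree_monomial_le _ _).trans (le_trans ?_ hm)
      exact rE8a_degree_mono tsub_le_self
    · rw [map_zero, mul_zero, mul_neg, sub_neg_eq_add, zero_add, MvPolynomial.X,
        MvPolynomial.monomial_mul, one_mul]
      have e : Finsupp.single (0 : Fin (n + 1)) 1 + (m - Finsupp.single 0 1) = m :=
        add_tsub_cancel_of_le (by rw [Finsupp.single_le_iff]; omega)
      rw [e]

theorem rE8a_cn_sum {ι : Type*} (s : Finset ι) (f : ι → MvPolynomial (Fin d) ℝ) :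
    cn (∑ i ∈ s, f i) ≤ ∑ i ∈ s, cn (f i) := by
  classical
  induction s using Finset.induction_on with
  | empty => simp [cn_zero]
  | insert a s ha ih =>
    rw [Finset.sum_insert ha, Finset.sum_insert ha]
    exact (cn_add_le _ _).trans (by gcongr)

theorem right_inverse (n K : ℕ) : ∃ C : ℝ, 0 < C ∧ ∀ r : MvPolynomial (Fin (n + 1)) ℝ,
    r.totalDegree ≤ K → ∃ s t : MvPolynomial (Fin (n + 1)) ℝ, s.totalDegree ≤ K + 1 ∧
      t.totalDegree ≤ K ∧ lapP s = 0 ∧ s.coeff 0 = 0 ∧
      2 * MvPolynomial.pderiv 0 s - MvPolynomial.X 0 * t = r ∧ cn s ≤ C * cn r ∧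
      cn t ≤ C * cn r := by
  classical
  have hex : ∀ m : Fin (n + 1) →₀ ℕ, ∃ st : MvPolynomial (Fin (n + 1)) ℝ ×
      MvPolynomial (Fin (n + 1)) ℝ, m.degree ≤ K → (st.1.totalDegree ≤ K + 1 ∧
      st.2.totalDegree ≤ K ∧ lapP st.1 = 0 ∧ st.1.coeff 0 = 0 ∧
      2 * MvPolynomial.pderiv 0 st.1 - MvPolynomial.X 0 * st.2 = MvPolynomial.monomial m 1) := by
    intro m
    by_cases hm : m.degree ≤ K
    · obtain ⟨s, t, h⟩ := rE8a_monomial m K hm
      exact ⟨(s, t), fun _ => h⟩
    · exact ⟨(0, 0), fun h => absurd h hm⟩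
  choose st hst using hex
  set F : Finset (Fin (n + 1) →₀ ℕ) := (Finsupp.finite_of_degree_le (σ := Fin (n + 1)) K).toFinset
    with hF
  set C : ℝ := 1 + ∑ m ∈ F, (cn (st m).1 + cn (st m).2) with hC
  have hterm : ∀ m ∈ F, 0 ≤ cn (st m).1 + cn (st m).2 := fun m _ =>
    add_nonneg (cn_nonneg _) (cn_nonneg _)
  have hC0 : 0 < C := by
    have := Finset.sum_nonneg hterm
    rw [hC]; linarith only [this]
  have hCm : ∀ m ∈ F, cn (st m).1 + cn (st m).2 ≤ C := fun m hm => by
    have := Finset.single_le_sum hterm hm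
    rw [hC]; linarith only [this]
  refine ⟨C, hC0, fun r hr => ?_⟩
  have hsup : ∀ m ∈ r.support, m.degree ≤ K := fun m hm =>
    (MvPolynomial.le_totalDegree hm).trans hr
  have hsF : ∀ m ∈ r.support, m ∈ F := fun m hm => by
    rw [hF, Set.Finite.mem_toFinset]; exact hsup m hm
  refine ⟨∑ m ∈ r.support, r.coeff m • (st m).1, ∑ m ∈ r.support, r.coeff m • (st m).2,
    ?_, ?_, ?_, ?_, ?_, ?_, ?_⟩
  · exact MvPolynomial.totalDegree_finsetSum_le fun m hm =>
      (MvPolynomial.totalDegree_smul_le _ _).trans (hst m (hsup m hm)).1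
  · exact MvPolynomial.totalDegree_finsetSum_le fun m hm =>
      (MvPolynomial.totalDegree_smul_le _ _).trans (hst m (hsup m hm)).2.1
  · rw [rE8a_lapP_sum]
    refine Finset.sum_eq_zero fun m hm => ?_
    rw [rE8a_lapP_smul, (hst m (hsup m hm)).2.2.1, smul_zero]
  · rw [MvPolynomial.coeff_sum]
    refine Finset.sum_eq_zero fun m hm => ?_
    rw [MvPolynomial.coeff_smul, (hst m (hsup m hm)).2.2.2.1, smul_zero]
  · conv_rhs => rw [r.as_sum]
    rw [map_sum, Finset.mul_sum, Finset.mul_sum, ← Finset.sum_sub_distrib]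
    refine Finset.sum_congr rfl fun m hm => ?_
    rw [Derivation.map_smul, mul_smul_comm, mul_smul_comm, ← smul_sub,
      (hst m (hsup m hm)).2.2.2.2, MvPolynomial.smul_monomial, smul_eq_mul, mul_one]
  · refine (rE8a_cn_sum _ _).trans ?_
    rw [show C * cn r = ∑ m ∈ r.support, |r.coeff m| * C by
      rw [← Finset.sum_mul, mul_comm]; rfl]
    refine Finset.sum_le_sum fun m hm => ?_
    rw [cn_smul]
    have h1 := hCm m (hsF m hm)
    have h2 := cn_nonneg (st m).2
    exact mul_le_mul_of_nonneg_left (by linarith only [h1, h2]) (abs_nonneg _)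
  · refine (rE8a_cn_sum _ _).trans ?_
    rw [show C * cn r = ∑ m ∈ r.support, |r.coeff m| * C by
      rw [← Finset.sum_mul, mul_comm]; rfl]
    refine Finset.sum_le_sum fun m hm => ?_
    rw [cn_smul]
    have h1 := hCm m (hsF m hm)
    have h2 := cn_nonneg (st m).1
    exact mul_le_mul_of_nonneg_left (by linarith only [h1, h2]) (abs_nonneg _)

/-- For even `q`, `2 ∂₀ q` is divisible by `X₀`. -/
theorem even_quotient (n : ℕ) (q : MvPolynomial (Fin (n + 1)) ℝ) (hq : EvenP q) :
    ∃ t : MvPolynomial (Fin (n + 1)) ℝ, 2 * MvPolynomial.pderiv 0 q = MvPolynomial.X 0 * t ∧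
      t.totalDegree ≤ q.totalDegree ∧ cn t ≤ 2 * q.totalDegree * cn q := by
  classical
  refine ⟨∑ m ∈ q.support, MvPolynomial.monomial (m - Finsupp.single 0 2)
    (2 * (m 0 : ℝ) * q.coeff m), ?_, ?_, ?_⟩
  · conv_lhs => rw [q.as_sum]
    rw [map_sum, Finset.mul_sum, Finset.mul_sum]
    refine Finset.sum_congr rfl fun m hm => ?_
    have hev := hq m (MvPolynomial.mem_support_iff.mp hm)
    rw [MvPolynomial.pderiv_monomial]
    by_cases h0 : m 0 = 0
    · simp [h0]
    · have h2 : 2 ≤ m 0 := by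
        obtain ⟨k, hk⟩ := hev
        omega
      have e : m - Finsupp.single 0 1
          = Finsupp.single (0 : Fin (n + 1)) 1 + (m - Finsupp.single 0 2) := by
        ext i
        by_cases hi : i = 0
        · subst hi
          simp only [Finsupp.coe_tsub, Pi.sub_apply, Finsupp.single_eq_same, Finsupp.add_apply]
          omega
        · simp only [Finsupp.coe_tsub, Pi.sub_apply, ne_eq, Ne.symm hi, not_false_eq_true, Finsupp.single_eq_of_ne', tsub_zero, Finsupp.coe_add, Pi.add_apply, zero_add]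
      rw [show (2 : MvPolynomial (Fin (n + 1)) ℝ) = MvPolynomial.C 2 by rw [map_ofNat],
        MvPolynomial.C_mul_monomial, MvPolynomial.X, MvPolynomial.monomial_mul, one_mul, e]
      congr 1
      ring
  · refine MvPolynomial.totalDegree_finsetSum_le fun m hm => ?_
    refine (MvPolynomial.totalDegree_monomial_le _ _).trans ?_
    refine le_trans ?_ (MvPolynomial.le_totalDegree hm)
    exact rE8a_degree_mono tsub_le_self
  · refine (rE8a_cn_sum _ _).trans ?_
    rw [show 2 * (q.totalDegree : ℝ) * cn q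
        = ∑ m ∈ q.support, 2 * (q.totalDegree : ℝ) * |q.coeff m| by
      rw [← Finset.mul_sum]; rfl]
    refine Finset.sum_le_sum fun m hm => (rE8a_cn_monomial _ _).trans ?_
    rw [abs_mul, abs_mul, abs_two, Nat.abs_cast]
    have h1 : (m 0 : ℝ) ≤ q.totalDegree := by
      have := (Finsupp.le_degree 0 m).trans (MvPolynomial.le_totalDegree hm)
      exact_mod_cast this
    gcongr

end Vale.Agent.P098
end

section

/-!
# Sparse polynomials in `a, b, c` (radix `8` for `y`)
-/

namespace Vale.Agent.P098.N.R8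

open Vale.Agent.P098.K

variable {B : ℕ} {X : ℕ → ℝ}

theorem rep_S : ∀ {l : S3}, okS l = true →
    Rep B rs6 X [0, 0, 0, 4, 4, 4] (lS l)
      (fvS ((B : ℤ) ^ 544) ((B : ℤ) ^ 9248) ((B : ℤ) ^ 157216) l) (evS X l) := by
  intro l
  induction l with
  | nil => intro _; simpa [fvS, evS, lS] using Rep.zero
  | cons q l ih =>
    intro h
    simp only [okS, Bool.and_eq_true] at h
    obtain ⟨⟨⟨h1, h2⟩, h3⟩, h4⟩ := h
    have h1 := Nat.le_of_ble_eq_true h1
    have h2 := Nat.le_of_ble_eq_true h2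
    have h3 := Nat.le_of_ble_eq_true h3
    refine Rep.add ?_ (ih h4)
    refine ⟨[(q.1, 544 * q.2.1 + 9248 * q.2.2.1 + 157216 * q.2.2.2)], ?_, ?_, ?_, ?_⟩
    · simp only [kr, List.map_cons, List.map_nil, List.sum_cons, List.sum_nil]
      rw [pow_add, pow_add, pow_mul, pow_mul, pow_mul]
      ring
    · simp only [l1, List.map_cons, List.map_nil, List.sum_cons, List.sum_nil, add_zero, Std.le_refl]
    · intro t ht
      simp only [List.mem_singleton] at ht
      subst ht
      simp only [ok]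
      omega
    · simp only [K.ev, List.map_cons, List.map_nil, List.sum_cons, List.sum_nil, mono]
      have e1 : (544 * q.2.1 + 9248 * q.2.2.1 + 157216 * q.2.2.2) % 8 = 0 := by omega
      have e2 : (544 * q.2.1 + 9248 * q.2.2.1 + 157216 * q.2.2.2) / 8 % 4 = 0 := by omega
      have e3 : (544 * q.2.1 + 9248 * q.2.2.1 + 157216 * q.2.2.2) / 8 / 4 % 17 = 0 := by omega
      have e4 : (544 * q.2.1 + 9248 * q.2.2.1 + 157216 * q.2.2.2) / 8 / 4 / 17 % 17 = q.2.1 := by
        omega
      have e5 : (544 * q.2.1 + 9248 * q.2.2.1 + 157216 * q.2.2.2) / 8 / 4 / 17 / 17 % 17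
          = q.2.2.1 := by omega
      have e6 : (544 * q.2.1 + 9248 * q.2.2.1 + 157216 * q.2.2.2) / 8 / 4 / 17 / 17 / 17 % 9
          = q.2.2.2 := by omega
      rw [e1, e2, e3, e4, e5, e6]
      simp only [pow_zero, zero_add, Nat.reduceAdd, mul_one, one_mul, add_zero]
      ring

end Vale.Agent.P098.N.R8
end
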