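import Mathlib
import Vale.Agent.P098.Bdl.B2
import Vale.Agent.P098.Bdl.B1

set_option linter.all false

section

open MeasureTheory Set Metric Filter
open scoped ContDiff RealInnerProductSpace Topology

namespace Vale.Agent.P098

variable {m : ℕ}

/-- divergence of the `j`-th `a`-term, divided by `F^(2α+2)`, in a frame -/
noncomputable def m3_Da (f : SF) (α κ z y v : ℝ) (lam ξ : Fin m → ℝ)
    (T : Fin m → Fin m → Fin m → ℝ) (j : ℕ) : ℝ :=
  ((2 * α - 2 - j) * f.g y v (pw lam 3) (pw lam 4) + f.zd y v (pw lam 3) (pw lam 4))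
      * ((∑ k, XX lam (fun l => T l l k) 1 * XX lam (fun l => T l l k) (j + 1))
        + κ * pw lam 2 * pw lam (j + 2))
  + f.gz y v (pw lam 3) (pw lam 4)
      * ((∑ k, XX lam (fun l => T l l k) (j + 1) * ξ k) - κ * z * pw lam (j + 2))
  + 2 * f.gv y v (pw lam 3) (pw lam 4)
      * (∑ k, XX lam (fun l => T l l k) (j + 1) * lam k ^ 1 * ξ k)
  + 3 * f.gt y v (pw lam 3) (pw lam 4)
      * ((∑ k, XX lam (fun l => T l l k) 2 * XX lam (fun l => T l l k) (j + 1))
        + κ * pw lam 3 * pw lam (j + 2))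
  + 4 * f.gi y v (pw lam 3) (pw lam 4)
      * ((∑ k, XX lam (fun l => T l l k) 3 * XX lam (fun l => T l l k) (j + 1))
        + κ * pw lam 4 * pw lam (j + 2))
  + f.g y v (pw lam 3) (pw lam 4)
      * ((∑ i, ∑ l, ∑ k, hh (j + 1) (lam i) (lam l) * T i l k ^ 2)
        + κ * ((j + 3 : ℕ) : ℝ) * pw lam (j + 2))

/-- divergence of the `j`-th `f`-term, divided by `F^(2α+2)`, in a frame -/
noncomputable def m3_Df (f : SF) (α κ z y v : ℝ) (lam ξ : Fin m → ℝ)
    (T : Fin m → Fin m → Fin m → ℝ) (j : ℕ) : ℝ :=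
  ((2 * α + 1 - j) * f.g y v (pw lam 3) (pw lam 4) + f.zd y v (pw lam 3) (pw lam 4))
      * ((∑ k, XX lam (fun l => T l l k) 1 * lam k ^ j * ξ k)
        - if j = 0 then κ * z * pw lam 2 else 0)
  + f.gz y v (pw lam 3) (pw lam 4)
      * ((∑ k, lam k ^ j * ξ k ^ 2) + if j = 0 then z ^ 2 * κ else 0)
  + 2 * f.gv y v (pw lam 3) (pw lam 4) * (∑ k, lam k ^ (j + 1) * ξ k ^ 2)
  + 3 * f.gt y v (pw lam 3) (pw lam 4)
      * ((∑ k, XX lam (fun l => T l l k) 2 * lam k ^ j * ξ k)
        - if j = 0 then κ * z * pw lam 3 else 0)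
  + 4 * f.gi y v (pw lam 3) (pw lam 4)
      * ((∑ k, XX lam (fun l => T l l k) 3 * lam k ^ j * ξ k)
        - if j = 0 then κ * z * pw lam 4 else 0)
  + f.g y v (pw lam 3) (pw lam 4)
      * ((∑ a ∈ Finset.range (j - 1), ∑ k, XX lam (fun l => T l l k) (a + 1)
          * lam k ^ (j - 2 - a) * ξ k) - (if 2 ≤ j then κ * z * pw lam j else 0)
        + pw lam (j + 1))

/-- the component `k` of `∇W`, divided by `F^(2α+1)` -/
noncomputable def m3_Aw (f : SF) (α y v : ℝ) (lam ξ : Fin m → ℝ)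
    (T : Fin m → Fin m → Fin m → ℝ) (k : Fin m) : ℝ :=
  (2 * α * f.g y v (pw lam 3) (pw lam 4) + f.zd y v (pw lam 3) (pw lam 4))
      * XX lam (fun l => T l l k) 1
  + 3 * f.gt y v (pw lam 3) (pw lam 4) * XX lam (fun l => T l l k) 2
  + 4 * f.gi y v (pw lam 3) (pw lam 4) * XX lam (fun l => T l l k) 3
  + (f.gz y v (pw lam 3) (pw lam 4) + 2 * lam k * f.gv y v (pw lam 3) (pw lam 4)) * ξ k

/-- the radial component of `∇W` -/
noncomputable def m3_bw (f : SF) (α z y v : ℝ) (lam : Fin m → ℝ) : ℝ :=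
  - (2 * α * f.g y v (pw lam 3) (pw lam 4) + f.zd y v (pw lam 3) (pw lam 4)) * pw lam 2
  + z * f.gz y v (pw lam 3) (pw lam 4)
  - 3 * f.gt y v (pw lam 3) (pw lam 4) * pw lam 3
  - 4 * f.gi y v (pw lam 3) (pw lam 4) * pw lam 4

/-- divergence of the `e`-term with exponents `a`, `j`, divided by `F^(2α+2)`, in a frame -/
noncomputable def m3_De (f : SF) (α κ y v : ℝ) (lam ξ : Fin m → ℝ)
    (T : Fin m → Fin m → Fin m → ℝ) (a j : ℕ) : ℝ :=
  ((2 * α - 1 - a - j) * f.g y v (pw lam 3) (pw lam 4) + f.zd y v (pw lam 3) (pw lam 4))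
      * (∑ k, XX lam (fun l => T l l k) 1 * XE lam (fun l => T l l k) k a j)
  + f.gz y v (pw lam 3) (pw lam 4) * (∑ k, ξ k * XE lam (fun l => T l l k) k a j)
  + 2 * f.gv y v (pw lam 3) (pw lam 4)
      * (∑ k, lam k * ξ k * XE lam (fun l => T l l k) k a j)
  + 3 * f.gt y v (pw lam 3) (pw lam 4)
      * (∑ k, XX lam (fun l => T l l k) 2 * XE lam (fun l => T l l k) k a j)
  + 4 * f.gi y v (pw lam 3) (pw lam 4)
      * (∑ k, XX lam (fun l => T l l k) 3 * XE lam (fun l => T l l k) k a j)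
  + f.g y v (pw lam 3) (pw lam 4)
      * (((∑ i, ∑ l, ∑ k, lam k ^ a * hh j (lam i) (lam l) * T i l k ^ 2)
          - (∑ i, ∑ l, ∑ k, lam k ^ j * hh a (lam i) (lam l) * T i l k ^ 2))
        + (∑ b ∈ Finset.range (a - 1), ∑ k, XX lam (fun l => T l l k) (b + 1)
            * lam k ^ (a - 2 - b) * XX lam (fun l => T l l k) j)
        - (∑ b ∈ Finset.range (j - 1), ∑ k, XX lam (fun l => T l l k) (b + 1)
            * lam k ^ (j - 2 - b) * XX lam (fun l => T l l k) a)
        + κ * ((if a = 1 then 0 else pw lam a * pw lam (j + 1))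
          - (if j = 1 then 0 else pw lam j * pw lam (a + 1))))

theorem m3_De_eq (f : SF) (α κ y v : ℝ) (lam ξ : Fin m → ℝ) {T : Fin m → Fin m → Fin m → ℝ}
    (h12 : ∀ i j k, T i j k = T j i k) (h23 : ∀ i j k, T i j k = T i k j) (a j : ℕ) :
    m3_De f α κ y v lam ξ T a j =
      (∑ k, ((f.g y v (pw lam 3) (pw lam 4) * qe lam (fun l => T l l k) k a j
        + (((2 * α - 1 - a - j) * f.g y v (pw lam 3) (pw lam 4)
              + f.zd y v (pw lam 3) (pw lam 4)) * XX lam (fun l => T l l k) 1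
            + 3 * f.gt y v (pw lam 3) (pw lam 4) * XX lam (fun l => T l l k) 2
            + 4 * f.gi y v (pw lam 3) (pw lam 4) * XX lam (fun l => T l l k) 3)
          * XE lam (fun l => T l l k) k a j)
        + ξ k * ((f.gz y v (pw lam 3) (pw lam 4) + 2 * lam k * f.gv y v (pw lam 3) (pw lam 4))
          * XE lam (fun l => T l l k) k a j)))
      + f.g y v (pw lam 3) (pw lam 4) * m3_TR (m3_ce lam a j) T
      + κ * (f.g y v (pw lam 3) (pw lam 4) * ((if a = 1 then 0 else pw lam a * pw lam (j + 1))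
          - (if j = 1 then 0 else pw lam j * pw lam (a + 1)))) := by
  unfold m3_De
  rw [m3_decomp_e lam h12 h23]
  generalize f.g y v (pw lam 3) (pw lam 4) = g
  generalize f.zd y v (pw lam 3) (pw lam 4) = zd
  generalize f.gz y v (pw lam 3) (pw lam 4) = gz
  generalize f.gv y v (pw lam 3) (pw lam 4) = gv
  generalize f.gt y v (pw lam 3) (pw lam 4) = gt
  generalize f.gi y v (pw lam 3) (pw lam 4) = gi
  have e : (∑ k, ((g * qe lam (fun l => T l l k) k a j
        + (((2 * α - 1 - a - j) * g + zd) * XX lam (fun l => T l l k) 1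
            + 3 * gt * XX lam (fun l => T l l k) 2
            + 4 * gi * XX lam (fun l => T l l k) 3)
          * XE lam (fun l => T l l k) k a j)
        + ξ k * ((gz + 2 * lam k * gv) * XE lam (fun l => T l l k) k a j))) =
      g * ((∑ k, m3_qe1 lam (fun l => T l l k) k a j)
        + (∑ b ∈ Finset.range (a - 1), ∑ k, XX lam (fun l => T l l k) (b + 1)
            * lam k ^ (a - 2 - b) * XX lam (fun l => T l l k) j)
        - (∑ b ∈ Finset.range (j - 1), ∑ k, XX lam (fun l => T l l k) (b + 1)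
            * lam k ^ (j - 2 - b) * XX lam (fun l => T l l k) a))
      + ((2 * α - 1 - a - j) * g + zd)
        * (∑ k, XX lam (fun l => T l l k) 1 * XE lam (fun l => T l l k) k a j)
      + 3 * gt * (∑ k, XX lam (fun l => T l l k) 2 * XE lam (fun l => T l l k) k a j)
      + 4 * gi * (∑ k, XX lam (fun l => T l l k) 3 * XE lam (fun l => T l l k) k a j)
      + gz * (∑ k, ξ k * XE lam (fun l => T l l k) k a j)
      + 2 * gv * (∑ k, lam k * ξ k * XE lam (fun l => T l l k) k a j) := by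
    rw [Finset.sum_comm (s := Finset.range (a - 1)), Finset.sum_comm (s := Finset.range (j - 1)),
      ← Finset.sum_add_distrib, ← Finset.sum_sub_distrib]
    simp only [Finset.mul_sum, ← Finset.sum_add_distrib]
    refine Finset.sum_congr rfl fun k _ => ?_
    unfold qe m3_qe1
    ring
  rw [e]
  ring

/-- The total expression, divided by `F^(2α+2)`. -/
noncomputable def m3_TOT (Φ : Fam) (α γ κ z y v : ℝ) (lam ξ : Fin m → ℝ)
    (T : Fin m → Fin m → Fin m → ℝ) : ℝ :=
  (∑ j ∈ Finset.range Φ.na, m3_Da (Φ.a j) α κ z y v lam ξ T j)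
  + (∑ q ∈ Finset.range Φ.ne, m3_De (Φ.e q) α κ y v lam ξ T (Φ.ea q) (Φ.ej q))
  - (∑ j ∈ Finset.range Φ.nf, m3_Df (Φ.f j) α κ z y v lam ξ T j)
  - ((∑ k, m3_Aw Φ.w α y v lam ξ T k ^ 2) + κ * m3_bw Φ.w α z y v lam ^ 2)
      / (4 * Φ.w.g y v (pw lam 3) (pw lam 4))
  + 2 * γ * κ * (1 / 2 * m3_bw Φ.w α z y v lam
      + (∑ j ∈ Finset.range Φ.na, (Φ.a j).g y v (pw lam 3) (pw lam 4) * pw lam (j + 2))
      + ∑ j ∈ Finset.range Φ.nf, (Φ.f j).g y v (pw lam 3) (pw lam 4) * (if j = 0 then z else 0))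
  - γ ^ 2 * κ * Φ.w.g y v (pw lam 3) (pw lam 4)

theorem m3_Da_eq (f : SF) (α κ z y v : ℝ) (lam ξ : Fin m → ℝ) {T : Fin m → Fin m → Fin m → ℝ}
    (h12 : ∀ i j k, T i j k = T j i k) (h23 : ∀ i j k, T i j k = T i k j) (j : ℕ) :
    m3_Da f α κ z y v lam ξ T j =
      (∑ k, ((f.g y v (pw lam 3) (pw lam 4) * qf lam (fun l => T l l k) k (j + 1)
        + (((2 * α - 2 - j) * f.g y v (pw lam 3) (pw lam 4) + f.zd y v (pw lam 3) (pw lam 4))
              * XX lam (fun l => T l l k) 1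
            + 3 * f.gt y v (pw lam 3) (pw lam 4) * XX lam (fun l => T l l k) 2
            + 4 * f.gi y v (pw lam 3) (pw lam 4) * XX lam (fun l => T l l k) 3)
          * XX lam (fun l => T l l k) (j + 1))
        + ξ k * ((f.gz y v (pw lam 3) (pw lam 4) + 2 * lam k * f.gv y v (pw lam 3) (pw lam 4))
          * XX lam (fun l => T l l k) (j + 1))))
      + f.g y v (pw lam 3) (pw lam 4) * m3_TR (m3_ca lam (j + 1)) T
      + κ * (pw lam (j + 2) * (((j : ℝ) + 3) * f.g y v (pw lam 3) (pw lam 4)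
        + ((2 * α - 2 - j) * f.g y v (pw lam 3) (pw lam 4) + f.zd y v (pw lam 3) (pw lam 4))
          * pw lam 2
        - f.gz y v (pw lam 3) (pw lam 4) * z + 3 * f.gt y v (pw lam 3) (pw lam 4) * pw lam 3
        + 4 * f.gi y v (pw lam 3) (pw lam 4) * pw lam 4)) := by
  unfold m3_Da
  rw [m3_decomp_a lam h12 h23]
  generalize f.g y v (pw lam 3) (pw lam 4) = g
  generalize f.zd y v (pw lam 3) (pw lam 4) = zd
  generalize f.gz y v (pw lam 3) (pw lam 4) = gz
  generalize f.gv y v (pw lam 3) (pw lam 4) = gv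
  generalize f.gt y v (pw lam 3) (pw lam 4) = gt
  generalize f.gi y v (pw lam 3) (pw lam 4) = gi
  have e : (∑ k, ((g * qf lam (fun l => T l l k) k (j + 1)
        + (((2 * α - 2 - j) * g + zd) * XX lam (fun l => T l l k) 1
            + 3 * gt * XX lam (fun l => T l l k) 2
            + 4 * gi * XX lam (fun l => T l l k) 3)
          * XX lam (fun l => T l l k) (j + 1))
        + ξ k * ((gz + 2 * lam k * gv) * XX lam (fun l => T l l k) (j + 1)))) =
      g * (∑ k, qf lam (fun l => T l l k) k (j + 1))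
      + ((2 * α - 2 - j) * g + zd)
        * (∑ k, XX lam (fun l => T l l k) 1 * XX lam (fun l => T l l k) (j + 1))
      + 3 * gt * (∑ k, XX lam (fun l => T l l k) 2 * XX lam (fun l => T l l k) (j + 1))
      + 4 * gi * (∑ k, XX lam (fun l => T l l k) 3 * XX lam (fun l => T l l k) (j + 1))
      + gz * (∑ k, XX lam (fun l => T l l k) (j + 1) * ξ k)
      + 2 * gv * (∑ k, XX lam (fun l => T l l k) (j + 1) * lam k ^ 1 * ξ k) := by
    simp only [Finset.mul_sum, ← Finset.sum_add_distrib]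
    exact Finset.sum_congr rfl fun k _ => by ring
  rw [e]
  push_cast
  ring

theorem m3_Df_eq (f : SF) (α κ z y v : ℝ) (lam ξ : Fin m → ℝ) (T : Fin m → Fin m → Fin m → ℝ)
    (j : ℕ) :
    m3_Df f α κ z y v lam ξ T j =
      (∑ k, (ξ k * (lam k ^ j * (((2 * α + 1 - j) * f.g y v (pw lam 3) (pw lam 4)
            + f.zd y v (pw lam 3) (pw lam 4)) * XX lam (fun l => T l l k) 1
          + 3 * f.gt y v (pw lam 3) (pw lam 4) * XX lam (fun l => T l l k) 2
          + 4 * f.gi y v (pw lam 3) (pw lam 4) * XX lam (fun l => T l l k) 3)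
        + f.g y v (pw lam 3) (pw lam 4)
          * ∑ i ∈ Finset.range (j - 1), XX lam (fun l => T l l k) (i + 1) * lam k ^ (j - 2 - i))
        + ξ k ^ 2 * ((f.gz y v (pw lam 3) (pw lam 4)
          + 2 * lam k * f.gv y v (pw lam 3) (pw lam 4)) * lam k ^ j)))
      + f.g y v (pw lam 3) (pw lam 4) * pw lam (j + 1)
      - κ * (z * (if j = 0 then ((2 * α + 1) * f.g y v (pw lam 3) (pw lam 4)
          + f.zd y v (pw lam 3) (pw lam 4)) * pw lam 2
          + 3 * f.gt y v (pw lam 3) (pw lam 4) * pw lam 3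
          + 4 * f.gi y v (pw lam 3) (pw lam 4) * pw lam 4 - z * f.gz y v (pw lam 3) (pw lam 4)
        else if j = 1 then 0 else f.g y v (pw lam 3) (pw lam 4) * pw lam j)) := by
  unfold m3_Df
  generalize f.g y v (pw lam 3) (pw lam 4) = g
  generalize f.zd y v (pw lam 3) (pw lam 4) = zd
  generalize f.gz y v (pw lam 3) (pw lam 4) = gz
  generalize f.gv y v (pw lam 3) (pw lam 4) = gv
  generalize f.gt y v (pw lam 3) (pw lam 4) = gt
  generalize f.gi y v (pw lam 3) (pw lam 4) = gi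
  have e : (∑ k, (ξ k * (lam k ^ j * (((2 * α + 1 - j) * g + zd) * XX lam (fun l => T l l k) 1
          + 3 * gt * XX lam (fun l => T l l k) 2
          + 4 * gi * XX lam (fun l => T l l k) 3)
        + g * ∑ i ∈ Finset.range (j - 1), XX lam (fun l => T l l k) (i + 1) * lam k ^ (j - 2 - i))
        + ξ k ^ 2 * ((gz + 2 * lam k * gv) * lam k ^ j))) =
      ((2 * α + 1 - j) * g + zd) * (∑ k, XX lam (fun l => T l l k) 1 * lam k ^ j * ξ k)
      + 3 * gt * (∑ k, XX lam (fun l => T l l k) 2 * lam k ^ j * ξ k)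
      + 4 * gi * (∑ k, XX lam (fun l => T l l k) 3 * lam k ^ j * ξ k)
      + g * (∑ a ∈ Finset.range (j - 1), ∑ k, XX lam (fun l => T l l k) (a + 1)
          * lam k ^ (j - 2 - a) * ξ k)
      + gz * (∑ k, lam k ^ j * ξ k ^ 2)
      + 2 * gv * (∑ k, lam k ^ (j + 1) * ξ k ^ 2) := by
    rw [Finset.sum_comm (s := Finset.range (j - 1))]
    simp only [Finset.mul_sum, ← Finset.sum_add_distrib]
    refine Finset.sum_congr rfl fun k _ => ?_
    have e2 : ∑ i ∈ Finset.range (j - 1), g * (XX lam (fun l => T l l k) (i + 1)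
        * lam k ^ (j - 2 - i) * ξ k) = ξ k * ∑ i ∈ Finset.range (j - 1),
          g * (XX lam (fun l => T l l k) (i + 1) * lam k ^ (j - 2 - i)) := by
      rw [Finset.mul_sum]
      exact Finset.sum_congr rfl fun i _ => by ring
    rw [e2]
    ring
  rw [e]
  rcases Nat.lt_or_ge j 2 with hj | hj
  · interval_cases j
    · simp only [CharP.cast_eq_zero, sub_zero, pow_zero, mul_one, ↓reduceIte, one_mul, zero_add, pow_one, zero_tsub, Finset.range_zero, Finset.sum_empty, nonpos_iff_eq_zero, OfNat.ofNat_ne_zero, sub_self, mul_zero, add_zero]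
      ring
    · simp only [Nat.cast_one, add_sub_cancel_right, pow_one, one_ne_zero, ↓reduceIte, sub_zero, add_zero, Nat.reduceAdd, tsub_self, Finset.range_zero, Nat.one_le_ofNat, Nat.sub_eq_zero_of_le, zero_tsub, pow_zero, mul_one, Finset.sum_empty, Nat.not_ofNat_le_one, sub_self, zero_add, mul_zero, add_left_inj]
      ring
  · have h0 : j ≠ 0 := by omega
    have h1 : j ≠ 1 := by omega
    simp only [if_neg h0, if_pos hj, if_neg h1]
    ring

/-- Completing the square. -/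
theorem m3_sq_complete {w A : ℝ} (hw : 0 < w) :
    w * (-A / (2 * w)) ^ 2 + (-A / (2 * w)) * A = - (A ^ 2 / (4 * w)) := by
  field_simp
  ring

/-- The coefficient of `κ`. -/
noncomputable def m3_QQk (Φ : Fam) (α γ z y v : ℝ) (lam : Fin m → ℝ) : ℝ :=
  (∑ j ∈ Finset.range Φ.na, pw lam (j + 2) * (((j : ℝ) + 3) * (Φ.a j).g y v (pw lam 3) (pw lam 4)
        + ((2 * α - 2 - j) * (Φ.a j).g y v (pw lam 3) (pw lam 4)
          + (Φ.a j).zd y v (pw lam 3) (pw lam 4)) * pw lam 2
        - (Φ.a j).gz y v (pw lam 3) (pw lam 4) * z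
        + 3 * (Φ.a j).gt y v (pw lam 3) (pw lam 4) * pw lam 3
        + 4 * (Φ.a j).gi y v (pw lam 3) (pw lam 4) * pw lam 4))
  + (∑ q ∈ Finset.range Φ.ne, (Φ.e q).g y v (pw lam 3) (pw lam 4)
        * ((if Φ.ea q = 1 then 0 else pw lam (Φ.ea q) * pw lam (Φ.ej q + 1))
          - (if Φ.ej q = 1 then 0 else pw lam (Φ.ej q) * pw lam (Φ.ea q + 1))))
  + (∑ j ∈ Finset.range Φ.nf, z * (if j = 0 then
        ((2 * α + 1) * (Φ.f j).g y v (pw lam 3) (pw lam 4)
          + (Φ.f j).zd y v (pw lam 3) (pw lam 4)) * pw lam 2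
          + 3 * (Φ.f j).gt y v (pw lam 3) (pw lam 4) * pw lam 3
          + 4 * (Φ.f j).gi y v (pw lam 3) (pw lam 4) * pw lam 4
          - z * (Φ.f j).gz y v (pw lam 3) (pw lam 4)
        else if j = 1 then 0 else (Φ.f j).g y v (pw lam 3) (pw lam 4) * pw lam j))
  - m3_bw Φ.w α z y v lam ^ 2 / (4 * Φ.w.g y v (pw lam 3) (pw lam 4))
  + 2 * γ * (1 / 2 * m3_bw Φ.w α z y v lam
      + (∑ j ∈ Finset.range Φ.na, (Φ.a j).g y v (pw lam 3) (pw lam 4) * pw lam (j + 2))
      + ∑ j ∈ Finset.range Φ.nf, (Φ.f j).g y v (pw lam 3) (pw lam 4) * (if j = 0 then z else 0))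
  - γ ^ 2 * Φ.w.g y v (pw lam 3) (pw lam 4)

theorem m3_formG_eq (Φ : Fam) (y v : ℝ) {lam : Fin m → ℝ} (h1 : pw lam 1 = 0) :
    formG Φ y v lam = - ∑ j ∈ Finset.range Φ.nf,
      (Φ.f j).g y v (pw lam 3) (pw lam 4) * pw lam (j + 1) := by
  unfold formG
  congr 1
  refine Finset.sum_congr rfl fun j _ => ?_
  by_cases hj : j = 0
  · subst hj; simp [h1]
  · rw [if_neg hj]

theorem m3_TOT_eq (Φ : Fam) (α γ κ z y v : ℝ) {lam ξ : Fin m → ℝ} {T : Fin m → Fin m → Fin m → ℝ}
    (h12 : ∀ i j k, T i j k = T j i k) (h23 : ∀ i j k, T i j k = T i k j)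
    (hl1 : pw lam 1 = 0) (hw : 0 < Φ.w.g y v (pw lam 3) (pw lam 4)) :
    m3_TOT Φ α γ κ z y v lam ξ T =
      (∑ k, (formC Φ α y v lam k (fun l => T l l k)
            (- m3_Aw Φ.w α y v lam ξ T k / (2 * Φ.w.g y v (pw lam 3) (pw lam 4)))
          + ξ k * formB Φ α y v lam k (fun l => T l l k)
            (- m3_Aw Φ.w α y v lam ξ T k / (2 * Φ.w.g y v (pw lam 3) (pw lam 4)))
          - ξ k ^ 2 * ∑ j ∈ Finset.range Φ.nf,
            ((Φ.f j).gz y v (pw lam 3) (pw lam 4) + 2 * lam k * (Φ.f j).gv y v (pw lam 3) (pw lam 4))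
              * lam k ^ j))
      + formG Φ y v lam
      + ((∑ j ∈ Finset.range Φ.na, (Φ.a j).g y v (pw lam 3) (pw lam 4)
          * m3_TR (m3_ca lam (j + 1)) T)
        + ∑ q ∈ Finset.range Φ.ne, (Φ.e q).g y v (pw lam 3) (pw lam 4)
          * m3_TR (m3_ce lam (Φ.ea q) (Φ.ej q)) T)
      + κ * m3_QQk Φ α γ z y v lam := by
  have hA : ∀ k, m3_Aw Φ.w α y v lam ξ T k ^ 2 / (4 * Φ.w.g y v (pw lam 3) (pw lam 4)) =
      - (Φ.w.g y v (pw lam 3) (pw lam 4)
          * (- m3_Aw Φ.w α y v lam ξ T k / (2 * Φ.w.g y v (pw lam 3) (pw lam 4))) ^ 2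
        + (- m3_Aw Φ.w α y v lam ξ T k / (2 * Φ.w.g y v (pw lam 3) (pw lam 4)))
          * m3_Aw Φ.w α y v lam ξ T k) := fun k => by
    rw [m3_sq_complete hw, neg_neg]
  have hsum : (∑ k, m3_Aw Φ.w α y v lam ξ T k ^ 2) / (4 * Φ.w.g y v (pw lam 3) (pw lam 4)) =
      - ∑ k, (Φ.w.g y v (pw lam 3) (pw lam 4)
          * (- m3_Aw Φ.w α y v lam ξ T k / (2 * Φ.w.g y v (pw lam 3) (pw lam 4))) ^ 2
        + (- m3_Aw Φ.w α y v lam ξ T k / (2 * Φ.w.g y v (pw lam 3) (pw lam 4)))
          * m3_Aw Φ.w α y v lam ξ T k) := by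
    rw [Finset.sum_div, ← Finset.sum_neg_distrib]
    exact Finset.sum_congr rfl fun k _ => hA k
  -- the `k`-sum
  obtain ⟨t, ht⟩ : ∃ t : Fin m → ℝ, ∀ k, t k = - m3_Aw Φ.w α y v lam ξ T k
      / (2 * Φ.w.g y v (pw lam 3) (pw lam 4)) := ⟨_, fun _ => rfl⟩
  simp only [← ht] at hsum ⊢
  have hk : (∑ k, (formC Φ α y v lam k (fun l => T l l k) (t k)
          + ξ k * formB Φ α y v lam k (fun l => T l l k) (t k)
          - ξ k ^ 2 * ∑ j ∈ Finset.range Φ.nf,
            ((Φ.f j).gz y v (pw lam 3) (pw lam 4) + 2 * lam k * (Φ.f j).gv y v (pw lam 3) (pw lam 4))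
              * lam k ^ j)) =
      (∑ j ∈ Finset.range Φ.na, ∑ k,
        (((Φ.a j).g y v (pw lam 3) (pw lam 4) * qf lam (fun l => T l l k) k (j + 1)
        + (((2 * α - 2 - j) * (Φ.a j).g y v (pw lam 3) (pw lam 4)
              + (Φ.a j).zd y v (pw lam 3) (pw lam 4)) * XX lam (fun l => T l l k) 1
            + 3 * (Φ.a j).gt y v (pw lam 3) (pw lam 4) * XX lam (fun l => T l l k) 2
            + 4 * (Φ.a j).gi y v (pw lam 3) (pw lam 4) * XX lam (fun l => T l l k) 3)
          * XX lam (fun l => T l l k) (j + 1))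
        + ξ k * (((Φ.a j).gz y v (pw lam 3) (pw lam 4)
            + 2 * lam k * (Φ.a j).gv y v (pw lam 3) (pw lam 4))
          * XX lam (fun l => T l l k) (j + 1))))
      + (∑ q ∈ Finset.range Φ.ne, ∑ k,
        (((Φ.e q).g y v (pw lam 3) (pw lam 4) * qe lam (fun l => T l l k) k (Φ.ea q) (Φ.ej q)
        + (((2 * α - 1 - Φ.ea q - Φ.ej q) * (Φ.e q).g y v (pw lam 3) (pw lam 4)
              + (Φ.e q).zd y v (pw lam 3) (pw lam 4)) * XX lam (fun l => T l l k) 1
            + 3 * (Φ.e q).gt y v (pw lam 3) (pw lam 4) * XX lam (fun l => T l l k) 2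
            + 4 * (Φ.e q).gi y v (pw lam 3) (pw lam 4) * XX lam (fun l => T l l k) 3)
          * XE lam (fun l => T l l k) k (Φ.ea q) (Φ.ej q))
        + ξ k * (((Φ.e q).gz y v (pw lam 3) (pw lam 4)
            + 2 * lam k * (Φ.e q).gv y v (pw lam 3) (pw lam 4))
          * XE lam (fun l => T l l k) k (Φ.ea q) (Φ.ej q))))
      - (∑ j ∈ Finset.range Φ.nf, ∑ k,
        (ξ k * (lam k ^ j * (((2 * α + 1 - j) * (Φ.f j).g y v (pw lam 3) (pw lam 4)
            + (Φ.f j).zd y v (pw lam 3) (pw lam 4)) * XX lam (fun l => T l l k) 1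
          + 3 * (Φ.f j).gt y v (pw lam 3) (pw lam 4) * XX lam (fun l => T l l k) 2
          + 4 * (Φ.f j).gi y v (pw lam 3) (pw lam 4) * XX lam (fun l => T l l k) 3)
        + (Φ.f j).g y v (pw lam 3) (pw lam 4)
          * ∑ i ∈ Finset.range (j - 1), XX lam (fun l => T l l k) (i + 1) * lam k ^ (j - 2 - i))
        + ξ k ^ 2 * (((Φ.f j).gz y v (pw lam 3) (pw lam 4)
          + 2 * lam k * (Φ.f j).gv y v (pw lam 3) (pw lam 4)) * lam k ^ j)))
      + ∑ k, (Φ.w.g y v (pw lam 3) (pw lam 4) * t k ^ 2 + t k * m3_Aw Φ.w α y v lam ξ T k) := by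
    rw [Finset.sum_comm (s := Finset.range Φ.na), Finset.sum_comm (s := Finset.range Φ.ne),
      Finset.sum_comm (s := Finset.range Φ.nf), ← Finset.sum_add_distrib,
      ← Finset.sum_sub_distrib, ← Finset.sum_add_distrib]
    refine Finset.sum_congr rfl fun k _ => ?_
    unfold formC formB m3_Aw
    rw [Finset.sum_add_distrib (s := Finset.range Φ.na) (f := fun j =>
      ((Φ.a j).g y v (pw lam 3) (pw lam 4) * qf lam (fun l => T l l k) k (j + 1)
        + (((2 * α - 2 - j) * (Φ.a j).g y v (pw lam 3) (pw lam 4)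
              + (Φ.a j).zd y v (pw lam 3) (pw lam 4)) * XX lam (fun l => T l l k) 1
            + 3 * (Φ.a j).gt y v (pw lam 3) (pw lam 4) * XX lam (fun l => T l l k) 2
            + 4 * (Φ.a j).gi y v (pw lam 3) (pw lam 4) * XX lam (fun l => T l l k) 3)
          * XX lam (fun l => T l l k) (j + 1))),
      Finset.sum_add_distrib (s := Finset.range Φ.ne) (f := fun q =>
      ((Φ.e q).g y v (pw lam 3) (pw lam 4) * qe lam (fun l => T l l k) k (Φ.ea q) (Φ.ej q)
        + (((2 * α - 1 - Φ.ea q - Φ.ej q) * (Φ.e q).g y v (pw lam 3) (pw lam 4)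
              + (Φ.e q).zd y v (pw lam 3) (pw lam 4)) * XX lam (fun l => T l l k) 1
            + 3 * (Φ.e q).gt y v (pw lam 3) (pw lam 4) * XX lam (fun l => T l l k) 2
            + 4 * (Φ.e q).gi y v (pw lam 3) (pw lam 4) * XX lam (fun l => T l l k) 3)
          * XE lam (fun l => T l l k) k (Φ.ea q) (Φ.ej q))),
      Finset.sum_add_distrib (s := Finset.range Φ.nf) (f := fun j =>
        ξ k * (lam k ^ j * (((2 * α + 1 - j) * (Φ.f j).g y v (pw lam 3) (pw lam 4)
            + (Φ.f j).zd y v (pw lam 3) (pw lam 4)) * XX lam (fun l => T l l k) 1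
          + 3 * (Φ.f j).gt y v (pw lam 3) (pw lam 4) * XX lam (fun l => T l l k) 2
          + 4 * (Φ.f j).gi y v (pw lam 3) (pw lam 4) * XX lam (fun l => T l l k) 3)
        + (Φ.f j).g y v (pw lam 3) (pw lam 4)
          * ∑ i ∈ Finset.range (j - 1), XX lam (fun l => T l l k) (i + 1) * lam k ^ (j - 2 - i))),
      ← Finset.mul_sum, ← Finset.mul_sum, ← Finset.mul_sum, ← Finset.mul_sum]
    ring
  rw [hk]
  unfold m3_TOT m3_QQk
  rw [m3_formG_eq Φ y v hl1]
  simp only [m3_Da_eq _ _ _ _ _ _ _ _ h12 h23, m3_De_eq _ _ _ _ _ _ _ h12 h23, m3_Df_eq, Finset.sum_add_distrib,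
    Finset.sum_sub_distrib, ← Finset.mul_sum]
  rw [add_div, hsum]
  simp only [Finset.sum_add_distrib, ← Finset.mul_sum]
  ring

end Vale.Agent.P098
end

section

/-!
# From coefficient lists to `Fam`, and the inequalities of `Cert` as expressions
-/

open scoped ContDiff

namespace Vale.Agent.P098.K

variable {rs : List ℕ} {X : ℕ → ℝ}

/-! ### Polynomial coefficient functions -/

/-- Monomials: coefficient and exponents of `y, v, τ, ι`. -/
abbrev Mo := ℤ × ℕ × ℕ × ℕ × ℕ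

/-- Value of a monomial. -/
noncomputable def me (q : Mo) (y v t i : ℝ) : ℝ :=
  q.1 * y ^ q.2.1 * v ^ q.2.2.1 * t ^ q.2.2.2.1 * i ^ q.2.2.2.2

/-- Value of a polynomial. -/
noncomputable def pe : List Mo → ℝ → ℝ → ℝ → ℝ → ℝ
  | [], _, _, _, _ => 0
  | q :: l, y, v, t, i => me q y v t i + pe l y v t i

/-- Derivative in `y`. -/
def dY (l : List Mo) : List Mo :=
  l.map fun q => (q.1 * q.2.1, q.2.1 - 1, q.2.2.1, q.2.2.2.1, q.2.2.2.2)

/-- Derivative in `v`. -/
def dV (l : List Mo) : List Mo :=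
  l.map fun q => (q.1 * q.2.2.1, q.2.1, q.2.2.1 - 1, q.2.2.2.1, q.2.2.2.2)

/-- Derivative in `τ`. -/
def dT (l : List Mo) : List Mo :=
  l.map fun q => (q.1 * q.2.2.2.1, q.2.1, q.2.2.1, q.2.2.2.1 - 1, q.2.2.2.2)

/-- Derivative in `ι`. -/
def dI (l : List Mo) : List Mo :=
  l.map fun q => (q.1 * q.2.2.2.2, q.2.1, q.2.2.1, q.2.2.2.1, q.2.2.2.2 - 1)

theorem pe_smooth (l : List Mo) :
    ContDiff ℝ ∞ (fun q : ℝ × ℝ × ℝ × ℝ => pe l q.1 q.2.1 q.2.2.1 q.2.2.2) := by
  induction l with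
  | nil => simp only [pe]; exact contDiff_const
  | cons q l ih =>
    simp only [pe]
    refine ContDiff.add ?_ ih
    simp only [me]
    (clear * -; fun_prop)

theorem hasDerivAt_dY (l : List Mo) (y v t i : ℝ) :
    HasDerivAt (fun s => pe l s v t i) (pe (dY l) y v t i) y := by
  induction l with
  | nil => simpa only [pe, dY, Prod.mk.eta, List.map_nil] using hasDerivAt_const y (0 : ℝ)
  | cons q l ih =>
    simp only [pe, dY, List.map_cons]
    refine HasDerivAt.add ?_ ih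
    simp only [me]
    have := (((hasDerivAt_pow q.2.1 y).const_mul (q.1 : ℝ)).mul_const (v ^ q.2.2.1)).mul_const
      (t ^ q.2.2.2.1) |>.mul_const (i ^ q.2.2.2.2)
    refine this.congr_deriv ?_
    push_cast
    ring

theorem hasDerivAt_dV (l : List Mo) (y v t i : ℝ) :
    HasDerivAt (fun s => pe l y s t i) (pe (dV l) y v t i) v := by
  induction l with
  | nil => simpa only [pe, dV, Prod.mk.eta, List.map_nil] using hasDerivAt_const v (0 : ℝ)
  | cons q l ih =>
    simp only [pe, dV, List.map_cons]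
    refine HasDerivAt.add ?_ ih
    simp only [me]
    have := (((hasDerivAt_pow q.2.2.1 v).const_mul (q.1 * y ^ q.2.1 : ℝ)).mul_const
      (t ^ q.2.2.2.1)).mul_const (i ^ q.2.2.2.2)
    refine this.congr_deriv ?_
    push_cast
    ring

theorem hasDerivAt_dT (l : List Mo) (y v t i : ℝ) :
    HasDerivAt (fun s => pe l y v s i) (pe (dT l) y v t i) t := by
  induction l with
  | nil => simpa only [pe, dT, List.map_nil] using hasDerivAt_const t (0 : ℝ)
  | cons q l ih =>
    simp only [pe, dT, List.map_cons]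
    refine HasDerivAt.add ?_ ih
    simp only [me]
    have := ((hasDerivAt_pow q.2.2.2.1 t).const_mul
      (q.1 * y ^ q.2.1 * v ^ q.2.2.1 : ℝ)).mul_const (i ^ q.2.2.2.2)
    refine this.congr_deriv ?_
    push_cast
    ring

theorem hasDerivAt_dI (l : List Mo) (y v t i : ℝ) :
    HasDerivAt (fun s => pe l y v t s) (pe (dI l) y v t i) i := by
  induction l with
  | nil => simpa only [pe, dI, List.map_nil] using hasDerivAt_const i (0 : ℝ)
  | cons q l ih =>
    simp only [pe, dI, List.map_cons]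
    refine HasDerivAt.add ?_ ih
    simp only [me]
    have := (hasDerivAt_pow q.2.2.2.2 i).const_mul
      (q.1 * y ^ q.2.1 * v ^ q.2.2.1 * t ^ q.2.2.2.1 : ℝ)
    refine this.congr_deriv ?_
    push_cast
    ring

/-- The coefficient function with numerator `l` and denominator `D`. -/
noncomputable def sf (D : ℕ) (l : List Mo) : SF where
  g y v t i := pe l y v t i / D
  gy y v t i := pe (dY l) y v t i / D
  gv y v t i := pe (dV l) y v t i / D
  gt y v t i := pe (dT l) y v t i / D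
  gi y v t i := pe (dI l) y v t i / D
  smooth := (pe_smooth l).div_const _
  hy y v t i := (hasDerivAt_dY l y v t i).div_const _
  hv y v t i := (hasDerivAt_dV l y v t i).div_const _
  ht y v t i := (hasDerivAt_dT l y v t i).div_const _
  hi y v t i := (hasDerivAt_dI l y v t i).div_const _

/-- Data of a family. -/
structure FD where
  D : ℕ
  an : ℤ
  ad : ℤ
  na : ℕ
  nf : ℕ
  ne : ℕ
  w : List Mo
  a : List (List Mo)
  f : List (List Mo)
  e : List (List Mo)
  ea : ℕ → ℕ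
  ej : ℕ → ℕ
  hea : ∀ q, 1 ≤ ea q
  hej : ∀ q, 1 ≤ ej q

/-- The family of the data. -/
noncomputable def FD.fam (F : FD) : Fam where
  na := F.na
  nf := F.nf
  ne := F.ne
  w := sf F.D F.w
  a j := sf F.D (F.a.getD j [])
  f j := sf F.D (F.f.getD j [])
  e j := sf F.D (F.e.getD j [])
  ea := F.ea
  ej := F.ej
  hea := F.hea
  hej := F.hej

/-! ### Expression combinators -/

/-- Powers. -/
def powE (e : Ex) : ℕ → Ex
  | 0 => .c 1
  | n + 1 => .mul (powE e n) e

/-- Sums. -/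
def sumE (f : ℕ → Ex) : ℕ → Ex
  | 0 => .c 0
  | n + 1 => .add (sumE f n) (f n)

/-- Integer multiples. -/
def nE (n : ℤ) (e : Ex) : Ex := .mul (.c n) e

@[simp] theorem evE_v (i : ℕ) : evE rs X (.v i) = X i := rfl
@[simp] theorem evE_c (n : ℤ) : evE rs X (.c n) = n := rfl
@[simp] theorem evE_add (a b : Ex) : evE rs X (.add a b) = evE rs X a + evE rs X b := rfl
@[simp] theorem evE_sub (a b : Ex) : evE rs X (.sub a b) = evE rs X a - evE rs X b := rfl
@[simp] theorem evE_mul (a b : Ex) : evE rs X (.mul a b) = evE rs X a * evE rs X b := rfl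

@[simp] theorem evE_pow (e : Ex) (n : ℕ) : evE rs X (powE e n) = evE rs X e ^ n := by
  induction n with
  | zero => simp only [powE, evE_c, Int.cast_one, pow_zero]
  | succ n ih => simp [powE, ih, pow_succ]

@[simp] theorem evE_sum (f : ℕ → Ex) (n : ℕ) :
    evE rs X (sumE f n) = ∑ i ∈ Finset.range n, evE rs X (f i) := by
  induction n with
  | zero => simp only [sumE, evE_c, Int.cast_zero, Finset.range_zero, Finset.sum_empty]
  | succ n ih => simp [sumE, ih, Finset.sum_range_succ]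

@[simp] theorem evE_nE (n : ℤ) (e : Ex) : evE rs X (nE n e) = n * evE rs X e := rfl

/-- Conditional. -/
@[simp] theorem evE_ite (p : Prop) [Decidable p] (a b : Ex) :
    evE rs X (if p then a else b) = if p then evE rs X a else evE rs X b := by
  split_ifs <;> rfl

/-- Eigenvalue `i` of `m`. -/
def lamE (m i : ℕ) : Ex :=
  if i + 1 = m then .sub (.c 0) (sumE (fun a => .v (2 + a)) (m - 1)) else .v (2 + i)

/-- Component `i` of `x`, coefficient of `u c`. -/
def yvE (m i c : ℕ) : Ex :=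
  if i + 1 = m then (if 1 ≤ c ∧ c < m then .c (-1) else .c 0) else (if c = 1 + i then .c 1 else .c 0)

/-- Power sums. -/
def pwE (m j : ℕ) : Ex := sumE (fun i => powE (lamE m i) j) m

/-- Coefficient of `u c` in `∑ lam_i^j x_i`. -/
def xxE (m j c : ℕ) : Ex := sumE (fun i => .mul (powE (lamE m i) j) (yvE m i c)) m

/-- `h_j(a, b)`. -/
def hhE (j : ℕ) (a b : Ex) : Ex := sumE (fun i => .mul (powE a i) (powE b (j - 1 - i))) j

/-- Polynomials in `y, v, τ, ι`. -/
def peE (m : ℕ) : List Mo → Ex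
  | [] => .c 0
  | q :: l => .add (.mul (.mul (.mul (.mul (.c q.1) (powE (.v 0) q.2.1)) (powE (.v 1) q.2.2.1))
      (powE (pwE m 3) q.2.2.2.1)) (powE (pwE m 4) q.2.2.2.2)) (peE m l)

theorem evE_peE (m : ℕ) (l : List Mo) :
    evE rs X (peE m l) = pe l (X 0) (X 1) (evE rs X (pwE m 3)) (evE rs X (pwE m 4)) := by
  induction l with
  | nil => simp only [peE, evE_c, Int.cast_zero, pe]
  | cons q l ih => simp only [peE, evE_add, evE_mul, evE_c, evE_pow, evE_v, ih, pe, me]

/-- `D` times the Euler derivative. -/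
def zdE (m : ℕ) (l : List Mo) : Ex :=
  .sub (.sub (nE (-1) (.mul (.mul (.v 0) (.sub (.c 1) (.v 0))) (peE m (dY l))))
    (nE 3 (.mul (pwE m 3) (peE m (dT l))))) (nE 4 (.mul (pwE m 4) (peE m (dI l))))

/-- `D` times `∂_z`. -/
def gzE (m : ℕ) (l : List Mo) : Ex := nE (-1) (.mul (powE (.v 0) 2) (peE m (dY l)))

/-- `D (g_z + 2 lam_k g_v)`, `k = 0`. -/
def gkE (m : ℕ) (l : List Mo) : Ex := .add (gzE m l) (nE 2 (.mul (lamE m 0) (peE m (dV l))))

/-- Linear form `(c₁ g + c₂ zd) X_1 + 3 c₂ g_τ X_2 + 4 c₂ g_ι X_3`, coefficient of `u c`. -/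
def lfE (m : ℕ) (c1 c2 : ℤ) (l : List Mo) (c : ℕ) : Ex :=
  .add (.add (.mul (.add (nE c1 (peE m l)) (nE c2 (zdE m l))) (xxE m 1 c))
    (.mul (nE (3 * c2) (peE m (dT l))) (xxE m 2 c))) (.mul (nE (4 * c2) (peE m (dI l))) (xxE m 3 c))

/-- `lam_k^a X_j - lam_k^j X_a`, coefficient of `u c`. -/
def xeE (m a j c : ℕ) : Ex :=
  .sub (.mul (powE (lamE m 0) a) (xxE m j c)) (.mul (powE (lamE m 0) j) (xxE m a c))

/-- The matrix of `qf`. -/
def qfE (m j : ℕ) (c d : ℕ) : Ex :=
  sumE (fun i => .mul (if i = 0 then hhE j (lamE m 0) (lamE m 0)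
    else .add (hhE j (lamE m i) (lamE m i)) (nE 2 (hhE j (lamE m i) (lamE m 0))))
      (.mul (yvE m i c) (yvE m i d))) m

/-- The matrix of `qe`. -/
def qeE (m a j : ℕ) (c d : ℕ) : Ex :=
  .sub (.add (sumE (fun i => .mul (if i = 0 then
      .sub (.mul (powE (lamE m 0) a) (hhE j (lamE m 0) (lamE m 0)))
        (.mul (powE (lamE m 0) j) (hhE a (lamE m 0) (lamE m 0)))
    else .add (.sub (.mul (powE (lamE m 0) a) (hhE j (lamE m i) (lamE m i)))
        (.mul (powE (lamE m 0) j) (hhE a (lamE m i) (lamE m i))))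
        (nE 2 (.sub (.mul (powE (lamE m i) a) (hhE j (lamE m i) (lamE m 0)))
          (.mul (powE (lamE m i) j) (hhE a (lamE m i) (lamE m 0))))))
      (.mul (yvE m i c) (yvE m i d))) m)
    (sumE (fun b => .mul (.mul (xxE m (b + 1) c) (powE (lamE m 0) (a - 2 - b))) (xxE m j d))
      (a - 1)))
    (sumE (fun b => .mul (.mul (xxE m (b + 1) c) (powE (lamE m 0) (j - 2 - b))) (xxE m a d))
      (j - 1))

/-- Coefficient of `u c` in `t`. -/
def tE (m c : ℕ) : Ex := if c = m then .c 1 else .c 0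

/-- `ad D` times the matrix of `formC`. -/
def CE (F : FD) (m c d : ℕ) : Ex :=
  .add (.add (.add
    (sumE (fun j => .add (nE F.ad (.mul (peE m (F.a.getD j [])) (qfE m (j + 1) c d)))
      (.mul (lfE m (2 * F.an - F.ad * (2 + j)) F.ad (F.a.getD j []) c) (xxE m (j + 1) d))) F.na)
    (sumE (fun q => .add (nE F.ad (.mul (peE m (F.e.getD q [])) (qeE m (F.ea q) (F.ej q) c d)))
      (.mul (lfE m (2 * F.an - F.ad * (1 + F.ea q + F.ej q)) F.ad (F.e.getD q []) c)
        (xeE m (F.ea q) (F.ej q) d))) F.ne))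
    (nE F.ad (.mul (peE m F.w) (.mul (tE m c) (tE m d)))))
    (.mul (lfE m (2 * F.an) F.ad F.w c) (tE m d))

/-- `ad D` times the coefficients of `formB`. -/
def BE (F : FD) (m c : ℕ) : Ex :=
  .add (.sub (.add
    (sumE (fun j => .mul (nE F.ad (gkE m (F.a.getD j []))) (xxE m (j + 1) c)) F.na)
    (sumE (fun q => .mul (nE F.ad (gkE m (F.e.getD q []))) (xeE m (F.ea q) (F.ej q) c)) F.ne))
    (sumE (fun j => .add (.mul (powE (lamE m 0) j)
        (lfE m (2 * F.an + F.ad * (1 - j)) F.ad (F.f.getD j []) c))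
      (nE F.ad (.mul (peE m (F.f.getD j []))
        (sumE (fun i => .mul (xxE m (i + 1) c) (powE (lamE m 0) (j - 2 - i))) (j - 1))))) F.nf))
    (.mul (nE F.ad (gkE m F.w)) (tE m c))

/-- `D` times `formG`. -/
def GE (F : FD) (m : ℕ) : Ex :=
  nE (-1) (sumE (fun j => if j = 0 then .c 0 else .mul (peE m (F.f.getD j [])) (pwE m (j + 1)))
    F.nf)

/-- `ad D` times `formA`. -/
def AE (F : FD) (m : ℕ) : Ex :=
  nE F.ad (.sub (GE F m) (.mul (.v 1) (sumE (fun j => .mul (gkE m (F.f.getD j []))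
    (powE (lamE m 0) j)) F.nf)))

/-- The matrix of the whole form. -/
def ME (F : FD) (m i j : ℕ) : Ex :=
  if i = 0 then (if j = 0 then AE F m else BE F m j) else (if j = 0 then .c 0 else CE F m i j)

/-- `2 s ad D` times the symmetrised matrix of the whole form (`s` a scale). -/
def TE (F : FD) (m : ℕ) (s : ℤ) (i j : ℕ) : Ex := nE s (.add (ME F m i j) (ME F m j i))

/-! ### Linear and quadratic forms -/

/-- Dot product. -/
noncomputable def dot (n : ℕ) (c u : ℕ → ℝ) : ℝ := ∑ i ∈ Finset.range n, c i * u i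

/-- Quadratic form. -/
noncomputable def qfm (n : ℕ) (M : ℕ → ℕ → ℝ) (u : ℕ → ℝ) : ℝ :=
  ∑ i ∈ Finset.range n, ∑ j ∈ Finset.range n, M i j * (u i * u j)

theorem dot_add (n : ℕ) (c d u : ℕ → ℝ) :
    dot n (fun i => c i + d i) u = dot n c u + dot n d u := by
  simp only [dot, add_mul, Finset.sum_add_distrib]

theorem dot_sub (n : ℕ) (c d u : ℕ → ℝ) :
    dot n (fun i => c i - d i) u = dot n c u - dot n d u := by
  simp only [dot, sub_mul, Finset.sum_sub_distrib]

theorem dot_smul (n : ℕ) (a : ℝ) (c u : ℕ → ℝ) :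
    dot n (fun i => a * c i) u = a * dot n c u := by
  simp only [dot, mul_assoc, Finset.mul_sum]

theorem dot_sum (n k : ℕ) (c : ℕ → ℕ → ℝ) (u : ℕ → ℝ) :
    dot n (fun i => ∑ q ∈ Finset.range k, c q i) u = ∑ q ∈ Finset.range k, dot n (c q) u := by
  simp only [dot, Finset.sum_mul]
  exact Finset.sum_comm

theorem qfm_add (n : ℕ) (M N : ℕ → ℕ → ℝ) (u : ℕ → ℝ) :
    qfm n (fun i j => M i j + N i j) u = qfm n M u + qfm n N u := by
  simp only [qfm, add_mul, Finset.sum_add_distrib]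

theorem qfm_sub (n : ℕ) (M N : ℕ → ℕ → ℝ) (u : ℕ → ℝ) :
    qfm n (fun i j => M i j - N i j) u = qfm n M u - qfm n N u := by
  simp only [qfm, sub_mul, Finset.sum_sub_distrib]

theorem qfm_smul (n : ℕ) (a : ℝ) (M : ℕ → ℕ → ℝ) (u : ℕ → ℝ) :
    qfm n (fun i j => a * M i j) u = a * qfm n M u := by
  simp only [qfm, mul_assoc, Finset.mul_sum]

theorem qfm_sum (n k : ℕ) (M : ℕ → ℕ → ℕ → ℝ) (u : ℕ → ℝ) :
    qfm n (fun i j => ∑ q ∈ Finset.range k, M q i j) u = ∑ q ∈ Finset.range k, qfm n (M q) u := by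
  simp only [qfm, Finset.sum_mul]
  rw [Finset.sum_comm]
  have : ∀ i ∈ Finset.range n, ∑ j ∈ Finset.range n, ∑ q ∈ Finset.range k, M q i j * (u i * u j)
      = ∑ q ∈ Finset.range k, ∑ j ∈ Finset.range n, M q i j * (u i * u j) :=
    fun i _ => Finset.sum_comm
  rw [Finset.sum_comm, Finset.sum_congr rfl this, Finset.sum_comm]

theorem qfm_mul (n : ℕ) (c d u : ℕ → ℝ) :
    qfm n (fun i j => c i * d j) u = dot n c u * dot n d u := by
  rw [qfm, dot, dot, Finset.sum_mul_sum]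
  refine Finset.sum_congr rfl fun i _ => Finset.sum_congr rfl fun j _ => ?_
  ring

end Vale.Agent.P098.K
end

section

/-!
# The expressions represent the forms
-/

namespace Vale.Agent.P098.K

variable {rs : List ℕ} {X : ℕ → ℝ}

/-- The point `X` carries `y, v` and the eigenvalues. -/
structure PtX {m : ℕ} (X : ℕ → ℝ) (y v : ℝ) (lam : Fin (m + 1) → ℝ) : Prop where
  h0 : X 0 = y
  h1 : X 1 = v
  hl : ∀ i : Fin m, X (2 + i) = lam i.castSucc
  hs : ∑ i, lam i = 0

/-- The vector `u` carries `x` and `t` (and `u 0 = 0`). -/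
structure PtU {m : ℕ} (u : ℕ → ℝ) (x : Fin (m + 1) → ℝ) (t : ℝ) : Prop where
  h0 : u 0 = 0
  hx : ∀ i : Fin m, u (1 + i) = x i.castSucc
  ht : u (m + 1) = t
  hs : ∑ i, x i = 0

variable {m : ℕ} {y v : ℝ} {lam : Fin (m + 1) → ℝ} {u : ℕ → ℝ} {x : Fin (m + 1) → ℝ} {t : ℝ}

theorem PtX.lm (h : PtX X y v lam) (i : Fin (m + 1)) : evE rs X (lamE (m + 1) i) = lam i := by
  by_cases hi : (i : ℕ) + 1 = m + 1
  · rw [lamE, if_pos hi]
    have hl : i = Fin.last m := by ext; simpa using hi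
    subst hl
    have h1 := h.hs
    rw [Fin.sum_univ_castSucc] at h1
    simp only [evE_sub, evE_c, evE_sum, evE_v, Nat.add_sub_cancel, Int.cast_zero]
    rw [Finset.sum_range]
    have : ∑ a : Fin m, X (2 + a) = ∑ a : Fin m, lam a.castSucc :=
      Finset.sum_congr rfl fun a _ => h.hl a
    rw [this]
    linarith only [h1]
  · rw [lamE, if_neg hi]
    have hi' : (i : ℕ) < m := by have := i.2; omega
    have := h.hl ⟨i, hi'⟩
    simpa only [evE_v, Fin.castSucc_mk, Fin.eta] using this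

theorem PtX.lam0 (h : PtX X y v lam) : evE rs X (lamE (m + 1) 0) = lam 0 := by
  have := h.lm (rs := rs) 0
  simpa only [Fin.coe_ofNat_eq_mod, Nat.zero_mod] using this

theorem PtX.pw (h : PtX X y v lam) (j : ℕ) : evE rs X (pwE (m + 1) j) = pw lam j := by
  rw [pwE, evE_sum, Finset.sum_range, Vale.Agent.P098.pw]
  refine Finset.sum_congr rfl fun i _ => ?_
  rw [evE_pow, h.lm]

theorem PtU.dot_yv (h : PtU u x t) (i : Fin (m + 1)) :
    dot (m + 2) (fun c => evE rs X (yvE (m + 1) i c)) u = x i := by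
  by_cases hi : (i : ℕ) + 1 = m + 1
  · have hl : i = Fin.last m := by ext; simpa using hi
    subst hl
    have h1 := h.hs
    rw [Fin.sum_univ_castSucc] at h1
    simp only [dot, yvE, if_pos hi]
    rw [Finset.sum_range_succ', Finset.sum_range_succ]
    have h2 : ∑ c ∈ Finset.range m, evE rs X
        (if 1 ≤ c + 1 ∧ c + 1 < m + 1 then Ex.c (-1) else Ex.c 0) * u (c + 1)
        = - ∑ i : Fin m, x i.castSucc := by
      rw [Finset.sum_range, ← Finset.sum_neg_distrib]
      refine Finset.sum_congr rfl fun a _ => ?_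
      have ha : 1 ≤ (a : ℕ) + 1 ∧ (a : ℕ) + 1 < m + 1 := by have := a.2; omega
      rw [if_pos ha, ← h.hx a, add_comm 1 (a : ℕ)]
      simp only [Int.reduceNeg, evE_c, Int.cast_neg, Int.cast_one, neg_mul, one_mul]
    rw [h2]
    simp only [le_add_iff_nonneg_left, zero_le, lt_self_iff_false, and_false, ↓reduceIte, evE_c, Int.cast_zero, zero_mul, add_zero, nonpos_iff_eq_zero, one_ne_zero, lt_add_iff_pos_left, Order.lt_add_one_iff, and_true]
    linarith only [h1]
  · have hi' : (i : ℕ) < m := by have := i.2; omega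
    simp only [yvE, if_neg hi, dot]
    rw [Finset.sum_eq_single (1 + (i : ℕ))]
    · have := h.hx ⟨i, hi'⟩
      simpa only [Nat.add_left_cancel_iff, ↓reduceIte, evE_c, Int.cast_one, one_mul, Fin.castSucc_mk, Fin.eta] using     this
    · intro c _ hc
      rw [if_neg hc]; simp
    · intro hc
      exact absurd (Finset.mem_range.mpr (by (clear * - hi'; omega))) hc

theorem dot_xx (h : PtX X y v lam) (hu : PtU u x t) (j : ℕ) :
    dot (m + 2) (fun c => evE rs X (xxE (m + 1) j c)) u = XX lam x j := by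
  simp only [xxE, evE_sum, evE_mul, evE_pow]
  rw [dot_sum, Finset.sum_range, XX]
  refine Finset.sum_congr rfl fun i _ => ?_
  rw [dot_smul, hu.dot_yv, h.lm]

theorem dot_t (hu : PtU u x t) : dot (m + 2) (fun c => evE rs X (tE (m + 1) c)) u = t := by
  simp only [tE, dot]
  rw [Finset.sum_eq_single (m + 1)]
  · simp [hu.ht]
  · intro c _ hc
    rw [if_neg hc]; simp
  · intro hc
    exact absurd (Finset.mem_range.mpr (by omega)) hc

theorem evE_hh (j : ℕ) (a b : Ex) : evE rs X (hhE j a b) = hh j (evE rs X a) (evE rs X b) := by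
  simp only [hhE, evE_sum, evE_mul, evE_pow, hh]

theorem evE_pe (h : PtX X y v lam) (l : List Mo) :
    evE rs X (peE (m + 1) l) = pe l y v (pw lam 3) (pw lam 4) := by
  rw [evE_peE, h.h0, h.h1, h.pw, h.pw]

/-- `zd` for coefficient lists. -/
theorem evE_zd (h : PtX X y v lam) {D : ℕ} (hD : D ≠ 0) (l : List Mo) :
    evE rs X (zdE (m + 1) l) = D * (sf D l).zd y v (pw lam 3) (pw lam 4) := by
  have hD' : (D : ℝ) ≠ 0 := by exact_mod_cast hD
  simp only [zdE, evE_sub, evE_nE, evE_mul, evE_v, evE_c, evE_pe h, h.pw, h.h0, SF.zd, sf]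
  push_cast
  field_simp

theorem evE_gz (h : PtX X y v lam) {D : ℕ} (hD : D ≠ 0) (l : List Mo) :
    evE rs X (gzE (m + 1) l) = D * (sf D l).gz y v (pw lam 3) (pw lam 4) := by
  have hD' : (D : ℝ) ≠ 0 := by exact_mod_cast hD
  simp only [gzE, evE_nE, evE_mul, evE_pow, evE_v, evE_pe h, h.h0, SF.gz, sf]
  push_cast
  (clear * - hD'; field_simp)

theorem evE_gk (h : PtX X y v lam) {D : ℕ} (hD : D ≠ 0) (l : List Mo) :
    evE rs X (gkE (m + 1) l) = D * ((sf D l).gz y v (pw lam 3) (pw lam 4)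
      + 2 * lam 0 * (sf D l).gv y v (pw lam 3) (pw lam 4)) := by
  have hD' : (D : ℝ) ≠ 0 := by exact_mod_cast hD
  simp only [gkE, evE_add, evE_nE, evE_mul, evE_gz h hD, evE_pe h, h.lam0]
  simp only [sf]
  push_cast
  (clear * - hD'; field_simp)

theorem evE_g (h : PtX X y v lam) {D : ℕ} (hD : D ≠ 0) (l : List Mo) :
    evE rs X (peE (m + 1) l) = D * (sf D l).g y v (pw lam 3) (pw lam 4) := by
  have hD' : (D : ℝ) ≠ 0 := by exact_mod_cast hD
  rw [evE_pe h]
  simp only [sf]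
  field_simp

theorem evE_gt (h : PtX X y v lam) {D : ℕ} (hD : D ≠ 0) (l : List Mo) :
    evE rs X (peE (m + 1) (dT l)) = D * (sf D l).gt y v (pw lam 3) (pw lam 4) := by
  have hD' : (D : ℝ) ≠ 0 := by exact_mod_cast hD
  rw [evE_pe h]
  simp only [sf]
  (clear * - hD'; field_simp)

theorem evE_gi (h : PtX X y v lam) {D : ℕ} (hD : D ≠ 0) (l : List Mo) :
    evE rs X (peE (m + 1) (dI l)) = D * (sf D l).gi y v (pw lam 3) (pw lam 4) := by
  have hD' : (D : ℝ) ≠ 0 := by exact_mod_cast hD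
  rw [evE_pe h]
  simp only [sf]
  field_simp

theorem dot_lf (h : PtX X y v lam) (hu : PtU u x t) {D : ℕ} (hD : D ≠ 0) (c1 c2 : ℤ)
    (l : List Mo) :
    dot (m + 2) (fun c => evE rs X (lfE (m + 1) c1 c2 l c)) u
      = D * ((c1 * (sf D l).g y v (pw lam 3) (pw lam 4)
            + c2 * (sf D l).zd y v (pw lam 3) (pw lam 4)) * XX lam x 1
          + 3 * c2 * (sf D l).gt y v (pw lam 3) (pw lam 4) * XX lam x 2
          + 4 * c2 * (sf D l).gi y v (pw lam 3) (pw lam 4) * XX lam x 3) := by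
  simp only [lfE, evE_add, evE_mul, evE_nE]
  rw [dot_add, dot_add, dot_smul, dot_smul, dot_smul, dot_xx h hu, dot_xx h hu, dot_xx h hu,
    evE_g h hD, evE_zd h hD, evE_gt h hD, evE_gi h hD]
  push_cast
  ring

theorem dot_xe (h : PtX X y v lam) (hu : PtU u x t) (a j : ℕ) :
    dot (m + 2) (fun c => evE rs X (xeE (m + 1) a j c)) u = XE lam x 0 a j := by
  simp only [xeE, evE_sub, evE_mul, evE_pow]
  rw [dot_sub, dot_smul, dot_smul, dot_xx h hu, dot_xx h hu, h.lam0, XE]

theorem qfm_qf (h : PtX X y v lam) (hu : PtU u x t) (j : ℕ) :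
    qfm (m + 2) (fun c d => evE rs X (qfE (m + 1) j c d)) u = qf lam x 0 j := by
  simp only [qfE, evE_sum, evE_mul]
  rw [qfm_sum, Finset.sum_range, qf]
  refine Finset.sum_congr rfl fun i _ => ?_
  rw [qfm_smul, qfm_mul, hu.dot_yv, evE_ite]
  by_cases hi : i = 0
  · subst hi
    simp only [Fin.val_zero, if_true, evE_hh, h.lam0]
    ring
  · have hi' : (i : ℕ) ≠ 0 := fun h' => hi (Fin.ext h')
    rw [if_neg hi', if_neg hi]
    simp only [evE_add, evE_hh, h.lm, evE_nE, h.lam0]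
    push_cast
    ring

theorem qfm_qe (h : PtX X y v lam) (hu : PtU u x t) (a j : ℕ) :
    qfm (m + 2) (fun c d => evE rs X (qeE (m + 1) a j c d)) u = qe lam x 0 a j := by
  simp only [qeE, evE_sum, evE_mul, evE_sub, evE_add]
  rw [qfm_sub, qfm_add, qfm_sum, qfm_sum, qfm_sum, Finset.sum_range, qe]
  congr 1
  · congr 1
    · refine Finset.sum_congr rfl fun i _ => ?_
      rw [qfm_smul, qfm_mul, hu.dot_yv, evE_ite]
      by_cases hi : i = 0
      · subst hi
        simp only [Fin.val_zero, evE_sub, evE_mul, evE_pow, h.lam0, evE_hh, if_true]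
        ring
      · have hi' : (i : ℕ) ≠ 0 := fun h' => hi (Fin.ext h')
        rw [if_neg hi', if_neg hi]
        simp only [evE_add, evE_sub, evE_mul, evE_pow, evE_nE, evE_hh, h.lam0, h.lm]
        push_cast
        ring
    · refine Finset.sum_congr rfl fun b _ => ?_
      rw [qfm_mul, dot_xx h hu]
      congr 1
      have : (fun i => evE rs X (xxE (m + 1) (b + 1) i) * evE rs X (powE (lamE (m + 1) 0) (a - 2 - b)))
          = fun i => evE rs X (powE (lamE (m + 1) 0) (a - 2 - b))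
            * evE rs X (xxE (m + 1) (b + 1) i) := by
        funext i; ring
      rw [this, dot_smul, dot_xx h hu, evE_pow, h.lam0]
      ring
  · refine Finset.sum_congr rfl fun b _ => ?_
    rw [qfm_mul, dot_xx h hu]
    congr 1
    have : (fun i => evE rs X (xxE (m + 1) (b + 1) i) * evE rs X (powE (lamE (m + 1) 0) (j - 2 - b)))
        = fun i => evE rs X (powE (lamE (m + 1) 0) (j - 2 - b))
          * evE rs X (xxE (m + 1) (b + 1) i) := by
      funext i; ring
    rw [this, dot_smul, dot_xx h hu, evE_pow, h.lam0]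
    ring

/-- The matrix `CE` represents `ad D formC`. -/
theorem qfm_C (F : FD) (hD : F.D ≠ 0) {α : ℝ} (hα : (F.ad : ℝ) * α = F.an)
    (h : PtX X y v lam) (hu : PtU u x t) :
    qfm (m + 2) (fun c d => evE rs X (CE F (m + 1) c d)) u
      = F.ad * F.D * formC F.fam α y v lam 0 x t := by
  simp only [CE, evE_sum, evE_mul, evE_add]
  rw [qfm_add, qfm_add, qfm_add, qfm_sum, qfm_sum, qfm_mul, dot_lf h hu hD, dot_t hu, formC]
  have e1 : ∀ j ∈ Finset.range F.na,
      qfm (m + 2) (fun c d => evE rs X (nE F.ad (.mul (peE (m + 1) (F.a.getD j []))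
          (qfE (m + 1) (j + 1) c d)))
        + evE rs X (lfE (m + 1) (2 * F.an - F.ad * (2 + j)) F.ad (F.a.getD j []) c)
          * evE rs X (xxE (m + 1) (j + 1) d)) u
      = F.ad * F.D * ((F.fam.a j).g y v (pw lam 3) (pw lam 4) * qf lam x 0 (j + 1)
      + (((2 * α - 2 - j) * (F.fam.a j).g y v (pw lam 3) (pw lam 4)
          + (F.fam.a j).zd y v (pw lam 3) (pw lam 4)) * XX lam x 1
        + 3 * (F.fam.a j).gt y v (pw lam 3) (pw lam 4) * XX lam x 2
        + 4 * (F.fam.a j).gi y v (pw lam 3) (pw lam 4) * XX lam x 3) * XX lam x (j + 1)) := by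
    intro j _
    rw [qfm_add, qfm_mul, dot_lf h hu hD, dot_xx h hu]
    simp only [evE_nE, evE_mul]
    rw [qfm_smul, qfm_smul, qfm_qf h hu, evE_g h hD]
    have hf : F.fam.a j = sf F.D (F.a.getD j []) := rfl
    rw [hf]
    push_cast
    rw [← hα]
    ring
  rw [Finset.sum_congr rfl e1]
  have e2 : ∀ q ∈ Finset.range F.ne,
      qfm (m + 2) (fun c d => evE rs X (nE F.ad (.mul (peE (m + 1) (F.e.getD q []))
          (qeE (m + 1) (F.ea q) (F.ej q) c d)))
        + evE rs X (lfE (m + 1) (2 * F.an - F.ad * (1 + F.ea q + F.ej q)) F.ad (F.e.getD q []) c)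
          * evE rs X (xeE (m + 1) (F.ea q) (F.ej q) d)) u
      = F.ad * F.D * ((F.fam.e q).g y v (pw lam 3) (pw lam 4)
          * qe lam x 0 (F.fam.ea q) (F.fam.ej q)
      + (((2 * α - 1 - F.fam.ea q - F.fam.ej q) * (F.fam.e q).g y v (pw lam 3) (pw lam 4)
          + (F.fam.e q).zd y v (pw lam 3) (pw lam 4)) * XX lam x 1
        + 3 * (F.fam.e q).gt y v (pw lam 3) (pw lam 4) * XX lam x 2
        + 4 * (F.fam.e q).gi y v (pw lam 3) (pw lam 4) * XX lam x 3)
        * XE lam x 0 (F.fam.ea q) (F.fam.ej q)) := by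
    intro q _
    rw [qfm_add, qfm_mul, dot_lf h hu hD, dot_xe h hu]
    simp only [evE_nE, evE_mul]
    rw [qfm_smul, qfm_smul, qfm_qe h hu, evE_g h hD]
    have hf : F.fam.e q = sf F.D (F.e.getD q []) := rfl
    have hf1 : F.fam.ea q = F.ea q := rfl
    have hf2 : F.fam.ej q = F.ej q := rfl
    rw [hf, hf1, hf2]
    push_cast
    rw [← hα]
    ring
  rw [Finset.sum_congr rfl e2, ← Finset.mul_sum, ← Finset.mul_sum]
  simp only [evE_nE, evE_mul]
  rw [qfm_smul, qfm_smul, qfm_mul, dot_t hu, evE_g h hD]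
  have hf : F.fam.w = sf F.D F.w := rfl
  have hf1 : F.fam.na = F.na := rfl
  have hf2 : F.fam.ne = F.ne := rfl
  rw [hf, hf1, hf2]
  push_cast
  rw [← hα]
  ring

/-- The vector `BE` represents `ad D formB`. -/
theorem dot_B (F : FD) (hD : F.D ≠ 0) {α : ℝ} (hα : (F.ad : ℝ) * α = F.an)
    (h : PtX X y v lam) (hu : PtU u x t) :
    dot (m + 2) (fun c => evE rs X (BE F (m + 1) c)) u
      = F.ad * F.D * formB F.fam α y v lam 0 x t := by
  simp only [BE, evE_sum, evE_mul, evE_sub, evE_add]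
  rw [dot_add, dot_sub, dot_add, dot_sum, dot_sum, dot_sum, dot_smul, dot_t hu, formB]
  have e1 : ∀ j ∈ Finset.range F.na,
      dot (m + 2) (fun c => evE rs X (nE F.ad (gkE (m + 1) (F.a.getD j [])))
        * evE rs X (xxE (m + 1) (j + 1) c)) u
      = F.ad * F.D * (((F.fam.a j).gz y v (pw lam 3) (pw lam 4)
        + 2 * lam 0 * (F.fam.a j).gv y v (pw lam 3) (pw lam 4)) * XX lam x (j + 1)) := by
    intro j _
    rw [dot_smul, dot_xx h hu, evE_nE, evE_gk h hD]
    have hf : F.fam.a j = sf F.D (F.a.getD j []) := rfl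
    rw [hf]
    ring
  have e2 : ∀ q ∈ Finset.range F.ne,
      dot (m + 2) (fun c => evE rs X (nE F.ad (gkE (m + 1) (F.e.getD q [])))
        * evE rs X (xeE (m + 1) (F.ea q) (F.ej q) c)) u
      = F.ad * F.D * (((F.fam.e q).gz y v (pw lam 3) (pw lam 4)
        + 2 * lam 0 * (F.fam.e q).gv y v (pw lam 3) (pw lam 4))
          * XE lam x 0 (F.fam.ea q) (F.fam.ej q)) := by
    intro q _
    rw [dot_smul, dot_xe h hu, evE_nE, evE_gk h hD]
    have hf : F.fam.e q = sf F.D (F.e.getD q []) := rfl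
    have hf1 : F.fam.ea q = F.ea q := rfl
    have hf2 : F.fam.ej q = F.ej q := rfl
    rw [hf, hf1, hf2]
    ring
  have e3 : ∀ j ∈ Finset.range F.nf,
      dot (m + 2) (fun c => evE rs X (powE (lamE (m + 1) 0) j)
          * evE rs X (lfE (m + 1) (2 * F.an + F.ad * (1 - j)) F.ad (F.f.getD j []) c)
        + evE rs X (nE F.ad (.mul (peE (m + 1) (F.f.getD j []))
        (sumE (fun i => .mul (xxE (m + 1) (i + 1) c) (powE (lamE (m + 1) 0) (j - 2 - i)))
          (j - 1))))) u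
      = F.ad * F.D * (lam 0 ^ j * ((((2 * α + 1 - j)
            * (F.fam.f j).g y v (pw lam 3) (pw lam 4))
          + (F.fam.f j).zd y v (pw lam 3) (pw lam 4)) * XX lam x 1
        + 3 * (F.fam.f j).gt y v (pw lam 3) (pw lam 4) * XX lam x 2
        + 4 * (F.fam.f j).gi y v (pw lam 3) (pw lam 4) * XX lam x 3)
      + (F.fam.f j).g y v (pw lam 3) (pw lam 4)
        * ∑ i ∈ Finset.range (j - 1), XX lam x (i + 1) * lam 0 ^ (j - 2 - i)) := by
    intro j _
    rw [dot_add, dot_smul, dot_lf h hu hD, evE_pow, h.lam0]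
    simp only [evE_nE, evE_mul, evE_sum, evE_pow, h.lam0]
    rw [dot_smul, dot_smul, dot_sum]
    have e4 : ∀ i ∈ Finset.range (j - 1),
        dot (m + 2) (fun c => evE rs X (xxE (m + 1) (i + 1) c) * lam 0 ^ (j - 2 - i)) u
          = XX lam x (i + 1) * lam 0 ^ (j - 2 - i) := by
      intro i _
      have : (fun c => evE rs X (xxE (m + 1) (i + 1) c) * lam 0 ^ (j - 2 - i))
          = fun c => lam 0 ^ (j - 2 - i) * evE rs X (xxE (m + 1) (i + 1) c) := by
        funext c; ring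
      rw [this, dot_smul, dot_xx h hu]
      ring
    rw [Finset.sum_congr rfl e4, evE_g h hD]
    have hf : F.fam.f j = sf F.D (F.f.getD j []) := rfl
    rw [hf]
    push_cast
    rw [← hα]
    ring
  rw [Finset.sum_congr rfl e1, Finset.sum_congr rfl e2, Finset.sum_congr rfl e3,
    ← Finset.mul_sum, ← Finset.mul_sum, ← Finset.mul_sum]
  simp only [evE_nE]
  rw [evE_gk h hD]
  have hf : F.fam.w = sf F.D F.w := rfl
  have hf1 : F.fam.na = F.na := rfl
  have hf2 : F.fam.ne = F.ne := rfl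
  have hf3 : F.fam.nf = F.nf := rfl
  rw [hf, hf1, hf2, hf3]
  ring

theorem evE_G (F : FD) (hD : F.D ≠ 0) (h : PtX X y v lam) :
    evE rs X (GE F (m + 1)) = F.D * formG F.fam y v lam := by
  simp only [GE, evE_nE, evE_sum, evE_ite, evE_mul, evE_c, h.pw]
  rw [formG]
  have hf3 : F.fam.nf = F.nf := rfl
  have : ∀ j ∈ Finset.range F.nf, (if j = 0 then ((0 : ℤ) : ℝ)
      else evE rs X (peE (m + 1) (F.f.getD j [])) * pw lam (j + 1))
      = F.D * (if j = 0 then 0 else
        (F.fam.f j).g y v (pw lam 3) (pw lam 4) * pw lam (j + 1)) := by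
    intro j _
    split_ifs
    · simp
    · rw [evE_g h hD]
      have hf : F.fam.f j = sf F.D (F.f.getD j []) := rfl
      rw [hf]
      ring
  rw [hf3, Finset.sum_congr rfl this, ← Finset.mul_sum]
  push_cast
  ring

theorem evE_A (F : FD) (hD : F.D ≠ 0) (h : PtX X y v lam) :
    evE rs X (AE F (m + 1)) = F.ad * F.D * formA F.fam y v lam 0 := by
  simp only [AE, evE_nE, evE_sub, evE_mul, evE_sum, evE_pow, evE_v, h.lam0, h.h1]
  rw [evE_G F hD h, formA]
  have hf3 : F.fam.nf = F.nf := rfl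
  rw [hf3, mul_sub, mul_sub, mul_assoc]
  congr 1
  have : ∀ j ∈ Finset.range F.nf, evE rs X (gkE (m + 1) (F.f.getD j [])) * lam 0 ^ j
      = F.D * (((F.fam.f j).gz y v (pw lam 3) (pw lam 4)
        + 2 * lam 0 * (F.fam.f j).gv y v (pw lam 3) (pw lam 4)) * lam 0 ^ j) := by
    intro j _
    rw [evE_gk h hD]
    have hf : F.fam.f j = sf F.D (F.f.getD j []) := rfl
    rw [hf]
    ring
  rw [Finset.sum_congr rfl this, ← Finset.mul_sum]
  ring

/-- The weights of the entries: `1`, except `ρ` in the first row and column. -/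
noncomputable def wgt (ρ : ℝ) (i j : ℕ) : ℝ :=
  if i = 0 then (if j = 0 then 1 else ρ) else (if j = 0 then ρ else 1)

/-- The whole form. -/
theorem form_eq (F : FD) (hD : F.D ≠ 0) {α : ℝ} (hα : (F.ad : ℝ) * α = F.an)
    (h : PtX X y v lam) {ρ ξ : ℝ} {U : ℕ → ℝ} (hU : U 0 = ξ) (hu : PtU u x t)
    (hUu : ∀ i, U (i + 1) = u (i + 1)) (s : ℤ) :
    ∑ i ∈ Finset.range (m + 2), ∑ j ∈ Finset.range (m + 2),
        evE rs X (TE F (m + 1) s i j) * (wgt ρ i j * (U i * U j))
      = 2 * s * F.ad * F.D * (formA F.fam y v lam 0 * ξ ^ 2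
        + ρ * ξ * formB F.fam α y v lam 0 x t + formC F.fam α y v lam 0 x t) := by
  have hC := qfm_C (rs := rs) F hD hα h hu
  have hB := dot_B (rs := rs) F hD hα h hu
  have hA := evE_A (rs := rs) F hD h
  have hsym : ∑ i ∈ Finset.range (m + 2), ∑ j ∈ Finset.range (m + 2),
        evE rs X (TE F (m + 1) s i j) * (wgt ρ i j * (U i * U j))
      = 2 * s * ∑ i ∈ Finset.range (m + 2), ∑ j ∈ Finset.range (m + 2),
        evE rs X (ME F (m + 1) i j) * (wgt ρ i j * (U i * U j)) := by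
    simp only [TE, evE_nE, evE_add, mul_add, add_mul, Finset.sum_add_distrib]
    have : ∑ i ∈ Finset.range (m + 2), ∑ j ∈ Finset.range (m + 2),
        (s : ℝ) * evE rs X (ME F (m + 1) j i) * (wgt ρ i j * (U i * U j))
        = ∑ i ∈ Finset.range (m + 2), ∑ j ∈ Finset.range (m + 2),
        (s : ℝ) * evE rs X (ME F (m + 1) i j) * (wgt ρ i j * (U i * U j)) := by
      rw [Finset.sum_comm]
      refine Finset.sum_congr rfl fun i _ => Finset.sum_congr rfl fun j _ => ?_
      have : wgt ρ j i = wgt ρ i j := by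
        simp only [wgt]; split_ifs <;> rfl
      rw [this]
      ring
    rw [this]
    simp only [Finset.mul_sum]
    rw [← two_mul, Finset.mul_sum]
    refine Finset.sum_congr rfl fun i _ => ?_
    rw [Finset.mul_sum]
    refine Finset.sum_congr rfl fun j _ => ?_
    ring
  rw [hsym]
  have h1 : ∑ i ∈ Finset.range (m + 2), ∑ j ∈ Finset.range (m + 2),
        evE rs X (ME F (m + 1) i j) * (wgt ρ i j * (U i * U j))
      = evE rs X (AE F (m + 1)) * ξ ^ 2
        + ρ * ξ * dot (m + 2) (fun c => evE rs X (BE F (m + 1) c)) u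
        + qfm (m + 2) (fun c d => evE rs X (CE F (m + 1) c d)) u := by
    rw [dot, qfm]
    rw [Finset.sum_range_succ' _ (m + 1)]
    have a1 : ∀ i ∈ Finset.range (m + 1), ∑ j ∈ Finset.range (m + 2),
        evE rs X (ME F (m + 1) (i + 1) j) * (wgt ρ (i + 1) j * (U (i + 1) * U j))
        = ∑ j ∈ Finset.range (m + 2), evE rs X (CE F (m + 1) (i + 1) j) * (u (i + 1) * u j) := by
      intro i _
      rw [Finset.sum_range_succ', Finset.sum_range_succ' _ (m + 1)]
      simp only [ME, wgt, if_neg (Nat.succ_ne_zero _), if_true, evE_c, hu.h0, hUu]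
      simp only [one_mul, Int.cast_zero, zero_mul, add_zero, mul_zero]
    rw [Finset.sum_congr rfl a1]
    rw [Finset.sum_range_succ' (fun i => ∑ j ∈ Finset.range (m + 2),
      evE rs X (CE F (m + 1) i j) * (u i * u j)) (m + 1)]
    have a2 : ∑ j ∈ Finset.range (m + 2), evE rs X (CE F (m + 1) 0 j) * (u 0 * u j) = 0 := by
      simp [hu.h0]
    rw [a2, Finset.sum_range_succ' _ (m + 1),
      Finset.sum_range_succ' (fun i => evE rs X (BE F (m + 1) i) * u i) (m + 1)]
    simp only [ME, if_neg (Nat.succ_ne_zero _), if_true, wgt, hU, hUu, hu.h0]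
    rw [mul_add, Finset.mul_sum]
    have a3 : ∑ j ∈ Finset.range (m + 1), evE rs X (BE F (m + 1) (j + 1)) * (ρ * (ξ * u (j + 1)))
        = ∑ j ∈ Finset.range (m + 1), ρ * ξ * (evE rs X (BE F (m + 1) (j + 1)) * u (j + 1)) :=
      Finset.sum_congr rfl fun j _ => by ring
    rw [a3]
    ring
  rw [h1, hA, hB, hC]
  ring

end Vale.Agent.P098.K
end

section

/-!
# The expressions in general coordinates represent the forms
-/

namespace Vale.Agent.P098.N

open Vale.Agent.P098.K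

variable {rs : List ℕ} {X : ℕ → ℝ}

/-- Coordinates: eigenvalues, coefficient of `u c` in `x_i`, coefficient of `u c` in `t`. -/
structure Crd where
  lam : ℕ → Ex
  yv : ℕ → ℕ → Ex
  tv : ℕ → Ex

/-- Power sums. -/
def pwE (G : Crd) (m j : ℕ) : Ex := sumE (fun i => powE (G.lam i) j) m

/-- Coefficient of `u c` in `∑ lam_i^j x_i`. -/
def xxE (G : Crd) (m j c : ℕ) : Ex := sumE (fun i => .mul (powE (G.lam i) j) (G.yv i c)) m

/-- Polynomials in `y, v, τ, ι`. -/
def peE (G : Crd) (m : ℕ) : List Mo → Ex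
  | [] => .c 0
  | q :: l => .add (.mul (.mul (.mul (.mul (.c q.1) (powE (.v 0) q.2.1)) (powE (.v 1) q.2.2.1))
      (powE (pwE G m 3) q.2.2.2.1)) (powE (pwE G m 4) q.2.2.2.2)) (peE G m l)

theorem evE_peE (G : Crd) (m : ℕ) (l : List Mo) :
    evE rs X (peE G m l) = pe l (X 0) (X 1) (evE rs X (pwE G m 3)) (evE rs X (pwE G m 4)) := by
  induction l with
  | nil => simp only [peE, evE_c, Int.cast_zero, pe]
  | cons q l ih => simp [peE, pe, me, ih]

/-- `D` times the Euler derivative. -/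
def zdE (G : Crd) (m : ℕ) (l : List Mo) : Ex :=
  .sub (.sub (nE (-1) (.mul (.mul (.v 0) (.sub (.c 1) (.v 0))) (peE G m (dY l))))
    (nE 3 (.mul (pwE G m 3) (peE G m (dT l))))) (nE 4 (.mul (pwE G m 4) (peE G m (dI l))))

/-- `D` times `∂_z`. -/
def gzE (G : Crd) (m : ℕ) (l : List Mo) : Ex := nE (-1) (.mul (powE (.v 0) 2) (peE G m (dY l)))

/-- `D (g_z + 2 lam_k g_v)`, `k = 0`. -/
def gkE (G : Crd) (m : ℕ) (l : List Mo) : Ex := .add (gzE G m l) (nE 2 (.mul (G.lam 0) (peE G m (dV l))))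

/-- Linear form `(c₁ g + c₂ zd) X_1 + 3 c₂ g_τ X_2 + 4 c₂ g_ι X_3`, coefficient of `u c`. -/
def lfE (G : Crd) (m : ℕ) (c1 c2 : ℤ) (l : List Mo) (c : ℕ) : Ex :=
  .add (.add (.mul (.add (nE c1 (peE G m l)) (nE c2 (zdE G m l))) (xxE G m 1 c))
    (.mul (nE (3 * c2) (peE G m (dT l))) (xxE G m 2 c))) (.mul (nE (4 * c2) (peE G m (dI l))) (xxE G m 3 c))

/-- `lam_k^a X_j - lam_k^j X_a`, coefficient of `u c`. -/
def xeE (G : Crd) (m a j c : ℕ) : Ex :=
  .sub (.mul (powE (G.lam 0) a) (xxE G m j c)) (.mul (powE (G.lam 0) j) (xxE G m a c))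

/-- The matrix of `qf`. -/
def qfE (G : Crd) (m j : ℕ) (c d : ℕ) : Ex :=
  sumE (fun i => .mul (if i = 0 then hhE j (G.lam 0) (G.lam 0)
    else .add (hhE j (G.lam i) (G.lam i)) (nE 2 (hhE j (G.lam i) (G.lam 0))))
      (.mul (G.yv i c) (G.yv i d))) m

/-- The matrix of `qe`. -/
def qeE (G : Crd) (m a j : ℕ) (c d : ℕ) : Ex :=
  .sub (.add (sumE (fun i => .mul (if i = 0 then
      .sub (.mul (powE (G.lam 0) a) (hhE j (G.lam 0) (G.lam 0)))
        (.mul (powE (G.lam 0) j) (hhE a (G.lam 0) (G.lam 0)))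
    else .add (.sub (.mul (powE (G.lam 0) a) (hhE j (G.lam i) (G.lam i)))
        (.mul (powE (G.lam 0) j) (hhE a (G.lam i) (G.lam i))))
        (nE 2 (.sub (.mul (powE (G.lam i) a) (hhE j (G.lam i) (G.lam 0)))
          (.mul (powE (G.lam i) j) (hhE a (G.lam i) (G.lam 0))))))
      (.mul (G.yv i c) (G.yv i d))) m)
    (sumE (fun b => .mul (.mul (xxE G m (b + 1) c) (powE (G.lam 0) (a - 2 - b))) (xxE G m j d))
      (a - 1)))
    (sumE (fun b => .mul (.mul (xxE G m (b + 1) c) (powE (G.lam 0) (j - 2 - b))) (xxE G m a d))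
      (j - 1))


/-- `ad D` times the matrix of `formC`. -/
def CE (G : Crd) (F : FD) (m c d : ℕ) : Ex :=
  .add (.add (.add
    (sumE (fun j => .add (nE F.ad (.mul (peE G m (F.a.getD j [])) (qfE G m (j + 1) c d)))
      (.mul (lfE G m (2 * F.an - F.ad * (2 + j)) F.ad (F.a.getD j []) c) (xxE G m (j + 1) d))) F.na)
    (sumE (fun q => .add (nE F.ad (.mul (peE G m (F.e.getD q [])) (qeE G m (F.ea q) (F.ej q) c d)))
      (.mul (lfE G m (2 * F.an - F.ad * (1 + F.ea q + F.ej q)) F.ad (F.e.getD q []) c)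
        (xeE G m (F.ea q) (F.ej q) d))) F.ne))
    (nE F.ad (.mul (peE G m F.w) (.mul (G.tv c) (G.tv d)))))
    (.mul (lfE G m (2 * F.an) F.ad F.w c) (G.tv d))

/-- `ad D` times the coefficients of `formB`. -/
def BE (G : Crd) (F : FD) (m c : ℕ) : Ex :=
  .add (.sub (.add
    (sumE (fun j => .mul (nE F.ad (gkE G m (F.a.getD j []))) (xxE G m (j + 1) c)) F.na)
    (sumE (fun q => .mul (nE F.ad (gkE G m (F.e.getD q []))) (xeE G m (F.ea q) (F.ej q) c)) F.ne))
    (sumE (fun j => .add (.mul (powE (G.lam 0) j)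
        (lfE G m (2 * F.an + F.ad * (1 - j)) F.ad (F.f.getD j []) c))
      (nE F.ad (.mul (peE G m (F.f.getD j []))
        (sumE (fun i => .mul (xxE G m (i + 1) c) (powE (G.lam 0) (j - 2 - i))) (j - 1))))) F.nf))
    (.mul (nE F.ad (gkE G m F.w)) (G.tv c))

/-- `D` times `formG`. -/
def GE (G : Crd) (F : FD) (m : ℕ) : Ex :=
  nE (-1) (sumE (fun j => if j = 0 then .c 0 else .mul (peE G m (F.f.getD j [])) (pwE G m (j + 1)))
    F.nf)

/-- `ad D` times `formA`. -/
def AE (G : Crd) (F : FD) (m : ℕ) : Ex :=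
  nE F.ad (.sub (GE G F m) (.mul (.v 1) (sumE (fun j => .mul (gkE G m (F.f.getD j []))
    (powE (G.lam 0) j)) F.nf)))

/-- The matrix of the whole form. -/
def ME (G : Crd) (F : FD) (m i j : ℕ) : Ex :=
  if i = 0 then (if j = 0 then AE G F m else BE G F m j) else (if j = 0 then .c 0 else CE G F m i j)

/-- `2 s ad D` times the symmetrised matrix of the whole form (`s` a scale). -/
def TE (G : Crd) (F : FD) (m : ℕ) (s : ℤ) (i j : ℕ) : Ex := nE s (.add (ME G F m i j) (ME G F m j i))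


/-- The point `X` carries `y, v` and the eigenvalues. -/
structure PtX {m : ℕ} (G : Crd) (rs : List ℕ) (X : ℕ → ℝ) (y v : ℝ) (lam : Fin m → ℝ) : Prop where
  h0 : X 0 = y
  h1 : X 1 = v
  lm : ∀ i : Fin m, evE rs X (G.lam i) = lam i

/-- The vector `u` carries `x` and `t` (and `u 0 = 0`). -/
structure PtU {m : ℕ} (G : Crd) (rs : List ℕ) (X : ℕ → ℝ) (n : ℕ) (u : ℕ → ℝ) (x : Fin m → ℝ)
    (t : ℝ) : Prop where
  h0 : u 0 = 0
  dot_yv : ∀ i : Fin m, dot (n + 1) (fun c => evE rs X (G.yv i c)) u = x i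
  ht : dot (n + 1) (fun c => evE rs X (G.tv c)) u = t

variable {G : Crd} {m n : ℕ} {y v : ℝ} {lam : Fin (m + 1) → ℝ} {u : ℕ → ℝ} {x : Fin (m + 1) → ℝ}
  {t : ℝ}

theorem PtX.lam0 (h : PtX G rs X y v lam) : evE rs X (G.lam 0) = lam 0 := by
  have := h.lm 0
  simpa only [Fin.coe_ofNat_eq_mod, Nat.zero_mod] using this

theorem PtX.pw (h : PtX G rs X y v lam) (j : ℕ) : evE rs X (pwE G (m + 1) j) = pw lam j := by
  rw [pwE, evE_sum, Finset.sum_range, Vale.Agent.P098.pw]
  refine Finset.sum_congr rfl fun i _ => ?_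
  rw [evE_pow, h.lm]

theorem dot_xx (h : PtX G rs X y v lam) (hu : PtU G rs X n u x t) (j : ℕ) :
    dot (n + 1) (fun c => evE rs X (xxE G (m + 1) j c)) u = XX lam x j := by
  simp only [xxE, evE_sum, evE_mul, evE_pow]
  rw [dot_sum, Finset.sum_range, XX]
  refine Finset.sum_congr rfl fun i _ => ?_
  rw [dot_smul, hu.dot_yv, h.lm]

theorem evE_pe (h : PtX G rs X y v lam) (l : List Mo) :
    evE rs X (peE G (m + 1) l) = pe l y v (pw lam 3) (pw lam 4) := by
  rw [evE_peE, h.h0, h.h1, h.pw, h.pw]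

/-- `zd` for coefficient lists. -/
theorem evE_zd (h : PtX G rs X y v lam) {D : ℕ} (hD : D ≠ 0) (l : List Mo) :
    evE rs X (zdE G (m + 1) l) = D * (sf D l).zd y v (pw lam 3) (pw lam 4) := by
  have hD' : (D : ℝ) ≠ 0 := by exact_mod_cast hD
  simp only [zdE, evE_sub, evE_nE, evE_mul, evE_v, evE_c, evE_pe h, h.pw, h.h0, SF.zd, sf]
  push_cast
  (clear * - hD'; field_simp)

theorem evE_gz (h : PtX G rs X y v lam) {D : ℕ} (hD : D ≠ 0) (l : List Mo) :
    evE rs X (gzE G (m + 1) l) = D * (sf D l).gz y v (pw lam 3) (pw lam 4) := by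
  have hD' : (D : ℝ) ≠ 0 := by exact_mod_cast hD
  simp only [gzE, evE_nE, evE_mul, evE_pow, evE_v, evE_pe h, h.h0, SF.gz, sf]
  push_cast
  (clear * - hD'; field_simp)

theorem evE_gk (h : PtX G rs X y v lam) {D : ℕ} (hD : D ≠ 0) (l : List Mo) :
    evE rs X (gkE G (m + 1) l) = D * ((sf D l).gz y v (pw lam 3) (pw lam 4)
      + 2 * lam 0 * (sf D l).gv y v (pw lam 3) (pw lam 4)) := by
  have hD' : (D : ℝ) ≠ 0 := by exact_mod_cast hD
  simp only [gkE, evE_add, evE_nE, evE_mul, evE_gz h hD, evE_pe h, h.lam0]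
  simp only [sf]
  push_cast
  field_simp

theorem evE_g (h : PtX G rs X y v lam) {D : ℕ} (hD : D ≠ 0) (l : List Mo) :
    evE rs X (peE G (m + 1) l) = D * (sf D l).g y v (pw lam 3) (pw lam 4) := by
  have hD' : (D : ℝ) ≠ 0 := by exact_mod_cast hD
  rw [evE_pe h]
  simp only [sf]
  field_simp

theorem evE_gt (h : PtX G rs X y v lam) {D : ℕ} (hD : D ≠ 0) (l : List Mo) :
    evE rs X (peE G (m + 1) (dT l)) = D * (sf D l).gt y v (pw lam 3) (pw lam 4) := by
  have hD' : (D : ℝ) ≠ 0 := by exact_mod_cast hD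
  rw [evE_pe h]
  simp only [sf]
  field_simp

theorem evE_gi (h : PtX G rs X y v lam) {D : ℕ} (hD : D ≠ 0) (l : List Mo) :
    evE rs X (peE G (m + 1) (dI l)) = D * (sf D l).gi y v (pw lam 3) (pw lam 4) := by
  have hD' : (D : ℝ) ≠ 0 := by exact_mod_cast hD
  rw [evE_pe h]
  simp only [sf]
  (clear * - hD'; field_simp)

theorem dot_lf (h : PtX G rs X y v lam) (hu : PtU G rs X n u x t) {D : ℕ} (hD : D ≠ 0) (c1 c2 : ℤ)
    (l : List Mo) :
    dot (n + 1) (fun c => evE rs X (lfE G (m + 1) c1 c2 l c)) u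
      = D * ((c1 * (sf D l).g y v (pw lam 3) (pw lam 4)
            + c2 * (sf D l).zd y v (pw lam 3) (pw lam 4)) * XX lam x 1
          + 3 * c2 * (sf D l).gt y v (pw lam 3) (pw lam 4) * XX lam x 2
          + 4 * c2 * (sf D l).gi y v (pw lam 3) (pw lam 4) * XX lam x 3) := by
  simp only [lfE, evE_add, evE_mul, evE_nE]
  rw [dot_add, dot_add, dot_smul, dot_smul, dot_smul, dot_xx h hu, dot_xx h hu, dot_xx h hu,
    evE_g h hD, evE_zd h hD, evE_gt h hD, evE_gi h hD]
  push_cast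
  ring

theorem dot_xe (h : PtX G rs X y v lam) (hu : PtU G rs X n u x t) (a j : ℕ) :
    dot (n + 1) (fun c => evE rs X (xeE G (m + 1) a j c)) u = XE lam x 0 a j := by
  simp only [xeE, evE_sub, evE_mul, evE_pow]
  rw [dot_sub, dot_smul, dot_smul, dot_xx h hu, dot_xx h hu, h.lam0, XE]

theorem qfm_qf (h : PtX G rs X y v lam) (hu : PtU G rs X n u x t) (j : ℕ) :
    qfm (n + 1) (fun c d => evE rs X (qfE G (m + 1) j c d)) u = qf lam x 0 j := by
  simp only [qfE, evE_sum, evE_mul]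
  rw [qfm_sum, Finset.sum_range, qf]
  refine Finset.sum_congr rfl fun i _ => ?_
  rw [qfm_smul, qfm_mul, hu.dot_yv, evE_ite]
  by_cases hi : i = 0
  · subst hi
    simp only [Fin.val_zero, if_true, evE_hh, h.lam0]
    ring
  · have hi' : (i : ℕ) ≠ 0 := fun h' => hi (Fin.ext h')
    rw [if_neg hi', if_neg hi]
    simp only [evE_add, evE_nE, evE_hh, h.lam0, h.lm]
    push_cast
    ring

theorem qfm_qe (h : PtX G rs X y v lam) (hu : PtU G rs X n u x t) (a j : ℕ) :
    qfm (n + 1) (fun c d => evE rs X (qeE G (m + 1) a j c d)) u = qe lam x 0 a j := by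
  simp only [qeE, evE_sum, evE_mul, evE_sub, evE_add]
  rw [qfm_sub, qfm_add, qfm_sum, qfm_sum, qfm_sum, Finset.sum_range, qe]
  congr 1
  · congr 1
    · refine Finset.sum_congr rfl fun i _ => ?_
      rw [qfm_smul, qfm_mul, hu.dot_yv, evE_ite]
      by_cases hi : i = 0
      · subst hi
        simp only [Fin.val_zero, if_true, evE_hh, evE_sub, evE_mul, evE_pow, h.lam0]
        ring
      · have hi' : (i : ℕ) ≠ 0 := fun h' => hi (Fin.ext h')
        rw [if_neg hi', if_neg hi]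
        simp only [evE_add, evE_sub, evE_mul, evE_pow, h.lam0, evE_hh, h.lm, evE_nE]
        push_cast
        ring
    · refine Finset.sum_congr rfl fun b _ => ?_
      rw [qfm_mul, dot_xx h hu]
      congr 1
      have : (fun i => evE rs X (xxE G (m + 1) (b + 1) i) * evE rs X (powE (G.lam 0) (a - 2 - b)))
          = fun i => evE rs X (powE (G.lam 0) (a - 2 - b))
            * evE rs X (xxE G (m + 1) (b + 1) i) := by
        funext i; ring
      rw [this, dot_smul, dot_xx h hu, evE_pow, h.lam0]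
      ring
  · refine Finset.sum_congr rfl fun b _ => ?_
    rw [qfm_mul, dot_xx h hu]
    congr 1
    have : (fun i => evE rs X (xxE G (m + 1) (b + 1) i) * evE rs X (powE (G.lam 0) (j - 2 - b)))
        = fun i => evE rs X (powE (G.lam 0) (j - 2 - b))
          * evE rs X (xxE G (m + 1) (b + 1) i) := by
      funext i; ring
    rw [this, dot_smul, dot_xx h hu, evE_pow, h.lam0]
    ring

/-- The matrix `CE` represents `ad D formC`. -/
theorem qfm_C (F : FD) (hD : F.D ≠ 0) {α : ℝ} (hα : (F.ad : ℝ) * α = F.an)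
    (h : PtX G rs X y v lam) (hu : PtU G rs X n u x t) :
    qfm (n + 1) (fun c d => evE rs X (CE G F (m + 1) c d)) u
      = F.ad * F.D * formC F.fam α y v lam 0 x t := by
  simp only [CE, evE_sum, evE_mul, evE_add]
  rw [qfm_add, qfm_add, qfm_add, qfm_sum, qfm_sum, qfm_mul, dot_lf h hu hD, hu.ht, formC]
  have e1 : ∀ j ∈ Finset.range F.na,
      qfm (n + 1) (fun c d => evE rs X (nE F.ad (.mul (peE G (m + 1) (F.a.getD j []))
          (qfE G (m + 1) (j + 1) c d)))
        + evE rs X (lfE G (m + 1) (2 * F.an - F.ad * (2 + j)) F.ad (F.a.getD j []) c)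
          * evE rs X (xxE G (m + 1) (j + 1) d)) u
      = F.ad * F.D * ((F.fam.a j).g y v (pw lam 3) (pw lam 4) * qf lam x 0 (j + 1)
      + (((2 * α - 2 - j) * (F.fam.a j).g y v (pw lam 3) (pw lam 4)
          + (F.fam.a j).zd y v (pw lam 3) (pw lam 4)) * XX lam x 1
        + 3 * (F.fam.a j).gt y v (pw lam 3) (pw lam 4) * XX lam x 2
        + 4 * (F.fam.a j).gi y v (pw lam 3) (pw lam 4) * XX lam x 3) * XX lam x (j + 1)) := by
    intro j _
    rw [qfm_add, qfm_mul, dot_lf h hu hD, dot_xx h hu]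
    simp only [evE_nE, evE_mul]
    rw [qfm_smul, qfm_smul, qfm_qf h hu, evE_g h hD]
    have hf : F.fam.a j = sf F.D (F.a.getD j []) := rfl
    rw [hf]
    push_cast
    rw [← hα]
    ring
  rw [Finset.sum_congr rfl e1]
  have e2 : ∀ q ∈ Finset.range F.ne,
      qfm (n + 1) (fun c d => evE rs X (nE F.ad (.mul (peE G (m + 1) (F.e.getD q []))
          (qeE G (m + 1) (F.ea q) (F.ej q) c d)))
        + evE rs X (lfE G (m + 1) (2 * F.an - F.ad * (1 + F.ea q + F.ej q)) F.ad (F.e.getD q []) c)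
          * evE rs X (xeE G (m + 1) (F.ea q) (F.ej q) d)) u
      = F.ad * F.D * ((F.fam.e q).g y v (pw lam 3) (pw lam 4)
          * qe lam x 0 (F.fam.ea q) (F.fam.ej q)
      + (((2 * α - 1 - F.fam.ea q - F.fam.ej q) * (F.fam.e q).g y v (pw lam 3) (pw lam 4)
          + (F.fam.e q).zd y v (pw lam 3) (pw lam 4)) * XX lam x 1
        + 3 * (F.fam.e q).gt y v (pw lam 3) (pw lam 4) * XX lam x 2
        + 4 * (F.fam.e q).gi y v (pw lam 3) (pw lam 4) * XX lam x 3)
        * XE lam x 0 (F.fam.ea q) (F.fam.ej q)) := by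
    intro q _
    rw [qfm_add, qfm_mul, dot_lf h hu hD, dot_xe h hu]
    simp only [evE_nE, evE_mul]
    rw [qfm_smul, qfm_smul, qfm_qe h hu, evE_g h hD]
    have hf : F.fam.e q = sf F.D (F.e.getD q []) := rfl
    have hf1 : F.fam.ea q = F.ea q := rfl
    have hf2 : F.fam.ej q = F.ej q := rfl
    rw [hf, hf1, hf2]
    push_cast
    rw [← hα]
    ring
  rw [Finset.sum_congr rfl e2, ← Finset.mul_sum, ← Finset.mul_sum]
  simp only [evE_nE, evE_mul]
  rw [qfm_smul, qfm_smul, qfm_mul, hu.ht, evE_g h hD]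
  have hf : F.fam.w = sf F.D F.w := rfl
  have hf1 : F.fam.na = F.na := rfl
  have hf2 : F.fam.ne = F.ne := rfl
  rw [hf, hf1, hf2]
  push_cast
  rw [← hα]
  ring

/-- The vector `BE` represents `ad D formB`. -/
theorem dot_B (F : FD) (hD : F.D ≠ 0) {α : ℝ} (hα : (F.ad : ℝ) * α = F.an)
    (h : PtX G rs X y v lam) (hu : PtU G rs X n u x t) :
    dot (n + 1) (fun c => evE rs X (BE G F (m + 1) c)) u
      = F.ad * F.D * formB F.fam α y v lam 0 x t := by
  simp only [BE, evE_sum, evE_mul, evE_sub, evE_add]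
  rw [dot_add, dot_sub, dot_add, dot_sum, dot_sum, dot_sum, dot_smul, hu.ht, formB]
  have e1 : ∀ j ∈ Finset.range F.na,
      dot (n + 1) (fun c => evE rs X (nE F.ad (gkE G (m + 1) (F.a.getD j [])))
        * evE rs X (xxE G (m + 1) (j + 1) c)) u
      = F.ad * F.D * (((F.fam.a j).gz y v (pw lam 3) (pw lam 4)
        + 2 * lam 0 * (F.fam.a j).gv y v (pw lam 3) (pw lam 4)) * XX lam x (j + 1)) := by
    intro j _
    rw [dot_smul, dot_xx h hu, evE_nE, evE_gk h hD]
    have hf : F.fam.a j = sf F.D (F.a.getD j []) := rfl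
    rw [hf]
    ring
  have e2 : ∀ q ∈ Finset.range F.ne,
      dot (n + 1) (fun c => evE rs X (nE F.ad (gkE G (m + 1) (F.e.getD q [])))
        * evE rs X (xeE G (m + 1) (F.ea q) (F.ej q) c)) u
      = F.ad * F.D * (((F.fam.e q).gz y v (pw lam 3) (pw lam 4)
        + 2 * lam 0 * (F.fam.e q).gv y v (pw lam 3) (pw lam 4))
          * XE lam x 0 (F.fam.ea q) (F.fam.ej q)) := by
    intro q _
    rw [dot_smul, dot_xe h hu, evE_nE, evE_gk h hD]
    have hf : F.fam.e q = sf F.D (F.e.getD q []) := rfl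
    have hf1 : F.fam.ea q = F.ea q := rfl
    have hf2 : F.fam.ej q = F.ej q := rfl
    rw [hf, hf1, hf2]
    ring
  have e3 : ∀ j ∈ Finset.range F.nf,
      dot (n + 1) (fun c => evE rs X (powE (G.lam 0) j)
          * evE rs X (lfE G (m + 1) (2 * F.an + F.ad * (1 - j)) F.ad (F.f.getD j []) c)
        + evE rs X (nE F.ad (.mul (peE G (m + 1) (F.f.getD j []))
        (sumE (fun i => .mul (xxE G (m + 1) (i + 1) c) (powE (G.lam 0) (j - 2 - i)))
          (j - 1))))) u
      = F.ad * F.D * (lam 0 ^ j * ((((2 * α + 1 - j)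
            * (F.fam.f j).g y v (pw lam 3) (pw lam 4))
          + (F.fam.f j).zd y v (pw lam 3) (pw lam 4)) * XX lam x 1
        + 3 * (F.fam.f j).gt y v (pw lam 3) (pw lam 4) * XX lam x 2
        + 4 * (F.fam.f j).gi y v (pw lam 3) (pw lam 4) * XX lam x 3)
      + (F.fam.f j).g y v (pw lam 3) (pw lam 4)
        * ∑ i ∈ Finset.range (j - 1), XX lam x (i + 1) * lam 0 ^ (j - 2 - i)) := by
    intro j _
    rw [dot_add, dot_smul, dot_lf h hu hD, evE_pow, h.lam0]
    simp only [evE_nE, evE_mul, evE_sum, evE_pow, h.lam0]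
    rw [dot_smul, dot_smul, dot_sum]
    have e4 : ∀ i ∈ Finset.range (j - 1),
        dot (n + 1) (fun c => evE rs X (xxE G (m + 1) (i + 1) c) * lam 0 ^ (j - 2 - i)) u
          = XX lam x (i + 1) * lam 0 ^ (j - 2 - i) := by
      intro i _
      have : (fun c => evE rs X (xxE G (m + 1) (i + 1) c) * lam 0 ^ (j - 2 - i))
          = fun c => lam 0 ^ (j - 2 - i) * evE rs X (xxE G (m + 1) (i + 1) c) := by
        funext c; ring
      rw [this, dot_smul, dot_xx h hu]
      ring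
    rw [Finset.sum_congr rfl e4, evE_g h hD]
    have hf : F.fam.f j = sf F.D (F.f.getD j []) := rfl
    rw [hf]
    push_cast
    rw [← hα]
    ring
  rw [Finset.sum_congr rfl e1, Finset.sum_congr rfl e2, Finset.sum_congr rfl e3,
    ← Finset.mul_sum, ← Finset.mul_sum, ← Finset.mul_sum]
  simp only [evE_nE]
  rw [evE_gk h hD]
  have hf : F.fam.w = sf F.D F.w := rfl
  have hf1 : F.fam.na = F.na := rfl
  have hf2 : F.fam.ne = F.ne := rfl
  have hf3 : F.fam.nf = F.nf := rfl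
  rw [hf, hf1, hf2, hf3]
  ring

theorem evE_G (F : FD) (hD : F.D ≠ 0) (h : PtX G rs X y v lam) :
    evE rs X (GE G F (m + 1)) = F.D * formG F.fam y v lam := by
  simp only [GE, evE_nE, evE_sum, evE_ite, evE_mul, evE_c, h.pw]
  rw [formG]
  have hf3 : F.fam.nf = F.nf := rfl
  have : ∀ j ∈ Finset.range F.nf, (if j = 0 then ((0 : ℤ) : ℝ)
      else evE rs X (peE G (m + 1) (F.f.getD j [])) * pw lam (j + 1))
      = F.D * (if j = 0 then 0 else
        (F.fam.f j).g y v (pw lam 3) (pw lam 4) * pw lam (j + 1)) := by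
    intro j _
    split_ifs
    · simp only [Int.cast_zero, mul_zero]
    · rw [evE_g h hD]
      have hf : F.fam.f j = sf F.D (F.f.getD j []) := rfl
      rw [hf]
      ring
  rw [hf3, Finset.sum_congr rfl this, ← Finset.mul_sum]
  push_cast
  ring

theorem evE_A (F : FD) (hD : F.D ≠ 0) (h : PtX G rs X y v lam) :
    evE rs X (AE G F (m + 1)) = F.ad * F.D * formA F.fam y v lam 0 := by
  simp only [AE, evE_nE, evE_sub, evE_mul, evE_sum, evE_pow, evE_v, h.lam0, h.h1]
  rw [evE_G F hD h, formA]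
  have hf3 : F.fam.nf = F.nf := rfl
  rw [hf3, mul_sub, mul_sub, mul_assoc]
  congr 1
  have : ∀ j ∈ Finset.range F.nf, evE rs X (gkE G (m + 1) (F.f.getD j [])) * lam 0 ^ j
      = F.D * (((F.fam.f j).gz y v (pw lam 3) (pw lam 4)
        + 2 * lam 0 * (F.fam.f j).gv y v (pw lam 3) (pw lam 4)) * lam 0 ^ j) := by
    intro j _
    rw [evE_gk h hD]
    have hf : F.fam.f j = sf F.D (F.f.getD j []) := rfl
    rw [hf]
    ring
  rw [Finset.sum_congr rfl this, ← Finset.mul_sum]
  ring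

/-- The weights of the entries: `1`, except `ρ` in the first row and column. -/
noncomputable def wgt (ρ : ℝ) (i j : ℕ) : ℝ :=
  if i = 0 then (if j = 0 then 1 else ρ) else (if j = 0 then ρ else 1)

/-- The whole form. -/
theorem form_eq (F : FD) (hD : F.D ≠ 0) {α : ℝ} (hα : (F.ad : ℝ) * α = F.an)
    (h : PtX G rs X y v lam) {ρ ξ : ℝ} {U : ℕ → ℝ} (hU : U 0 = ξ) (hu : PtU G rs X n u x t)
    (hUu : ∀ i, U (i + 1) = u (i + 1)) (s : ℤ) :
    ∑ i ∈ Finset.range (n + 1), ∑ j ∈ Finset.range (n + 1),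
        evE rs X (TE G F (m + 1) s i j) * (wgt ρ i j * (U i * U j))
      = 2 * s * F.ad * F.D * (formA F.fam y v lam 0 * ξ ^ 2
        + ρ * ξ * formB F.fam α y v lam 0 x t + formC F.fam α y v lam 0 x t) := by
  have hC := qfm_C (rs := rs) F hD hα h hu
  have hB := dot_B (rs := rs) F hD hα h hu
  have hA := evE_A (rs := rs) F hD h
  have hsym : ∑ i ∈ Finset.range (n + 1), ∑ j ∈ Finset.range (n + 1),
        evE rs X (TE G F (m + 1) s i j) * (wgt ρ i j * (U i * U j))
      = 2 * s * ∑ i ∈ Finset.range (n + 1), ∑ j ∈ Finset.range (n + 1),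
        evE rs X (ME G F (m + 1) i j) * (wgt ρ i j * (U i * U j)) := by
    simp only [TE, evE_nE, evE_add, mul_add, add_mul, Finset.sum_add_distrib]
    have : ∑ i ∈ Finset.range (n + 1), ∑ j ∈ Finset.range (n + 1),
        (s : ℝ) * evE rs X (ME G F (m + 1) j i) * (wgt ρ i j * (U i * U j))
        = ∑ i ∈ Finset.range (n + 1), ∑ j ∈ Finset.range (n + 1),
        (s : ℝ) * evE rs X (ME G F (m + 1) i j) * (wgt ρ i j * (U i * U j)) := by
      rw [Finset.sum_comm]
      refine Finset.sum_congr rfl fun i _ => Finset.sum_congr rfl fun j _ => ?_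
      have : wgt ρ j i = wgt ρ i j := by
        simp only [wgt]; split_ifs <;> rfl
      rw [this]
      ring
    rw [this]
    simp only [Finset.mul_sum]
    rw [← two_mul, Finset.mul_sum]
    refine Finset.sum_congr rfl fun i _ => ?_
    rw [Finset.mul_sum]
    refine Finset.sum_congr rfl fun j _ => ?_
    ring
  rw [hsym]
  have h1 : ∑ i ∈ Finset.range (n + 1), ∑ j ∈ Finset.range (n + 1),
        evE rs X (ME G F (m + 1) i j) * (wgt ρ i j * (U i * U j))
      = evE rs X (AE G F (m + 1)) * ξ ^ 2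
        + ρ * ξ * dot (n + 1) (fun c => evE rs X (BE G F (m + 1) c)) u
        + qfm (n + 1) (fun c d => evE rs X (CE G F (m + 1) c d)) u := by
    rw [dot, qfm]
    rw [Finset.sum_range_succ' _ n]
    have a1 : ∀ i ∈ Finset.range n, ∑ j ∈ Finset.range (n + 1),
        evE rs X (ME G F (m + 1) (i + 1) j) * (wgt ρ (i + 1) j * (U (i + 1) * U j))
        = ∑ j ∈ Finset.range (n + 1), evE rs X (CE G F (m + 1) (i + 1) j) * (u (i + 1) * u j) := by
      intro i _
      rw [Finset.sum_range_succ', Finset.sum_range_succ' _ n]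
      simp only [ME, wgt, if_neg (Nat.succ_ne_zero _), if_true, evE_c, hu.h0, hUu]
      simp only [one_mul, Int.cast_zero, zero_mul, add_zero, mul_zero]
    rw [Finset.sum_congr rfl a1]
    rw [Finset.sum_range_succ' (fun i => ∑ j ∈ Finset.range (n + 1),
      evE rs X (CE G F (m + 1) i j) * (u i * u j)) n]
    have a2 : ∑ j ∈ Finset.range (n + 1), evE rs X (CE G F (m + 1) 0 j) * (u 0 * u j) = 0 := by
      simp [hu.h0]
    rw [a2, Finset.sum_range_succ' _ n,
      Finset.sum_range_succ' (fun i => evE rs X (BE G F (m + 1) i) * u i) n]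
    simp only [ME, if_neg (Nat.succ_ne_zero _), if_true, wgt, hU, hUu, hu.h0]
    rw [mul_add, Finset.mul_sum]
    have a3 : ∑ j ∈ Finset.range n, evE rs X (BE G F (m + 1) (j + 1)) * (ρ * (ξ * u (j + 1)))
        = ∑ j ∈ Finset.range n, ρ * ξ * (evE rs X (BE G F (m + 1) (j + 1)) * u (j + 1)) :=
      Finset.sum_congr rfl fun j _ => by ring
    rw [a3]
    ring
  rw [h1, hA, hB, hC]
  ring

end Vale.Agent.P098.N
end

section

/-!
# Blocks, groups, entries
-/

namespace Vale.Agent.P098.N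

open Vale.Agent.P098.K

variable {B h : ℕ} {rs : List ℕ} {X : ℕ → ℝ}

/-- Digit lists with monomials. -/
abbrev Cs := List (List (ℕ × List (ℤ × ℕ)))

/-- The values of the types in a row. -/
def rowZ (B bb : ℕ) (cs : Cs) (row : ℕ) : List ℤ := cs.map (lcK B bb row)
noncomputable def rowR (rs : List ℕ) (X : ℕ → ℝ) (bb : ℕ) (cs : Cs) (row : ℕ) : List ℝ :=
  cs.map (lcR rs X bb row)

/-- Largest coefficient sum. -/
def maxL : Cs → ℕ
  | [] => 0
  | c :: cs => max (lcL c) (maxL cs)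

/-- Degree check. -/
def okcs (rs ds : List ℕ) : Cs → Bool
  | [] => true
  | c :: cs => okc rs ds c && okcs rs ds cs

theorem rl_row {ds : List ℕ} {bb : ℕ} (hb : 1 ≤ bb) (row L : ℕ) : ∀ {cs : Cs},
    okcs rs ds cs = true → maxL cs ≤ L →
    RL B rs X ds (2 ^ (bb - 1) * L) (rowZ B bb cs row) (rowR rs X bb cs row) := by
  intro cs
  induction cs with
  | nil => intro _ _; exact List.Forall₂.nil
  | cons c cs ih =>
    intro h hL
    simp only [okcs, Bool.and_eq_true] at h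
    simp only [maxL] at hL
    refine List.Forall₂.cons ?_ (ih h.2 (by omega))
    exact (rep_lc hb row h.1).weaken (leL_refl ds) (Nat.mul_le_mul_left _ (by omega))

/-- Gram matrix. -/
def gramZ (B bb : ℕ) (c c' : Cs) : List ℕ → List (List ℤ)
  | [] => []
  | r :: l => add2 (outer (rowZ B bb c r) (rowZ B bb c' r)) (gramZ B bb c c' l)

noncomputable def gramR (rs : List ℕ) (X : ℕ → ℝ) (bb : ℕ) (c c' : Cs) :
    List ℕ → List (List ℝ)
  | [] => []
  | r :: l => addR2 (outerR (rowR rs X bb c r) (rowR rs X bb c' r)) (gramR rs X bb c c' l)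

theorem rm_gram {ds ds' : List ℕ} {bb : ℕ} (hb : 1 ≤ bb) {c c' : Cs} (hc : okcs rs ds c = true)
    (hc' : okcs rs ds' c' = true)
    (hf : fits rs (List.zipWith (· + ·) ds ds') = true) : ∀ rows : List ℕ,
    RM B rs X (List.zipWith (· + ·) ds ds')
      (rows.length * ((2 ^ (bb - 1) * maxL c) * (2 ^ (bb - 1) * maxL c')))
      (gramZ B bb c c' rows) (gramR rs X bb c c' rows) := by
  intro rows
  induction rows with
  | nil => exact List.Forall₂.nil
  | cons r l ih =>
    have h1 := rl_row (B := B) (X := X) hb r (maxL c) hc le_rfl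
    have h2 := rl_row (B := B) (X := X) hb r (maxL c') hc' le_rfl
    have h3 := RM.add (RM.outer h1 h2 hf) ih
    refine h3.weaken (leL_refl _) (le_of_eq ?_)
    rw [List.length_cons]
    ring

/-- The real Gram matrix. -/
theorem bilR_gram (bb : ℕ) (c c' : Cs) (rows : List ℕ) (xs ys : List ℝ) :
    bilR (gramR rs X bb c c' rows) xs ys
      = (rows.map fun r => dotR (rowR rs X bb c r) xs * dotR (rowR rs X bb c' r) ys).sum := by
  induction rows with
  | nil => simp only [gramR, bilR, List.map_nil, List.sum_nil]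
  | cons r l ih => rw [gramR, bilR_add, bilR_outer, ih, List.map_cons, List.sum_cons]

/-- A block: multiplier, weights of the entries, bits per digit, degree bounds and monomials of the
types for the index `0` and for the other indices, rows. -/
structure Bk where
  m : Ex
  t00 : Ex
  t01 : Ex
  t11 : Ex
  bb : ℕ
  d0 : List ℕ
  d1 : List ℕ
  c0 : Cs
  c1 : Cs
  rows : List ℕ

/-- Weight of the entries. -/
def Bk.th (b : Bk) : ℕ → ℕ → Ex
  | 0, 0 => b.t00
  | 0, _ + 1 => b.t01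
  | _ + 1, 0 => b.t01
  | _ + 1, _ + 1 => b.t11

/-- Monomials for the index `i`. -/
def Bk.cs (b : Bk) : ℕ → Cs
  | 0 => b.c0
  | _ + 1 => b.c1

/-- Degree bounds for the index `i`. -/
def Bk.ds (b : Bk) : ℕ → List ℕ
  | 0 => b.d0
  | _ + 1 => b.d1

/-- Table of class `(i, j)`. -/
def tabZ (B i j : ℕ) : List Bk → List (List ℤ)
  | [] => []
  | b :: l => add2 (scl2 (krE B rs6 (.mul b.m (b.th i j)))
      (gramZ B b.bb (b.cs i) (b.cs j) b.rows)) (tabZ B i j l)

noncomputable def tabR (X : ℕ → ℝ) (i j : ℕ) : List Bk → List (List ℝ)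
  | [] => []
  | b :: l => addR2 (sclR2 (evE rs6 X (.mul b.m (b.th i j)))
      (gramR rs6 X b.bb (b.cs i) (b.cs j) b.rows)) (tabR X i j l)

/-- Bound for the table. -/
def tabL (i j : ℕ) : List Bk → ℕ
  | [] => 0
  | b :: l => lE (.mul b.m (b.th i j))
      * (b.rows.length * ((2 ^ (b.bb - 1) * maxL (b.cs i)) * (2 ^ (b.bb - 1) * maxL (b.cs j))))
      + tabL i j l

/-- Degree bounds of the tables. -/
abbrev dsT : List ℕ := [3, 3, 8, 0, 0, 0]

/-- Well-formedness of the table. -/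
def tabO (i j : ℕ) : List Bk → Bool
  | [] => true
  | b :: l => okE rs6 (.mul b.m (b.th i j)) && Nat.ble 1 b.bb && okcs rs6 (b.ds i) (b.cs i)
      && okcs rs6 (b.ds j) (b.cs j)
      && fits rs6 (List.zipWith (· + ·) (b.ds i) (b.ds j))
      && fits rs6 (List.zipWith (· + ·) (dgE rs6 (.mul b.m (b.th i j)))
          (List.zipWith (· + ·) (b.ds i) (b.ds j)))
      && leL (List.zipWith (· + ·) (dgE rs6 (.mul b.m (b.th i j)))
          (List.zipWith (· + ·) (b.ds i) (b.ds j))) dsT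
      && tabO i j l

theorem rm_tab (i j : ℕ) : ∀ {l : List Bk}, tabO i j l = true →
    RM B rs6 X dsT (tabL i j l) (tabZ B i j l) (tabR X i j l) := by
  intro l
  induction l with
  | nil => intro _; exact List.Forall₂.nil
  | cons b l ih =>
    intro h
    simp only [tabO, Bool.and_eq_true] at h
    obtain ⟨⟨⟨⟨⟨⟨⟨h1, h2⟩, h3⟩, h3'⟩, h4⟩, h5⟩, h6⟩, h7⟩ := h
    have r1 := (rep_Ex (B := B) (X := X) (rs := rs6) (by decide) _ h1).1
    have r2 := rm_gram (B := B) (X := X) (Nat.le_of_ble_eq_true h2) h3 h3' h4 b.rows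
    exact RM.add ((RM.scl r1 r2 h5).weaken h6 le_rfl) (ih h7)

/-! ### Entries -/

/-- Integer dot product and bilinear form. -/
def dotZ : List ℤ → List ℤ → ℤ
  | x :: xs, y :: ys => x * y + dotZ xs ys
  | _, _ => 0

def bilZ : List (List ℤ) → List ℤ → List ℤ → ℤ
  | r :: M, x :: xs, ys => x * dotZ r ys + bilZ M xs ys
  | _, _, _ => 0

theorem rep_dot {ds ds' : List ℕ} {b b' : ℕ} {xs ys : List ℤ} {vs ws : List ℝ}
    (h : RL B rs X ds b xs vs) (h' : RL B rs X ds' b' ys ws)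
    (hf : fits rs (List.zipWith (· + ·) ds ds') = true) :
    Rep B rs X (List.zipWith (· + ·) ds ds') (ys.length * (b * b')) (dotZ xs ys)
      (dotR vs ws) := by
  induction h generalizing ys ws with
  | nil =>
    simp only [dotZ, dotR]
    exact Rep.zero.weaken (leL_refl _) (Nat.zero_le _)
  | @cons x v xs vs hx _ ih =>
    cases h' with
    | nil =>
      simp only [dotZ, dotR]
      exact Rep.zero.weaken (leL_refl _) (Nat.zero_le _)
    | @cons y w ys ws hy hys =>
      simp only [dotZ, dotR]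
      refine ((hx.mul hy hf).add (ih hys)).weaken (leL_refl _) (le_of_eq ?_)
      rw [List.length_cons]
      ring

theorem rep_bil {ds ds' ds'' : List ℕ} {b b' b'' : ℕ} {M : List (List ℤ)} {MR : List (List ℝ)}
    {xs ys : List ℤ} {vs ws : List ℝ}
    (h : RM B rs X ds b M MR) (h' : RL B rs X ds' b' xs vs) (h'' : RL B rs X ds'' b'' ys ws)
    (hf : fits rs (List.zipWith (· + ·) ds ds'') = true)
    (hf' : fits rs (List.zipWith (· + ·) ds' (List.zipWith (· + ·) ds ds'')) = true) :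
    Rep B rs X (List.zipWith (· + ·) ds' (List.zipWith (· + ·) ds ds''))
      (xs.length * (b' * (ys.length * (b * b'')))) (bilZ M xs ys) (bilR MR vs ws) := by
  induction h generalizing xs vs with
  | nil =>
    simp only [bilZ, bilR]
    exact Rep.zero.weaken (leL_refl _) (Nat.zero_le _)
  | @cons r rr M MR hr _ ih =>
    cases h' with
    | nil =>
      simp only [bilZ, bilR]
      exact Rep.zero.weaken (leL_refl _) (Nat.zero_le _)
    | @cons x v xs vs hx hxs =>
      simp only [bilZ, bilR]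
      refine ((hx.mul (rep_dot hr h'' hf) hf').add (ih hxs)).weaken (leL_refl _) (le_of_eq ?_)
      rw [List.length_cons]
      ring

/-- Multiple of a sparse polynomial. -/
def tS (T : ℤ) : S3 → P3
  | [] => []
  | q :: l => add3 (mon q.2.1 q.2.2.1 q.2.2.2 (Int.mul q.1 T)) (tS T l)

/-- Row of a bilinear form with sparse arguments. -/
def rowP (e : S3) : List ℤ → List S3 → P3
  | T :: Ts, f :: fs => add3 (tS T (mulS e f)) (rowP e Ts fs)
  | _, _ => []

/-- Bilinear form with sparse arguments. -/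
def bilP : List (List ℤ) → List S3 → List S3 → P3
  | r :: M, e :: es, fs => add3 (bif e.isEmpty then [] else rowP e r fs) (bilP M es fs)
  | _, _, _ => []

theorem fv3_nil (s t r : ℤ) : fv3 s t r [] = 0 := rfl

theorem fv3_tS (s t r T : ℤ) (l : S3) : fv3 s t r (tS T l) = T * fvS s t r l := by
  induction l with
  | nil => simp only [tS, fv3_nil, fvS, mul_zero]
  | cons q l ih =>
    rw [tS, fv3_add, ih, fv3_mon, fvS]
    have : Int.mul q.1 T = q.1 * T := rfl
    rw [this]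
    ring

theorem fv3_rowP (s t r : ℤ) (e : S3) : ∀ (Ts : List ℤ) (fs : List S3),
    fv3 s t r (rowP e Ts fs) = fvS s t r e * dotZ Ts (fs.map (fvS s t r)) := by
  intro Ts
  induction Ts with
  | nil => intro fs; simp only [rowP, fv3_nil, dotZ, mul_zero]
  | cons T Ts ih =>
    intro fs
    cases fs with
    | nil => simp only [rowP, fv3_nil, List.map_nil, dotZ, mul_zero]
    | cons f fs =>
      simp only [rowP, List.map_cons, dotZ]
      rw [fv3_add, fv3_tS, fvS_mul, ih]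
      ring

theorem fv3_bilP (s t r : ℤ) : ∀ (M : List (List ℤ)) (es fs : List S3),
    fv3 s t r (bilP M es fs) = bilZ M (es.map (fvS s t r)) (fs.map (fvS s t r)) := by
  intro M
  induction M with
  | nil => intro es fs; simp only [bilP, fv3_nil, bilZ]
  | cons Ts M ih =>
    intro es fs
    cases es with
    | nil => simp [bilP, bilZ, fv3_nil]
    | cons e es =>
      simp only [bilP, List.map_cons, bilZ]
      rw [fv3_add, ih]
      congr 1
      cases he : e.isEmpty with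
      | true =>
        rw [eq_nil_of_isEmpty e he]
        simp [fv3_nil, fvS]
      | false => rw [cond_false, fv3_rowP]

/-- A group: components (for every index the list of the types) and blocks. -/
structure Grp where
  comps : List (List (List S3))
  blks : List Bk

/-- Entry `(i, j)` of the components. -/
def cmpP (M : List (List ℤ)) (i j : ℕ) : List (List (List S3)) → P3
  | [] => []
  | c :: l => add3 (bilP M (c.getD i []) (c.getD j [])) (cmpP M i j l)

noncomputable def cmpR (X : ℕ → ℝ) (M : List (List ℝ)) (i j : ℕ) : List (List (List S3)) → ℝ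
  | [] => 0
  | c :: l => bilR M ((c.getD i []).map (evS X)) ((c.getD j []).map (evS X)) + cmpR X M i j l

def cmpL (bT bE i j : ℕ) : List (List (List S3)) → ℕ
  | [] => 0
  | c :: l => (c.getD i []).length * (bE * ((c.getD j []).length * (bT * bE))) + cmpL bT bE i j l

/-- Class of an index. -/
def kd : ℕ → ℕ
  | 0 => 0
  | _ + 1 => 1

/-- Entry `(i, j)` of the sum of squares. -/
def sosP (B i j : ℕ) : List Grp → P3
  | [] => []
  | g :: l => add3 (cmpP (tabZ B (kd i) (kd j) g.blks) i j g.comps) (sosP B i j l)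

noncomputable def sosR (X : ℕ → ℝ) (i j : ℕ) : List Grp → ℝ
  | [] => 0
  | g :: l => cmpR X (tabR X (kd i) (kd j) g.blks) i j g.comps + sosR X i j l

def sosL (bE i j : ℕ) : List Grp → ℕ
  | [] => 0
  | g :: l => cmpL (tabL (kd i) (kd j) g.blks) bE i j g.comps + sosL bE i j l

/-- Check of a list of sparse polynomials. -/
def okSs (bE : ℕ) : List S3 → Bool
  | [] => true
  | e :: l => okS e && Nat.ble (lS e) bE && okSs bE l

def cmpO (bE i j : ℕ) : List (List (List S3)) → Bool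
  | [] => true
  | c :: l => okSs bE (c.getD i []) && okSs bE (c.getD j []) && cmpO bE i j l

def sosO (bE i j : ℕ) : List Grp → Bool
  | [] => true
  | g :: l => tabO (kd i) (kd j) g.blks && cmpO bE i j g.comps && sosO bE i j l

theorem rl_S {bE : ℕ} : ∀ {l : List S3}, okSs bE l = true →
    RL B rs6 X [0, 0, 0, 4, 4, 4] bE
      (l.map (fvS ((B : ℤ) ^ 272) ((B : ℤ) ^ 4624) ((B : ℤ) ^ 78608))) (l.map (evS X)) := by
  intro l
  induction l with
  | nil => intro _; exact List.Forall₂.nil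
  | cons e l ih =>
    intro h
    simp only [okSs, Bool.and_eq_true] at h
    exact List.Forall₂.cons ((rep_S h.1.1).weaken (leL_refl _) (Nat.le_of_ble_eq_true h.1.2))
      (ih h.2)

theorem rep_cmp {bT bE i j : ℕ} {M : List (List ℤ)} {MR : List (List ℝ)}
    (hM : RM B rs6 X dsT bT M MR) : ∀ {l : List (List (List S3))}, cmpO bE i j l = true →
    Rep B rs6 X [3, 3, 8, 8, 8, 8] (cmpL bT bE i j l)
      (fv3 ((B : ℤ) ^ 272) ((B : ℤ) ^ 4624) ((B : ℤ) ^ 78608) (cmpP M i j l))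
      (cmpR X MR i j l) := by
  intro l
  induction l with
  | nil => intro _; simpa only [cmpL, cmpP, fv3_nil, cmpR] using Rep.zero
  | cons c l ih =>
    intro h
    simp only [cmpO, Bool.and_eq_true] at h
    obtain ⟨⟨h1, h2⟩, h3⟩ := h
    rw [cmpP, cmpR, cmpL, fv3_add, fv3_bilP]
    refine Rep.add ?_ (ih h3)
    have := rep_bil hM (rl_S (B := B) (X := X) h1) (rl_S (B := B) (X := X) h2) (by decide)
      (by decide)
    simpa only [List.getD_eq_getElem?_getD, List.zipWith_cons_cons, add_zero, zero_add, List.zipWith_self,     List.map_nil, List.map_cons, Nat.reduceAdd, List.length_map] using this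

theorem rep_sos {bE i j : ℕ} : ∀ {l : List Grp}, sosO bE i j l = true →
    Rep B rs6 X [3, 3, 8, 8, 8, 8] (sosL bE i j l)
      (fv3 ((B : ℤ) ^ 272) ((B : ℤ) ^ 4624) ((B : ℤ) ^ 78608) (sosP B i j l))
      (sosR X i j l) := by
  intro l
  induction l with
  | nil => intro _; simpa only [sosL, sosP, fv3_nil, sosR] using Rep.zero
  | cons g l ih =>
    intro h
    simp only [sosO, Bool.and_eq_true] at h
    rw [sosP, sosR, sosL, fv3_add]
    exact (rep_cmp (rm_tab (kd i) (kd j) h.1.1) h.1.2).add (ih h.2)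

/-! ### Evaluation of expressions as nested lists -/

/-- Value of an expression as a nested list. -/
def evq (B : ℕ) : Ex → P3
  | .v 3 => mon 1 0 0 1
  | .v 4 => mon 0 1 0 1
  | .v 5 => mon 0 0 1 1
  | .v i => [[[(B : ℤ) ^ wt rs6 i]]]
  | .c n => [[[n]]]
  | .p _ l => [[[kr B l]]]
  | .add a b => add3 (evq B a) (evq B b)
  | .sub a b => add3 (evq B a) (scl3 (-1) (evq B b))
  | .mul a b => mul3 (evq B a) (evq B b)

theorem fv3_const (s t r n : ℤ) : fv3 s t r [[[n]]] = n := by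
  simp only [fv3, pev, fv2, fv1, mul_zero, add_zero]

theorem fv3_evq (e : Ex) : fv3 ((B : ℤ) ^ 272) ((B : ℤ) ^ 4624) ((B : ℤ) ^ 78608) (evq B e)
    = krE B rs6 e := by
  induction e with
  | v i =>
    rcases Nat.lt_or_ge i 3 with h | h
    · have : evq B (.v i) = [[[(B : ℤ) ^ wt rs6 i]]] := by
        interval_cases i <;> rfl
      rw [this, fv3_const]; rfl
    · rcases Nat.lt_or_ge i 6 with h' | h'
      · have : i = 3 ∨ i = 4 ∨ i = 5 := by (clear * - h h'; omega)
        rcases this with rfl | rfl | rfl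
        · have e : krE B rs6 (.v 3) = (B : ℤ) ^ wt rs6 3 := rfl
          rw [evq, fv3_mon, e]; simp only [pow_one, one_mul, pow_zero, mul_one, wt, Nat.reduceMul]
        · have e : krE B rs6 (.v 4) = (B : ℤ) ^ wt rs6 4 := rfl
          rw [evq, fv3_mon, e]; simp only [pow_zero, mul_one, pow_one, one_mul, wt, Nat.reduceMul]
        · have e : krE B rs6 (.v 5) = (B : ℤ) ^ wt rs6 5 := rfl
          rw [evq, fv3_mon, e]; simp only [pow_zero, mul_one, pow_one, one_mul, wt, Nat.reduceMul]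
      · obtain ⟨k, rfl⟩ : ∃ k, i = k + 6 := ⟨i - 6, by omega⟩
        have : evq B (.v (k + 6)) = [[[(B : ℤ) ^ wt rs6 (k + 6)]]] := rfl
        rw [this, fv3_const]; rfl
  | c n => rw [evq, fv3_const]; rfl
  | p ds l => rw [evq, fv3_const]; rfl
  | add a b iha ihb => rw [evq, fv3_add, iha, ihb]; rfl
  | sub a b iha ihb =>
    have e : krE B rs6 (.sub a b) = krE B rs6 a - krE B rs6 b := rfl
    rw [evq, fv3_add, fv3_scl, iha, ihb, e]; ring
  | mul a b iha ihb => rw [evq, fv3_mul, iha, ihb]; rfl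

theorem tabR_nil (X : ℕ → ℝ) (i j : ℕ) : tabR X i j [] = [] := by rw [tabR]

theorem tabZ_nil (B i j : ℕ) : tabZ B i j [] = [] := by rw [tabZ]

theorem gramZ_nil (B bb : ℕ) (c c' : Cs) : gramZ B bb c c' [] = [] := by rw [gramZ]

end Vale.Agent.P098.N
end

section

/-!
# The checker: soundness
-/

namespace Vale.Agent.P098.N

open Vale.Agent.P098.K

variable {X : ℕ → ℝ}

/-! ### Symmetry and positivity of the sums of squares -/

theorem th_symm (b : Bk) (i j : ℕ) : b.th i j = b.th j i := by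
  cases i <;> cases j <;> rfl

theorem bilR_tab_symm (i j : ℕ) (xs ys : List ℝ) : ∀ l : List Bk,
    bilR (tabR X i j l) xs ys = bilR (tabR X j i l) ys xs := by
  intro l
  induction l with
  | nil => simp [tabR, bilR]
  | cons b l ih =>
    rw [tabR, tabR, bilR_add, bilR_add, bilR_scl, bilR_scl, bilR_gram, bilR_gram, ih,
      th_symm b i j]
    congr 2
    congr 1
    refine List.map_congr_left fun r _ => ?_
    ring

theorem cmpR_symm (k k' i j : ℕ) (bl : List Bk) : ∀ l : List (List (List S3)),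
    cmpR X (tabR X k k' bl) i j l = cmpR X (tabR X k' k bl) j i l := by
  intro l
  induction l with
  | nil => rfl
  | cons c l ih => rw [cmpR, cmpR, bilR_tab_symm, ih]

theorem sosR_symm (i j : ℕ) : ∀ l : List Grp, sosR X i j l = sosR X j i l := by
  intro l
  induction l with
  | nil => rfl
  | cons g l ih => rw [sosR, sosR, ih, cmpR_symm]

/-- Compatibility of a block with the weights. -/
def Bk.good (b : Bk) (X : ℕ → ℝ) (ρ : ℝ) : Prop :=
  0 ≤ evE rs6 X b.m ∧ ∃ r0 r1 : ℝ, evE rs6 X b.t00 = r0 * r0 ∧ evE rs6 X b.t01 * ρ = r0 * r1 ∧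
    evE rs6 X b.t11 = r1 * r1

theorem Bk.good_th {b : Bk} {ρ r0 r1 : ℝ} (h0 : evE rs6 X b.t00 = r0 * r0)
    (h1 : evE rs6 X b.t01 * ρ = r0 * r1) (h2 : evE rs6 X b.t11 = r1 * r1) (i j : ℕ) :
    evE rs6 X (b.th (kd i) (kd j)) * wgt ρ i j
      = (if i = 0 then r0 else r1) * (if j = 0 then r0 else r1) := by
  cases i with
  | zero =>
    cases j with
    | zero => simp only [th, kd, h0, wgt, ↓reduceIte, mul_one]
    | succ j => simp only [th, kd, wgt, ↓reduceIte, Nat.add_eq_zero_iff, one_ne_zero, and_false, h1]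
  | succ i =>
    cases j with
    | zero => simp only [th, kd, wgt, Nat.add_eq_zero_iff, one_ne_zero, and_false, ↓reduceIte, h1]; ring
    | succ j => simp only [th, kd, h2, wgt, Nat.add_eq_zero_iff, one_ne_zero, and_false, ↓reduceIte, mul_one]

theorem rows_nonneg (n : ℕ) (f : ℕ → ℕ → ℝ) (s : ℕ → ℝ) (rows : List ℕ) :
    0 ≤ ∑ i ∈ Finset.range n, ∑ j ∈ Finset.range n,
      (rows.map fun r => f r i * f r j).sum * (s i * s j) := by
  induction rows with
  | nil => simp
  | cons r l ih =>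
    simp only [List.map_cons, List.sum_cons, add_mul, Finset.sum_add_distrib]
    refine add_nonneg ?_ ih
    have : ∑ i ∈ Finset.range n, ∑ j ∈ Finset.range n, f r i * f r j * (s i * s j)
        = (∑ i ∈ Finset.range n, f r i * s i) ^ 2 := by
      rw [sq, Finset.sum_mul_sum]
      refine Finset.sum_congr rfl fun i _ => Finset.sum_congr rfl fun j _ => ?_
      ring
    rw [this]
    (clear * -; positivity)

theorem tab_nonneg (n : ℕ) (ρ : ℝ) (x : ℕ → List ℝ) (u : ℕ → ℝ) : ∀ l : List Bk,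
    (∀ b ∈ l, b.good X ρ) →
    0 ≤ ∑ i ∈ Finset.range n, ∑ j ∈ Finset.range n,
      bilR (tabR X (kd i) (kd j) l) (x i) (x j) * (wgt ρ i j * (u i * u j)) := by
  intro l
  induction l with
  | nil => intro _; simp [tabR, bilR]
  | cons b l ih =>
    intro h
    simp only [tabR, bilR_add, bilR_scl, add_mul, Finset.sum_add_distrib]
    refine add_nonneg ?_ (ih fun b' hb' => h b' (List.mem_cons_of_mem _ hb'))
    obtain ⟨hm, r0, r1, h0, h1, h2⟩ := h b List.mem_cons_self
    have : ∑ i ∈ Finset.range n, ∑ j ∈ Finset.range n,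
        evE rs6 X (.mul b.m (b.th (kd i) (kd j)))
          * bilR (gramR rs6 X b.bb (b.cs (kd i)) (b.cs (kd j)) b.rows) (x i) (x j)
            * (wgt ρ i j * (u i * u j))
        = evE rs6 X b.m * ∑ i ∈ Finset.range n, ∑ j ∈ Finset.range n,
            (b.rows.map fun r => dotR (rowR rs6 X b.bb (b.cs (kd i)) r) (x i)
              * dotR (rowR rs6 X b.bb (b.cs (kd j)) r) (x j)).sum
            * (((if i = 0 then r0 else r1) * u i) * ((if j = 0 then r0 else r1) * u j)) := by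
      rw [Finset.mul_sum]
      refine Finset.sum_congr rfl fun i _ => ?_
      rw [Finset.mul_sum]
      refine Finset.sum_congr rfl fun j _ => ?_
      have := Bk.good_th h0 h1 h2 i j
      rw [bilR_gram]
      simp only [evE]
      linear_combination evE rs6 X b.m
        * (b.rows.map fun r => dotR (rowR rs6 X b.bb (b.cs (kd i)) r) (x i)
              * dotR (rowR rs6 X b.bb (b.cs (kd j)) r) (x j)).sum * (u i * u j) * this
    rw [this]
    exact mul_nonneg hm (rows_nonneg n (fun r i => dotR (rowR rs6 X b.bb (b.cs (kd i)) r) (x i))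
      (fun i => (if i = 0 then r0 else r1) * u i) b.rows)

theorem cmp_nonneg (n : ℕ) (ρ : ℝ) (u : ℕ → ℝ) (bl : List Bk) (hb : ∀ b ∈ bl, b.good X ρ) :
    ∀ l : List (List (List S3)),
    0 ≤ ∑ i ∈ Finset.range n, ∑ j ∈ Finset.range n,
      cmpR X (tabR X (kd i) (kd j) bl) i j l * (wgt ρ i j * (u i * u j)) := by
  intro l
  induction l with
  | nil => simp [cmpR]
  | cons c l ih =>
    simp only [cmpR, add_mul, Finset.sum_add_distrib]
    exact add_nonneg (tab_nonneg n ρ (fun i => (c.getD i []).map (evS X)) u bl hb) ih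

theorem sos_nonneg (n : ℕ) (ρ : ℝ) (u : ℕ → ℝ) : ∀ l : List Grp,
    (∀ g ∈ l, ∀ b ∈ g.blks, b.good X ρ) →
    0 ≤ ∑ i ∈ Finset.range n, ∑ j ∈ Finset.range n,
      sosR X i j l * (wgt ρ i j * (u i * u j)) := by
  intro l
  induction l with
  | nil => intro _; simp [sosR]
  | cons g l ih =>
    intro h
    simp only [sosR, add_mul, Finset.sum_add_distrib]
    exact add_nonneg (cmp_nonneg n ρ u g.blks (h g List.mem_cons_self) g.comps)
      (ih fun g' hg' => h g' (List.mem_cons_of_mem _ hg'))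

/-! ### The check -/

/-- Certificate data. -/
structure Cd where
  B : ℕ
  h : ℕ
  bE : ℕ
  grps : List Grp

/-- Final check of a residual. -/
def fin (B h Δ : ℕ) (R : P3) : Bool := rchk B R && Nat.ble (rbd B h R) Δ

/-- The residual of an entry. -/
def Cd.res (c : Cd) (T : Ex) (e : ℤ) (i j : ℕ) : P3 :=
  add3 (evq c.B (.sub T (.c e))) (scl3 (-1) (sosP c.B i j c.grps))

/-- The cheap part of the check. -/
def Cd.chk0 (c : Cd) (T : Ex) (e : ℤ) (i j : ℕ) : Bool :=
  okE rs6 T && leL (dgE rs6 T) [3, 3, 8, 8, 8, 8] && sosO c.bE i j c.grps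
    && Nat.blt ((lE T + e.natAbs + sosL c.bE i j c.grps) * 893101) c.h
    && Nat.ble (2 * c.h) c.B

/-- The whole check of an entry. -/
def Cd.chk (c : Cd) (T : Ex) (e : ℤ) (Δ i j : ℕ) : Bool :=
  c.chk0 T e i j && fin c.B c.h Δ (c.res T e i j)

theorem Cd.chk_sound {c : Cd} (hX : Pt X)
    (hs : 20 * X 2 ^ 2 + 4 * (X 3 ^ 2 + X 4 ^ 2 + X 5 ^ 2) = 1) {T : Ex} {e : ℤ} {Δ i j : ℕ}
    (h : c.chk T e Δ i j = true) :
    |evE rs6 X T - e - sosR X i j c.grps| * 2 ^ 24 ≤ Δ := by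
  simp only [chk, chk0, fin, Bool.and_eq_true] at h
  obtain ⟨⟨⟨⟨⟨h1, h2⟩, h3⟩, h4⟩, h5⟩, h6, h7⟩ := h
  obtain ⟨r1, hl⟩ := rep_Ex (B := c.B) (X := X) (rs := rs6) (by decide) T h1
  have r1' := r1.weaken h2 le_rfl
  have r2 := (Rep.const (B := c.B) (X := X) (rs := rs6) e).weaken
    (ds' := [3, 3, 8, 8, 8, 8]) (by decide) le_rfl
  have r3 := rep_sos (B := c.B) (X := X) h3
  have r4 := (r1'.sub r2).sub r3
  have e1 : fv3 ((c.B : ℤ) ^ 272) ((c.B : ℤ) ^ 4624) ((c.B : ℤ) ^ 78608) (c.res T e i j)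
      = krE c.B rs6 T - e - fv3 ((c.B : ℤ) ^ 272) ((c.B : ℤ) ^ 4624) ((c.B : ℤ) ^ 78608)
        (sosP c.B i j c.grps) := by
    rw [Cd.res, fv3_add, fv3_scl, fv3_evq]
    simp only [krE]
    ring
  rw [← e1] at r4
  have h4' : (lE T + e.natAbs + sosL c.bE i j c.grps) * 893101 < c.h := by
    rw [Nat.blt, Nat.ble_eq] at h4
    exact h4
  refine (reduce_bound hX hs r4 h4' (Nat.le_of_ble_eq_true h5) h6).trans ?_
  exact_mod_cast Nat.le_of_ble_eq_true h7

/-- Main theorem: if all entries pass the check, the quadratic form with matrix `T i j * w i j` is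
positive definite. -/
theorem Cd.main {c : Cd} (hX : Pt X)
    (hs : 20 * X 2 ^ 2 + 4 * (X 3 ^ 2 + X 4 ^ 2 + X 5 ^ 2) = 1) {n : ℕ}
    {T : ℕ → ℕ → Ex} {ε Δ : ℕ}
    (hchk : ∀ i < n, ∀ j < n, i ≤ j → c.chk (T i j) (if i = j then (ε : ℤ) else 0) Δ i j = true)
    (hsym : ∀ i < n, ∀ j < n, evE rs6 X (T i j) = evE rs6 X (T j i))
    {ρ : ℝ} (hρ : |ρ| ≤ 1)
    (hb : ∀ g ∈ c.grps, ∀ b ∈ g.blks, b.good X ρ) (u : ℕ → ℝ) :
    ((ε : ℝ) - n * (Δ / 2 ^ 24)) * ∑ i ∈ Finset.range n, u i ^ 2 ≤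
      ∑ i ∈ Finset.range n, ∑ j ∈ Finset.range n, evE rs6 X (T i j) * (wgt ρ i j * (u i * u j)) := by
  set δ : ℝ := Δ / 2 ^ 24 with hδ
  have hδ0 : 0 ≤ δ := by (clear * -; positivity)
  have hw : ∀ i j, |wgt ρ i j| ≤ 1 := by
    intro i j
    simp only [wgt]
    split_ifs <;> simp [hρ]
  have hwd : ∀ i, wgt ρ i i = 1 := by
    intro i
    simp only [wgt]
    split_ifs <;> rfl
  have key : ∀ i < n, ∀ j < n, |evE rs6 X (T i j) - sosR X i j c.grps
      - (if i = j then (ε : ℝ) else 0)| ≤ δ := by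
    intro i hi j hj
    rw [hδ, le_div_iff₀ (by positivity)]
    rcases le_total i j with hij | hij
    · have := Cd.chk_sound hX hs (hchk i hi j hj hij)
      refine le_trans (le_of_eq ?_) this
      congr 2
      split_ifs <;> push_cast <;> ring
    · have := Cd.chk_sound hX hs (hchk j hj i hi hij)
      refine le_trans (le_of_eq ?_) this
      rw [hsym i hi j hj, sosR_symm i j]
      congr 2
      by_cases h : i = j
      · subst h; simp only [↓reduceIte, Int.cast_natCast]; ring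
      · rw [if_neg h, if_neg (fun h' => h h'.symm)]; push_cast; ring
  have h1 := sos_nonneg n ρ u c.grps hb
  have h2 : ∑ i ∈ Finset.range n, ∑ j ∈ Finset.range n,
      (if i = j then (ε : ℝ) else 0) * (wgt ρ i j * (u i * u j))
      = ε * ∑ i ∈ Finset.range n, u i ^ 2 := by
    rw [Finset.mul_sum]
    refine Finset.sum_congr rfl fun i hi => ?_
    rw [Finset.sum_eq_single i]
    · rw [if_pos rfl, hwd i]; ring
    · intro j _ hj
      rw [if_neg (fun h => hj h.symm)]; ring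
    · intro h; exact absurd hi h
  have h3 : |∑ i ∈ Finset.range n, ∑ j ∈ Finset.range n,
      (evE rs6 X (T i j) - sosR X i j c.grps - (if i = j then (ε : ℝ) else 0))
        * (wgt ρ i j * (u i * u j))| ≤ n * δ * ∑ i ∈ Finset.range n, u i ^ 2 := by
    have h4 : ∀ i ∈ Finset.range n, ∀ j ∈ Finset.range n,
        |(evE rs6 X (T i j) - sosR X i j c.grps - (if i = j then (ε : ℝ) else 0))
          * (wgt ρ i j * (u i * u j))| ≤ δ * (|u i| * |u j|) := by
      intro i hi j hj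
      rw [abs_mul, abs_mul, abs_mul]
      have e1 := key i (Finset.mem_range.mp hi) j (Finset.mem_range.mp hj)
      have e2 := hw i j
      have e3 : 0 ≤ |u i| * |u j| := by (clear * -; positivity)
      calc _ ≤ δ * (1 * (|u i| * |u j|)) :=
            mul_le_mul e1 (mul_le_mul_of_nonneg_right e2 e3) (by (clear * -; positivity)) hδ0
        _ = _ := by ring
    refine (Finset.abs_sum_le_sum_abs _ _).trans ?_
    refine (Finset.sum_le_sum fun i hi => (Finset.abs_sum_le_sum_abs _ _).trans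
      (Finset.sum_le_sum fun j hj => h4 i hi j hj)).trans ?_
    have h5 : ∑ i ∈ Finset.range n, ∑ j ∈ Finset.range n, δ * (|u i| * |u j|)
        = δ * (∑ i ∈ Finset.range n, |u i|) ^ 2 := by
      rw [sq, Finset.sum_mul_sum, Finset.mul_sum]
      refine Finset.sum_congr rfl fun i _ => ?_
      rw [Finset.mul_sum]
    rw [h5]
    have h6 : (∑ i ∈ Finset.range n, |u i|) ^ 2 ≤ n * ∑ i ∈ Finset.range n, u i ^ 2 := by
      have := sq_sum_le_card_mul_sum_sq (s := Finset.range n) (f := fun i => |u i|)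
      simpa only [ge_iff_le, Finset.card_range, sq_abs] using this
    calc δ * (∑ i ∈ Finset.range n, |u i|) ^ 2 ≤ δ * (n * ∑ i ∈ Finset.range n, u i ^ 2) :=
          mul_le_mul_of_nonneg_left h6 hδ0
      _ = _ := by ring
  have h7 : ∑ i ∈ Finset.range n, ∑ j ∈ Finset.range n,
        evE rs6 X (T i j) * (wgt ρ i j * (u i * u j))
      = (∑ i ∈ Finset.range n, ∑ j ∈ Finset.range n,
          (evE rs6 X (T i j) - sosR X i j c.grps - (if i = j then (ε : ℝ) else 0))
            * (wgt ρ i j * (u i * u j)))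
        + (∑ i ∈ Finset.range n, ∑ j ∈ Finset.range n,
            sosR X i j c.grps * (wgt ρ i j * (u i * u j)))
        + ∑ i ∈ Finset.range n, ∑ j ∈ Finset.range n,
            (if i = j then (ε : ℝ) else 0) * (wgt ρ i j * (u i * u j)) := by
    simp only [← Finset.sum_add_distrib]
    refine Finset.sum_congr rfl fun i _ => Finset.sum_congr rfl fun j _ => ?_
    ring
  rw [h7, h2]
  have := (abs_le.mp h3).1
  linarith only [h1, this]

end Vale.Agent.P098.N
end

section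

/-!
# Tetrahedral coordinates for `m = 5`
-/

namespace Vale.Agent.P098.N

open Vale.Agent.P098.K

/-- `± a ± b ± c - l`. -/
def sgE (p q r : ℤ) : Ex :=
  .sub (.add (.add (nE p (.v 3)) (nE q (.v 4))) (nE r (.v 5))) (.v 2)

/-- The eigenvalues. -/
def lam5 : ℕ → Ex
  | 0 => nE 4 (.v 2)
  | 1 => sgE 1 1 1
  | 2 => sgE 1 (-1) (-1)
  | 3 => sgE (-1) 1 (-1)
  | _ => sgE (-1) (-1) 1

/-- The matrix of `x`. -/
def yv5 : ℕ → ℕ → ℤ
  | 0, 1 => 4
  | 0, _ => 0
  | _, 0 => 0
  | _, 1 => -1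
  | 1, 2 => 1
  | 1, 3 => 1
  | 1, 4 => 1
  | 2, 2 => 1
  | 2, 3 => -1
  | 2, 4 => -1
  | 3, 2 => -1
  | 3, 3 => 1
  | 3, 4 => -1
  | 4, 2 => -1
  | 4, 3 => -1
  | 4, 4 => 1
  | _, _ => 0

/-- The coordinates. -/
def crd5 : Crd where
  lam := lam5
  yv i c := .c (yv5 i c)
  tv c := .c (if c = 5 then 1 else 0)

/-- The point. -/
noncomputable def pt5 (y v : ℝ) (lam : Fin 5 → ℝ) : ℕ → ℝ
  | 0 => y
  | 1 => v
  | 2 => lam 0 / 4
  | 3 => (lam 1 + lam 2) / 2 + lam 0 / 4
  | 4 => (lam 1 + lam 3) / 2 + lam 0 / 4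
  | 5 => (lam 1 + lam 4) / 2 + lam 0 / 4
  | _ => 0

/-- The vector. -/
noncomputable def vec5 (ξ t : ℝ) (x : Fin 5 → ℝ) : ℕ → ℝ
  | 0 => ξ
  | 1 => x 0 / 4
  | 2 => (x 1 + x 2) / 2 + x 0 / 4
  | 3 => (x 1 + x 3) / 2 + x 0 / 4
  | 4 => (x 1 + x 4) / 2 + x 0 / 4
  | 5 => t
  | _ => 0

theorem lam5_0 : lam5 0 = nE 4 (.v 2) := rfl

theorem lam5_1 : lam5 1 = sgE 1 1 1 := rfl

theorem lam5_2 : lam5 2 = sgE 1 (-1) (-1) := rfl

theorem lam5_3 : lam5 3 = sgE (-1) 1 (-1) := rfl

theorem lam5_4 : lam5 4 = sgE (-1) (-1) 1 := rfl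

theorem pt5_0 (y v : ℝ) (lam : Fin 5 → ℝ) : pt5 y v lam 0 = y := rfl

theorem pt5_1 (y v : ℝ) (lam : Fin 5 → ℝ) : pt5 y v lam 1 = v := rfl

theorem pt5_2 (y v : ℝ) (lam : Fin 5 → ℝ) : pt5 y v lam 2 = lam 0 / 4 := rfl

theorem pt5_3 (y v : ℝ) (lam : Fin 5 → ℝ) :
    pt5 y v lam 3 = (lam 1 + lam 2) / 2 + lam 0 / 4 := rfl

theorem pt5_4 (y v : ℝ) (lam : Fin 5 → ℝ) :
    pt5 y v lam 4 = (lam 1 + lam 3) / 2 + lam 0 / 4 := rfl

theorem pt5_5 (y v : ℝ) (lam : Fin 5 → ℝ) :
    pt5 y v lam 5 = (lam 1 + lam 4) / 2 + lam 0 / 4 := rfl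

theorem vec5_0 (ξ t : ℝ) (x : Fin 5 → ℝ) : vec5 ξ t x 0 = ξ := rfl

theorem vec5_1 (ξ t : ℝ) (x : Fin 5 → ℝ) : vec5 ξ t x 1 = x 0 / 4 := rfl

theorem vec5_2 (ξ t : ℝ) (x : Fin 5 → ℝ) : vec5 ξ t x 2 = (x 1 + x 2) / 2 + x 0 / 4 := rfl

theorem vec5_3 (ξ t : ℝ) (x : Fin 5 → ℝ) : vec5 ξ t x 3 = (x 1 + x 3) / 2 + x 0 / 4 := rfl

theorem vec5_4 (ξ t : ℝ) (x : Fin 5 → ℝ) : vec5 ξ t x 4 = (x 1 + x 4) / 2 + x 0 / 4 := rfl

theorem vec5_5 (ξ t : ℝ) (x : Fin 5 → ℝ) : vec5 ξ t x 5 = t := rfl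

theorem ptX5 {y v : ℝ} {lam : Fin 5 → ℝ} (h : pw lam 1 = 0) :
    PtX crd5 rs6 (pt5 y v lam) y v lam := by
  have h1 : lam 0 + lam 1 + lam 2 + lam 3 + lam 4 = 0 := by
    simpa only [Fin.isValue, add_assoc, pw, pow_one, Fin.sum_univ_succ, Fin.succ_zero_eq_one, Fin.succ_one_eq_two,     Fin.reduceSucc, Finset.univ_unique, Fin.default_eq_zero, Finset.sum_singleton] using h
  refine ⟨rfl, rfl, fun i => ?_⟩
  fin_cases i
  · simp only [crd5, lam5, evE_nE, Int.cast_ofNat, evE_v, pt5, Fin.isValue, Fin.zero_eta]; ring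
  · simp only [crd5, lam5, sgE, evE_sub, evE_add, evE_nE, Int.cast_one, evE_v, pt5, Fin.isValue, one_mul, Fin.mk_one]; linarith
  · simp only [crd5, lam5, sgE, Int.reduceNeg, evE_sub, evE_add, evE_nE, Int.cast_one, evE_v, pt5, Fin.isValue, one_mul, Int.cast_neg, neg_mul, neg_add_rev, add_add_neg_add_cancel, Fin.reduceFinMk]; linarith only [h1]
  · simp only [crd5, lam5, sgE, Int.reduceNeg, evE_sub, evE_add, evE_nE, Int.cast_neg, Int.cast_one, evE_v, pt5, Fin.isValue, neg_mul, one_mul, neg_add_rev, Fin.reduceFinMk]; linarith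
  · simp only [crd5, lam5, sgE, Int.reduceNeg, evE_sub, evE_add, evE_nE, Int.cast_neg, Int.cast_one, evE_v, pt5, Fin.isValue, neg_mul, one_mul, neg_add_rev, Fin.reduceFinMk]; linarith

theorem ptU5 {X : ℕ → ℝ} {t : ℝ} {x : Fin 5 → ℝ} (h : ∑ i, x i = 0) :
    PtU crd5 rs6 X 5 (vec5 0 t x) x t := by
  have h1 : x 0 + x 1 + x 2 + x 3 + x 4 = 0 := by
    simpa only [Fin.isValue, add_assoc, Fin.sum_univ_succ, Fin.succ_zero_eq_one, Fin.succ_one_eq_two,     Fin.reduceSucc, Finset.univ_unique, Fin.default_eq_zero, Finset.sum_singleton] using h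
  refine ⟨rfl, fun i => ?_, ?_⟩
  · fin_cases i
    · simp only [dot, Nat.reduceAdd, crd5, yv5, Int.reduceNeg, evE_c, vec5, Fin.isValue, Finset.sum_range_succ, Finset.range_one, Finset.sum_singleton, Int.cast_zero, mul_zero, Int.cast_ofNat, zero_add, zero_mul, add_zero, Fin.zero_eta]; ring
    · simp only [dot, Nat.reduceAdd, crd5, yv5, Int.reduceNeg, evE_c, vec5, Fin.isValue, Finset.sum_range_succ, Finset.range_one, Finset.sum_singleton, Int.cast_zero, mul_zero, Int.cast_neg, Int.cast_one, neg_mul, one_mul, zero_add, neg_add_cancel_comm_assoc, zero_mul, add_zero, Fin.mk_one]; linarith only [h1]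
    · simp [crd5, yv5, dot, Finset.sum_range_succ, vec5]; linarith only [h1]
    · simp only [dot, Nat.reduceAdd, crd5, yv5, Int.reduceNeg, evE_c, vec5, Fin.isValue, Finset.sum_range_succ, Finset.range_one, Finset.sum_singleton, Int.cast_zero, mul_zero, Int.cast_neg, Int.cast_one, neg_mul, one_mul, zero_add, neg_add_rev, zero_mul, add_zero, Fin.reduceFinMk]; linarith
    · simp [crd5, yv5, dot, Finset.sum_range_succ, vec5]; linarith
  · simp only [dot, Nat.reduceAdd, crd5, evE_c, Int.cast_ite, Int.cast_one, Int.cast_zero, vec5, Fin.isValue, ite_mul, one_mul, zero_mul, Finset.sum_ite_eq', Finset.mem_range, Nat.lt_add_one, ↓reduceIte]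

theorem vec5_succ (ξ t : ℝ) (x : Fin 5 → ℝ) (i : ℕ) : vec5 ξ t x (i + 1) = vec5 0 t x (i + 1) := by
  rcases i with _ | _ | _ | _ | _ | i <;> rfl

theorem pt5_ok {y v : ℝ} {lam : Fin 5 → ℝ} (hy0 : 0 ≤ y) (hy1 : y ≤ 1) (hv0 : 0 ≤ v)
    (hv1 : v ≤ 1) (h : pw lam 1 = 0) (h2 : pw lam 2 ≤ 1) :
    Pt (pt5 y v lam) ∧ 20 * pt5 y v lam 2 ^ 2 + 4 * (pt5 y v lam 3 ^ 2 + pt5 y v lam 4 ^ 2
      + pt5 y v lam 5 ^ 2) = pw lam 2 := by
  have h1 : lam 0 + lam 1 + lam 2 + lam 3 + lam 4 = 0 := by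
    simpa only [Fin.isValue, add_assoc, pw, pow_one, Fin.sum_univ_succ, Fin.succ_zero_eq_one, Fin.succ_one_eq_two,     Fin.reduceSucc, Finset.univ_unique, Fin.default_eq_zero, Finset.sum_singleton] using h
  have h3 : pw lam 2 = lam 0 ^ 2 + lam 1 ^ 2 + lam 2 ^ 2 + lam 3 ^ 2 + lam 4 ^ 2 := by
    simp only [pw, Fin.sum_univ_succ, Fin.isValue, Fin.succ_zero_eq_one, Fin.succ_one_eq_two, Fin.reduceSucc, Finset.univ_unique, Fin.default_eq_zero, Finset.sum_singleton, add_assoc]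
  have h4 : lam 4 = -(lam 0 + lam 1 + lam 2 + lam 3) := by linarith only [h1]
  have key : 20 * pt5 y v lam 2 ^ 2 + 4 * (pt5 y v lam 3 ^ 2 + pt5 y v lam 4 ^ 2
      + pt5 y v lam 5 ^ 2) = pw lam 2 := by
    rw [h3]
    simp only [pt5]
    rw [h4]
    ring
  have hs : 20 * pt5 y v lam 2 ^ 2 + 4 * (pt5 y v lam 3 ^ 2 + pt5 y v lam 4 ^ 2
      + pt5 y v lam 5 ^ 2) ≤ 1 := by rw [key]; exact h2
  have q2 := sq_nonneg (pt5 y v lam 2)
  have q3 := sq_nonneg (pt5 y v lam 3)
  have q4 := sq_nonneg (pt5 y v lam 4)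
  have q5 := sq_nonneg (pt5 y v lam 5)
  refine ⟨⟨?_, ?_, ?_, ?_, ?_, ?_⟩, key⟩
  · simp only [pt5]; rw [abs_of_nonneg hy0]; exact hy1
  · simp only [pt5]; rw [abs_of_nonneg hv0]; exact hv1
  · exact abs_le_of_sq_le_sq (by linarith) (by norm_num)
  · exact abs_le_of_sq_le_sq (by linarith) (by norm_num)
  · exact abs_le_of_sq_le_sq (by linarith) (by norm_num)
  · exact abs_le_of_sq_le_sq (by linarith) (by norm_num)

/-! ### Standard blocks -/

/-- Block with multiplier `y` or `1 - y`, of odd (`O`) or even type. -/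
def mkB (my O : Bool) (bb : ℕ) (c0 c1 : Cs) (rows : List ℕ) : Bk where
  m := .mul (bif my then .v 0 else .sub (.c 1) (.v 0)) (bif O then .c 1 else .sub (.c 1) (.v 1))
  t00 := bif O then .v 1 else .c 1
  t01 := .c 1
  t11 := bif O then .c 1 else .v 1
  bb := bb
  d0 := [1, 1, 4, 0, 0, 0]
  d1 := [1, bif O then 1 else 0, 4, 0, 0, 0]
  c0 := c0
  c1 := c1
  rows := rows

theorem good_mkB {X : ℕ → ℝ} {ρ : ℝ} (h0 : 0 ≤ X 0) (h1 : X 0 ≤ 1) (hv : X 1 = ρ ^ 2)
    (hρ0 : 0 ≤ ρ) (hρ1 : ρ ≤ 1) (my O : Bool) (bb : ℕ) (c0 c1 : Cs) (rows : List ℕ) :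
    (mkB my O bb c0 c1 rows).good X ρ := by
  have hv1 : ρ ^ 2 ≤ 1 := pow_le_one₀ hρ0 hρ1
  refine ⟨?_, ?_⟩
  · cases my <;> cases O <;> simp only [mkB, cond_true, cond_false, evE_mul, evE_sub, evE_c, evE_v,
      hv] <;> push_cast
    · exact mul_nonneg (by linarith) (by linarith)
    · linarith
    · exact mul_nonneg h0 (by linarith)
    · linarith
  · cases O
    · refine ⟨1, ρ, ?_, ?_, ?_⟩
      · simp [mkB]
      · simp [mkB]
      · simp [mkB, hv, sq]
    · refine ⟨ρ, 1, ?_, ?_, ?_⟩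
      · simp [mkB, hv, sq]
      · simp [mkB]
      · simp [mkB]

/-- All blocks are standard. -/
def std (g : Grp) : Prop := ∀ b ∈ g.blks, ∃ my O bb c0 c1 rows, b = mkB my O bb c0 c1 rows

theorem TE_symm {rs : List ℕ} {X : ℕ → ℝ} (G : Crd) (F : FD) (m : ℕ) (s : ℤ) (i j : ℕ) :
    evE rs X (TE G F m s i j) = evE rs X (TE G F m s j i) := by
  simp only [TE, evE_nE, evE_add]
  ring

/-- The form is positive definite if all entries pass the check. -/
theorem form_pos5 {F : FD} (hD : 0 < F.D) (hd : 0 < F.ad) {α : ℝ} (hα : (F.ad : ℝ) * α = F.an)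
    {c : Cd} {s : ℕ} (hs : 0 < s) {ε Δ : ℕ} (hε : 6 * Δ < ε * 2 ^ 24)
    (hchk : ∀ i < 6, ∀ j < 6, i ≤ j →
      c.chk (TE crd5 F 5 s i j) (if i = j then (ε : ℤ) else 0) Δ i j = true)
    (hst : ∀ g ∈ c.grps, std g) :
    ∀ y ρ : ℝ, 0 ≤ y → y ≤ 1 → 0 ≤ ρ → ρ ≤ 1 → ∀ lam : Fin 5 → ℝ, pw lam 1 = 0 →
    pw lam 2 = 1 → ∀ (ξ t : ℝ) (x : Fin 5 → ℝ), ∑ i, x i = 0 →
      ¬ (ξ = 0 ∧ t = 0 ∧ x = 0) →
      0 < formA F.fam y (ρ ^ 2) lam 0 * ξ ^ 2 + ρ * ξ * formB F.fam α y (ρ ^ 2) lam 0 x t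
        + formC F.fam α y (ρ ^ 2) lam 0 x t := by
  intro y ρ hy0 hy1 hρ0 hρ1 lam hl1 hl2 ξ t x hx hne
  have hv1 : ρ ^ 2 ≤ 1 := pow_le_one₀ hρ0 hρ1
  obtain ⟨hX, hsph⟩ := pt5_ok hy0 hy1 (sq_nonneg ρ) hv1 hl1 hl2.le
  rw [hl2] at hsph
  have hm := Cd.main (c := c) hX hsph (n := 6) (T := TE crd5 F 5 s) hchk
    (fun i _ j _ => TE_symm crd5 F 5 s i j) (ρ := ρ) (by rw [abs_of_nonneg hρ0]; exact hρ1)
    (by
      intro g hg b hb
      obtain ⟨my, O, bb, c0, c1, rows, rfl⟩ := hst g hg b hb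
      exact good_mkB hy0 hy1 rfl hρ0 hρ1 my O bb c0 c1 rows) (vec5 ξ t x)
  have hform := form_eq (rs := rs6) (X := pt5 y (ρ ^ 2) lam) (G := crd5) (m := 4) (n := 5) F
    hD.ne' hα (ptX5 hl1) (ρ := ρ) (ξ := ξ) (U := vec5 ξ t x) rfl (ptU5 (t := t) hx)
    (fun i => vec5_succ ξ t x i) s
  rw [hform] at hm
  have hu : 0 < ∑ i ∈ Finset.range 6, vec5 ξ t x i ^ 2 := by
    by_contra hcon
    have h0 : ∑ i ∈ Finset.range 6, vec5 ξ t x i ^ 2 = 0 :=
      le_antisymm (not_lt.mp hcon) (Finset.sum_nonneg fun i _ => sq_nonneg _)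
    have h1 := (Finset.sum_eq_zero_iff_of_nonneg fun i _ => sq_nonneg (vec5 ξ t x i)).mp h0
    have h2 : ∀ i < 6, vec5 ξ t x i = 0 := fun i hi =>
      pow_eq_zero_iff two_ne_zero |>.mp (h1 i (Finset.mem_range.mpr hi))
    have e0 := h2 0 (by norm_num)
    have e1 := h2 1 (by norm_num)
    have e2 := h2 2 (by norm_num)
    have e3 := h2 3 (by norm_num)
    have e4 := h2 4 (by norm_num)
    have e5 := h2 5 (by norm_num)
    simp only [vec5] at e0 e1 e2 e3 e4 e5
    have h5 : x 0 + x 1 + x 2 + x 3 + x 4 = 0 := by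
      simpa only [Fin.isValue, add_assoc, Fin.sum_univ_succ, Fin.succ_zero_eq_one, Fin.succ_one_eq_two,     Fin.reduceSucc, Finset.univ_unique, Fin.default_eq_zero, Finset.sum_singleton] using hx
    refine hne ⟨e0, e5, ?_⟩
    funext i
    fin_cases i
    · simp; linarith only [e1]
    · simp; linarith only [e1, e2, e3, e4, h5]
    · simp; linarith only [e1, e2, e3, e4, h5]
    · simp; linarith only [e1, e2, e3, e4, h5]
    · simp; linarith only [e1, e2, e3, e4, h5]
  have hpos : (0 : ℝ) < (ε : ℝ) - (6 : ℕ) * (Δ / 2 ^ 24) := by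
    have : ((6 * Δ : ℕ) : ℝ) < ((ε * 2 ^ 24 : ℕ) : ℝ) := by exact_mod_cast hε
    push_cast at this
    have h2 : (6 : ℝ) * (Δ / 2 ^ 24) < ε := by
      rw [← mul_div_assoc, div_lt_iff₀ (by positivity)]
      have e : (2 : ℝ) ^ 24 = 16777216 := by norm_num
      rw [e]
      exact this
    push_cast
    linarith only [this]
  have h6 := lt_of_lt_of_le (mul_pos hpos hu) hm
  have h7 : (0 : ℝ) < 2 * s * F.ad * F.D := by
    have : (0 : ℝ) < F.ad := by exact_mod_cast hd
    positivity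
  have h8 : (2 * ((s : ℤ) : ℝ) * F.ad * F.D) = 2 * s * F.ad * F.D := by push_cast; ring
  rw [h8] at h6
  exact (pos_iff_pos_of_mul_pos h6).mp h7

end Vale.Agent.P098.N
end
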