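import Mathlib
import Vale.Agent.P098.Bdl.B6
import Vale.Agent.P098.Bdl.B2
import Vale.Agent.P098.Bdl.B4
attribute [-instance] ProperSMul.toContinuousSMul IsTopologicalTorsor.toContinuousSMul IdemSemiring.toCanonicallyOrderedAdd IdemSemiring.toMulLeftMono IdemSemiring.toMulRightMono AddQuantale.instAddLeftMono AddQuantale.instAddRightMono Quantale.instMulLeftMono Quantale.instMulRightMono FiniteDimensional.rclike_to_real IsScalarTower.complexToReal FiniteDimensional.complexToReal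

set_option linter.all false

section

open MeasureTheory Set Metric Filter
open scoped ContDiff RealInnerProductSpace Topology

namespace Vale.Agent.P098.ModI

variable {d : ℕ}

theorem inner_grad (U : E d → ℝ) (x v : E d) : ⟪gradient U x, v⟫ = fderiv ℝ U x v := by
  unfold gradient
  exact InnerProductSpace.toDual_symm_apply

theorem smooth_dir {f : E d → ℝ} {N : Set (E d)} (hN : IsOpen N) (hf : ContDiffOn ℝ ∞ f N)
    (a : E d) : ContDiffOn ℝ ∞ (fun y => fderiv ℝ f y a) N :=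
  (hf.fderiv_of_isOpen hN (by norm_num)).clm_apply contDiffOn_const

theorem dir_swap {f : E d → ℝ} {N : Set (E d)} (hN : IsOpen N) (hf : ContDiffOn ℝ ∞ f N)
    {x : E d} (hx : x ∈ N) (a b : E d) :
    fderiv ℝ (fun y => fderiv ℝ f y a) x b = fderiv ℝ (fun y => fderiv ℝ f y b) x a := by
  have h1 : DifferentiableAt ℝ (fderiv ℝ f) x :=
    (((hf.fderiv_of_isOpen hN (m := ∞) (by norm_num)).contDiffAt
      (hN.mem_nhds hx))).differentiableAt (by norm_num)
  have h2 : ∀ a b : E d, fderiv ℝ (fun y => fderiv ℝ f y a) x b =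
      fderiv ℝ (fderiv ℝ f) x b a := by
    intro a b
    rw [fderiv_clm_apply h1 (differentiableAt_const a)]
    simp only [fderiv_fun_const, Pi.zero_apply, ContinuousLinearMap.comp_zero, zero_add, ContinuousLinearMap.flip_apply]
  have h3 : IsSymmSndFDerivAt ℝ f x :=
    (hf.contDiffAt (hN.mem_nhds hx)).isSymmSndFDerivAt (by simp only [minSmoothness_of_isRCLikeNormedField]; exact WithTop.coe_le_coe.2 le_top)
  rw [h2, h2]
  exact h3 b a

/-- A directional derivative of a harmonic function is harmonic. -/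
theorem dir_lap {U : E d → ℝ} {N : Set (E d)} (hN : IsOpen N) (hU : ContDiffOn ℝ ∞ U N)
    (hlap : ∀ x ∈ N, lap U x = 0) {x : E d} (hx : x ∈ N) (e : E d) :
    ∑ i, P2 (fun y => fderiv ℝ U y e) i i x = 0 := by
  have h1 : ∀ i, P2 (fun y => fderiv ℝ U y e) i i x = fderiv ℝ (P2 U i i) x e := by
    intro i
    have e1 : P1 (fun y => fderiv ℝ U y e) i =ᶠ[𝓝 x] fun y => fderiv ℝ (P1 U i) y e := by
      filter_upwards [hN.mem_nhds hx] with y hy
      exact dir_swap hN hU hy e (ee i)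
    have e2 : P2 (fun y => fderiv ℝ U y e) i i x =
        fderiv ℝ (fun y => fderiv ℝ (P1 U i) y e) x (ee i) := by
      change fderiv ℝ (P1 (fun y => fderiv ℝ U y e) i) x (ee i) = _
      rw [e1.fderiv_eq]
    rw [e2]
    exact dir_swap hN (smooth_dir hN hU (ee i)) hx e (ee i)
  have h2 : ∀ i, DifferentiableAt ℝ (P2 U i i) x := fun i =>
    ((smooth_dir hN (smooth_dir hN hU (ee i)) (ee i)).contDiffAt
      (hN.mem_nhds hx)).differentiableAt (by norm_num)
  simp only [h1]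
  have h3 : fderiv ℝ (lap U) x = 0 := by
    have : lap U =ᶠ[𝓝 x] fun _ => 0 := by
      filter_upwards [hN.mem_nhds hx] with y hy using hlap y hy
    rw [this.fderiv_eq]; simp only [fderiv_fun_const, Pi.zero_apply]
  have h4 : fderiv ℝ (lap U) x e = ∑ i, fderiv ℝ (P2 U i i) x e := by
    unfold lap
    rw [fderiv_fun_sum (fun i _ => h2 i)]
    simp only [sum_apply]
  rw [← h4, h3]
  simp

theorem line_norm {x : E d} (hx : ‖x‖ = 1) (i : Fin d) (t : ℝ) :
    ‖x + t • (ee i : E d)‖ = √(qq (x i) t) := by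
  have h1 : ‖x + t • (ee i : E d)‖ ^ 2 = qq (x i) t := by
    rw [norm_add_sq_real, hx, norm_smul, inner_smul_right, EuclideanSpace.inner_single_right,
      PiLp.norm_single]
    unfold qq
    simp only [one_pow, Real.ringHom_apply, one_mul, Real.norm_eq_abs, norm_one, mul_one, sq_abs, add_left_inj, add_right_inj]
    ring
  rw [← h1, Real.sqrt_sq (norm_nonneg _)]

theorem line_inner (x p : E d) (i : Fin d) (t : ℝ) :
    ⟪x + t • (ee i : E d), p⟫ = ⟪x, p⟫ + t * p i := by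
  rw [inner_add_left, inner_smul_left, EuclideanSpace.inner_single_left]
  simp only [Real.ringHom_apply, one_mul]

theorem sum_sq_one {x : E d} (hx : ‖x‖ = 1) : ∑ i, x i ^ 2 = 1 := by
  rw [← EuclideanSpace.real_norm_sq_eq, hx]; norm_num

theorem sum_mul_inner (x p : E d) : ∑ i, p i * x i = ⟪x, p⟫ := by
  simp only [PiLp.inner_apply, RCLike.inner_apply, Real.ringHom_apply]

/-- frontier points of the positivity set are zeros -/
theorem frontier_zero {u : E d → ℝ} (hc : Continuous u) (h0 : ∀ x, 0 ≤ u x) {x : E d}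
    (hx : x ∈ frontier {y | 0 < u y}) : u x = 0 := by
  have ho : IsOpen {y | 0 < u y} := isOpen_lt continuous_const hc
  rw [ho.frontier_eq] at hx
  exact le_antisymm (not_lt.mp hx.2) (h0 x)

theorem frontier_ext_zero {u : E d → ℝ} (hc : Continuous u) (h0 : ∀ x, 0 ≤ u x)
    {N : Set (E d)} {U : E d → ℝ} (hU : LocalExt u N U) {x : E d} (hxN : x ∈ N)
    (hx : x ∈ frontier {y | 0 < u y}) : U x = 0 := by
  have h1 := frontier_zero hc h0 hx
  have hcU : ContinuousAt U x := (hU.smooth.contDiffAt (hU.isOpen.mem_nhds hxN)).continuousAt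
  have hcl : x ∈ closure {y | 0 < u y} := frontier_subset_closure hx
  have h2 : ∃ᶠ y in 𝓝 x, U y = u y := by
    have h3 := mem_closure_iff_frequently.mp hcl
    refine (h3.and_eventually (hU.isOpen.mem_nhds hxN)).mono ?_
    rintro y ⟨hy1, hy2⟩
    exact hU.eq y hy2 hy1
  by_contra hne
  have h3 : ∀ᶠ y in 𝓝 x, U y - u y ≠ 0 := by
    have : ContinuousAt (fun y => U y - u y) x := hcU.sub hc.continuousAt
    exact this.eventually_ne (by rw [h1, sub_zero]; exact hne)
  obtain ⟨y, hy1, hy2⟩ := (h2.and_eventually h3).exists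
  exact hy2 (by rw [hy1, sub_self])

/-- near a frontier point there are points outside the closure of the positivity set -/
theorem exists_notMem_closure {u : E d → ℝ} (hc : Continuous u) (h0 : ∀ x, 0 ≤ u x)
    {N : Set (E d)} {U : E d → ℝ} (hU : LocalExt u N U) {x : E d} (hxN : x ∈ N)
    (hx : x ∈ frontier {y | 0 < u y}) (hx0 : x ≠ 0) :
    ∃ q : E d, q ≠ 0 ∧ q ∉ closure {y | 0 < u y} := by
  have hUx := frontier_ext_zero hc h0 hU hxN hx
  have hg := hU.grad x hxN hx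
  set p := gradient U x with hp
  have hl : HasDerivAt (fun t : ℝ => x - t • p) (-p) 0 := by
    have := ((hasDerivAt_id (0 : ℝ)).smul_const p).const_sub x
    simpa only [id_eq, one_smul] using this
  have hcont : ContinuousAt (fun t : ℝ => x - t • p) 0 := hl.continuousAt
  have e0 : x - (0 : ℝ) • p = x := by simp
  have hd : HasDerivAt (fun t : ℝ => U (x - t • p)) (-1) 0 := by
    have h1 : HasFDerivAt U (fderiv ℝ U (x - (0 : ℝ) • p)) (x - (0 : ℝ) • p) := by
      rw [e0]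
      exact ((hU.smooth.contDiffAt (hU.isOpen.mem_nhds hxN)).differentiableAt
        (by norm_num)).hasFDerivAt
    have h2 := h1.comp_hasDerivAt (0 : ℝ) hl
    refine h2.congr_deriv ?_
    rw [e0, map_neg, ← inner_grad, ← hp, real_inner_self_eq_norm_sq, hg]
    norm_num
  have h3 : ∀ᶠ t in 𝓝[>] (0 : ℝ), U (x - t • p) < 0 := by
    have h4 := (hasDerivAt_iff_tendsto_slope.mp hd)
    have h5 : ∀ᶠ t in 𝓝[≠] (0 : ℝ), slope (fun t : ℝ => U (x - t • p)) 0 t < 0 :=
      h4.eventually (gt_mem_nhds (by norm_num))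
    have h6 : ∀ᶠ t in 𝓝[>] (0 : ℝ), slope (fun t : ℝ => U (x - t • p)) 0 t < 0 :=
      h5.filter_mono (nhdsWithin_mono _ (fun t ht => ne_of_gt ht))
    filter_upwards [h6, self_mem_nhdsWithin] with t ht ht0
    rw [slope_def_field] at ht
    rw [e0, hUx, sub_zero, sub_zero] at ht
    have : U (x - t • p) / t * t < 0 := mul_neg_of_neg_of_pos ht ht0
    rwa [div_mul_cancel₀ _ (ne_of_gt ht0)] at this
  have h4 : ∀ᶠ t in 𝓝[>] (0 : ℝ), x - t • p ∈ N := by
    have : ∀ᶠ t in 𝓝 (0 : ℝ), x - t • p ∈ N :=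
      hcont.eventually_mem (by rw [e0]; exact hU.isOpen.mem_nhds hxN)
    exact this.filter_mono nhdsWithin_le_nhds
  have h5 : ∀ᶠ t in 𝓝[>] (0 : ℝ), x - t • p ≠ 0 := by
    have : ∀ᶠ t in 𝓝 (0 : ℝ), x - t • p ≠ 0 := hcont.eventually_ne (by rw [e0]; exact hx0)
    exact this.filter_mono nhdsWithin_le_nhds
  obtain ⟨t, ht1, ht2, ht3⟩ := (h3.and (h4.and h5)).exists
  refine ⟨x - t • p, ht3, fun hcl => ?_⟩
  have hcU : ContinuousAt U (x - t • p) :=
    (hU.smooth.contDiffAt (hU.isOpen.mem_nhds ht2)).continuousAt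
  have h6 : ∀ᶠ y in 𝓝 (x - t • p), U y < 0 := hcU.eventually (gt_mem_nhds ht1)
  obtain ⟨y, hy1, hy2, hy3⟩ := ((mem_closure_iff_frequently.mp hcl).and_eventually
    (h6.and (hU.isOpen.mem_nhds ht2))).exists
  have := hU.eq y hy3 hy1
  have hy1' : 0 < u y := hy1
  rw [← this] at hy1'
  exact absurd hy1' (not_lt.mpr hy2.le)

end Vale.Agent.P098.ModI
end

section

open MeasureTheory Set Metric Filter
open scoped ContDiff RealInnerProductSpace Topology

namespace Vale.Agent.P098.ModI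

variable {d : ℕ}

theorem hom_zero {u : E d → ℝ} (hhom : ∀ r : ℝ, 0 < r → ∀ x, u (r • x) = r * u x) :
    u 0 = 0 := by
  have := hhom 2 (by norm_num) 0
  rw [smul_zero] at this
  linarith only [this]

theorem hom_fderiv {u : E d → ℝ} (hhom : ∀ r : ℝ, 0 < r → ∀ x, u (r • x) = r * u x)
    {r : ℝ} (hr : 0 < r) (x : E d) : fderiv ℝ u (r • x) = fderiv ℝ u x := by
  have h1 := fderiv_comp_smul (f := u) (x := x) (𝕜 := ℝ) r
  have h2 : (fun y => u (r • y)) = fun y => r * u y := funext fun y => hhom r hr y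
  have h3 : fderiv ℝ (fun y => r * u y) x = r • fderiv ℝ u x := by
    have := congrFun (fderiv_const_smul_field (𝕜 := ℝ) (f := u) r) x
    exact this
  rw [h2, h3] at h1
  exact (smul_right_injective _ hr.ne' h1).symm

/-- One-homogeneous positive functions whose positivity set has no boundary away from the origin
are not harmonic. -/
theorem no_full_cone (hd : 2 ≤ d) {u : E d → ℝ} (hc : Continuous u)
    (hhom : ∀ r : ℝ, 0 < r → ∀ x, u (r • x) = r * u x)
    {N : Set (E d)} {U : E d → ℝ} (hU : LocalExt u N U)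
    (hcl : closure {y | 0 < u y} \ {0} ⊆ N) (hlap : ∀ x, 0 < u x → lap U x = 0)
    (hfull : ∀ x : E d, x ≠ 0 → 0 < u x) : False := by
  have hne : ∃ x : E d, ‖x‖ = 1 := ⟨ee ⟨0, by omega⟩, by simp only [PiLp.norm_single, norm_one]⟩
  have hK : IsCompact (sphere (0 : E d) 1) := isCompact_sphere _ _
  obtain ⟨x1, hx1⟩ := hne
  obtain ⟨x0, hx0, hmin⟩ := hK.exists_isMinOn ⟨x1, by simp only [mem_sphere_iff_norm, sub_zero, hx1]⟩ hc.continuousOn
  have hn0 : ‖x0‖ = 1 := by simpa only [mem_sphere_iff_norm, sub_zero] using hx0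
  have hx00 : x0 ≠ 0 := fun h => by rw [h] at hn0; simp only [norm_zero, zero_ne_one] at hn0
  have hpos := hfull x0 hx00
  set c := u x0 with hcdef
  have hge : ∀ y : E d, c * ‖y‖ ≤ u y := by
    intro y
    rcases eq_or_ne y 0 with rfl | hy
    · rw [hom_zero hhom]; simp
    · have hyn : 0 < ‖y‖ := norm_pos_iff.mpr hy
      have h1 : c ≤ u (‖y‖⁻¹ • y) := hmin (by
        simp only [mem_sphere_iff_norm, sub_zero, norm_smul, norm_inv, norm_norm, ne_eq, hyn.ne', not_false_eq_true, inv_mul_cancel₀])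
      have h2 := hhom ‖y‖ hyn (‖y‖⁻¹ • y)
      rw [smul_smul, mul_inv_cancel₀ hyn.ne', one_smul] at h2
      rw [h2, mul_comm]
      exact mul_le_mul_of_nonneg_left h1 hyn.le
  have hx0N : x0 ∈ N := hcl ⟨subset_closure hpos, hx00⟩
  have hstep : ∀ i, c * (1 - x0 i ^ 2) - P2 U i i x0 ≤ 0 := by
    intro i
    obtain ⟨h1, h2⟩ := line_derivs hU.isOpen hU.smooth hx0N i
    have h3 : ∀ᶠ t in 𝓝 (0 : ℝ), HasDerivAt (fun t : ℝ => c * √(qq (x0 i) t) - U (x0 + t • ee i))
        (c * ((x0 i + t) / √(qq (x0 i) t)) - P1 U i (x0 + t • ee i)) t := by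
      filter_upwards [h1, qq_pos_near (x0 i)] with t ht1 ht2
      exact ((hasDerivAt_nn ht2).const_mul c).sub ht1
    have h4 := ((hasDerivAt_nn' (x0 i)).const_mul c).sub h2
    refine secondTest_max h3 h4 ?_
    have hcont : ContinuousAt (fun t : ℝ => x0 + t • (ee i : E d)) 0 := by fun_prop
    have h5 : ∀ᶠ t in 𝓝 (0 : ℝ), x0 + t • (ee i : E d) ∈ N ∧ x0 + t • (ee i : E d) ≠ 0 :=
      (hcont.eventually_mem (by simpa only [zero_smul, add_zero] using hU.isOpen.mem_nhds hx0N)).and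
        (hcont.eventually_ne (by simpa only [zero_smul, add_zero, ne_eq] using hx00))
    filter_upwards [h5] with t ht
    have e1 : U (x0 + t • (ee i : E d)) = u (x0 + t • ee i) := hU.eq _ ht.1 (hfull _ ht.2)
    have e2 : U x0 = u x0 := hU.eq _ hx0N hpos
    have e3 := line_norm hn0 i t
    rw [← e3, e1, qq_zero]
    simp only [zero_smul, add_zero, Real.sqrt_one, mul_one, e2]
    have := hge (x0 + t • ee i)
    rw [← hcdef]
    linarith only [this]
  have hsum : ∑ i, (c * (1 - x0 i ^ 2) - P2 U i i x0) ≤ 0 :=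
    Finset.sum_nonpos fun i _ => hstep i
  rw [Finset.sum_sub_distrib, ← Finset.mul_sum, Finset.sum_sub_distrib, sum_sq_one hn0] at hsum
  have h6 : ∑ i, P2 U i i x0 = 0 := hlap x0 hpos
  rw [h6] at hsum
  simp only [Finset.sum_const, Finset.card_univ, Fintype.card_fin, nsmul_eq_mul, mul_one,
    sub_zero] at hsum
  have h7 : (2 : ℝ) ≤ d := by exact_mod_cast hd
  have : 0 < c * ((d : ℝ) - 1) := mul_pos hpos (by linarith only [h7])
  linarith only [hsum, this]

/-- If the positivity set has no frontier point away from the origin it is everything. -/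
theorem full_of_frontier (hd : 2 ≤ d) {u : E d → ℝ} (hc : Continuous u)
    (hne : ∃ x, x ≠ 0 ∧ 0 < u x) (hfr : ∀ x ∈ frontier {y | 0 < u y}, x = 0) (x : E d)
    (hx : x ≠ 0) : 0 < u x := by
  have hconn : IsPreconnected ({0}ᶜ : Set (E d)) := by
    refine (isConnected_compl_singleton_of_one_lt_rank ?_ 0).isPreconnected
    rw [← Module.finrank_eq_rank]
    simp only [finrank_euclideanSpace, Fintype.card_fin]
    exact_mod_cast hd
  have ho : IsOpen {y | 0 < u y} := isOpen_lt continuous_const hc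
  have hsub : ({0}ᶜ : Set (E d)) ⊆ {y | 0 < u y} := by
    refine hconn.subset_of_closure_inter_subset ho ?_ ?_
    · obtain ⟨x, h1, h2⟩ := hne
      exact ⟨x, h1, h2⟩
    · rintro y ⟨hy1, hy2⟩
      by_contra hy3
      exact hy2 (hfr y (by rw [ho.frontier_eq]; exact ⟨hy1, hy3⟩))
  exact hsub hx

theorem dir_le_one (hd : 2 ≤ d) {u : E d → ℝ} (hc : Continuous u) (h0 : ∀ x, 0 ≤ u x)
    (hhom : ∀ r : ℝ, 0 < r → ∀ x, u (r • x) = r * u x)
    {N : Set (E d)} {U : E d → ℝ} (hU : LocalExt u N U) 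
    (hcl : closure {y | 0 < u y} \ {0} ⊆ N) (hlap : ∀ x, 0 < u x → lap U x = 0)
    {x : E d} (hx : 0 < u x) {e : E d} (he : ‖e‖ ≤ 1) : fderiv ℝ U x e ≤ 1 := by
  have ho : IsOpen {y | 0 < u y} := isOpen_lt continuous_const hc
  have hx0 : x ≠ 0 := fun h => by rw [h, hom_zero hhom] at hx; exact lt_irrefl _ hx
  have hΩN : ∀ y, 0 < u y → y ∈ N := fun y hy =>
    hcl ⟨subset_closure hy, fun h => by
      rw [mem_singleton_iff.mp h, hom_zero hhom] at hy; exact lt_irrefl _ hy⟩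
  have hΩ0 : ∀ y, 0 < u y → y ≠ 0 := fun y hy h => by
    rw [h, hom_zero hhom] at hy; exact lt_irrefl _ hy
  have hUu : ∀ y, 0 < u y → U =ᶠ[𝓝 y] u := by
    intro y hy
    filter_upwards [ho.mem_nhds hy] with z hz
    exact hU.eq z (hΩN z hz) hz
  have hwhom : ∀ r : ℝ, 0 < r → ∀ y, 0 < u y → fderiv ℝ U (r • y) = fderiv ℝ U y := by
    intro r hr y hy
    have hy' : 0 < u (r • y) := by rw [hhom r hr]; (clear * - hr hy; positivity)
    rw [(hUu _ hy').fderiv_eq, (hUu _ hy).fderiv_eq, hom_fderiv hhom hr]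
  -- a point outside the closure
  obtain ⟨q, hq0, hq⟩ : ∃ q : E d, q ≠ 0 ∧ q ∉ closure {y | 0 < u y} := by
    by_cases hfr : ∀ x ∈ frontier {y | 0 < u y}, x = 0
    · exact (no_full_cone hd hc hhom hU hcl hlap
        (full_of_frontier hd hc ⟨x, hx0, hx⟩ hfr)).elim
    · push Not at hfr
      obtain ⟨z, hz, hz0⟩ := hfr
      exact exists_notMem_closure hc h0 hU (hcl ⟨frontier_subset_closure hz, hz0⟩) hz hz0
  have hqn : 0 < ‖q‖ := norm_pos_iff.mpr hq0
  set p : E d := ‖q‖⁻¹ • q with hp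
  have hpn : ‖p‖ = 1 := by rw [hp, norm_smul]; simp [hqn.ne']
  have hpcl : p ∉ closure {y | 0 < u y} := by
    intro h
    apply hq
    have h1 : q = ‖q‖ • p := by rw [hp, smul_smul, mul_inv_cancel₀ hqn.ne', one_smul]
    rw [h1]
    have h2 : MapsTo (fun y : E d => ‖q‖ • y) {y | 0 < u y} {y | 0 < u y} := fun y hy => by
      show 0 < u (‖q‖ • y)
      rw [hhom _ hqn]
      exact mul_pos hqn hy
    exact h2.closure (continuous_const_smul _) h
  obtain ⟨ρ, hρ, hball⟩ : ∃ ρ > 0, ∀ y, 0 < u y → ρ ≤ ‖y - p‖ := by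
    rw [Metric.mem_closure_iff] at hpcl
    push Not at hpcl
    obtain ⟨ρ, hρ, h⟩ := hpcl
    exact ⟨ρ, hρ, fun y hy => by rw [← dist_eq_norm, dist_comm]; exact h y hy⟩
  set δ := ρ ^ 2 / 2 with hδ
  have hδ0 : 0 < δ := by (clear * - hρ; positivity)
  have hcos : ∀ y, 0 < u y → ‖y‖ = 1 → ⟪y, p⟫ ≤ 1 - δ := by
    intro y hy hyn
    have h1 := hball y hy
    have h2 : ρ ^ 2 ≤ ‖y - p‖ ^ 2 := pow_le_pow_left₀ hρ.le h1 2
    rw [norm_sub_sq_real, hyn, hpn] at h2
    rw [hδ]; linarith only [h2]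
  set lam : ℝ := d / δ with hlam
  have hd0 : (2 : ℝ) ≤ d := by exact_mod_cast hd
  have hlam0 : 0 < lam := by (clear * - hd hρ; positivity)
  -- compact set
  set K : Set (E d) := closure {y | 0 < u y} ∩ sphere (0 : E d) 1 with hK
  have hKc : IsCompact K := (isCompact_sphere _ _).inter_left isClosed_closure
  have hKN : ∀ y ∈ K, y ∈ N := by
    rintro y ⟨hy1, hy2⟩
    refine hcl ⟨hy1, fun h => ?_⟩
    rw [mem_singleton_iff.mp h] at hy2
    simp only [mem_sphere_iff_norm, sub_self, norm_zero, zero_ne_one] at hy2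
  have hxn : 0 < ‖x‖ := norm_pos_iff.mpr hx0
  set x' : E d := ‖x‖⁻¹ • x with hx'
  have hux' : 0 < u x' := by rw [hx', hhom _ (inv_pos.mpr hxn)]; positivity
  have hx'n : ‖x'‖ = 1 := by rw [hx', norm_smul]; simp only [norm_inv, norm_norm, ne_eq, hxn.ne', not_false_eq_true, inv_mul_cancel₀]
  have hx'K : x' ∈ K := ⟨subset_closure hux', by simp only [mem_sphere_iff_norm, sub_zero, hx'n]⟩
  have hwx : fderiv ℝ U x e = fderiv ℝ U x' e := by
    rw [hx', hwhom _ (inv_pos.mpr hxn) x hx]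
  have hcw : ContinuousOn (fun y => fderiv ℝ U y e) N := (smooth_dir hU.isOpen hU.smooth e).continuousOn
  -- main estimate for every ε
  have key : ∀ ε : ℝ, 0 < ε → fderiv ℝ U x e ≤ 1 + ε * Real.exp lam := by
    intro ε hε
    set g : E d → ℝ := fun y => fderiv ℝ U y e + ε * Real.exp (lam * ⟪y, p⟫) with hg
    have hgc : ContinuousOn g K := by
      refine ContinuousOn.add (hcw.mono hKN) ?_
      fun_prop
    obtain ⟨x1, hx1, hmax⟩ := hKc.exists_isMaxOn ⟨x', hx'K⟩ hgc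
    have hx1n : ‖x1‖ = 1 := by simpa only [mem_sphere_iff_norm, sub_zero] using hx1.2
    have hx10 : x1 ≠ 0 := fun h => by rw [h] at hx1n; simp at hx1n
    have hgx : fderiv ℝ U x e ≤ g x1 := by
      have h1 : g x' ≤ g x1 := hmax hx'K
      have h2 : 0 < ε * Real.exp (lam * ⟪x', p⟫) := by (clear * - hε; positivity)
      rw [hwx]
      simp only [hg] at h1 ⊢
      linarith only [h2, h1]
    by_cases hux1 : 0 < u x1
    · exfalso
      have hx1N := hΩN x1 hux1
      set a : ℝ := ⟪x1, p⟫ with ha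
      have hstep : ∀ i, P2 (fun y => fderiv ℝ U y e) i i x1 + ε * (Real.exp (lam * a) *
          (lam ^ 2 * (p i - a * x1 i) ^ 2 + lam * (-2 * p i * x1 i - a + 3 * a * x1 i ^ 2)))
            ≤ 0 := by
        intro i
        obtain ⟨h1, h2⟩ := line_derivs hU.isOpen (smooth_dir hU.isOpen hU.smooth e) hx1N i
        have h3 : ∀ᶠ t in 𝓝 (0 : ℝ), HasDerivAt
            (fun t : ℝ => fderiv ℝ U (x1 + t • ee i) e +
              ε * Real.exp (lam * tt a (p i) (x1 i) t))
            (P1 (fun y => fderiv ℝ U y e) i (x1 + t • ee i) +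
              ε * (Real.exp (lam * tt a (p i) (x1 i) t) * (lam * tt' a (p i) (x1 i) t))) t := by
          filter_upwards [h1, qq_pos_near (x1 i)] with t ht1 ht2
          exact ht1.add ((hasDerivAt_bar ht2).const_mul ε)
        have h4 := h2.add ((hasDerivAt_bar' lam a (p i) (x1 i)).const_mul ε)
        refine secondTest_max h3 h4 ?_
        have hcont : ContinuousAt (fun t : ℝ => x1 + t • (ee i : E d)) 0 := by fun_prop
        have h5 : ∀ᶠ t in 𝓝 (0 : ℝ), 0 < u (x1 + t • (ee i : E d)) :=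
          hcont.eventually_mem (s := {y | 0 < u y}) (by simpa only [zero_smul, add_zero] using ho.mem_nhds hux1)
        filter_upwards [h5] with t ht
        set y : E d := x1 + t • (ee i : E d) with hy
        have hy0 := hΩ0 y ht
        have hyn : 0 < ‖y‖ := norm_pos_iff.mpr hy0
        have e1 : tt a (p i) (x1 i) t = ⟪‖y‖⁻¹ • y, p⟫ := by
          unfold tt
          rw [inner_smul_left, hy, line_inner, line_norm hx1n]
          simp only [map_inv₀, Real.ringHom_apply]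
          rw [div_eq_inv_mul]
        have huy : 0 < u (‖y‖⁻¹ • y) := by rw [hhom _ (inv_pos.mpr hyn)]; (clear * - hy0 ht; positivity)
        have h6 : g (‖y‖⁻¹ • y) ≤ g x1 := hmax ⟨subset_closure huy, by
          simp [norm_smul, hyn.ne']⟩
        have e2 : tt a (p i) (x1 i) 0 = a := by unfold tt; rw [qq_zero]; simp
        rw [e1, e2]
        simp only [hg] at h6
        rw [hwhom _ (inv_pos.mpr hyn) y ht] at h6
        simpa only [zero_smul, add_zero, ge_iff_le] using h6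
      have hsum := Finset.sum_nonpos (s := Finset.univ) fun i (_ : i ∈ Finset.univ) => hstep i
      rw [Finset.sum_add_distrib, dir_lap ho (hU.smooth.mono hΩN) (fun y hy => hlap y hy) hux1,
        zero_add, ← Finset.mul_sum, ← Finset.mul_sum] at hsum
      have e3 : ∑ i, (lam ^ 2 * (p i - a * x1 i) ^ 2 +
          lam * (-2 * p i * x1 i - a + 3 * a * x1 i ^ 2)) =
          lam * (lam * (1 - a ^ 2) + (1 - (d : ℝ)) * a) := by
        have s1 := sum_sq_one hx1n
        have s2 := sum_sq_one hpn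
        have s3 : ∑ i, p i * x1 i = a := sum_mul_inner x1 p
        have : ∀ i, (lam ^ 2 * (p i - a * x1 i) ^ 2 +
            lam * (-2 * p i * x1 i - a + 3 * a * x1 i ^ 2)) =
            lam ^ 2 * p i ^ 2 - (2 * lam ^ 2 * a + 2 * lam) * (p i * x1 i) +
              (lam ^ 2 * a ^ 2 + 3 * lam * a) * x1 i ^ 2 - lam * a := fun i => by ring
        simp only [this]
        rw [Finset.sum_sub_distrib, Finset.sum_add_distrib, Finset.sum_sub_distrib,
          ← Finset.mul_sum, ← Finset.mul_sum, ← Finset.mul_sum, s1, s2, s3]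
        simp only [mul_one, Finset.sum_const, Finset.card_univ, Fintype.card_fin, nsmul_eq_mul]
        ring
      rw [e3] at hsum
      have ha1 : a ≤ 1 - δ := hcos x1 hux1 hx1n
      have ha2 : -1 ≤ a := by
        have := neg_le_of_abs_le (abs_real_inner_le_norm x1 p)
        rw [hx1n, hpn] at this
        simpa only [ge_iff_le, mul_one] using this
      have hpos : 0 < lam * (1 - a ^ 2) + (1 - (d : ℝ)) * a := by
        have hld : lam * δ = d := by rw [hlam]; (clear * - hδ0 hd; field_simp)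
        rcases lt_trichotomy a 0 with h | h | h
        · have h1 : 0 ≤ lam * (1 - a ^ 2) := mul_nonneg hlam0.le (by nlinarith only [hδ, ha2, ha1])
          have h2 : 0 < (1 - (d : ℝ)) * a := mul_pos_of_neg_of_neg (by linarith only [hd0]) h
          linarith only [h1, h2]
        · rw [h]; simp only [ne_eq, OfNat.ofNat_ne_zero, not_false_eq_true, zero_pow, sub_zero, mul_one, mul_zero, add_zero, gt_iff_lt]; exact hlam0
        · have h1 : lam * δ ≤ lam * (1 - a ^ 2) := by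
            apply mul_le_mul_of_nonneg_left _ hlam0.le
            nlinarith only [hδ0, h, ha1]
          have h2 : -(d : ℝ) + 1 ≤ (1 - (d : ℝ)) * a := by nlinarith only [hδ, hd0, ha1]
          linarith only [hld, h1, h2]
      have : 0 < ε * (Real.exp (lam * a) * (lam * (lam * (1 - a ^ 2) + (1 - (d : ℝ)) * a))) := by
        (clear * - hε hd hρ hpos; positivity)
      linarith only [hsum, this]
    · have hfr : x1 ∈ frontier {y | 0 < u y} := by
        rw [ho.frontier_eq]; exact ⟨hx1.1, hux1⟩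
      have h1 : fderiv ℝ U x1 e ≤ 1 := by
        rw [← inner_grad]
        calc ⟪gradient U x1, e⟫ ≤ ‖gradient U x1‖ * ‖e‖ := real_inner_le_norm _ _
          _ ≤ 1 * 1 := by
            rw [hU.grad x1 (hKN x1 hx1) hfr]
            linarith only [he]
          _ = 1 := by norm_num
      have h2 : ⟪x1, p⟫ ≤ 1 := by
        have := real_inner_le_norm x1 p
        rw [hx1n, hpn] at this
        linarith only [this]
      have h3 : Real.exp (lam * ⟪x1, p⟫) ≤ Real.exp lam := by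
        apply Real.exp_le_exp.mpr
        nlinarith only [hlam0, h2]
      have h4 : ε * Real.exp (lam * ⟪x1, p⟫) ≤ ε * Real.exp lam :=
        mul_le_mul_of_nonneg_left h3 hε.le
      calc fderiv ℝ U x e ≤ g x1 := hgx
        _ ≤ 1 + ε * Real.exp lam := add_le_add h1 h4
  refine le_of_forall_pos_le_add fun ε hε => ?_
  have h1 := key (ε / Real.exp lam) (by (clear * - hε; positivity))
  rwa [div_mul_cancel₀ _ (Real.exp_pos lam).ne'] at h1

end Vale.Agent.P098.ModI
end

section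

open MeasureTheory Set Metric Filter
open scoped ContDiff RealInnerProductSpace Topology

namespace Vale.Agent.P098

variable {d m : ℕ}

namespace ModM3s

/-- Soft compactness lemma. -/
theorem soft {X : Type*} [TopologicalSpace X] {K : Set X} (hK : IsCompact K) {f g : X → ℝ}
    (hf : Continuous f) (hg : Continuous g) (hg0 : ∀ x ∈ K, 0 ≤ g x)
    (h : ∀ x ∈ K, g x = 0 → 0 < f x) :
    ∃ ε C : ℝ, 0 < ε ∧ 0 ≤ C ∧ ∀ x ∈ K, ε ≤ f x + C * g x := by
  set U : ℕ → Set X := fun n => {x | 1 / ((n : ℝ) + 1) < f x + n * max (g x) 0} with hUdef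
  have hU : ∀ n, IsOpen (U n) := fun n => isOpen_lt continuous_const (by fun_prop)
  have hcov : K ⊆ ⋃ n, U n := by
    intro x hx
    rw [mem_iUnion]
    rcases (hg0 x hx).eq_or_lt with h0 | h0
    · have hfx := h x hx h0.symm
      obtain ⟨n, hn⟩ := exists_nat_one_div_lt hfx
      refine ⟨n, ?_⟩
      simp only [hUdef, mem_ofPred_eq, ← h0, max_self, mul_zero, add_zero]
      exact hn
    · obtain ⟨n, hn⟩ := exists_nat_gt ((1 - f x) / g x)
      refine ⟨n, ?_⟩
      rw [div_lt_iff₀ h0] at hn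
      simp only [hUdef, mem_ofPred_eq, max_eq_left h0.le]
      have h1 : 1 / ((n : ℝ) + 1) ≤ 1 := by
        rw [div_le_one (by (clear * -; positivity))]
        have : (0 : ℝ) ≤ n := by (clear * -; positivity)
        linarith only []
      linarith only [hn, h1]
  have hdir : Directed (· ⊆ ·) U := by
    refine directed_of_isDirected_le fun a b hab x hx => ?_
    simp only [hUdef, mem_ofPred_eq] at hx ⊢
    have h1 : (a : ℝ) ≤ b := by exact_mod_cast hab
    have h2 : 1 / ((b : ℝ) + 1) ≤ 1 / ((a : ℝ) + 1) := by (clear * - h1; gcongr)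
    have h3 : (a : ℝ) * max (g x) 0 ≤ b * max (g x) 0 := by
      (clear * - h1; gcongr)
    linarith only [hx, h2, h3]
  obtain ⟨n, hn⟩ := hK.elim_directed_cover U hU hcov hdir
  refine ⟨1 / ((n : ℝ) + 1), n, by (clear * -; positivity), by (clear * -; positivity), fun x hx => ?_⟩
  have := hn hx
  simp only [hUdef, mem_ofPred_eq, max_eq_left (hg0 x hx)] at this
  exact this.le

/-! ### Continuity -/

theorem hasDerivAt_comp (f : SF) (q : ℝ × ℝ × ℝ × ℝ) {c : ℝ → ℝ × ℝ × ℝ × ℝ}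
    {c' : ℝ × ℝ × ℝ × ℝ} {s : ℝ} (hc : HasDerivAt c c' s) (hq : c s = q) :
    HasDerivAt (fun r => f.g (c r).1 (c r).2.1 (c r).2.2.1 (c r).2.2.2)
      (fderiv ℝ (fun q : ℝ × ℝ × ℝ × ℝ => f.g q.1 q.2.1 q.2.2.1 q.2.2.2) q c') s := by
  have hd : DifferentiableAt ℝ (fun q : ℝ × ℝ × ℝ × ℝ => f.g q.1 q.2.1 q.2.2.1 q.2.2.2) q :=
    f.smooth.differentiable (by simp) q
  exact hd.hasFDerivAt.comp_hasDerivAt_of_eq s hc hq.symm

theorem gy_eq (f : SF) (q : ℝ × ℝ × ℝ × ℝ) : f.gy q.1 q.2.1 q.2.2.1 q.2.2.2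
    = fderiv ℝ (fun q : ℝ × ℝ × ℝ × ℝ => f.g q.1 q.2.1 q.2.2.1 q.2.2.2) q (1, 0, 0, 0) := by
  refine (f.hy q.1 q.2.1 q.2.2.1 q.2.2.2).unique ?_
  exact hasDerivAt_comp f q (c := fun s => (s, q.2.1, q.2.2.1, q.2.2.2))
    ((hasDerivAt_id _).prodMk (hasDerivAt_const _ _)) rfl

theorem gv_eq (f : SF) (q : ℝ × ℝ × ℝ × ℝ) : f.gv q.1 q.2.1 q.2.2.1 q.2.2.2
    = fderiv ℝ (fun q : ℝ × ℝ × ℝ × ℝ => f.g q.1 q.2.1 q.2.2.1 q.2.2.2) q (0, 1, 0, 0) := by
  refine (f.hv q.1 q.2.1 q.2.2.1 q.2.2.2).unique ?_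
  exact hasDerivAt_comp f q (c := fun s => (q.1, s, q.2.2.1, q.2.2.2))
    ((hasDerivAt_const _ _).prodMk ((hasDerivAt_id _).prodMk (hasDerivAt_const _ _))) rfl

theorem gt_eq (f : SF) (q : ℝ × ℝ × ℝ × ℝ) : f.gt q.1 q.2.1 q.2.2.1 q.2.2.2
    = fderiv ℝ (fun q : ℝ × ℝ × ℝ × ℝ => f.g q.1 q.2.1 q.2.2.1 q.2.2.2) q (0, 0, 1, 0) := by
  refine (f.ht q.1 q.2.1 q.2.2.1 q.2.2.2).unique ?_
  exact hasDerivAt_comp f q (c := fun s => (q.1, q.2.1, s, q.2.2.2))
    ((hasDerivAt_const _ _).prodMk ((hasDerivAt_const _ _).prodMk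
      ((hasDerivAt_id _).prodMk (hasDerivAt_const _ _)))) rfl

theorem gi_eq (f : SF) (q : ℝ × ℝ × ℝ × ℝ) : f.gi q.1 q.2.1 q.2.2.1 q.2.2.2
    = fderiv ℝ (fun q : ℝ × ℝ × ℝ × ℝ => f.g q.1 q.2.1 q.2.2.1 q.2.2.2) q (0, 0, 0, 1) := by
  refine (f.hi q.1 q.2.1 q.2.2.1 q.2.2.2).unique ?_
  exact hasDerivAt_comp f q (c := fun s => (q.1, q.2.1, q.2.2.1, s))
    ((hasDerivAt_const _ _).prodMk ((hasDerivAt_const _ _).prodMk
      ((hasDerivAt_const _ _).prodMk (hasDerivAt_id _)))) rfl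

theorem cont_fd (f : SF) (w : ℝ × ℝ × ℝ × ℝ) :
    Continuous fun q => fderiv ℝ (fun q : ℝ × ℝ × ℝ × ℝ => f.g q.1 q.2.1 q.2.2.1 q.2.2.2) q w :=
  (f.smooth.continuous_fderiv (by simp)).clm_apply continuous_const

section

variable {X : Type*} [TopologicalSpace X]

@[fun_prop]
theorem cont_g (f : SF) {a b c d : X → ℝ} (ha : Continuous a) (hb : Continuous b)
    (hc : Continuous c) (hd : Continuous d) : Continuous fun x => f.g (a x) (b x) (c x) (d x) :=
  f.smooth.continuous.comp (ha.prodMk (hb.prodMk (hc.prodMk hd)))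

@[fun_prop]
theorem cont_gy (f : SF) {a b c d : X → ℝ} (ha : Continuous a) (hb : Continuous b)
    (hc : Continuous c) (hd : Continuous d) :
    Continuous fun x => f.gy (a x) (b x) (c x) (d x) := by
  have h : (fun x => f.gy (a x) (b x) (c x) (d x)) = fun x => fderiv ℝ
      (fun q : ℝ × ℝ × ℝ × ℝ => f.g q.1 q.2.1 q.2.2.1 q.2.2.2) (a x, b x, c x, d x)
        (1, 0, 0, 0) := by
    funext x; exact gy_eq f (a x, b x, c x, d x)
  rw [h]
  exact (cont_fd f _).comp (ha.prodMk (hb.prodMk (hc.prodMk hd)))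

@[fun_prop]
theorem cont_gv (f : SF) {a b c d : X → ℝ} (ha : Continuous a) (hb : Continuous b)
    (hc : Continuous c) (hd : Continuous d) :
    Continuous fun x => f.gv (a x) (b x) (c x) (d x) := by
  have h : (fun x => f.gv (a x) (b x) (c x) (d x)) = fun x => fderiv ℝ
      (fun q : ℝ × ℝ × ℝ × ℝ => f.g q.1 q.2.1 q.2.2.1 q.2.2.2) (a x, b x, c x, d x)
        (0, 1, 0, 0) := by
    funext x; exact gv_eq f (a x, b x, c x, d x)
  rw [h]
  exact (cont_fd f _).comp (ha.prodMk (hb.prodMk (hc.prodMk hd)))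

@[fun_prop]
theorem cont_gt (f : SF) {a b c d : X → ℝ} (ha : Continuous a) (hb : Continuous b)
    (hc : Continuous c) (hd : Continuous d) :
    Continuous fun x => f.gt (a x) (b x) (c x) (d x) := by
  have h : (fun x => f.gt (a x) (b x) (c x) (d x)) = fun x => fderiv ℝ
      (fun q : ℝ × ℝ × ℝ × ℝ => f.g q.1 q.2.1 q.2.2.1 q.2.2.2) (a x, b x, c x, d x)
        (0, 0, 1, 0) := by
    funext x; exact gt_eq f (a x, b x, c x, d x)
  rw [h]
  exact (cont_fd f _).comp (ha.prodMk (hb.prodMk (hc.prodMk hd)))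

@[fun_prop]
theorem cont_gi (f : SF) {a b c d : X → ℝ} (ha : Continuous a) (hb : Continuous b)
    (hc : Continuous c) (hd : Continuous d) :
    Continuous fun x => f.gi (a x) (b x) (c x) (d x) := by
  have h : (fun x => f.gi (a x) (b x) (c x) (d x)) = fun x => fderiv ℝ
      (fun q : ℝ × ℝ × ℝ × ℝ => f.g q.1 q.2.1 q.2.2.1 q.2.2.2) (a x, b x, c x, d x)
        (0, 0, 0, 1) := by
    funext x; exact gi_eq f (a x, b x, c x, d x)
  rw [h]
  exact (cont_fd f _).comp (ha.prodMk (hb.prodMk (hc.prodMk hd)))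

@[fun_prop]
theorem cont_pw {l : X → Fin m → ℝ} (hl : Continuous l) (j : ℕ) :
    Continuous fun x => pw (l x) j := by
  unfold pw; fun_prop

@[fun_prop]
theorem cont_XX {l z : X → Fin m → ℝ} (hl : Continuous l) (hz : Continuous z) (j : ℕ) :
    Continuous fun x => XX (l x) (z x) j := by
  unfold XX; fun_prop

@[fun_prop]
theorem cont_hh {a b : X → ℝ} (ha : Continuous a) (hb : Continuous b) (j : ℕ) :
    Continuous fun x => hh j (a x) (b x) := by
  unfold hh; fun_prop

@[fun_prop]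
theorem cont_qf {l z : X → Fin m → ℝ} (hl : Continuous l) (hz : Continuous z) (k : Fin m)
    (j : ℕ) : Continuous fun x => qf (l x) (z x) k j := by
  unfold qf
  refine continuous_finsetSum _ fun i _ => ?_
  by_cases hik : i = k
  · simp only [hik, if_true]; fun_prop
  · simp only [hik, if_false]; fun_prop

@[fun_prop]
theorem cont_XE {l z : X → Fin m → ℝ} (hl : Continuous l) (hz : Continuous z) (k : Fin m)
    (a j : ℕ) : Continuous fun x => XE (l x) (z x) k a j := by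
  unfold XE; fun_prop

@[fun_prop]
theorem cont_qe {l z : X → Fin m → ℝ} (hl : Continuous l) (hz : Continuous z) (k : Fin m)
    (a j : ℕ) : Continuous fun x => qe (l x) (z x) k a j := by
  unfold qe
  refine Continuous.sub (Continuous.add (continuous_finsetSum _ fun i _ => ?_) ?_) ?_
  · by_cases hik : i = k
    · simp only [hik, if_true]; (clear * - hl hz; fun_prop)
    · simp only [hik, if_false]; fun_prop
  · fun_prop
  · fun_prop

@[fun_prop]
theorem cont_formC (Φ : Fam) (α : ℝ) {a b t : X → ℝ} {l z : X → Fin m → ℝ} (k : Fin m)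
    (ha : Continuous a) (hb : Continuous b) (ht : Continuous t) (hl : Continuous l)
    (hz : Continuous z) :
    Continuous fun x => formC Φ α (a x) (b x) (l x) k (z x) (t x) := by
  unfold formC SF.zd
  fun_prop

@[fun_prop]
theorem cont_formB (Φ : Fam) (α : ℝ) {a b t : X → ℝ} {l z : X → Fin m → ℝ} (k : Fin m)
    (ha : Continuous a) (hb : Continuous b) (ht : Continuous t) (hl : Continuous l)
    (hz : Continuous z) :
    Continuous fun x => formB Φ α (a x) (b x) (l x) k (z x) (t x) := by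
  unfold formB SF.zd SF.gz
  (clear * - ha hb hl hz ht; fun_prop)

@[fun_prop]
theorem cont_formG (Φ : Fam) {a b : X → ℝ} {l : X → Fin m → ℝ}
    (ha : Continuous a) (hb : Continuous b) (hl : Continuous l) :
    Continuous fun x => formG Φ (a x) (b x) (l x) := by
  unfold formG
  refine Continuous.neg (continuous_finsetSum _ fun j _ => ?_)
  by_cases hj : j = 0
  · simp only [hj, if_true]; fun_prop
  · simp only [hj, if_false]; fun_prop

@[fun_prop]
theorem cont_formA (Φ : Fam) {a b : X → ℝ} {l : X → Fin m → ℝ} (k : Fin m)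
    (ha : Continuous a) (hb : Continuous b) (hl : Continuous l) :
    Continuous fun x => formA Φ (a x) (b x) (l x) k := by
  unfold formA SF.gz
  (clear * - ha hb hl; fun_prop)

@[fun_prop]
theorem cont_formK (Φ : Fam) {a b : X → ℝ} {l : X → Fin m → ℝ}
    (ha : Continuous a) (hb : Continuous b) (hl : Continuous l) :
    Continuous fun x => formK Φ (a x) (b x) (l x) := by
  unfold formK
  have h0 : Continuous fun x => ∑ q ∈ Finset.range Φ.ne, (Φ.e q).g (a x) (b x) (pw (l x) 3)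
      (pw (l x) 4) * ((if Φ.ea q = 1 then 0 else pw (l x) (Φ.ea q) * pw (l x) (Φ.ej q + 1))
        - (if Φ.ej q = 1 then 0 else pw (l x) (Φ.ej q) * pw (l x) (Φ.ea q + 1))) := by
    refine continuous_finsetSum _ fun q _ => (cont_g _ ha hb (cont_pw hl 3) (cont_pw hl 4)).mul
      (Continuous.sub ?_ ?_)
    · by_cases h : Φ.ea q = 1
      · simp only [h, if_true]; fun_prop
      · simp only [h, if_false]; fun_prop
    · by_cases h : Φ.ej q = 1
      · simp only [h, if_true]; fun_prop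
      · simp only [h, if_false]; (clear * - hl; fun_prop)
  refine Continuous.add ((ha.pow 2).mul (Continuous.sub (Continuous.add (by fun_prop) h0)
    (by fun_prop))) ((by fun_prop : Continuous fun x => a x * (1 - a x)).mul
    (continuous_finsetSum _ fun j _ => ?_))
  by_cases hj : j = 0
  · simp only [hj, if_true]; (clear * - ha hb hl; fun_prop)
  · by_cases hj1 : j = 1
    · simp only [hj1, if_true]; (clear * - ha hb hl; fun_prop)
    · simp only [hj, hj1, if_false]; fun_prop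

end

/-! ### Compact sets -/

theorem abs_le_one_of_pw {lam : Fin m → ℝ} (h : pw lam 2 ≤ 1) (i : Fin m) : |lam i| ≤ 1 := by
  have h1 : lam i ^ 2 ≤ pw lam 2 := Finset.single_le_sum (f := fun i => lam i ^ 2)
    (fun j _ => sq_nonneg (lam j)) (Finset.mem_univ i)
  exact abs_le_one_iff_mul_self_le_one.2 (by linarith)

theorem mem_ball_of_pw {lam : Fin m → ℝ} (h : pw lam 2 ≤ 1) : lam ∈ closedBall 0 1 := by
  rw [mem_closedBall_zero_iff, pi_norm_le_iff_of_nonneg zero_le_one]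
  exact fun i => abs_le_one_of_pw h i

theorem isCompact_lam : IsCompact {lam : Fin m → ℝ | pw lam 1 = 0 ∧ pw lam 2 ≤ 1} := by
  refine (isCompact_closedBall (0 : Fin m → ℝ) 1).of_isClosed_subset ?_
    fun lam h => mem_ball_of_pw h.2
  have h1 : Continuous fun lam : Fin m → ℝ => pw lam 1 := by fun_prop
  have h2 : Continuous fun lam : Fin m → ℝ => pw lam 2 := by fun_prop
  exact (isClosed_eq h1 continuous_const).inter (isClosed_le h2 continuous_const)

theorem isCompact_unit : IsCompact {p : ℝ × ℝ × (Fin m → ℝ) |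
    ∑ i, p.2.2 i = 0 ∧ p.1 ^ 2 + p.2.1 ^ 2 + ∑ i, p.2.2 i ^ 2 = 1} := by
  refine ((isCompact_Icc (a := (-1 : ℝ)) (b := 1)).prod ((isCompact_Icc (a := (-1 : ℝ))
    (b := 1)).prod (isCompact_closedBall (0 : Fin m → ℝ) 1))).of_isClosed_subset ?_ ?_
  · have h1 : Continuous fun p : ℝ × ℝ × (Fin m → ℝ) => ∑ i, p.2.2 i := by fun_prop
    have h2 : Continuous fun p : ℝ × ℝ × (Fin m → ℝ) =>
      p.1 ^ 2 + p.2.1 ^ 2 + ∑ i, p.2.2 i ^ 2 := by fun_prop
    exact (isClosed_eq h1 continuous_const).inter (isClosed_eq h2 continuous_const)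
  · rintro ⟨a, b, x⟩ ⟨h1, h2⟩
    simp only at h1 h2
    have hs : 0 ≤ ∑ i, x i ^ 2 := Finset.sum_nonneg fun i _ => sq_nonneg _
    have ha : |a| ≤ 1 := abs_le_one_iff_mul_self_le_one.2 (by nlinarith only [h2, hs])
    have hb : |b| ≤ 1 := abs_le_one_iff_mul_self_le_one.2 (by (by_contra nlg; linarith [mul_nonneg (le_of_lt (sub_pos.2 (not_le.1 nlg))) (sub_nonneg.2 hs), mul_eq_zero_of_left (sub_eq_zero.2 h2) (b * b - (1)), mul_pos (sub_pos.2 (not_le.1 nlg)) (sub_pos.2 (not_le.1 nlg)), mul_nonneg (sq_nonneg (a : ℝ)) (le_of_lt (sub_pos.2 (not_le.1 nlg)))]))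
    refine ⟨abs_le.1 ha, abs_le.1 hb, mem_ball_of_pw ?_⟩
    unfold pw
    nlinarith only [h2]

theorem XX_smul (lam x : Fin m → ℝ) (r : ℝ) (j : ℕ) : XX lam (r • x) j = r * XX lam x j := by
  unfold XX
  rw [Finset.mul_sum]
  refine Finset.sum_congr rfl fun i _ => ?_
  simp only [Pi.smul_apply, smul_eq_mul]; ring

theorem qf_smul (lam x : Fin m → ℝ) (r : ℝ) (k : Fin m) (j : ℕ) :
    qf lam (r • x) k j = r ^ 2 * qf lam x k j := by
  unfold qf
  rw [Finset.mul_sum]
  refine Finset.sum_congr rfl fun i _ => ?_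
  simp only [Pi.smul_apply, smul_eq_mul]; ring

theorem XE_smul (lam x : Fin m → ℝ) (r : ℝ) (k : Fin m) (a j : ℕ) :
    XE lam (r • x) k a j = r * XE lam x k a j := by
  unfold XE
  rw [XX_smul, XX_smul]; ring

theorem qe_smul (lam x : Fin m → ℝ) (r : ℝ) (k : Fin m) (a j : ℕ) :
    qe lam (r • x) k a j = r ^ 2 * qe lam x k a j := by
  unfold qe
  simp only [XX_smul]
  have h1 : ∀ (s : Finset ℕ) (G : ℕ → ℝ), r ^ 2 * ∑ j ∈ s, G j
      = ∑ j ∈ s, r ^ 2 * G j := fun s G => Finset.mul_sum _ _ _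
  have h1' : ∀ (G : Fin m → ℝ), r ^ 2 * ∑ j, G j
      = ∑ j, r ^ 2 * G j := fun G => Finset.mul_sum _ _ _
  have h2 : ∀ a b c d : ℝ, a = r ^ 2 * b → c = r ^ 2 * d → a + c = r ^ 2 * (b + d) := by
    intro a b c d ha hc; rw [ha, hc]; ring
  have h3 : ∀ a b c d : ℝ, a = r ^ 2 * b → c = r ^ 2 * d → a - c = r ^ 2 * (b - d) := by
    intro a b c d ha hc; rw [ha, hc]; ring
  refine h3 _ _ _ _ (h2 _ _ _ _ ?_ ?_) ?_
  · rw [h1']
    refine Finset.sum_congr rfl fun i _ => ?_
    simp only [Pi.smul_apply, smul_eq_mul]; ring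
  · rw [h1]
    exact Finset.sum_congr rfl fun j _ => by ring
  · rw [h1]
    exact Finset.sum_congr rfl fun j _ => by ring

theorem formC_smul (Φ : Fam) (α y v : ℝ) (lam : Fin m → ℝ) (k : Fin m) (x : Fin m → ℝ)
    (t r : ℝ) : formC Φ α y v lam k (r • x) (r * t) = r ^ 2 * formC Φ α y v lam k x t := by
  unfold formC
  simp only [XX_smul, qf_smul, XE_smul, qe_smul]
  have h1 : ∀ (n : ℕ) (G : ℕ → ℝ), r ^ 2 * ∑ j ∈ Finset.range n, G j
      = ∑ j ∈ Finset.range n, r ^ 2 * G j := fun n G => Finset.mul_sum _ _ _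
  have h2 : ∀ a b c d : ℝ, a = r ^ 2 * b → c = r ^ 2 * d → a + c = r ^ 2 * (b + d) := by
    intro a b c d ha hc; rw [ha, hc]; ring
  refine h2 _ _ _ _ (h2 _ _ _ _ (h2 _ _ _ _ ?_ ?_) ?_) ?_
  · rw [h1]
    exact Finset.sum_congr rfl fun j _ => by ring
  · rw [h1]
    exact Finset.sum_congr rfl fun j _ => by ring
  · ring
  · ring

theorem formB_smul (Φ : Fam) (α y v : ℝ) (lam : Fin m → ℝ) (k : Fin m) (x : Fin m → ℝ)
    (t r : ℝ) : formB Φ α y v lam k (r • x) (r * t) = r * formB Φ α y v lam k x t := by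
  unfold formB
  simp only [XX_smul, XE_smul]
  have h1 : ∀ (n : ℕ) (G : ℕ → ℝ), r * ∑ j ∈ Finset.range n, G j
      = ∑ j ∈ Finset.range n, r * G j := fun n G => Finset.mul_sum _ _ _
  have h2 : ∀ a b c d : ℝ, a = r * b → c = r * d → a + c = r * (b + d) := by
    intro a b c d ha hc; rw [ha, hc]; ring
  have h3 : ∀ a b c d : ℝ, a = r * b → c = r * d → a - c = r * (b - d) := by
    intro a b c d ha hc; rw [ha, hc]; ring
  refine h2 _ _ _ _ (h3 _ _ _ _ (h2 _ _ _ _ ?_ ?_) ?_) ?_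
  · rw [h1]
    exact Finset.sum_congr rfl fun j _ => by ring
  · rw [h1]
    exact Finset.sum_congr rfl fun j _ => by ring
  · rw [h1]
    refine Finset.sum_congr rfl fun j _ => ?_
    have : ∑ i ∈ Finset.range (j - 1), r * XX lam x (i + 1) * lam k ^ (j - 2 - i)
        = r * ∑ i ∈ Finset.range (j - 1), XX lam x (i + 1) * lam k ^ (j - 2 - i) := by
      rw [h1]
      exact Finset.sum_congr rfl fun i _ => by ring
    rw [this]; ring
  · ring

/-- The quadratic form. -/
noncomputable def QF (Φ : Fam) (α y ρ : ℝ) (lam : Fin m → ℝ) (k : Fin m) (ξ t : ℝ)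
    (x : Fin m → ℝ) : ℝ :=
  formA Φ y (ρ ^ 2) lam k * ξ ^ 2 + ρ * ξ * formB Φ α y (ρ ^ 2) lam k x t
    + formC Φ α y (ρ ^ 2) lam k x t

theorem QF_smul (Φ : Fam) (α y ρ : ℝ) (lam : Fin m → ℝ) (k : Fin m) (ξ t : ℝ)
    (x : Fin m → ℝ) (r : ℝ) :
    QF Φ α y ρ lam k (r * ξ) (r * t) (r • x) = r ^ 2 * QF Φ α y ρ lam k ξ t x := by
  unfold QF
  rw [formB_smul, formC_smul]; ring

theorem cert_form_k {α : ℝ} {Φ : Fam} (h : Cert m α Φ) (k : Fin m) :
    ∃ ε C : ℝ, 0 < ε ∧ 0 ≤ C ∧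
    ∀ y ρ : ℝ, 0 ≤ y → y ≤ 1 → 0 ≤ ρ → ρ ≤ 1 → ∀ lam : Fin m → ℝ, pw lam 1 = 0 →
    pw lam 2 ≤ 1 → ∀ (ξ t : ℝ) (x : Fin m → ℝ), ∑ i, x i = 0 →
      ε * (ξ ^ 2 + t ^ 2 + ∑ i, x i ^ 2) ≤
        QF Φ α y ρ lam k ξ t x + C * (1 - pw lam 2) * ξ ^ 2 := by
  have hcK : IsCompact ((Icc (0 : ℝ) 1) ×ˢ (Icc (0 : ℝ) 1) ×ˢ
      {lam : Fin m → ℝ | pw lam 1 = 0 ∧ pw lam 2 ≤ 1} ×ˢ {p : ℝ × ℝ × (Fin m → ℝ) |
        ∑ i, p.2.2 i = 0 ∧ p.1 ^ 2 + p.2.1 ^ 2 + ∑ i, p.2.2 i ^ 2 = 1}) :=
    isCompact_Icc.prod (isCompact_Icc.prod (isCompact_lam.prod isCompact_unit))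
  have hfc : Continuous fun p : ℝ × ℝ × (Fin m → ℝ) × ℝ × ℝ × (Fin m → ℝ) =>
      QF Φ α p.1 p.2.1 p.2.2.1 k p.2.2.2.1 p.2.2.2.2.1 p.2.2.2.2.2 := by
    unfold QF; (clear * -; fun_prop)
  have hgc : Continuous fun p : ℝ × ℝ × (Fin m → ℝ) × ℝ × ℝ × (Fin m → ℝ) =>
      (1 - pw p.2.2.1 2) * p.2.2.2.1 ^ 2 := by
    fun_prop
  have hsoft := soft hcK hfc hgc ?_ ?_
  · obtain ⟨ε, C, hε, hC, hmain⟩ := hsoft
    refine ⟨ε, C, hε, hC, fun y ρ hy0 hy1 hρ0 hρ1 lam h1 h2 ξ t x hx => ?_⟩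
    set N : ℝ := ξ ^ 2 + t ^ 2 + ∑ i, x i ^ 2 with hN
    have hs : 0 ≤ ∑ i, x i ^ 2 := Finset.sum_nonneg fun i _ => sq_nonneg _
    have hN0 : 0 ≤ N := by (clear * -; positivity)
    rcases hN0.eq_or_lt with h0 | h0
    · -- everything vanishes
      have hξ : ξ = 0 := by
        have : ξ ^ 2 = 0 := by nlinarith only [hs, h0, sq_nonneg t]
        exact pow_eq_zero_iff (two_ne_zero) |>.1 this
      have ht : t = 0 := by
        have : t ^ 2 = 0 := by nlinarith only [hs, h0, sq_nonneg ξ]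
        exact pow_eq_zero_iff (two_ne_zero) |>.1 this
      have hx0 : x = 0 := by
        have h3 : ∑ i, x i ^ 2 = 0 := by nlinarith only [hs, h0, sq_nonneg ξ, sq_nonneg t]
        funext i
        have h4 := (Finset.sum_eq_zero_iff_of_nonneg (fun i _ => sq_nonneg (x i))).1 h3 i
          (Finset.mem_univ i)
        exact pow_eq_zero_iff (two_ne_zero) |>.1 h4
      have h5 := QF_smul Φ α y ρ lam k ξ t x 0
      have h6 : QF Φ α y ρ lam k ξ t x = 0 := by
        rw [hξ, ht, hx0] at h5 ⊢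
        simpa using h5
      rw [h6, ← h0, hξ]; simp only [mul_zero, ne_eq, OfNat.ofNat_ne_zero, not_false_eq_true, zero_pow, add_zero, Std.le_refl]
    · set r : ℝ := Real.sqrt N with hr
      have hr0 : 0 < r := Real.sqrt_pos.2 h0
      have hrr : r ^ 2 = N := Real.sq_sqrt hN0
      have h3 := hmain (y, ρ, lam, r⁻¹ * ξ, r⁻¹ * t, r⁻¹ • x) ⟨⟨hy0, hy1⟩, ⟨hρ0, hρ1⟩, ⟨h1, h2⟩, ?_⟩
      · simp only at h3
        rw [QF_smul] at h3
        have h4 : ε * N ≤ N * ((r⁻¹) ^ 2 * QF Φ α y ρ lam k ξ t x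
            + C * ((1 - pw lam 2) * (r⁻¹ * ξ) ^ 2)) := by
          rw [mul_comm ε N]; (clear * - h3 h0; gcongr)
        have h5 : N * ((r⁻¹) ^ 2 * QF Φ α y ρ lam k ξ t x
            + C * ((1 - pw lam 2) * (r⁻¹ * ξ) ^ 2))
            = QF Φ α y ρ lam k ξ t x + C * (1 - pw lam 2) * ξ ^ 2 := by
          rw [← hrr]; (clear * - hr0; field_simp)
        rw [h5] at h4
        exact h4
      · constructor
        · simp only [Pi.smul_apply, smul_eq_mul]
          rw [← Finset.mul_sum, hx, mul_zero]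
        · simp only [Pi.smul_apply, smul_eq_mul]
          have h6 : ∑ i, (r⁻¹ * x i) ^ 2 = (r⁻¹) ^ 2 * ∑ i, x i ^ 2 := by
            rw [Finset.mul_sum]
            exact Finset.sum_congr rfl fun i _ => by ring
          rw [h6]
          have h7 : (r⁻¹ * ξ) ^ 2 + (r⁻¹ * t) ^ 2 + (r⁻¹) ^ 2 * ∑ i, x i ^ 2 = (r⁻¹) ^ 2 * N := by
            rw [hN]; ring
          rw [h7, ← hrr]; (clear * - hr0; field_simp)
  · rintro ⟨y, ρ, lam, ξ, t, x⟩ ⟨-, -, ⟨-, h2⟩, -⟩
    simp only at h2 ⊢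
    have : 0 ≤ 1 - pw lam 2 := by linarith only [h2]
    (clear * - h2; positivity)
  · rintro ⟨y, ρ, lam, ξ, t, x⟩ ⟨hy, hρ, ⟨h1, h2⟩, hx, hu⟩ hg
    simp only at h1 h2 hx hu hg hy hρ ⊢
    unfold QF
    rcases mul_eq_zero.1 hg with h3 | h3
    · refine h.form_pos y ρ hy.1 hy.2 hρ.1 hρ.2 lam h1 (by linarith only [h3]) k ξ t x hx ?_
      rintro ⟨rfl, rfl, rfl⟩
      simp only [ne_eq, OfNat.ofNat_ne_zero, not_false_eq_true, zero_pow, add_zero, Pi.zero_apply, Finset.sum_const_zero, zero_ne_one] at hu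
    · have hξ : ξ = 0 := pow_eq_zero_iff (two_ne_zero) |>.1 h3
      have h4 := h.formC_pos y (ρ ^ 2) hy.1 hy.2 (by (clear * -; positivity))
        (pow_le_one₀ hρ.1 hρ.2) lam h1 h2 k t x hx (by
          rintro ⟨rfl, rfl⟩
          simp only [hξ, ne_eq, OfNat.ofNat_ne_zero, not_false_eq_true, zero_pow, add_zero, Pi.zero_apply, Finset.sum_const_zero, zero_ne_one] at hu)
      rw [hξ]
      simpa only [ne_eq, OfNat.ofNat_ne_zero, not_false_eq_true, zero_pow, mul_zero, zero_mul, add_zero, zero_add,     gt_iff_lt] using h4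

/-- A positive lower bound for finitely many positive numbers. -/
theorem exists_uniform_pos {ι : Type*} [Fintype ι] (e : ι → ℝ) (he : ∀ i, 0 < e i) :
    ∃ ε : ℝ, 0 < ε ∧ ∀ i, ε ≤ e i := by
  have hs : 0 ≤ ∑ i, (e i)⁻¹ := Finset.sum_nonneg fun i _ => (inv_pos.2 (he i)).le
  refine ⟨(1 + ∑ i, (e i)⁻¹)⁻¹, by positivity, fun i => ?_⟩
  have h1 : (e i)⁻¹ ≤ ∑ i, (e i)⁻¹ := Finset.single_le_sum (f := fun i => (e i)⁻¹)
    (fun j _ => (inv_pos.2 (he j)).le) (Finset.mem_univ i)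
  rw [inv_le_comm₀ (by (clear * - hs; positivity)) (he i)]
  linarith only [h1]

end ModM3s

open ModM3s in
theorem cert_form {α : ℝ} {Φ : Fam} (h : Cert m α Φ) : ∃ ε C : ℝ, 0 < ε ∧ 0 ≤ C ∧
    ∀ y ρ : ℝ, 0 ≤ y → y ≤ 1 → 0 ≤ ρ → ρ ≤ 1 → ∀ lam : Fin m → ℝ, pw lam 1 = 0 →
    pw lam 2 ≤ 1 → ∀ (k : Fin m) (ξ t : ℝ) (x : Fin m → ℝ), ∑ i, x i = 0 →
      ε * (ξ ^ 2 + t ^ 2 + ∑ i, x i ^ 2) ≤
        formA Φ y (ρ ^ 2) lam k * ξ ^ 2 + ρ * ξ * formB Φ α y (ρ ^ 2) lam k x t
          + formC Φ α y (ρ ^ 2) lam k x t + C * (1 - pw lam 2) * ξ ^ 2 := by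
  choose e c he hc hmain using fun k : Fin m => cert_form_k h k
  obtain ⟨ε, hε, hεe⟩ := exists_uniform_pos e he
  refine ⟨ε, ∑ k, c k, hε, Finset.sum_nonneg fun k _ => hc k,
    fun y ρ hy0 hy1 hρ0 hρ1 lam h1 h2 k ξ t x hx => ?_⟩
  have h3 := hmain k y ρ hy0 hy1 hρ0 hρ1 lam h1 h2 ξ t x hx
  unfold QF at h3
  have hs : 0 ≤ ∑ i, x i ^ 2 := Finset.sum_nonneg fun i _ => sq_nonneg _
  have h4 : ε * (ξ ^ 2 + t ^ 2 + ∑ i, x i ^ 2) ≤ e k * (ξ ^ 2 + t ^ 2 + ∑ i, x i ^ 2) := by
    gcongr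
    exact hεe k
  have h5 : c k ≤ ∑ k, c k := Finset.single_le_sum (fun k _ => hc k) (Finset.mem_univ k)
  have h6 : c k * (1 - pw lam 2) * ξ ^ 2 ≤ (∑ k, c k) * (1 - pw lam 2) * ξ ^ 2 := by
    have : 0 ≤ 1 - pw lam 2 := by linarith only [h2]
    (clear * - h5 h2; gcongr)
  linarith only [h3, h4, h6]

open ModM3s in
theorem cert_kappa {α : ℝ} {Φ : Fam} (h : Cert m α Φ) (hm : 2 ≤ m) : ∃ ε C : ℝ, 0 < ε ∧ 0 ≤ C ∧
    ∀ y v : ℝ, 0 ≤ y → y ≤ 1 → 0 ≤ v → v ≤ 1 → ∀ lam : Fin m → ℝ, pw lam 1 = 0 →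
    pw lam 2 ≤ 1 → (ε - C * (1 - pw lam 2)) * (v + (1 - y) ^ 2)
      ≤ v * formK Φ y v lam + (1 - y) ^ 2 * formG Φ y v lam := by
  obtain ⟨ε₀, hε₀, hk⟩ := h.kappa
  -- the compact set of `(y, v, θ, lam)` with `θ (v + (1 - y)²) = v`
  have hcK : IsCompact (((Icc (0 : ℝ) 1) ×ˢ (Icc (0 : ℝ) 1) ×ˢ (Icc (0 : ℝ) 1) ×ˢ
      {lam : Fin m → ℝ | pw lam 1 = 0 ∧ pw lam 2 ≤ 1}) ∩
      {p | p.2.2.1 * (p.2.1 + (1 - p.1) ^ 2) = p.2.1}) := by
    refine (isCompact_Icc.prod (isCompact_Icc.prod (isCompact_Icc.prod isCompact_lam))).inter_right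
      (isClosed_eq (by fun_prop) (by fun_prop))
  have hfc : Continuous fun p : ℝ × ℝ × ℝ × (Fin m → ℝ) =>
      p.2.2.1 * formK Φ p.1 p.2.1 p.2.2.2 + (1 - p.2.2.1) * formG Φ p.1 p.2.1 p.2.2.2 := by
    fun_prop
  have hgc : Continuous fun p : ℝ × ℝ × ℝ × (Fin m → ℝ) => 1 - pw p.2.2.2 2 := by
    fun_prop
  have hsoft := soft hcK hfc hgc ?_ ?_
  · obtain ⟨ε, C, hε, hC, hmain⟩ := hsoft
    refine ⟨ε, C, hε, hC, fun y v hy0 hy1 hv0 hv1 lam h1 h2 => ?_⟩
    set D : ℝ := v + (1 - y) ^ 2 with hD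
    have hD0 : 0 ≤ D := by (clear * - hv0; positivity)
    rcases hD0.eq_or_lt with h0 | h0
    · have hv : v = 0 := by nlinarith only [hv0, h0, sq_nonneg (1 - y)]
      have hy : (1 - y) ^ 2 = 0 := by linarith
      rw [← h0, hv, hy]; simp
    · have hθ0 : 0 ≤ v / D := by (clear * - hv0 h0; positivity)
      have hθ1 : v / D ≤ 1 := by
        rw [div_le_one h0, hD]; nlinarith only []
      have h3 := hmain (y, v, v / D, lam) ⟨⟨⟨hy0, hy1⟩, ⟨hv0, hv1⟩, ⟨hθ0, hθ1⟩, ⟨h1, h2⟩⟩, by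
        simp only [mem_ofPred_eq]
        rw [← hD]; field_simp⟩
      simp only at h3
      have h4 : ε * D ≤ (v / D * formK Φ y v lam + (1 - v / D) * formG Φ y v lam
          + C * (1 - pw lam 2)) * D := by (clear * - h3 h0; gcongr)
      have h5 : (v / D * formK Φ y v lam + (1 - v / D) * formG Φ y v lam
          + C * (1 - pw lam 2)) * D = v * formK Φ y v lam + (1 - y) ^ 2 * formG Φ y v lam
          + C * (1 - pw lam 2) * D := by
        have h6 : v / D * D = v := by (clear * - h0; field_simp)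
        have h7 : (1 - v / D) * D = (1 - y) ^ 2 := by
          rw [sub_mul, h6, hD]; ring
        calc _ = (v / D * D) * formK Φ y v lam + ((1 - v / D) * D) * formG Φ y v lam
              + C * (1 - pw lam 2) * D := by ring
          _ = _ := by rw [h6, h7]
      rw [h5] at h4
      linarith only [h4]
  · rintro ⟨y, v, θ, lam⟩ ⟨⟨-, -, -, -, h2⟩, -⟩
    simp only at h2 ⊢
    linarith only [h2]
  · rintro ⟨y, v, θ, lam⟩ ⟨⟨hy, hv, hθ, h1, -⟩, hθD⟩ hg
    simp only [mem_ofPred_eq] at hy hv hθ h1 hθD hg ⊢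
    have h2 : pw lam 2 = 1 := by linarith only [hg]
    refine lt_of_lt_of_le hε₀ ?_
    set D : ℝ := v + (1 - y) ^ 2 with hD
    have hD0 : 0 ≤ D := by have := hv.1; (clear * - this; positivity)
    rcases hD0.eq_or_lt with h0 | h0
    · -- limit argument
      have hv0 : v = 0 := by nlinarith only [h0, sq_nonneg (1 - y), hv.1]
      have hy1 : y = 1 := by
        have : (1 - y) ^ 2 = 0 := by nlinarith only [h0, hv0]
        have := pow_eq_zero_iff (two_ne_zero) |>.1 this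
        linarith only [this]
      subst hv0 hy1
      -- `v_s = θ s`, `y_s = 1 - √((1 - θ) s)`
      have hlim : Tendsto (fun s : ℝ => θ * formK Φ (1 - Real.sqrt ((1 - θ) * s)) (θ * s) lam
          + (1 - θ) * formG Φ (1 - Real.sqrt ((1 - θ) * s)) (θ * s) lam) (𝓝[>] 0)
          (𝓝 (θ * formK Φ 1 0 lam + (1 - θ) * formG Φ 1 0 lam)) := by
        have hcont : Continuous (fun s : ℝ => θ * formK Φ (1 - Real.sqrt ((1 - θ) * s)) (θ * s) lam
          + (1 - θ) * formG Φ (1 - Real.sqrt ((1 - θ) * s)) (θ * s) lam) := by (clear * -; fun_prop)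
        have := (hcont.tendsto 0).mono_left (nhdsWithin_le_nhds (s := Ioi 0))
        simpa only [mul_zero, Real.sqrt_zero, sub_zero] using this
      refine ge_of_tendsto hlim ?_
      have h3 : ∀ᶠ s : ℝ in 𝓝[>] 0, s < 1 := by
        filter_upwards [mem_nhdsWithin_of_mem_nhds (Iio_mem_nhds (zero_lt_one (α := ℝ)))] with s hs
          using hs
      filter_upwards [self_mem_nhdsWithin, h3] with s hs hs1
      have hs0 : (0 : ℝ) < s := hs
      have h4 : 0 ≤ (1 - θ) * s := mul_nonneg (by linarith only [hθ.2]) hs0.le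
      have h5 : (1 - θ) * s ≤ 1 := by nlinarith only [hs1, hθ.1, hθ.2]
      have h6 : Real.sqrt ((1 - θ) * s) ≤ 1 := (Real.sqrt_le_sqrt h5).trans (by simp)
      have h7 := hk (1 - Real.sqrt ((1 - θ) * s)) (θ * s) (by linarith only [h6]) (by
        linarith only [Real.sqrt_nonneg ((1 - θ) * s)]) (mul_nonneg hθ.1 hs0.le) (by
        linarith) lam h1 h2
      have h8 : (1 - (1 - Real.sqrt ((1 - θ) * s))) ^ 2 = (1 - θ) * s := by
        rw [sub_sub_cancel, Real.sq_sqrt h4]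
      rw [h8] at h7
      have h9 : θ * s + (1 - θ) * s = s := by ring
      rw [h9] at h7
      have h10 : ε₀ * s ≤ (θ * formK Φ (1 - Real.sqrt ((1 - θ) * s)) (θ * s) lam
          + (1 - θ) * formG Φ (1 - Real.sqrt ((1 - θ) * s)) (θ * s) lam) * s := by linarith only [h7]
      exact le_of_mul_le_mul_right h10 hs0
    · have h3 := hk y v hy.1 hy.2 hv.1 hv.2 lam h1 h2
      rw [← hD] at h3
      have h4 : (1 - θ) * D = (1 - y) ^ 2 := by
        rw [sub_mul, hθD, hD]; ring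
      have h5 : ε₀ * D ≤ (θ * formK Φ y v lam + (1 - θ) * formG Φ y v lam) * D := by
        calc ε₀ * D ≤ _ := h3
          _ = (θ * D) * formK Φ y v lam + ((1 - θ) * D) * formG Φ y v lam := by rw [hθD, h4]
          _ = _ := by ring
      exact le_of_mul_le_mul_right h5 h0

namespace ModM3s

theorem contDiff_g (f : SF) {c d : (Fin m → ℝ) → ℝ} (hc : ContDiff ℝ 1 c)
    (hd : ContDiff ℝ 1 d) : ContDiff ℝ 1 fun x => f.g 1 1 (c x) (d x) :=
  (f.smooth.of_le (by norm_cast)).comp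
    (contDiff_const.prodMk (contDiff_const.prodMk (hc.prodMk hd)))

theorem contDiff_pw (j : ℕ) : ContDiff ℝ 1 fun lam : Fin m → ℝ => pw lam j := by
  unfold pw
  fun_prop

theorem contDiff_formN (Φ : Fam) (k : Fin m) :
    ContDiff ℝ 1 fun lam : Fin m → ℝ => formN Φ lam k := by
  have hg : ∀ f : SF, ContDiff ℝ 1 fun lam : Fin m → ℝ => f.g 1 1 (pw lam 3) (pw lam 4) :=
    fun f => contDiff_g f (contDiff_pw 3) (contDiff_pw 4)
  have hk : ∀ j : ℕ, ContDiff ℝ 1 fun lam : Fin m → ℝ => lam k ^ j := fun j => by fun_prop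
  have hk1 : ContDiff ℝ 1 fun lam : Fin m → ℝ => lam k := by fun_prop
  unfold formN
  refine (((ContDiff.sum fun j _ => (hg (Φ.a j)).mul ?_).add
    (ContDiff.sum fun q _ => (hg (Φ.e q)).mul ?_)).sub ((hg Φ.w).mul hk1)).sub
    (ContDiff.sum fun j _ => (hg (Φ.f j)).mul (hk j))
  · exact (((hk (j + 1)).mul (contDiff_pw 2)).add (hk1.mul (contDiff_pw (j + 2)))).sub
      (contDiff_pw (j + 3))
  · exact ((hk _).mul ((hk1.mul (contDiff_pw _)).sub (contDiff_pw _))).sub
      ((hk _).mul ((hk1.mul (contDiff_pw _)).sub (contDiff_pw _)))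

theorem cert_bdry_k {α : ℝ} {Φ : Fam} (h : Cert m α Φ) (k : Fin m) : ∃ C : ℝ, 0 ≤ C ∧
    ∀ lam : Fin m → ℝ, pw lam 1 = 0 → pw lam 2 ≤ 1 → lam k ≤ 0 →
      - C * (1 - pw lam 2) ≤ formN Φ lam k := by
  have hcd := contDiff_formN Φ k
  obtain ⟨L, hL⟩ := (isCompact_closedBall (0 : Fin m → ℝ) 1).exists_bound_of_continuousOn
    (hcd.continuous_fderiv (by norm_num)).continuousOn
  refine ⟨max L 0 + |formN Φ (0 : Fin m → ℝ) k|, by (clear * -; positivity), fun lam h1 h2 hk => ?_⟩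
  have h20 : 0 ≤ pw lam 2 := Finset.sum_nonneg fun i _ => sq_nonneg _
  rcases h20.eq_or_lt with h0 | h0
  · have hl : lam = 0 := by
      funext i
      have h4 := (Finset.sum_eq_zero_iff_of_nonneg (fun i _ => sq_nonneg (lam i))).1 h0.symm i
        (Finset.mem_univ i)
      exact pow_eq_zero_iff (two_ne_zero) |>.1 h4
    rw [← h0, hl]
    have h3 := neg_abs_le (formN Φ (0 : Fin m → ℝ) k)
    have h4 : 0 ≤ max L 0 := le_max_right _ _
    linarith
  · set s : ℝ := Real.sqrt (pw lam 2) with hs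
    have hs0 : 0 < s := Real.sqrt_pos.2 h0
    have hss : s ^ 2 = pw lam 2 := Real.sq_sqrt h20
    have hs1 : s ≤ 1 := (Real.sqrt_le_sqrt h2).trans (by simp)
    set mu : Fin m → ℝ := s⁻¹ • lam with hmu
    have hpw : ∀ j, pw mu j = s⁻¹ ^ j * pw lam j := by
      intro j
      unfold pw
      rw [Finset.mul_sum]
      exact Finset.sum_congr rfl fun i _ => by simp only [hmu, Pi.smul_apply, smul_eq_mul, mul_pow, inv_pow]
    have hm1 : pw mu 1 = 0 := by rw [hpw, h1, mul_zero]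
    have hm2 : pw mu 2 = 1 := by rw [hpw, ← hss]; field_simp
    have hmk : mu k ≤ 0 := by
      simp only [hmu, Pi.smul_apply, smul_eq_mul]
      exact mul_nonpos_of_nonneg_of_nonpos (by (clear * - h0; positivity)) hk
    have hb := h.bdry mu hm1 hm2 k hmk
    have hmem1 : lam ∈ closedBall (0 : Fin m → ℝ) 1 := mem_ball_of_pw h2
    have hmem2 : mu ∈ closedBall (0 : Fin m → ℝ) 1 := mem_ball_of_pw hm2.le
    have hmv := Convex.norm_image_sub_le_of_norm_fderiv_le (𝕜 := ℝ)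
      (fun z _ => (hcd.differentiable (by norm_num)) z) hL (convex_closedBall _ _) hmem2 hmem1
    have hdist : ‖lam - mu‖ ≤ 1 - pw lam 2 := by
      have h5 : lam - mu = (s - 1) • mu := by
        rw [hmu, smul_smul, sub_mul, mul_inv_cancel₀ hs0.ne', sub_smul, one_smul, one_mul]
      have h6 : ‖mu‖ ≤ 1 := mem_closedBall_zero_iff.1 hmem2
      rw [h5, norm_smul, Real.norm_eq_abs, abs_of_nonpos (by linarith only [hs1])]
      calc -(s - 1) * ‖mu‖ ≤ -(s - 1) * 1 := by
            have : 0 ≤ -(s - 1) := by linarith only [hs1]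
            (clear * - h6 this; gcongr)
        _ ≤ 1 - pw lam 2 := by rw [← hss]; (by_contra nlg; linarith only [nlg, mul_nonneg (le_of_lt (sub_pos.2 hs0)) (sub_nonneg.2 hs1), mul_nonneg (le_of_lt (sub_pos.2 (not_le.1 nlg))) (sub_nonneg.2 hs1), mul_pos (sub_pos.2 (not_le.1 nlg)) (sub_pos.2 hs0)])
    have h7 : |formN Φ lam k - formN Φ mu k| ≤ max L 0 * (1 - pw lam 2) := by
      refine (hmv.trans ?_)
      calc L * ‖lam - mu‖ ≤ max L 0 * ‖lam - mu‖ := by gcongr; exact le_max_left _ _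
        _ ≤ _ := by (clear * - hdist; gcongr)
    have h8 := (abs_le.1 h7).1
    have h9 : 0 ≤ |formN Φ (0 : Fin m → ℝ) k| * (1 - pw lam 2) :=
      mul_nonneg (abs_nonneg _) (by linarith only [h2])
    linarith

end ModM3s

open ModM3s in
theorem cert_bdry {α : ℝ} {Φ : Fam} (h : Cert m α Φ) (hm : 2 ≤ m) : ∃ C : ℝ, 0 ≤ C ∧
    ∀ lam : Fin m → ℝ, pw lam 1 = 0 → pw lam 2 ≤ 1 → ∀ k : Fin m, lam k ≤ 0 →
      - C * (1 - pw lam 2) ≤ formN Φ lam k := by
  choose c hc hmain using fun k : Fin m => cert_bdry_k h k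
  refine ⟨∑ k, c k, Finset.sum_nonneg fun k _ => hc k, fun lam h1 h2 k hk => ?_⟩
  refine le_trans ?_ (hmain k lam h1 h2 hk)
  have h5 : c k ≤ ∑ k, c k := Finset.single_le_sum (fun k _ => hc k) (Finset.mem_univ k)
  have h6 : 0 ≤ 1 - pw lam 2 := by linarith only [h2]
  nlinarith only [h2, h5]

open ModM3s in
theorem cert_w {α : ℝ} {Φ : Fam} (h : Cert m α Φ) : ∃ c : ℝ, 0 < c ∧
    ∀ y v : ℝ, 0 ≤ y → y ≤ 1 → 0 ≤ v → v ≤ 1 → ∀ lam : Fin m → ℝ, pw lam 1 = 0 →
    pw lam 2 ≤ 1 → c ≤ Φ.w.g y v (pw lam 3) (pw lam 4) := by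
  have hcK : IsCompact ((Icc (0 : ℝ) 1) ×ˢ (Icc (0 : ℝ) 1) ×ˢ
      {lam : Fin m → ℝ | pw lam 1 = 0 ∧ pw lam 2 ≤ 1}) :=
    isCompact_Icc.prod (isCompact_Icc.prod isCompact_lam)
  obtain ⟨ε, C, hε, hC, hmain⟩ := soft hcK
    (f := fun p => Φ.w.g p.1 p.2.1 (pw p.2.2 3) (pw p.2.2 4)) (g := fun _ => 0)
    (by fun_prop) (by fun_prop) (fun _ _ => le_rfl) (by
      rintro ⟨y, v, lam⟩ ⟨hy, hv, h1, h2⟩ -
      exact h.w_pos y v hy.1 hy.2 hv.1 hv.2 lam h1 h2)
  refine ⟨ε, hε, fun y v hy0 hy1 hv0 hv1 lam h1 h2 => ?_⟩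
  have := hmain (y, v, lam) ⟨⟨hy0, hy1⟩, ⟨hv0, hv1⟩, h1, h2⟩
  simpa only [ge_iff_le, mul_zero, add_zero] using this

open ModM3s in
theorem sf_bound (m : ℕ) (f : SF) : ∃ C : ℝ, 0 ≤ C ∧
    ∀ y v : ℝ, 0 ≤ y → y ≤ 1 → 0 ≤ v → v ≤ 1 → ∀ lam : Fin m → ℝ, pw lam 2 ≤ 1 →
    |f.g y v (pw lam 3) (pw lam 4)| ≤ C ∧ |f.gy y v (pw lam 3) (pw lam 4)| ≤ C ∧
    |f.gv y v (pw lam 3) (pw lam 4)| ≤ C ∧ |f.gt y v (pw lam 3) (pw lam 4)| ≤ C ∧
    |f.gi y v (pw lam 3) (pw lam 4)| ≤ C := by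
  have hcK : IsCompact ((Icc (0 : ℝ) 1) ×ˢ (Icc (0 : ℝ) 1) ×ˢ
      closedBall (0 : Fin m → ℝ) 1) :=
    isCompact_Icc.prod (isCompact_Icc.prod (isCompact_closedBall _ _))
  have hb : ∀ F : ℝ × ℝ × (Fin m → ℝ) → ℝ, Continuous F → ∃ C : ℝ, 0 ≤ C ∧
      ∀ y v : ℝ, 0 ≤ y → y ≤ 1 → 0 ≤ v → v ≤ 1 → ∀ lam : Fin m → ℝ, pw lam 2 ≤ 1 →
      |F (y, v, lam)| ≤ C := by
    intro F hF
    obtain ⟨C, hC⟩ := hcK.exists_bound_of_continuousOn hF.continuousOn
    refine ⟨max C 0, le_max_right _ _, fun y v hy0 hy1 hv0 hv1 lam h2 => ?_⟩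
    exact (hC (y, v, lam) ⟨⟨hy0, hy1⟩, ⟨hv0, hv1⟩, mem_ball_of_pw h2⟩).trans (le_max_left _ _)
  obtain ⟨C1, h10, h1⟩ := hb (fun p => f.g p.1 p.2.1 (pw p.2.2 3) (pw p.2.2 4)) (by fun_prop)
  obtain ⟨C2, h20, h2⟩ := hb (fun p => f.gy p.1 p.2.1 (pw p.2.2 3) (pw p.2.2 4)) (by fun_prop)
  obtain ⟨C3, h30, h3⟩ := hb (fun p => f.gv p.1 p.2.1 (pw p.2.2 3) (pw p.2.2 4)) (by (clear * -; fun_prop))
  obtain ⟨C4, h40, h4⟩ := hb (fun p => f.gt p.1 p.2.1 (pw p.2.2 3) (pw p.2.2 4)) (by fun_prop)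
  obtain ⟨C5, h50, h5⟩ := hb (fun p => f.gi p.1 p.2.1 (pw p.2.2 3) (pw p.2.2 4)) (by fun_prop)
  refine ⟨C1 + C2 + C3 + C4 + C5, by (clear * - h10 h20 h30 h40 h50; positivity), fun y v hy0 hy1 hv0 hv1 lam hl => ?_⟩
  have e1 := h1 y v hy0 hy1 hv0 hv1 lam hl
  have e2 := h2 y v hy0 hy1 hv0 hv1 lam hl
  have e3 := h3 y v hy0 hy1 hv0 hv1 lam hl
  have e4 := h4 y v hy0 hy1 hv0 hv1 lam hl
  have e5 := h5 y v hy0 hy1 hv0 hv1 lam hl
  simp only at e1 e2 e3 e4 e5
  refine ⟨?_, ?_, ?_, ?_, ?_⟩ <;> linarith only [h10, h20, h30, h40, e5, h50, e4, e3, e2, e1]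

end Vale.Agent.P098
end

section

/-!
# Fast evaluation of the sums of squares

The types of a block are given by a start digit and a list of monomials (coefficient, code).  The
rows are decoded on natural numbers, the entries of the Gram matrices are dot products of columns.
-/

namespace Vale.Agent.P098.N

open Vale.Agent.P098.K

/-- Start digit, monomials (coefficient and code). -/
abbrev Ty := ℕ × List (ℕ × ℕ)

/-- Expanded type. -/
def exL : ℕ → List (ℕ × ℕ) → List (ℕ × List (ℤ × ℕ))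
  | _, [] => []
  | a, p :: l => (a, [(Int.ofNat p.1, p.2)]) :: exL (a + 1) l

def exT (t : Ty) : List (ℕ × List (ℤ × ℕ)) := exL t.1 t.2

/-! ### Recursor versions of the list functions -/

def mapF {α β : Type} (f : α → β) (l : List α) : List β :=
  List.rec (motive := fun _ => List β) [] (fun x _ ih => f x :: ih) l

theorem mapF_eq {α β : Type} (f : α → β) (l : List α) : mapF f l = l.map f := by
  induction l with
  | nil => rfl
  | cons x l ih =>
    rw [List.map_cons, ← ih]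
    rfl

def digF (β : ℕ) (ms : List ℕ) : ℕ → ℕ :=
  List.rec (motive := fun _ => ℕ → ℕ) (fun _ => 0)
    (fun m _ ih x => Nat.add (Nat.mul (Nat.mod x β) m) (ih (Nat.div x β))) ms

theorem digF_cons (β m : ℕ) (ms : List ℕ) (x : ℕ) :
    digF β (m :: ms) x = x % β * m + digF β ms (x / β) := rfl

def dotF (xs : List ℕ) : List ℕ → ℕ :=
  List.rec (motive := fun _ => List ℕ → ℕ) (fun _ => 0)
    (fun x _ ih ys =>
      List.rec (motive := fun _ => ℕ) 0 (fun y ys' _ => Nat.add (Nat.mul x y) (ih ys')) ys) xs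

theorem dotF_cons (x y : ℕ) (xs ys : List ℕ) :
    dotF (x :: xs) (y :: ys) = x * y + dotF xs ys := rfl

def sumF (xs : List ℕ) : ℕ :=
  List.rec (motive := fun _ => ℕ) 0 (fun x _ ih => Nat.add x ih) xs

theorem sumF_cons (x : ℕ) (xs : List ℕ) : sumF (x :: xs) = x + sumF xs := rfl

def addF {α : Type} (f : α → α → α) (xs : List α) : List α → List α :=
  List.rec (motive := fun _ => List α → List α) (fun ys => ys)
    (fun x xs ih ys =>
      List.rec (motive := fun _ => List α) (x :: xs) (fun y ys' _ => f x y :: ih ys') ys) xs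

theorem addF_eq {α : Type} (f g : α → α → α) (h : ∀ x y, f x y = g x y) :
    ∀ xs ys : List α, addF f xs ys = padd g xs ys := by
  intro xs
  induction xs with
  | nil => intro ys; rfl
  | cons x xs ih =>
    intro ys
    cases ys with
    | nil => rfl
    | cons y ys =>
      rw [padd, ← ih, ← h]
      rfl

/-- Multipliers of the digits. -/
def msF (B : ℕ) (l : List (ℕ × ℕ)) : List ℕ := mapF (fun p => Nat.mul p.1 (Nat.pow B p.2)) l

theorem msF_cons (B : ℕ) (p : ℕ × ℕ) (l : List (ℕ × ℕ)) :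
    msF B (p :: l) = p.1 * B ^ p.2 :: msF B l := rfl

/-- Value of a type in a row, before subtraction of the offset. -/
def valF (B bb : ℕ) (t : Ty) (r : ℕ) : ℕ :=
  digF (Nat.pow 2 bb) (msF B t.2) (Nat.shiftRight r (Nat.mul bb t.1))

/-- Offset of a type. -/
def offF (B bb : ℕ) (t : Ty) : ℕ := Nat.mul (Nat.pow 2 (Nat.pred bb)) (sumF (msF B t.2))

/-- Column of a type: offset and values. -/
def colF (B bb : ℕ) (rows : List ℕ) (t : Ty) : ℕ × List ℕ := (offF B bb t, mapF (valF B bb t) rows)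

/-- Entry of the Gram matrix. -/
def cellF (n : ℕ) (x y : ℕ × List ℕ) : ℤ :=
  Int.subNatNat (Nat.add (dotF x.2 y.2) (Nat.mul n (Nat.mul x.1 y.1)))
    (Nat.add (Nat.mul y.1 (sumF x.2)) (Nat.mul x.1 (sumF y.2)))

/-- Length of a list. -/
def lenF (l : List ℕ) : ℕ := List.rec (motive := fun _ => ℕ) 0 (fun _ _ ih => Nat.succ ih) l

theorem lenF_eq (l : List ℕ) : lenF l = l.length := by
  induction l with
  | nil => rfl
  | cons x l ih =>
    rw [List.length_cons, ← ih]
    rfl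

def gramF (B bb : ℕ) (c c' : List Ty) (rows : List ℕ) : List (List ℤ) :=
  mapF (fun x => mapF (fun y => cellF (lenF rows) x y) (mapF (colF B bb rows) c'))
    (mapF (colF B bb rows) c)

/-! ### Soundness -/

theorem lcK_exL (B bb row : ℕ) : ∀ (l : List (ℕ × ℕ)) (a : ℕ),
    lcK B bb row (exL a l) = (digF (2 ^ bb) (msF B l) (row / 2 ^ (bb * a)) : ℤ)
      - ((2 ^ (bb - 1) * sumF (msF B l) : ℕ) : ℤ) := by
  intro l
  induction l with
  | nil => intro a; simp only [exL, lcK, digF, Nat.mul_eq, Nat.add_eq, msF, mapF, CharP.cast_eq_zero, sumF, mul_zero, sub_self]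
  | cons p l ih =>
    intro a
    rw [exL, lcK, ih (a + 1), msF_cons, digF_cons, sumF_cons]
    have h1 : row / 2 ^ (bb * (a + 1)) = row / 2 ^ (bb * a) / 2 ^ bb := by
      rw [Nat.div_div_eq_div_mul, ← pow_add]
      ring_nf
    have h2 : kr B [(Int.ofNat p.1, p.2)] = ((p.1 * B ^ p.2 : ℕ) : ℤ) := by
      simp only [kr, Int.ofNat_eq_natCast, List.map_cons, List.map_nil, List.sum_cons, List.sum_nil, add_zero, Nat.cast_mul, Nat.cast_pow]
    rw [h1, h2, dig, Int.subNatNat_eq_coe]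
    change ((_ : ℤ) - _) * _ + _ = _
    push_cast
    ring

theorem lcK_exT (B bb row : ℕ) (t : Ty) :
    lcK B bb row (exT t) = (valF B bb t row : ℤ) - (offF B bb t : ℤ) := by
  rw [exT, lcK_exL]
  have h : Nat.shiftRight row (Nat.mul bb t.1) = row / 2 ^ (bb * t.1) :=
    Nat.shiftRight_eq_div_pow row (bb * t.1)
  rw [valF, h]
  rfl

theorem cell_aux (x y : ℕ) (f g : ℕ → ℕ) : ∀ rows : List ℕ,
    ((dotF (mapF f rows) (mapF g rows) + lenF rows * (x * y) : ℕ) : ℤ)
      - ((y * sumF (mapF f rows) + x * sumF (mapF g rows) : ℕ) : ℤ)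
      = (rows.map fun r => ((f r : ℤ) - x) * ((g r : ℤ) - y)).sum := by
  intro rows
  induction rows with
  | nil => simp [mapF, dotF, sumF, lenF]
  | cons r l ih =>
    have e1 : mapF f (r :: l) = f r :: mapF f l := rfl
    have e2 : mapF g (r :: l) = g r :: mapF g l := rfl
    have e3 : lenF (r :: l) = lenF l + 1 := rfl
    rw [List.map_cons, List.sum_cons, ← ih, e1, e2, e3, dotF_cons, sumF_cons, sumF_cons]
    push_cast
    ring

theorem bsK_eq (B bb : ℕ) (c c' : List (ℕ × List (ℤ × ℕ))) : ∀ rows : List ℕ,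
    bsK B bb c c' rows = (rows.map fun r => lcK B bb r c * lcK B bb r c').sum := by
  intro rows
  induction rows with
  | nil => rfl
  | cons r l ih =>
    rw [bsK, ih, List.map_cons, List.sum_cons]
    rfl

theorem cellF_eq (B bb : ℕ) (t t' : Ty) (rows : List ℕ) :
    cellF (lenF rows) (colF B bb rows t) (colF B bb rows t')
      = bsK B bb (exT t) (exT t') rows := by
  rw [bsK_eq]
  have h := cell_aux (offF B bb t) (offF B bb t') (valF B bb t) (valF B bb t') rows
  simp only [lcK_exT]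
  rw [← h, cellF, Int.subNatNat_eq_coe]
  rfl

theorem padd_map {α β : Type} (f : β → β → β) (g h : α → β) : ∀ c : List α,
    padd f (c.map g) (c.map h) = c.map fun t => f (g t) (h t) := by
  intro c
  induction c with
  | nil => rfl
  | cons t c ih => rw [List.map_cons, List.map_cons, padd, ih, List.map_cons]

theorem padd_nil {α : Type} (f : α → α → α) (l : List α) : padd f l [] = l := by
  cases l <;> rfl

theorem outer_map (B bb r : ℕ) (c c' : Cs) :
    outer (rowZ B bb c r) (rowZ B bb c' r)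
      = c.map fun t => c'.map fun t' => lcK B bb r t * lcK B bb r t' := by
  simp only [outer, rowZ, List.map_map, scl1]
  refine List.map_congr_left fun t _ => ?_
  simp only [Function.comp_apply]
  rfl

theorem gramZ_map (B bb : ℕ) (c c' : Cs) : ∀ rows : List ℕ, rows ≠ [] →
    gramZ B bb c c' rows = c.map fun t => c'.map fun t' => bsK B bb t t' rows := by
  intro rows
  induction rows with
  | nil => intro h; exact absurd rfl h
  | cons r l ih =>
    intro _
    rw [gramZ, outer_map]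
    by_cases hl : l = []
    · subst hl
      rw [gramZ, add2, padd_nil]
      refine List.map_congr_left fun t _ => List.map_congr_left fun t' _ => ?_
      simp only [bsK]
      exact (add_zero (lcK B bb r t * lcK B bb r t')).symm
    · rw [ih hl, add2, padd_map]
      refine List.map_congr_left fun t _ => ?_
      rw [add1, padd_map]
      rfl

theorem gramF_eq (B bb : ℕ) (c c' : List Ty) (rows : List ℕ) (h : rows ≠ []) :
    gramZ B bb (c.map exT) (c'.map exT) rows = gramF B bb c c' rows := by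
  rw [gramZ_map B bb _ _ rows h, gramF]
  simp only [mapF_eq, List.map_map]
  refine List.map_congr_left fun t _ => ?_
  simp only [Function.comp_apply]
  refine List.map_congr_left fun t' _ => ?_
  simp only [Function.comp_apply, cellF_eq]

/-! ### Tables and sums of squares -/

/-- A block in short form. -/
structure Bf where
  m : Ex
  t00 : Ex
  t01 : Ex
  t11 : Ex
  bb : ℕ
  d0 : List ℕ
  d1 : List ℕ
  c0 : List Ty
  c1 : List Ty
  rows : List ℕ

/-- The block in long form. -/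
def Bf.toBk (b : Bf) : Bk where
  m := b.m
  t00 := b.t00
  t01 := b.t01
  t11 := b.t11
  bb := b.bb
  d0 := b.d0
  d1 := b.d1
  c0 := b.c0.map exT
  c1 := b.c1.map exT
  rows := b.rows

/-- Weight of the entries. -/
def Bf.th (b : Bf) : ℕ → ℕ → Ex
  | 0, 0 => b.t00
  | 0, _ + 1 => b.t01
  | _ + 1, 0 => b.t01
  | _ + 1, _ + 1 => b.t11

/-- Types for the index `i`. -/
def Bf.cs (b : Bf) : ℕ → List Ty
  | 0 => b.c0
  | _ + 1 => b.c1

/-- Table of class `(i, j)`. -/
def tabF (B i j : ℕ) (l : List Bf) : List (List ℤ) :=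
  List.rec (motive := fun _ => List (List ℤ)) []
    (fun b _ ih => addF (addF Int.add) (mapF (mapF (Int.mul (krE B rs6 (.mul b.m (b.th i j)))))
      (gramF B b.bb (b.cs i) (b.cs j) b.rows)) ih) l

/-- All lists of rows are nonempty. -/
def neF (l : List Bf) : Bool :=
  List.rec (motive := fun _ => Bool) true
    (fun b _ ih => List.rec (motive := fun _ => Bool) false (fun _ _ _ => ih) b.rows) l

theorem tabF_cons (B i j : ℕ) (b : Bf) (l : List Bf) :
    tabF B i j (b :: l) = addF (addF Int.add) (mapF (mapF (Int.mul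
      (krE B rs6 (.mul b.m (b.th i j))))) (gramF B b.bb (b.cs i) (b.cs j) b.rows))
        (tabF B i j l) := rfl

theorem scl2F (c : ℤ) (M : List (List ℤ)) : mapF (mapF (Int.mul c)) M = scl2 c M := by
  rw [mapF_eq, scl2]
  refine List.map_congr_left fun r _ => ?_
  rw [mapF_eq]
  rfl

theorem add2F (M N : List (List ℤ)) : addF (addF Int.add) M N = add2 M N := by
  rw [addF_eq _ _ (fun x y => addF_eq _ _ (fun _ _ => rfl) x y)]
  rfl

theorem Bf.cs_eq (b : Bf) (i : ℕ) : b.toBk.cs i = (b.cs i).map exT := by cases i <;> rfl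

theorem Bf.th_eq (b : Bf) (i j : ℕ) : b.toBk.th i j = b.th i j := by cases i <;> cases j <;> rfl

theorem tabZ_eq (B i j : ℕ) : ∀ l : List Bf, neF l = true →
    tabZ B i j (l.map Bf.toBk) = tabF B i j l := by
  intro l
  induction l with
  | nil => intro _; rfl
  | cons b l ih =>
    intro h
    have h1 : b.rows ≠ [] := by
      intro h'
      have : neF (b :: l) = false := by
        change List.rec (motive := fun _ => Bool) false (fun _ _ _ => neF l) b.rows = false
        rw [h']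
      rw [this] at h
      exact Bool.false_ne_true h
    have h2 : neF l = true := by
      obtain ⟨r, rs, hr⟩ := List.exists_cons_of_ne_nil h1
      have : neF (b :: l) = neF l := by
        change List.rec (motive := fun _ => Bool) false (fun _ _ _ => neF l) b.rows = neF l
        rw [hr]
      rw [← this]
      exact h
    rw [List.map_cons, tabZ, tabF_cons, ih h2, add2F, scl2F, Bf.cs_eq, Bf.cs_eq, Bf.th_eq]
    congr 2
    exact gramF_eq B b.bb (b.cs i) (b.cs j) b.rows h1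

/-- A group in short form. -/
structure Gf where
  comps : List (List (List S3))
  blks : List Bf

/-- The group in long form. -/
def Gf.toGrp (g : Gf) : Grp where
  comps := g.comps
  blks := g.blks.map Bf.toBk

/-- All lists of rows are nonempty. -/
def neG (l : List Gf) : Bool :=
  List.rec (motive := fun _ => Bool) true (fun g _ ih => neF g.blks && ih) l

/-- Entry `(i, j)` of the sum of squares. -/
def sosF (B i j : ℕ) : List Gf → P3
  | [] => []
  | g :: l => add3 (cmpP (tabF B (kd i) (kd j) g.blks) i j g.comps) (sosF B i j l)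

theorem sosP_eq (B i j : ℕ) : ∀ l : List Gf, neG l = true →
    sosP B i j (l.map Gf.toGrp) = sosF B i j l := by
  intro l
  induction l with
  | nil => intro _; rfl
  | cons g l ih =>
    intro h
    have h' : (neF g.blks && neG l) = true := h
    rw [Bool.and_eq_true] at h'
    rw [List.map_cons, sosP, sosF, ih h'.2]
    congr 2
    exact tabZ_eq B (kd i) (kd j) g.blks h'.1

end Vale.Agent.P098.N
end
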