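import Mathlib
import Vale.Agent.P098.Bdl.B3
import Vale.Agent.P098.Bdl.B6
import Vale.Agent.P098.Bdl.B2
import Vale.Agent.P098.Bdl.B4
attribute [-instance] ProperSMul.toContinuousSMul IsTopologicalTorsor.toContinuousSMul IdemSemiring.toCanonicallyOrderedAdd IdemSemiring.toMulLeftMono IdemSemiring.toMulRightMono AddQuantale.instAddLeftMono AddQuantale.instAddRightMono Quantale.instMulLeftMono Quantale.instMulRightMono FiniteDimensional.rclike_to_real IsScalarTower.complexToReal FiniteDimensional.complexToReal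

set_option linter.all false

section

/-! # F2: dimension two

Let `U` be the extension from `IsRegularAwayFromZero`. At a point `x` with `u x > 0` (so `x ≠ 0`):
`lap u x = 0` (`MinL.harm`) and Euler's relation (differentiate `∑ x_i P1 u i x = u x`, see `euler2`
in `ModF1`): `∑ j, P2 u i j x * x j = 0` for `i = 0, 1`, with `P2` symmetric. In dimension two these
equations force `P2 u i j x = 0`: the symmetric matrix kills `x ≠ 0` and is trace free. So
`fderiv ℝ (fderiv ℝ u) x = 0`, and `rigidity` (`ModE`) applies. -/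


open MeasureTheory Set Metric Filter
open scoped ContDiff RealInnerProductSpace Topology NNReal

namespace Vale.Agent.P098

variable {d : ℕ}

/-- Flatness of the minimizers which are smooth away from the origin, in dimension `d`. -/
def SmoothFlat (d : ℕ) : Prop := ∀ (L : ℝ≥0) (u : E d → ℝ), MinL L u → Hom1 u →
  IsRegularAwayFromZero u → (∀ x, u x = 0) ∨ ∃ e : E d, ‖e‖ = 1 ∧ ∀ x, u x = max ⟪x, e⟫ 0

/-- A continuous linear form vanishing on the coordinate vectors is zero. -/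
theorem rF2_clm_zero {F : Type*} [NormedAddCommGroup F] [NormedSpace ℝ F] (A : E d →L[ℝ] F)
    (h : ∀ i, A (ee i) = 0) : A = 0 := by
  ext v
  have hv : v = ∑ i, v i • (ee i : E d) := by
    ext k
    simp only [ee, WithLp.ofLp_sum, WithLp.ofLp_smul, PiLp.ofLp_single, Finset.sum_apply, Pi.smul_apply, Pi.single_apply, smul_eq_mul, mul_ite, mul_one, mul_zero, Finset.sum_ite_eq, Finset.mem_univ, ↓reduceIte]
  rw [hv, map_sum]
  simp only [map_smul, h, smul_zero, Finset.sum_const_zero, map_sum, zero_apply]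

/-- Dimension two: `D²U x = 0` (Euler) and `tr D²U = 0` force `D²U = 0`; then `rigidity`. -/
theorem smoothFlat_two : SmoothFlat 2 := by
  intro L u hm hhom hreg
  have hc : Continuous u := hreg.1
  have hopen : IsOpen (pos u) := isOpen_lt continuous_const hc
  obtain ⟨hsm, hlap⟩ := hm.harm
  have hloc : LocalExt u (pos u) u := by
    refine ⟨hopen, hsm, fun x _ _ => rfl, fun x hx hxf => ?_⟩
    exfalso
    have h1 : x ∈ interior {y | 0 < u y} := by
      rw [hopen.interior_eq]; exact hx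
    exact hxf.2 h1
  refine rigidity le_rfl hc hm.nonneg hhom hreg ?_
  intro x hx
  have hx' : x ∈ pos u := hx
  have hx0 : x ≠ 0 := by
    rintro rfl
    have := hhom 2 (by norm_num) 0
    rw [smul_zero] at this
    linarith only [hx, this]
  have e0 := euler2 hhom hloc hc hx' hx 0
  have e1 := euler2 hhom hloc hc hx' hx 1
  have hs : P2 u 1 0 x = P2 u 0 1 x := P2_symm hopen hsm hx' 1 0
  have hl := hlap x hx'
  unfold lap at hl
  rw [Fin.sum_univ_two] at e0 e1 hl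
  rw [hs] at e1
  have h11 : P2 u 1 1 x = - P2 u 0 0 x := by linarith only [hl]
  rw [h11] at e1
  have k0 : (P2 u 0 0 x ^ 2 + P2 u 0 1 x ^ 2) * x 0 = 0 := by
    linear_combination P2 u 0 0 x * e0 + P2 u 0 1 x * e1
  have k1 : (P2 u 0 0 x ^ 2 + P2 u 0 1 x ^ 2) * x 1 = 0 := by
    linear_combination P2 u 0 1 x * e0 - P2 u 0 0 x * e1
  have hz : P2 u 0 0 x ^ 2 + P2 u 0 1 x ^ 2 = 0 := by
    rcases mul_eq_zero.1 k0 with h | h
    · exact h
    rcases mul_eq_zero.1 k1 with h' | h'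
    · exact h'
    exact absurd (by ext i; fin_cases i <;> simp [h, h']) hx0
  have a0 : P2 u 0 0 x = 0 := by nlinarith only [hz]
  have b0 : P2 u 0 1 x = 0 := by nlinarith only [hz]
  have hP : ∀ i j, P2 u i j x = 0 := by
    intro i j
    fin_cases i <;> fin_cases j
    · exact a0
    · exact b0
    · simpa [hs] using b0
    · simpa [a0] using h11
  refine rF2_clm_zero _ fun j => rF2_clm_zero _ fun i => ?_
  rw [← P2_eq_fderiv hopen hsm hx' i j]
  exact hP i j

end Vale.Agent.P098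
end

section

open MeasureTheory Set Metric Filter
open scoped ContDiff RealInnerProductSpace Topology NNReal

namespace Vale.Agent.P098

variable {d : ℕ}

theorem rM7a_pow_deriv (s : ℝ) : HasDerivAt (fun s : ℝ => max s 0 ^ 3) (3 * max s 0 ^ 2) s := by
  rcases lt_trichotomy s 0 with h | h | h
  · have h1 : (fun s : ℝ => max s 0 ^ 3) =ᶠ[𝓝 s] fun _ => 0 := by
      filter_upwards [Iio_mem_nhds h] with t ht
      rw [max_eq_right (le_of_lt ht)]; norm_num
    have h2 : 3 * max s 0 ^ 2 = 0 := by rw [max_eq_right h.le]; norm_num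
    rw [h2]
    exact (hasDerivAt_const s (0 : ℝ)).congr_of_eventuallyEq h1
  · subst h
    have h2 : 3 * max (0 : ℝ) 0 ^ 2 = 0 := by norm_num
    rw [h2]
    rw [hasDerivAt_iff_isLittleO_nhds_zero]
    have h3 : (fun h : ℝ => max (0 + h) 0 ^ 3 - max (0 : ℝ) 0 ^ 3 - h • (0 : ℝ)) =O[𝓝 0]
        fun h : ℝ => h ^ 3 := by
      refine Asymptotics.IsBigO.of_bound 1 (Eventually.of_forall fun t => ?_)
      simp only [zero_add, max_self, smul_zero, sub_zero, one_mul, Real.norm_eq_abs, abs_pow]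
      norm_num
      refine pow_le_pow_left₀ (abs_nonneg _) ?_ 3
      rw [abs_of_nonneg (le_max_right t 0)]
      exact max_le (le_abs_self t) (abs_nonneg t)
    refine h3.trans_isLittleO ?_
    have := Asymptotics.isLittleO_pow_id (𝕜 := ℝ) (n := 3) (by norm_num)
    simpa only using this
  · have h1 : (fun s : ℝ => max s 0 ^ 3) =ᶠ[𝓝 s] fun s => s ^ 3 := by
      filter_upwards [Ioi_mem_nhds h] with t ht
      rw [max_eq_left (le_of_lt ht)]
    rw [max_eq_left h.le]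
    refine HasDerivAt.congr_of_eventuallyEq ?_ h1
    simpa using hasDerivAt_pow 3 s

/-- `κ_r(x) = max (1 - |x|²/r²) 0`. -/
noncomputable def rM7a_k (r : ℝ) (x : E d) : ℝ := max (1 - ‖x‖ ^ 2 / r ^ 2) 0

theorem rM7a_k_nonneg (r : ℝ) (x : E d) : 0 ≤ rM7a_k r x := le_max_right _ _

theorem rM7a_k_le (r : ℝ) (x : E d) : rM7a_k r x ≤ 1 := by
  unfold rM7a_k
  refine max_le ?_ zero_le_one
  have : 0 ≤ ‖x‖ ^ 2 / r ^ 2 := by (clear * -; positivity)
  linarith only [this]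

theorem rM7a_k_zero {r : ℝ} (hr : 0 < r) {x : E d} (hx : r ≤ ‖x‖) : rM7a_k r x = 0 := by
  unfold rM7a_k
  refine max_eq_right ?_
  have : 1 ≤ ‖x‖ ^ 2 / r ^ 2 := by
    rw [le_div_iff₀ (by positivity)]
    nlinarith only [hr, hx]
  linarith only [this]

theorem rM7a_k_smul {r : ℝ} (hr : 0 < r) (y : E d) : rM7a_k r (r • y) = max (1 - ‖y‖ ^ 2) 0 := by
  unfold rM7a_k
  rw [norm_smul, Real.norm_eq_abs, abs_of_pos hr]
  congr 2
  (clear * - hr; field_simp)

theorem rM7a_k_continuous (r : ℝ) : Continuous (rM7a_k r : E d → ℝ) := by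
  unfold rM7a_k; fun_prop

theorem rM7a_k_hasFDeriv (r : ℝ) (x : E d) : HasFDerivAt (fun x : E d => rM7a_k r x ^ 3)
    ((-(6 * rM7a_k r x ^ 2 / r ^ 2)) • innerSL ℝ x) x := by
  have h1 : HasFDerivAt (fun x : E d => 1 - ‖x‖ ^ 2 / r ^ 2)
      ((-(2 / r ^ 2)) • innerSL ℝ x) x := by
    have h0 : HasFDerivAt (fun x : E d => ‖x‖ ^ 2) (2 • innerSL ℝ x) x :=
      (hasStrictFDerivAt_norm_sq x).hasFDerivAt
    have h2 := (h0.mul_const (r ^ 2)⁻¹).const_sub 1
    refine (h2.congr_fderiv ?_).congr_of_eventuallyEq (Eventually.of_forall fun y => ?_)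
    · ext v
      simp only [neg_apply, smul_apply, coe_innerSL_apply, nsmul_eq_mul, Nat.cast_ofNat, smul_eq_mul, neg_smul, neg_inj]
      ring
    · simp [div_eq_mul_inv]
  have h2 := (rM7a_pow_deriv (1 - ‖x‖ ^ 2 / r ^ 2)).comp_hasFDerivAt x h1
  refine h2.congr_fderiv ?_
  ext v
  simp [rM7a_k]
  ring

/-- The vector field. -/
noncomputable def rM7a_xi (r : ℝ) (x : E d) : E d := rM7a_k r x ^ 3 • x

theorem rM7a_xi_hasFDeriv (r : ℝ) (x : E d) : HasFDerivAt (rM7a_xi r : E d → E d)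
    (rM7a_k r x ^ 3 • ContinuousLinearMap.id ℝ (E d) +
      (((-(6 * rM7a_k r x ^ 2 / r ^ 2)) • innerSL ℝ x : E d →L[ℝ] ℝ)).smulRight x) x :=
  (rM7a_k_hasFDeriv r x).smul (hasFDerivAt_id x)

theorem rM7a_xi_contDiff (r : ℝ) : ContDiff ℝ 1 (rM7a_xi r : E d → E d) := by
  rw [contDiff_one_iff_hasFDerivAt]
  refine ⟨_, ?_, fun x => rM7a_xi_hasFDeriv r x⟩
  have hk := rM7a_k_continuous (d := d) r
  have h1 : Continuous fun x : E d => (-(6 * rM7a_k r x ^ 2 / r ^ 2)) • innerSL ℝ x := by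
    have : Continuous fun x : E d => innerSL ℝ x := (innerSL ℝ).continuous
    fun_prop
  have h2 : Continuous fun x : E d =>
      (((-(6 * rM7a_k r x ^ 2 / r ^ 2)) • innerSL ℝ x : E d →L[ℝ] ℝ)).smulRight x := by
    exact ((ContinuousLinearMap.smulRightL ℝ (E d) (E d)).continuous₂).comp (h1.prodMk continuous_id)
  fun_prop

theorem rM7a_xi_compact {r : ℝ} (hr : 0 < r) : HasCompactSupport (rM7a_xi r : E d → E d) := by
  refine HasCompactSupport.of_support_subset_isCompact (isCompact_closedBall (0 : E d) r) ?_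
  intro x hx
  by_contra h
  apply hx
  have : r ≤ ‖x‖ := by
    simp only [mem_closedBall, dist_zero_right, not_le] at h
    exact h.le
  simp only [rM7a_xi, rM7a_k_zero hr this, ne_eq, OfNat.ofNat_ne_zero, not_false_eq_true, zero_pow, zero_smul]

theorem rM7a_divg (r : ℝ) (x : E d) : divg (rM7a_xi r) x =
    d * rM7a_k r x ^ 3 - 6 * rM7a_k r x ^ 2 * ‖x‖ ^ 2 / r ^ 2 := by
  unfold divg
  rw [(rM7a_xi_hasFDeriv r x).fderiv]
  have h1 : ‖x‖ ^ 2 = ∑ i, x i ^ 2 := by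
    rw [EuclideanSpace.norm_sq_eq]
    simp only [Real.norm_eq_abs, sq_abs]
  have h2 : ∀ i, ⟪x, ee i⟫ = x i := by
    intro i
    simp [ee, EuclideanSpace.inner_single_right]
  simp only [add_apply, smul_apply,
    ContinuousLinearMap.id_apply, ContinuousLinearMap.smulRight_apply, innerSL_apply_apply, h2,
    PiLp.add_apply, PiLp.smul_apply, smul_eq_mul]
  rw [Finset.sum_add_distrib]
  simp only [PiLp.single_apply, if_true, mul_one, Finset.sum_const, Finset.card_univ, Fintype.card_fin, nsmul_eq_mul]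
  rw [h1]
  have h3 : ∑ i, -(6 * rM7a_k r x ^ 2 / r ^ 2) * x i * x i =
      -(6 * rM7a_k r x ^ 2 * ∑ i, x i ^ 2) / r ^ 2 := by
    rw [Finset.mul_sum, ← Finset.sum_neg_distrib, Finset.sum_div]
    refine Finset.sum_congr rfl fun i _ => ?_
    ring
  rw [h3]
  ring

theorem rM7a_quad (u : E d → ℝ) (r : ℝ) (x : E d) :
    fderiv ℝ u x (fderiv ℝ (rM7a_xi r) x (gradient u x)) =
      rM7a_k r x ^ 3 * ‖fderiv ℝ u x‖ ^ 2 - 6 * rM7a_k r x ^ 2 * fderiv ℝ u x x ^ 2 / r ^ 2 := by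
  rw [(rM7a_xi_hasFDeriv r x).fderiv]
  have h1 : fderiv ℝ u x (gradient u x) = ‖fderiv ℝ u x‖ ^ 2 := by
    rw [← mb_inner_gradient, real_inner_self_eq_norm_sq, mb_norm_gradient]
  have h2 : ⟪x, gradient u x⟫ = fderiv ℝ u x x := by
    rw [real_inner_comm, mb_inner_gradient]
  simp only [add_apply, smul_apply,
    ContinuousLinearMap.id_apply, ContinuousLinearMap.smulRight_apply, innerSL_apply_apply,
    map_add, map_smul, smul_eq_mul, h1, h2]
  ring

end Vale.Agent.P098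
end

section

open MeasureTheory Set Metric Filter
open scoped ContDiff RealInnerProductSpace Topology

namespace Vale.Agent.P098

variable {d : ℕ}

namespace M5

/-! ### the smooth transition -/

theorem st_deriv_zero_of_le {y : ℝ} (hy : y ≤ 0) : deriv Real.smoothTransition y = 0 := by
  apply IsLocalMin.deriv_eq_zero
  apply Filter.Eventually.of_forall
  intro z
  rw [Real.smoothTransition.zero_of_nonpos hy]
  exact Real.smoothTransition.nonneg z

theorem st_deriv_zero_of_ge {y : ℝ} (hy : 1 ≤ y) : deriv Real.smoothTransition y = 0 := by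
  apply IsLocalMax.deriv_eq_zero
  apply Filter.Eventually.of_forall
  intro z
  rw [Real.smoothTransition.one_of_one_le hy]
  exact Real.smoothTransition.le_one z

theorem st_deriv_bdd : ∃ D : ℝ, 0 ≤ D ∧ ∀ y, |deriv Real.smoothTransition y| ≤ D := by
  have hc : HasCompactSupport (deriv Real.smoothTransition) :=
    HasCompactSupport.intro (isCompact_Icc (a := (0 : ℝ)) (b := 1)) fun y hy => by
      rw [mem_Icc, not_and_or, not_le, not_le] at hy
      rcases hy with hy | hy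
      · exact st_deriv_zero_of_le hy.le
      · exact st_deriv_zero_of_ge hy.le
  have hcont : Continuous (deriv Real.smoothTransition) :=
    (Real.smoothTransition.contDiff (n := 1)).continuous_deriv le_rfl
  obtain ⟨D, hD⟩ := hc.exists_bound_of_continuous hcont
  exact ⟨D, (norm_nonneg _).trans (hD 0), fun y => by simpa only [Real.norm_eq_abs] using hD y⟩

/-! ### the cutoff -/

/-- cutoff as a function of `s = |x|²`: zero for `s ≤ 1/4` and for `s ≥ 4^(k+1)`, one on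
`[1, 4^k]`. -/
noncomputable def chi (k : ℕ) (s : ℝ) : ℝ :=
  Real.smoothTransition ((4 * s - 1) / 3) * Real.smoothTransition ((4 - s / 4 ^ k) / 3)

theorem chi_smooth (k : ℕ) : ContDiff ℝ ∞ (chi k) := by
  unfold chi
  have h1 : ContDiff ℝ ∞ (fun s : ℝ => (4 * s - 1) / 3) := by fun_prop
  have h2 : ContDiff ℝ ∞ (fun s : ℝ => (4 - s / 4 ^ k) / 3) := by fun_prop
  exact ((Real.smoothTransition.contDiff (n := ⊤)).comp h1).mul
    ((Real.smoothTransition.contDiff (n := ⊤)).comp h2)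

theorem chi_nonneg (k : ℕ) (s : ℝ) : 0 ≤ chi k s :=
  mul_nonneg (Real.smoothTransition.nonneg _) (Real.smoothTransition.nonneg _)

theorem chi_le_one (k : ℕ) (s : ℝ) : chi k s ≤ 1 :=
  mul_le_one₀ (Real.smoothTransition.le_one _) (Real.smoothTransition.nonneg _)
    (Real.smoothTransition.le_one _)

theorem chi_eq_one {k : ℕ} {s : ℝ} (h1 : 1 ≤ s) (h2 : s ≤ 4 ^ k) : chi k s = 1 := by
  unfold chi
  have h4 : (0 : ℝ) < 4 ^ k := by positivity
  rw [Real.smoothTransition.one_of_one_le (by linarith), Real.smoothTransition.one_of_one_le, one_mul]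
  have : s / 4 ^ k ≤ 1 := by rwa [div_le_one h4]
  linarith only [this]

theorem chi_zero_left {k : ℕ} {s : ℝ} (h : s ≤ 1 / 4) : chi k s = 0 := by
  unfold chi
  rw [Real.smoothTransition.zero_of_nonpos (by linarith), zero_mul]

theorem chi_zero_right {k : ℕ} {s : ℝ} (h : 4 ^ (k + 1) ≤ s) : chi k s = 0 := by
  unfold chi
  have h4 : (0 : ℝ) < 4 ^ k := by positivity
  have : 4 ≤ s / 4 ^ k := by
    rw [le_div_iff₀ h4]
    calc (4 : ℝ) * 4 ^ k = 4 ^ (k + 1) := by ring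
      _ ≤ s := h
  rw [Real.smoothTransition.zero_of_nonpos (x := (4 - s / 4 ^ k) / 3) (by linarith only [this]), mul_zero]

theorem chi_deriv_eq_zero_of_one {k : ℕ} {s : ℝ} (h1 : 1 ≤ s) (h2 : s ≤ 4 ^ k) :
    deriv (chi k) s = 0 := by
  apply IsLocalMax.deriv_eq_zero
  apply Filter.Eventually.of_forall
  intro z
  rw [chi_eq_one h1 h2]
  exact chi_le_one k z

theorem chi_deriv_eq_zero_of_zero {k : ℕ} {s : ℝ} (h : chi k s = 0) : deriv (chi k) s = 0 := by
  apply IsLocalMin.deriv_eq_zero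
  apply Filter.Eventually.of_forall
  intro z
  rw [h]
  exact chi_nonneg k z

theorem chi_hasDerivAt (k : ℕ) (s : ℝ) : HasDerivAt (chi k)
    (deriv Real.smoothTransition ((4 * s - 1) / 3) * (4 / 3)
        * Real.smoothTransition ((4 - s / 4 ^ k) / 3)
      + Real.smoothTransition ((4 * s - 1) / 3)
        * (deriv Real.smoothTransition ((4 - s / 4 ^ k) / 3) * (-(1 / 4 ^ k) / 3))) s := by
  have hst : ∀ y, HasDerivAt Real.smoothTransition (deriv Real.smoothTransition y) y := fun y =>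
    ((Real.smoothTransition.contDiff (n := 1)).differentiable (by norm_num) y).hasDerivAt
  have h1 : HasDerivAt (fun s : ℝ => (4 * s - 1) / 3) (4 / 3) s := by
    have := (((hasDerivAt_id s).const_mul 4).sub_const 1).div_const 3
    simpa only [id_eq, mul_one] using this
  have h2 : HasDerivAt (fun s : ℝ => (4 - s / 4 ^ k) / 3) (-(1 / 4 ^ k) / 3) s := by
    have := (((hasDerivAt_id s).div_const (4 ^ k)).const_sub 4).div_const 3
    simpa only [one_div, id_eq] using this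
  exact ((hst _).comp s h1).mul ((hst _).comp s h2)

theorem chi_deriv_bound {D : ℝ} (hD : ∀ y, |deriv Real.smoothTransition y| ≤ D) (k : ℕ)
    {s : ℝ} (hs : 0 < s) : |deriv (chi k) s| ≤ 3 * D / s := by
  have hD0 : 0 ≤ D := (abs_nonneg _).trans (hD 0)
  have h4 : (0 : ℝ) < 4 ^ k := by positivity
  rw [(chi_hasDerivAt k s).deriv]
  have e1 : |deriv Real.smoothTransition ((4 * s - 1) / 3) * (4 / 3)
        * Real.smoothTransition ((4 - s / 4 ^ k) / 3)| ≤ 4 / 3 * D / s := by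
    rcases le_or_gt 1 ((4 * s - 1) / 3) with h | h
    · rw [st_deriv_zero_of_ge h, zero_mul, zero_mul, abs_zero]; positivity
    · have hs1 : s ≤ 1 := by linarith
      rw [abs_mul, abs_mul, abs_of_nonneg (Real.smoothTransition.nonneg _)]
      have a1 := hD ((4 * s - 1) / 3)
      have a2 := Real.smoothTransition.le_one ((4 - s / 4 ^ k) / 3)
      have a3 := Real.smoothTransition.nonneg ((4 - s / 4 ^ k) / 3)
      have a4 : |(4 / 3 : ℝ)| = 4 / 3 := by norm_num
      rw [a4]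
      calc |deriv Real.smoothTransition ((4 * s - 1) / 3)| * (4 / 3)
            * Real.smoothTransition ((4 - s / 4 ^ k) / 3) ≤ D * (4 / 3) * 1 := by (clear * - a1 a2 a3 hD0; gcongr)
        _ = 4 / 3 * D / 1 := by ring
        _ ≤ 4 / 3 * D / s := by (clear * - hD0 hs hs1; gcongr)
  have e2 : |Real.smoothTransition ((4 * s - 1) / 3)
        * (deriv Real.smoothTransition ((4 - s / 4 ^ k) / 3) * (-(1 / 4 ^ k) / 3))|
        ≤ 4 / 3 * D / s := by
    rcases le_or_gt ((4 - s / 4 ^ k) / 3) 0 with h | h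
    · rw [st_deriv_zero_of_le h, zero_mul, mul_zero, abs_zero]; (clear * - hD0 hs; positivity)
    · have hs1 : s / 4 ^ k ≤ 4 := by linarith
      have hs2 : 1 / 4 ^ k ≤ 4 / s := by
        rw [div_le_div_iff₀ h4 hs]
        rw [div_le_iff₀ h4] at hs1
        linarith only [hs1]
      rw [abs_mul, abs_mul, abs_of_nonneg (Real.smoothTransition.nonneg _)]
      have a1 := hD ((4 - s / 4 ^ k) / 3)
      have a2 := Real.smoothTransition.le_one ((4 * s - 1) / 3)
      have a3 := Real.smoothTransition.nonneg ((4 * s - 1) / 3)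
      have a4 : |-(1 / 4 ^ k) / 3| = (1 / 4 ^ k : ℝ) / 3 := by
        rw [abs_div, abs_neg, abs_of_pos (by positivity : (0 : ℝ) < 1 / 4 ^ k)]
        norm_num
      rw [a4]
      calc Real.smoothTransition ((4 * s - 1) / 3)
            * (|deriv Real.smoothTransition ((4 - s / 4 ^ k) / 3)| * ((1 / 4 ^ k : ℝ) / 3))
            ≤ 1 * (D * ((4 / s) / 3)) := by (clear * - a2 a1 hs2 hD0; gcongr)
        _ = 4 / 3 * D / s := by ring
  calc _ ≤ _ := abs_add_le _ _
    _ ≤ 4 / 3 * D / s + 4 / 3 * D / s := add_le_add e1 e2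
    _ = 8 / 3 * (D / s) := by ring
    _ ≤ 3 * (D / s) := by
      have : 0 ≤ D / s := by (clear * - hD0 hs; positivity)
      linarith only [this]
    _ = 3 * D / s := by ring

/-! ### the test function -/

noncomputable def prof (γ : ℝ) (k : ℕ) (s : ℝ) : ℝ := s ^ (-γ / 2) * chi k s

theorem prof_smooth (γ : ℝ) (k : ℕ) : ContDiff ℝ ∞ (prof γ k) := by
  rw [contDiff_iff_contDiffAt]
  intro s
  rcases lt_or_ge 0 s with h | h
  · exact (Real.contDiffAt_rpow_const_of_ne h.ne').mul (chi_smooth k).contDiffAt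
  · have : prof γ k =ᶠ[𝓝 s] fun _ => 0 := by
      have hlt : s < 1 / 4 := by linarith
      filter_upwards [Iio_mem_nhds hlt] with z hz
      rw [prof, chi_zero_left (le_of_lt hz), mul_zero]
    exact contDiffAt_const.congr_of_eventuallyEq this

theorem prof_nonneg (γ : ℝ) (k : ℕ) {s : ℝ} (hs : 0 ≤ s) : 0 ≤ prof γ k s :=
  mul_nonneg (Real.rpow_nonneg hs _) (chi_nonneg k s)

theorem prof_hasDerivAt (γ : ℝ) (k : ℕ) {s : ℝ} (hs : 0 < s) :
    HasDerivAt (prof γ k) (s ^ (-γ / 2) * (-(γ / 2) * chi k s / s + deriv (chi k) s)) s := by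
  have h1 : HasDerivAt (fun s : ℝ => s ^ (-γ / 2)) (-γ / 2 * s ^ (-γ / 2 - 1)) s :=
    Real.hasDerivAt_rpow_const (Or.inl hs.ne')
  have h2 : HasDerivAt (chi k) (deriv (chi k) s) s :=
    (((chi_smooth k).differentiable (by simp)) s).hasDerivAt
  have h3 := h1.mul h2
  have e : s ^ (-γ / 2 - 1) = s ^ (-γ / 2) / s := by rw [Real.rpow_sub_one hs.ne']
  have h4 : -γ / 2 * s ^ (-γ / 2 - 1) * chi k s + s ^ (-γ / 2) * deriv (chi k) s
      = s ^ (-γ / 2) * (-(γ / 2) * chi k s / s + deriv (chi k) s) := by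
    rw [e]; ring
  rw [← h4]
  exact h3

noncomputable def eta (γ : ℝ) (k : ℕ) (x : E d) : ℝ := prof γ k (‖x‖ ^ 2)

theorem eta_smooth (γ : ℝ) (k : ℕ) : ContDiff ℝ ∞ (eta γ k : E d → ℝ) :=
  (prof_smooth γ k).comp (contDiff_norm_sq ℝ)

theorem eta_nonneg (γ : ℝ) (k : ℕ) (x : E d) : 0 ≤ eta γ k x := prof_nonneg γ k (sq_nonneg _)

theorem eta_gradient (γ : ℝ) (k : ℕ) {x : E d} (hx : x ≠ 0) :
    gradient (eta γ k) x = ((‖x‖ ^ 2) ^ (-γ / 2)
      * (-γ * chi k (‖x‖ ^ 2) / ‖x‖ ^ 2 + 2 * deriv (chi k) (‖x‖ ^ 2))) • x := by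
  have hs : 0 < ‖x‖ ^ 2 := by positivity
  have h1 := prof_hasDerivAt γ k hs
  have h2 : HasFDerivAt (fun x : E d => ‖x‖ ^ 2) (2 • innerSL ℝ x) x :=
    (hasStrictFDerivAt_norm_sq x).hasFDerivAt
  have h3 := h1.comp_hasFDerivAt x h2
  have h4 : HasGradientAt (eta γ k) (((‖x‖ ^ 2) ^ (-γ / 2)
      * (-γ * chi k (‖x‖ ^ 2) / ‖x‖ ^ 2 + 2 * deriv (chi k) (‖x‖ ^ 2))) • x) x := by
    rw [hasGradientAt_iff_hasFDerivAt]
    refine HasFDerivAt.congr_fderiv h3 ?_
    ext v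
    simp only [smul_apply, nsmul_eq_mul, Nat.cast_ofNat, innerSL_apply_apply, smul_eq_mul, map_smul,
      InnerProductSpace.toDual_apply_apply]
    simp only [neg_mul]
    ring
  exact h4.gradient

theorem eta_tsupport (γ : ℝ) (k : ℕ) : tsupport (eta γ k : E d → ℝ)
    ⊆ {x | 1 / 2 ≤ ‖x‖ ∧ ‖x‖ ≤ 2 ^ (k + 1)} := by
  apply closure_minimal
  · intro x hx
    rw [Function.mem_support] at hx
    have hc : chi k (‖x‖ ^ 2) ≠ 0 := fun h => hx (by rw [eta, prof, h, mul_zero])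
    constructor
    · by_contra h
      push Not at h
      exact hc (chi_zero_left (by nlinarith only [h, norm_nonneg x]))
    · by_contra h
      push Not at h
      apply hc (chi_zero_right _)
      have : (4 : ℝ) ^ (k + 1) = (2 ^ (k + 1)) ^ 2 := by
        rw [← pow_mul, mul_comm, pow_mul]; norm_num
      rw [this]
      exact pow_le_pow_left₀ (by positivity) h.le 2
  · exact (isClosed_le continuous_const continuous_norm).inter
      (isClosed_le continuous_norm continuous_const)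

theorem eta_hasCompactSupport (γ : ℝ) (k : ℕ) : HasCompactSupport (eta γ k : E d → ℝ) := by
  refine HasCompactSupport.of_support_subset_isCompact (isCompact_closedBall (0 : E d) (2 ^ (k + 1)))
    fun x hx => ?_
  have := eta_tsupport γ k (subset_tsupport _ hx)
  simpa only [mem_closedBall, dist_zero_right, ge_iff_le] using this.2

end M5

end Vale.Agent.P098
end

section

open MeasureTheory Set Metric Filter
open scoped ContDiff RealInnerProductSpace Topology

namespace Vale.Agent.P098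

variable {d : ℕ}

namespace M5

/-! ### homogeneity of the second derivatives -/

theorem P1_hom {u : E d → ℝ} (hhom : ∀ r : ℝ, 0 < r → ∀ x, u (r • x) = r * u x) {r : ℝ}
    (hr : 0 < r) (x : E d) (i : Fin d) : P1 u i (r • x) = P1 u i x := by
  have h1 : (fun y => u (r • y)) = r • u := funext fun y => by simp [hhom r hr y]
  have h2 := fderiv_comp_smul (f := u) (x := x) r
  have h3 : fderiv ℝ (r • u) x = r • fderiv ℝ u x := by
    rw [fderiv_const_smul_field]; rfl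
  rw [h1, h3] at h2
  unfold P1
  have h4 := congrArg (fun L : E d →L[ℝ] ℝ => L (ee i)) h2
  simp only [smul_apply, smul_eq_mul] at h4
  exact (mul_left_cancel₀ hr.ne' h4).symm

theorem P2_hom {u : E d → ℝ} (hhom : ∀ r : ℝ, 0 < r → ∀ x, u (r • x) = r * u x) {r : ℝ}
    (hr : 0 < r) (x : E d) (i j : Fin d) : P2 u i j (r • x) = r⁻¹ * P2 u i j x := by
  have h1 : (fun y => P1 u i (r • y)) = P1 u i := funext fun y => P1_hom hhom hr y i
  have h2 := fderiv_comp_smul (f := P1 u i) (x := x) r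
  rw [h1] at h2
  unfold P2
  have h4 := congrArg (fun L : E d →L[ℝ] ℝ => L (ee j)) h2
  simp only [smul_apply, smul_eq_mul] at h4
  rw [h4]
  (clear * - hr; field_simp)

theorem P2_eq_of_pos {u U : E d → ℝ} {N : Set (E d)} (hu : Continuous u) (hU : LocalExt u N U)
    {x : E d} (hx : x ∈ N) (hux : 0 < u x) (i j : Fin d) : P2 U i j x = P2 u i j x := by
  have hO : IsOpen (N ∩ {y | 0 < u y}) := hU.isOpen.inter (isOpen_lt continuous_const hu)
  have h0 : ∀ y ∈ N ∩ {y | 0 < u y}, U y = u y := fun y hy => hU.eq y hy.1 hy.2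
  have h1 : ∀ y ∈ N ∩ {y | 0 < u y}, P1 U i y = P1 u i y := fun y hy => P1_congr_on hO h0 hy i
  exact P1_congr_on hO h1 ⟨hx, hux⟩ j

/-- `|D²U|²` -/
noncomputable def sq2 (U : E d → ℝ) (x : E d) : ℝ := ∑ i, ∑ j, P2 U i j x ^ 2

theorem sq2_nonneg (U : E d → ℝ) (x : E d) : 0 ≤ sq2 U x :=
  Finset.sum_nonneg fun i _ => Finset.sum_nonneg fun j _ => sq_nonneg _

theorem sq2_hom {u U : E d → ℝ} (hu : Continuous u)
    (hhom : ∀ r : ℝ, 0 < r → ∀ x, u (r • x) = r * u x) {N : Set (E d)} (hU : LocalExt u N U)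
    (hN : {y | 0 < u y} ⊆ N) {x : E d} (hx : 0 < u x) {r : ℝ} (hr : 0 < r) :
    sq2 U (r • x) = (r ^ 2)⁻¹ * sq2 U x := by
  have hrx : 0 < u (r • x) := by rw [hhom r hr x]; (clear * - hr hx; positivity)
  unfold sq2
  rw [Finset.mul_sum]
  refine Finset.sum_congr rfl fun i _ => ?_
  rw [Finset.mul_sum]
  refine Finset.sum_congr rfl fun j _ => ?_
  rw [P2_eq_of_pos hu hU (hN hrx) hrx, P2_eq_of_pos hu hU (hN hx) hx, P2_hom hhom hr]
  rw [mul_pow, inv_pow]

theorem continuousOn_sq2 {U : E d → ℝ} {N : Set (E d)} (hN : IsOpen N)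
    (hU : ContDiffOn ℝ ∞ U N) : ContinuousOn (sq2 U) N := by
  unfold sq2
  exact continuousOn_finsetSum _ fun i _ => continuousOn_finsetSum _ fun j _ =>
    ((contDiffOn_P2 hN hU i j).continuousOn.pow 2)

/-! ### powers -/

theorem sq_rpow_half {n : ℝ} (hn : 0 < n) (d : ℕ) : (n ^ 2) ^ ((d : ℝ) / 2) = n ^ d := by
  rw [← Real.rpow_natCast n 2, ← Real.rpow_mul hn.le, ← Real.rpow_natCast n d]
  congr 1
  push_cast
  ring

theorem pow_id1 {n : ℝ} (hn : 0 < n) {d : ℕ} {α γ : ℝ} (hγ : γ = ((d : ℝ) - 2) / 2 - α) :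
    (n ^ 2) ^ (-γ - 1) * (n ^ 2) ^ (-α) = (n ^ d)⁻¹ := by
  have hs : 0 < n ^ 2 := by positivity
  rw [← Real.rpow_add hs, ← sq_rpow_half hn d, ← Real.rpow_neg hs.le]
  congr 1
  rw [hγ]; ring

/-- the homogeneous density -/
noncomputable def qq (ε α γ : ℝ) (U : E d → ℝ) (x : E d) : ℝ :=
  (‖x‖ ^ 2) ^ (-γ - 1) * (ε * sq2 U x ^ α)

theorem qq_hom {u U : E d → ℝ} (hu : Continuous u)
    (hhom : ∀ r : ℝ, 0 < r → ∀ x, u (r • x) = r * u x) {N : Set (E d)} (hU : LocalExt u N U)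
    (hN : {y | 0 < u y} ⊆ N) {ε α γ : ℝ} (hγ : γ = ((d : ℝ) - 2) / 2 - α) {r : ℝ} (hr : 0 < r)
    {x : E d} (hx : 0 < u x) : qq ε α γ U (r • x) = (r ^ d)⁻¹ * qq ε α γ U x := by
  unfold qq
  rw [sq2_hom hu hhom hU hN hx hr, norm_smul, Real.norm_of_nonneg hr.le, mul_pow,
    Real.mul_rpow (by (clear * - hr; positivity)) (by (clear * -; positivity)), Real.mul_rpow (by positivity) (sq2_nonneg U x),
    Real.inv_rpow (by (clear * - hr; positivity)), ← Real.rpow_neg (by (clear * - hr; positivity)), ← pow_id1 hr hγ]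
  ring

/-! ### integrability -/

theorem intOn_aux {Ω N : Set (E d)} (hΩ : MeasurableSet Ω) {η f : E d → ℝ}
    (hηc : HasCompactSupport η) (hηN : closure Ω ∩ tsupport η ⊆ N) (hf : ContinuousOn f N)
    (hf0 : ∀ x, x ∉ tsupport η → f x = 0) : IntegrableOn f Ω := by
  have hK : IsCompact (closure Ω ∩ tsupport η) := hηc.isCompact.inter_left isClosed_closure
  have h1 : IntegrableOn f (closure Ω ∩ tsupport η) := (hf.mono hηN).integrableOn_compact hK
  have h2 : IntegrableOn f (Ω ∩ tsupport η) :=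
    h1.mono_set (inter_subset_inter_left _ subset_closure)
  refine h2.of_forall_sdiff_eq_zero hΩ ?_
  intro x hx
  exact hf0 x fun h => hx.2 ⟨hx.1, h⟩

theorem continuousOn_gradient {f : E d → ℝ} {N : Set (E d)} (hN : IsOpen N)
    (hf : ContDiffOn ℝ ∞ f N) : ContinuousOn (gradient f) N := by
  have h := hf.continuousOn_fderiv_of_isOpen hN (by simp only [WithTop.one_le_coe, le_top])
  exact (LinearIsometryEquiv.continuous _).comp_continuousOn h

theorem continuousOn_divg {Z : E d → E d} {N : Set (E d)} (hN : IsOpen N)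
    (hZ : ContDiffOn ℝ ∞ Z N) : ContinuousOn (divg Z) N := by
  have h := hZ.continuousOn_fderiv_of_isOpen hN (by simp only [WithTop.one_le_coe, le_top])
  unfold divg
  refine continuousOn_finsetSum _ fun i _ => ?_
  have h1 : ContinuousOn (fun x => fderiv ℝ Z x (ee i)) N := h.clm_apply continuousOn_const
  exact (EuclideanSpace.proj i : E d →L[ℝ] ℝ).continuous.comp_continuousOn h1

/-! ### the pointwise identity -/

/-- the integrand after inserting the test function. -/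
noncomputable def JJ (γ : ℝ) (k : ℕ) (W : E d → ℝ) (V : E d → E d) (x : E d) : ℝ :=
  (‖x‖ ^ 2) ^ (-γ) * (W x * (4 * deriv (chi k) (‖x‖ ^ 2) ^ 2 * ‖x‖ ^ 2
      - 4 * γ * chi k (‖x‖ ^ 2) * deriv (chi k) (‖x‖ ^ 2))
    + 4 * chi k (‖x‖ ^ 2) * deriv (chi k) (‖x‖ ^ 2) * ⟪x, V x⟫)

theorem rho_sq {s : ℝ} (hs : 0 < s) (γ : ℝ) : s ^ (-γ) = s ^ (-γ / 2) * s ^ (-γ / 2) := by
  rw [← Real.rpow_add hs]; congr 1; ring

theorem JJ_eq (γ : ℝ) (k : ℕ) (W : E d → ℝ) (V : E d → E d) {x : E d} (hx : x ≠ 0) :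
    (W x * ‖gradient (eta γ k) x‖ ^ 2 + 2 * eta γ k x * ⟪gradient (eta γ k) x, V x⟫)
      + eta γ k x ^ 2 * (2 * γ / ‖x‖ ^ 2 * ⟪V x, x⟫ - γ ^ 2 * W x / ‖x‖ ^ 2)
      = JJ γ k W V x := by
  have hs : 0 < ‖x‖ ^ 2 := by (clear * - hx; positivity)
  rw [eta_gradient γ k hx, norm_smul, mul_pow, Real.norm_eq_abs, sq_abs, real_inner_smul_left, JJ,
    rho_sq hs, real_inner_comm (V x) x, eta, prof]
  generalize hs' : ‖x‖ ^ 2 = s at hs ⊢
  generalize s ^ (-γ / 2) = ρ
  generalize chi k s = c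
  generalize deriv (chi k) s = c'
  field_simp
  ring

/-- the pointwise bound -/
theorem JJ_bound {D γ : ℝ} (hD : ∀ y, |deriv Real.smoothTransition y| ≤ D) (k : ℕ)
    (W : E d → ℝ) (V : E d → E d) {x : E d} (hx : x ≠ 0) (hW : 0 ≤ W x) :
    JJ γ k W V x ≤ 12 * D * (3 * D + |γ| + 1) *
      ((‖x‖ ^ 2) ^ (-γ) * (W x / ‖x‖ ^ 2 + ‖V x‖ / ‖x‖)) := by
  have hn : 0 < ‖x‖ := norm_pos_iff.2 hx
  have hs : 0 < ‖x‖ ^ 2 := by (clear * - hx; positivity)
  have hD0 : 0 ≤ D := (abs_nonneg _).trans (hD 0)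
  have hb := chi_deriv_bound hD k hs
  have hi : |⟪x, V x⟫| ≤ ‖x‖ * ‖V x‖ := abs_real_inner_le_norm _ _
  have hc0 := chi_nonneg k (‖x‖ ^ 2)
  have hc1 := chi_le_one k (‖x‖ ^ 2)
  have hr : 0 ≤ (‖x‖ ^ 2) ^ (-γ) := Real.rpow_nonneg hs.le _
  have hV := norm_nonneg (V x)
  unfold JJ
  have key : W x * (4 * deriv (chi k) (‖x‖ ^ 2) ^ 2 * ‖x‖ ^ 2
      - 4 * γ * chi k (‖x‖ ^ 2) * deriv (chi k) (‖x‖ ^ 2))
      + 4 * chi k (‖x‖ ^ 2) * deriv (chi k) (‖x‖ ^ 2) * ⟪x, V x⟫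
      ≤ 12 * D * (3 * D + |γ| + 1) * (W x / ‖x‖ ^ 2 + ‖V x‖ / ‖x‖) := by
    generalize chi k (‖x‖ ^ 2) = c at *
    generalize deriv (chi k) (‖x‖ ^ 2) = c' at *
    generalize ‖x‖ = n at *
    generalize ‖V x‖ = v at *
    generalize W x = w at *
    generalize ⟪x, V x⟫ = t at *
    have h1 : c' ^ 2 ≤ (3 * D / n ^ 2) ^ 2 := by
      rw [← sq_abs c']; exact pow_le_pow_left₀ (abs_nonneg _) hb 2
    have h2 : 4 * c' ^ 2 * n ^ 2 ≤ 36 * D ^ 2 / n ^ 2 := by
      calc 4 * c' ^ 2 * n ^ 2 ≤ 4 * (3 * D / n ^ 2) ^ 2 * n ^ 2 := by (clear * - h1 hn; gcongr)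
        _ = 36 * D ^ 2 / n ^ 2 := by field_simp; ring
    have h3 : -(4 * γ * c * c') ≤ 12 * |γ| * D / n ^ 2 := by
      calc -(4 * γ * c * c') ≤ |4 * γ * c * c'| := neg_le_abs _
        _ = 4 * |γ| * c * |c'| := by
          rw [abs_mul, abs_mul, abs_mul, abs_of_nonneg hc0]; norm_num
        _ ≤ 4 * |γ| * 1 * (3 * D / n ^ 2) := by (clear * - hc1 hb; gcongr)
        _ = 12 * |γ| * D / n ^ 2 := by ring
    have h4 : 4 * c * c' * t ≤ 12 * D * (v / n) := by
      calc 4 * c * c' * t ≤ |4 * c * c' * t| := le_abs_self _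
        _ = 4 * c * |c'| * |t| := by
          rw [abs_mul, abs_mul, abs_mul, abs_of_nonneg hc0]; norm_num
        _ ≤ 4 * 1 * (3 * D / n ^ 2) * (n * v) := by (clear * - hc1 hb hi hD0 hn; gcongr)
        _ = 12 * D * (v / n) := by field_simp; ring
    have h5 : w * (4 * c' ^ 2 * n ^ 2 - 4 * γ * c * c')
        ≤ 12 * D * (3 * D + |γ|) * (w / n ^ 2) := by
      calc w * (4 * c' ^ 2 * n ^ 2 - 4 * γ * c * c')
          ≤ w * (36 * D ^ 2 / n ^ 2 + 12 * |γ| * D / n ^ 2) := by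
            apply mul_le_mul_of_nonneg_left _ hW; linarith only [h2, h3]
        _ = 12 * D * (3 * D + |γ|) * (w / n ^ 2) := by ring
    have h6 : 0 ≤ w / n ^ 2 := by (clear * - hW hn; positivity)
    have h7 : 0 ≤ v / n := by (clear * - hV hn; positivity)
    have h8 := abs_nonneg γ
    have h9 : 0 ≤ 12 * D * (w / n ^ 2) := by (clear * - hD0 hW hn; positivity)
    have h10 : 0 ≤ 12 * D * (3 * D + |γ|) * (v / n) := by (clear * - hD0 hV hn; positivity)
    linarith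
  calc _ ≤ (‖x‖ ^ 2) ^ (-γ) * (12 * D * (3 * D + |γ| + 1) * (W x / ‖x‖ ^ 2 + ‖V x‖ / ‖x‖)) :=
        mul_le_mul_of_nonneg_left key hr
    _ = _ := by ring

/-- insertion of the bounds for `W` and `V` -/
theorem fields_est {α γ B C δ R n w v : ℝ} {d : ℕ} (hα : 1 / 2 ≤ α)
    (hγ : γ = ((d : ℝ) - 2) / 2 - α) (hB : 0 ≤ B) (hC : 0 ≤ C) (hδ : 0 < δ) (hn : 0 < n)
    (hnR : n ≤ R) (hw : w ≤ B * (1 / n ^ 2 + δ) ^ α)
    (hv : v ≤ B * (1 / n ^ 2 + δ) ^ (α + 1 / 2) + C * δ) :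
    (n ^ 2) ^ (-γ) * (w / n ^ 2 + v / n) ≤ 2 * B * (1 + δ * R ^ 2) ^ (α + 1 / 2) * (n ^ d)⁻¹
      + C * δ * (n ^ 2) ^ (-γ - 1 / 2) := by
  have hs : 0 < n ^ 2 := by positivity
  have hR : 0 < R := lt_of_lt_of_le hn hnR
  have hθ1 : 1 ≤ 1 + δ * R ^ 2 := by have : 0 ≤ δ * R ^ 2 := by (clear * - hδ hR; positivity)
                                     (clear * - this; linarith)
  have hθ0 : 0 ≤ 1 + δ * R ^ 2 := by linarith only [hθ1]
  have hbase : 1 / n ^ 2 + δ ≤ (n ^ 2)⁻¹ * (1 + δ * R ^ 2) := by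
    rw [one_div, mul_add, mul_one]
    have : δ ≤ (n ^ 2)⁻¹ * (δ * R ^ 2) := by
      rw [inv_mul_eq_div, le_div_iff₀ hs]
      exact mul_le_mul_of_nonneg_left (pow_le_pow_left₀ hn.le hnR 2) hδ.le
    linarith only [this]
  have hbase0 : 0 ≤ 1 / n ^ 2 + δ := by positivity
  have p1 : (1 / n ^ 2 + δ) ^ α ≤ (n ^ 2) ^ (-α) * (1 + δ * R ^ 2) ^ (α + 1 / 2) := by
    calc (1 / n ^ 2 + δ) ^ α ≤ ((n ^ 2)⁻¹ * (1 + δ * R ^ 2)) ^ α :=
          Real.rpow_le_rpow hbase0 hbase (by linarith only [hα])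
      _ = (n ^ 2) ^ (-α) * (1 + δ * R ^ 2) ^ α := by
          rw [Real.mul_rpow (by positivity) hθ0, Real.inv_rpow hs.le, Real.rpow_neg hs.le]
      _ ≤ (n ^ 2) ^ (-α) * (1 + δ * R ^ 2) ^ (α + 1 / 2) := by
          apply mul_le_mul_of_nonneg_left _ (Real.rpow_nonneg hs.le _)
          exact Real.rpow_le_rpow_of_exponent_le hθ1 (by linarith only [])
  have p2 : (1 / n ^ 2 + δ) ^ (α + 1 / 2)
      ≤ (n ^ 2) ^ (-(α + 1 / 2)) * (1 + δ * R ^ 2) ^ (α + 1 / 2) := by
    calc (1 / n ^ 2 + δ) ^ (α + 1 / 2) ≤ ((n ^ 2)⁻¹ * (1 + δ * R ^ 2)) ^ (α + 1 / 2) :=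
          Real.rpow_le_rpow hbase0 hbase (by linarith only [hα])
      _ = (n ^ 2) ^ (-(α + 1 / 2)) * (1 + δ * R ^ 2) ^ (α + 1 / 2) := by
          rw [Real.mul_rpow (by positivity) hθ0, Real.inv_rpow hs.le, Real.rpow_neg hs.le]
  set θ := (1 + δ * R ^ 2) ^ (α + 1 / 2)
  have hθ : 0 ≤ θ := Real.rpow_nonneg hθ0 _
  have hr : 0 ≤ (n ^ 2) ^ (-γ) := Real.rpow_nonneg hs.le _
  have hhalf : (n ^ 2) ^ (1 / 2 : ℝ) = n := by
    rw [← Real.sqrt_eq_rpow, Real.sqrt_sq hn.le]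
  have q1 : (n ^ 2) ^ (-γ) * (w / n ^ 2) ≤ B * θ * (n ^ d)⁻¹ := by
    have e : (n ^ 2) ^ (-γ) / n ^ 2 = (n ^ 2) ^ (-γ - 1) := by rw [Real.rpow_sub_one hs.ne']
    calc (n ^ 2) ^ (-γ) * (w / n ^ 2) = (n ^ 2) ^ (-γ) / n ^ 2 * w := by ring
      _ = (n ^ 2) ^ (-γ - 1) * w := by rw [e]
      _ ≤ (n ^ 2) ^ (-γ - 1) * (B * ((n ^ 2) ^ (-α) * θ)) := by
          apply mul_le_mul_of_nonneg_left _ (Real.rpow_nonneg hs.le _)
          exact hw.trans (mul_le_mul_of_nonneg_left p1 hB)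
      _ = B * θ * ((n ^ 2) ^ (-γ - 1) * (n ^ 2) ^ (-α)) := by ring
      _ = B * θ * (n ^ d)⁻¹ := by rw [pow_id1 hn hγ]
  have q2 : (n ^ 2) ^ (-γ) * (v / n) ≤ B * θ * (n ^ d)⁻¹ + C * δ * (n ^ 2) ^ (-γ - 1 / 2) := by
    have e : (n ^ 2) ^ (-γ) / n = (n ^ 2) ^ (-γ - 1 / 2) := by
      rw [Real.rpow_sub hs, hhalf]
    have e2 : (n ^ 2) ^ (-γ - 1 / 2) * (n ^ 2) ^ (-(α + 1 / 2)) = (n ^ d)⁻¹ := by
      rw [← pow_id1 hn hγ, ← Real.rpow_add hs, ← Real.rpow_add hs]
      congr 1; ring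
    calc (n ^ 2) ^ (-γ) * (v / n) = (n ^ 2) ^ (-γ) / n * v := by ring
      _ = (n ^ 2) ^ (-γ - 1 / 2) * v := by rw [e]
      _ ≤ (n ^ 2) ^ (-γ - 1 / 2) * (B * ((n ^ 2) ^ (-(α + 1 / 2)) * θ) + C * δ) := by
          apply mul_le_mul_of_nonneg_left _ (Real.rpow_nonneg hs.le _)
          refine hv.trans ?_
          have := mul_le_mul_of_nonneg_left p2 hB
          linarith only [this]
      _ = B * θ * ((n ^ 2) ^ (-γ - 1 / 2) * (n ^ 2) ^ (-(α + 1 / 2)))
          + C * δ * (n ^ 2) ^ (-γ - 1 / 2) := by ring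
      _ = _ := by rw [e2]
  calc _ = (n ^ 2) ^ (-γ) * (w / n ^ 2) + (n ^ 2) ^ (-γ) * (v / n) := by ring
    _ ≤ _ := add_le_add q1 q2
    _ = _ := by ring

theorem rpow_le_ends {a b s p : ℝ} (ha : 0 < a) (h1 : a ≤ s) (h2 : s ≤ b) :
    s ^ p ≤ a ^ p + b ^ p := by
  have hs : 0 < s := lt_of_lt_of_le ha h1
  have hb : 0 < b := lt_of_lt_of_le hs h2
  rcases le_total 0 p with hp | hp
  · have := Real.rpow_le_rpow hs.le h2 hp
    have := Real.rpow_nonneg ha.le p
    linarith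
  · have := Real.rpow_le_rpow_of_nonpos ha h1 hp
    have := Real.rpow_nonneg hb.le p
    linarith

end M5

end Vale.Agent.P098
end

section

open MeasureTheory Set Metric Filter
open scoped ContDiff RealInnerProductSpace Topology

namespace Vale.Agent.P098

variable {d : ℕ}

namespace M5

/-- the conclusion of `stability_WZ` for `u`. -/
def StabWZ (u : E d → ℝ) : Prop :=
  ∀ (N : Set (E d)) (U : E d → ℝ), LocalExt u N U →
    ∀ (W : E d → ℝ), ContDiffOn ℝ ∞ W N → (∀ x ∈ N, 0 < W x) →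
    ∀ (Z : E d → E d), ContDiffOn ℝ ∞ Z N →
    (∀ x ∈ N, x ∈ frontier {y | 0 < u y} → 0 ≤ ⟪Z x, gradient U x⟫ + curv U x * W x) →
    ∀ (η : E d → ℝ), ContDiff ℝ ∞ η → (∀ x, 0 ≤ η x) → HasCompactSupport η →
    closure {y | 0 < u y} ∩ tsupport η ⊆ N →
    ∫ x in {y | 0 < u y}, η x ^ 2 * (divg Z x - ‖gradient W x‖ ^ 2 / (4 * W x)) ≤
      ∫ x in {y | 0 < u y}, (W x * ‖gradient η x‖ ^ 2
        + 2 * η x * ⟪gradient η x, (1 / 2 : ℝ) • gradient W x - Z x⟫)

/-- the constant in the estimate of the transition regions. -/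
noncomputable def cst (B C γ θ M D δ : ℝ) (t : ℝ) : ℝ :=
  12 * D * (3 * D + |γ| + 1) * (2 * B * θ * t + C * δ * M)

theorem cst_nonneg {B C γ θ M D δ t : ℝ} (hB : 0 ≤ B) (hC : 0 ≤ C) (hθ : 0 ≤ θ) (hM : 0 ≤ M)
    (hD : 0 ≤ D) (hδ : 0 ≤ δ) (ht : 0 ≤ t) : 0 ≤ cst B C γ θ M D δ t := by
  unfold cst
  have := abs_nonneg γ
  positivity

/-- pointwise bound of `JJ` on `{u > 0}` by two indicators. -/
theorem JJ_le_indicators {u : E d → ℝ} (h00 : u 0 = 0)
    {α γ : ℝ} (hα : 1 / 2 ≤ α) (hγ : γ = ((d : ℝ) - 2) / 2 - α)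
    {B : ℝ} (hB : 0 ≤ B) {D : ℝ}
    (hD : ∀ y, |deriv Real.smoothTransition y| ≤ D)
    (k : ℕ) {C δ : ℝ} (hC : 0 ≤ C) (hδ : 0 < δ)
    {N : Set (E d)} {W : E d → ℝ} {V : E d → E d}
    (hcl : ∀ x ∈ closure {y | 0 < u y}, 1 / 2 ≤ ‖x‖ → ‖x‖ ≤ 2 ^ (k + 1) → x ∈ N)
    (hW0 : ∀ x ∈ N, 0 < W x)
    (hWb : ∀ x ∈ N, 0 < u x → W x ≤ B * (1 / ‖x‖ ^ 2 + δ) ^ α)
    (hVb : ∀ x ∈ N, 0 < u x → ‖V x‖ ≤ B * (1 / ‖x‖ ^ 2 + δ) ^ (α + 1 / 2) + C * δ)
    {θ M : ℝ} (hθ : θ = (1 + δ * (2 ^ (k + 1)) ^ 2) ^ (α + 1 / 2))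
    (hM : M = (1 / 4 : ℝ) ^ (-γ - 1 / 2) + (((2 : ℝ) ^ (k + 1)) ^ 2) ^ (-γ - 1 / 2))
    {x : E d} (hux : 0 < u x) :
    JJ γ k W V x ≤ (closedBall (0 : E d) 1).indicator (fun _ => cst B C γ θ M D δ (2 ^ d)) x
      + (closedBall (0 : E d) (2 ^ (k + 1))).indicator
        (fun _ => cst B C γ θ M D δ (((2 ^ k) ^ d)⁻¹)) x := by
  have hx0 : x ≠ 0 := by
    rintro rfl; rw [h00] at hux; exact lt_irrefl _ hux
  have hn : 0 < ‖x‖ := norm_pos_iff.2 hx0
  have hD0 : 0 ≤ D := (abs_nonneg _).trans (hD 0)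
  have hθ0 : 0 ≤ θ := by rw [hθ]; (clear * - hδ; positivity)
  have hM0 : 0 ≤ M := by rw [hM]; (clear * -; positivity)
  have hc1 : 0 ≤ cst B C γ θ M D δ (2 ^ d) :=
    cst_nonneg hB hC hθ0 hM0 hD0 hδ.le (by positivity)
  have hc2 : 0 ≤ cst B C γ θ M D δ (((2 ^ k) ^ d)⁻¹) :=
    cst_nonneg hB hC hθ0 hM0 hD0 hδ.le (by positivity)
  have hi1 : 0 ≤ (closedBall (0 : E d) 1).indicator (fun _ => cst B C γ θ M D δ (2 ^ d)) x :=
    indicator_nonneg (fun _ _ => hc1) _
  have hi2 : 0 ≤ (closedBall (0 : E d) (2 ^ (k + 1))).indicator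
        (fun _ => cst B C γ θ M D δ (((2 ^ k) ^ d)⁻¹)) x :=
    indicator_nonneg (fun _ _ => hc2) _
  have hk1 : (1 : ℝ) ≤ 2 ^ k := one_le_pow₀ (by norm_num)
  have hkk : (2 : ℝ) ^ (k + 1) = 2 * 2 ^ k := by ring
  have h4 : (4 : ℝ) ^ k = (2 ^ k) ^ 2 := by
    rw [← pow_mul, mul_comm, pow_mul]; norm_num
  have h4' : (4 : ℝ) ^ (k + 1) = (2 ^ (k + 1)) ^ 2 := by
    rw [← pow_mul, mul_comm, pow_mul]; (clear * -; norm_num)
  by_cases hdz : deriv (chi k) (‖x‖ ^ 2) = 0
  · have : JJ γ k W V x = 0 := by unfold JJ; rw [hdz]; ring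
    rw [this]; linarith only [hi1, hi2]
  -- location of `x`
  have hl1 : 1 / 2 < ‖x‖ := by
    by_contra h
    push Not at h
    exact hdz (chi_deriv_eq_zero_of_zero (chi_zero_left (by nlinarith only [h, hn])))
  have hl2 : ‖x‖ < 2 ^ (k + 1) := by
    by_contra h
    push Not at h
    refine hdz (chi_deriv_eq_zero_of_zero (chi_zero_right ?_))
    rw [h4']
    exact pow_le_pow_left₀ (by positivity) h 2
  have hl3 : ‖x‖ < 1 ∨ 2 ^ k < ‖x‖ := by
    by_contra h
    push Not at h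
    refine hdz (chi_deriv_eq_zero_of_one ?_ ?_)
    · nlinarith only [h]
    · rw [h4]; exact pow_le_pow_left₀ hn.le h.2 2
  have hxN : x ∈ N := hcl x (subset_closure hux) hl1.le hl2.le
  have e1 := JJ_bound (γ := γ) hD k W V hx0 (hW0 x hxN).le
  have e2 := fields_est (d := d) hα hγ hB hC hδ hn hl2.le (hWb x hxN hux) (hVb x hxN hux)
  have e3 : (‖x‖ ^ 2) ^ (-γ - 1 / 2) ≤ M := by
    rw [hM]
    refine rpow_le_ends (by norm_num) (by nlinarith only [hl1]) ?_
    exact pow_le_pow_left₀ hn.le hl2.le 2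
  have hC₂ : 0 ≤ 12 * D * (3 * D + |γ| + 1) := by
    have := abs_nonneg γ
    (clear * - hD0; positivity)
  have e4 : JJ γ k W V x ≤ cst B C γ θ M D δ ((‖x‖ ^ d)⁻¹) := by
    refine e1.trans ?_
    unfold cst
    apply mul_le_mul_of_nonneg_left _ hC₂
    refine e2.trans ?_
    rw [← hθ]
    have : C * δ * (‖x‖ ^ 2) ^ (-γ - 1 / 2) ≤ C * δ * M :=
      mul_le_mul_of_nonneg_left e3 (by (clear * - hC hδ; positivity))
    linarith only [this]
  have hmono : ∀ {s t : ℝ}, s ≤ t → cst B C γ θ M D δ s ≤ cst B C γ θ M D δ t := by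
    intro s t hst
    unfold cst
    apply mul_le_mul_of_nonneg_left _ hC₂
    have : 2 * B * θ * s ≤ 2 * B * θ * t := mul_le_mul_of_nonneg_left hst (by (clear * - hB hθ0; positivity))
    linarith only [this]
  rcases hl3 with h | h
  · have hm : x ∈ closedBall (0 : E d) 1 := by simpa only [mem_closedBall, dist_zero_right] using h.le
    rw [indicator_of_mem hm]
    have : (‖x‖ ^ d)⁻¹ ≤ 2 ^ d := by
      rw [← inv_pow]
      apply pow_le_pow_left₀ (by positivity)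
      rw [inv_le_comm₀ hn (by norm_num)]
      linarith only [hl1]
    have := e4.trans (hmono this)
    linarith only [hi2, this]
  · have hm : x ∈ closedBall (0 : E d) (2 ^ (k + 1)) := by simpa only [mem_closedBall, dist_zero_right] using hl2.le
    rw [indicator_of_mem hm]
    have : (‖x‖ ^ d)⁻¹ ≤ ((2 ^ k) ^ d)⁻¹ := by
      apply inv_anti₀ (by positivity)
      exact pow_le_pow_left₀ (by positivity) h.le d
    have := e4.trans (hmono this)
    linarith only [hi1, this]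

/-- the bound for the integral of `JJ`. -/
theorem integral_JJ_le {Ω : Set (E d)} (hΩ : MeasurableSet Ω) {f : E d → ℝ}
    (hf : IntegrableOn f Ω) {c1 c2 R : ℝ} (hc1 : 0 ≤ c1) (hc2 : 0 ≤ c2) (hR : 0 ≤ R)
    (h : ∀ x ∈ Ω, f x ≤ (closedBall (0 : E d) 1).indicator (fun _ => c1) x
      + (closedBall (0 : E d) R).indicator (fun _ => c2) x) :
    ∫ x in Ω, f x ≤ (c1 + c2 * R ^ d) * volume.real (closedBall (0 : E d) 1) := by
  have hb1 : MeasurableSet (closedBall (0 : E d) 1) := measurableSet_closedBall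
  have hb2 : MeasurableSet (closedBall (0 : E d) R) := measurableSet_closedBall
  have i1 : Integrable ((closedBall (0 : E d) 1).indicator (fun _ => c1)) := by
    rw [integrable_indicator_iff hb1]
    exact integrableOn_const measure_closedBall_lt_top.ne
  have i2 : Integrable ((closedBall (0 : E d) R).indicator (fun _ => c2)) := by
    rw [integrable_indicator_iff hb2]
    exact integrableOn_const measure_closedBall_lt_top.ne
  have h1 : ∫ x in Ω, f x ≤ ∫ x in Ω, ((closedBall (0 : E d) 1).indicator (fun _ => c1) x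
      + (closedBall (0 : E d) R).indicator (fun _ => c2) x) :=
    setIntegral_mono_on hf (i1.integrableOn.add i2.integrableOn) hΩ h
  have h2 : ∫ x in Ω, ((closedBall (0 : E d) 1).indicator (fun _ => c1) x
      + (closedBall (0 : E d) R).indicator (fun _ => c2) x)
      = volume.real (Ω ∩ closedBall (0 : E d) 1) * c1 + volume.real (Ω ∩ closedBall (0 : E d) R) * c2 := by
    rw [integral_add i1.integrableOn i2.integrableOn, setIntegral_indicator hb1,
      setIntegral_indicator hb2, setIntegral_const, setIntegral_const, smul_eq_mul, smul_eq_mul]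
  have h3 : volume.real (Ω ∩ closedBall (0 : E d) 1) ≤ volume.real (closedBall (0 : E d) 1) :=
    measureReal_mono inter_subset_right measure_closedBall_lt_top.ne
  have h4 : volume.real (Ω ∩ closedBall (0 : E d) R)
      ≤ R ^ d * volume.real (closedBall (0 : E d) 1) := by
    have h5 := Measure.addHaar_real_closedBall' (volume : Measure (E d)) 0 hR
    rw [finrank_euclideanSpace_fin] at h5
    rw [← h5]
    exact measureReal_mono inter_subset_right measure_closedBall_lt_top.ne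
  calc ∫ x in Ω, f x ≤ _ := h1
    _ = _ := h2
    _ ≤ volume.real (closedBall (0 : E d) 1) * c1
        + (R ^ d * volume.real (closedBall (0 : E d) 1)) * c2 :=
      add_le_add (mul_le_mul_of_nonneg_right h3 hc1) (mul_le_mul_of_nonneg_right h4 hc2)
    _ = _ := by ring

end M5

end Vale.Agent.P098
end

section

/-!
# Faster evaluation of expressions
-/

namespace Vale.Agent.P098.N

open Vale.Agent.P098.K

variable {X : ℕ → ℝ} {B : ℕ}

/-- One term as a nested list. -/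
def trm (B : ℕ) (t : ℤ × ℕ) : P3 :=
  mon (t.2 / 272 % 17) (t.2 / 4624 % 17) (t.2 / 78608) (Int.mul t.1 (.ofNat (B ^ (t.2 % 272))))

/-- Kronecker value of a list of terms. -/
def krf (B : ℕ) : List (ℤ × ℕ) → ℤ
  | [] => 0
  | t :: l => Int.add (Int.mul t.1 (.ofNat (B ^ t.2))) (krf B l)

/-- A list of terms as a nested list. -/
def dec (B : ℕ) : List (ℤ × ℕ) → P3
  | [] => []
  | t :: l => add3 (trm B t) (dec B l)

/-- No exponents of `a, b, c`. -/
def yvl : List ℕ → Bool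
  | [_, _, _, 0, 0, 0] => true
  | _ => false

/-- Value of an expression as a nested list. -/
def evf (B : ℕ) : Ex → P3
  | .v 3 => mon 1 0 0 1
  | .v 4 => mon 0 1 0 1
  | .v 5 => mon 0 0 1 1
  | .v i => [[[.ofNat (B ^ wt rs6 i)]]]
  | .c n => [[[n]]]
  | .p ds l => bif yvl ds then [[[krf B l]]] else dec B l
  | .add a b => add3 (evf B a) (evf B b)
  | .sub a b => add3 (evf B a) (scl3 (-1) (evf B b))
  | .mul a b => mul3 (evf B a) (evf B b)

theorem krf_eq (l : List (ℤ × ℕ)) : krf B l = kr B l := by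
  induction l with
  | nil => rfl
  | cons t l ih =>
    have e1 : ∀ x y : ℤ, Int.mul x y = x * y := fun _ _ => rfl
    have e2 : ∀ x y : ℤ, Int.add x y = x + y := fun _ _ => rfl
    have e3 : Int.ofNat (B ^ t.2) = (B : ℤ) ^ t.2 := by
      rw [Int.ofNat_eq_natCast]; push_cast; rfl
    rw [krf, ih, e1, e2, e3]
    simp only [kr, List.map_cons, List.sum_cons]

theorem fv3_trm (t : ℤ × ℕ) : fv3 ((B : ℤ) ^ 272) ((B : ℤ) ^ 4624) ((B : ℤ) ^ 78608) (trm B t)
    = t.1 * (B : ℤ) ^ t.2 := by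
  have e1 : ∀ x y : ℤ, Int.mul x y = x * y := fun _ _ => rfl
  have e3 : Int.ofNat (B ^ (t.2 % 272)) = (B : ℤ) ^ (t.2 % 272) := by
    rw [Int.ofNat_eq_natCast]; push_cast; rfl
  rw [trm, fv3_mon, e1, e3, mul_assoc, mul_assoc, mul_assoc, ← pow_mul, ← pow_mul, ← pow_mul,
    ← pow_add, ← pow_add, ← pow_add]
  congr 2
  (clear * -; omega)

theorem fv3_dec (l : List (ℤ × ℕ)) :
    fv3 ((B : ℤ) ^ 272) ((B : ℤ) ^ 4624) ((B : ℤ) ^ 78608) (dec B l) = kr B l := by
  induction l with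
  | nil => rfl
  | cons t l ih =>
    rw [dec, fv3_add, fv3_trm, ih]
    simp only [kr, List.map_cons, List.sum_cons]

theorem fv3_evf (e : Ex) : fv3 ((B : ℤ) ^ 272) ((B : ℤ) ^ 4624) ((B : ℤ) ^ 78608) (evf B e)
    = krE B rs6 e := by
  induction e with
  | v i =>
    have hp : ∀ n : ℕ, Int.ofNat (B ^ n) = (B : ℤ) ^ n := fun n => by
      rw [Int.ofNat_eq_natCast]; push_cast; rfl
    rcases Nat.lt_or_ge i 3 with h | h
    · have : evf B (.v i) = [[[Int.ofNat (B ^ wt rs6 i)]]] := by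
        interval_cases i <;> rfl
      rw [this, fv3_const, hp]; rfl
    · rcases Nat.lt_or_ge i 6 with h' | h'
      · have : i = 3 ∨ i = 4 ∨ i = 5 := by omega
        rcases this with rfl | rfl | rfl
        · rw [evf, fv3_mon]; simp only [pow_one, one_mul, pow_zero, mul_one, krE, wt, Nat.reduceMul]
        · rw [evf, fv3_mon]; simp only [pow_zero, mul_one, pow_one, one_mul, krE, wt, Nat.reduceMul]
        · rw [evf, fv3_mon]; simp [krE, wt]
      · obtain ⟨k, rfl⟩ : ∃ k, i = k + 6 := ⟨i - 6, by omega⟩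
        have : evf B (.v (k + 6)) = [[[Int.ofNat (B ^ wt rs6 (k + 6))]]] := rfl
        rw [this, fv3_const, hp]; rfl
  | c n => rw [evf, fv3_const]; rfl
  | p ds l =>
    rw [evf]
    cases yvl ds with
    | true => rw [cond_true, fv3_const, krf_eq]; rfl
    | false => rw [cond_false, fv3_dec]; rfl
  | add a b iha ihb => rw [evf, fv3_add, iha, ihb]; rfl
  | sub a b iha ihb => rw [evf, fv3_add, fv3_scl, iha, ihb]; simp only [krE]; ring
  | mul a b iha ihb => rw [evf, fv3_mul, iha, ihb]; rfl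

end Vale.Agent.P098.N
end
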