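import Mathlib
import Vale.Agent.P098.Bdl.B9
import Vale.Agent.P098.Bdl.B10
attribute [-instance] ProperSMul.toContinuousSMul IsTopologicalTorsor.toContinuousSMul IdemSemiring.toCanonicallyOrderedAdd IdemSemiring.toMulLeftMono IdemSemiring.toMulRightMono AddQuantale.instAddLeftMono AddQuantale.instAddRightMono Quantale.instMulLeftMono Quantale.instMulRightMono FiniteDimensional.rclike_to_real IsScalarTower.complexToReal FiniteDimensional.complexToReal

set_option linter.all false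

section

/-! # E6a: boundary data for the linearised problem

Let `e = ee 0`, `(δ₁, r₀)` from `trap_osc` with `θ`, `F` from `exists_family` with `(θ, r₀/2)`; `M ≥ 1`
a bound with `‖fderiv (ev h)‖ ≤ M` and `|∂₀h(x)| ≤ M|x 0|` on `ball 0 1` for all `h ∈ F` (`h` is even
in `x 0`, so `∂₀h = 0` on `{x 0 = 0}`; by `even_quotient`-type divisibility `2∂₀h = X₀ t`, or the mean
value inequality). `δ` small depending on all this. For `x ∈ closedBall 0 (1/2)` let
`A(x) ∈ [-1,1]` be from `trap_osc`, `x⁺ = x` if `x 0 ≥ 0`, else `flip0 x`, and `g x = A(x⁺)`.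
`g (flip0 x) = g x` since `(flip0 x)⁺ = x⁺` (for `x 0 = 0`, `flip0 x = x`).
Continuity: if `x 0, y 0 ≥ 0`, `|x-y| ≤ r₀/2`, the point `z = x + (r₀/4)e` is in both balls
`B(·, r₀)` and `P z ≥ z 0 - δ ≥ r₀/4 - δ > 2ε`, so `u z > 0` and
`P z + εA(x) ≤ u z ≤ P z + ε(A(y)+θ)`, i.e. `A(x) ≤ A(y) + θ`; by symmetry `|A(x)-A(y)| ≤ θ`.
And `|x⁺ - y⁺| ≤ |x - y|`. Take `h ∈ F` with `|h - g| ≤ 3θ` on `S = sphere 0 (1/2)`; by
the maximum principle (`Harm.abs_le_of_sphere`) `|h| ≤ 1 + 3θ` on `closedBall 0 (1/2)`.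
For `x ∈ S`: if `x 0 ≥ -r₀/4` then `x ∈ B(x⁺, r₀)`, so
`u x ≥ max (P x + εA(x⁺)) 0`, `u x ≤ max (P x + ε(A(x⁺)+θ)) 0` with `A(x⁺) = g x ∈ [h x - 3θ, h x + 3θ]`.
If `x 0 < -r₀/4`: `P x + ε(…) ≤ -r₀/4 + δ + ε(2+…) < 0`, so both sides are `0` and
`u x ≤ max (P x + ε) 0 = 0`. -/


open MeasureTheory Set Metric Filter
open scoped ContDiff RealInnerProductSpace Topology NNReal

namespace Vale.Agent.P098

variable {d : ℕ}

/-- The reflection of `x` into the half space `x 0 ≥ 0`. -/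
noncomputable def rE6a_pl {n : ℕ} (x : E (n + 1)) : E (n + 1) := x + (|x 0| - x 0) • ee 0

theorem rE6a_ee_apply {n : ℕ} (i : Fin (n + 1)) :
    (ee (0 : Fin (n + 1)) : E (n + 1)) i = if i = 0 then 1 else 0 := by
  simp only [ee, PiLp.single_apply]

theorem rE6a_pl_zero {n : ℕ} (x : E (n + 1)) : rE6a_pl x 0 = |x 0| := by
  simp only [rE6a_pl, PiLp.add_apply, PiLp.smul_apply, PiLp.single_eq_same, smul_eq_mul, mul_one, add_sub_cancel]

theorem rE6a_pl_of_ne {n : ℕ} (x : E (n + 1)) {i : Fin (n + 1)} (hi : i ≠ 0) :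
    rE6a_pl x i = x i := by
  simp [rE6a_pl, rE6a_ee_apply, hi]

theorem rE6a_pl_flip {n : ℕ} (x : E (n + 1)) : rE6a_pl (flip0 x) = rE6a_pl x := by
  ext i
  by_cases hi : i = 0
  · subst hi
    rw [rE6a_pl_zero, rE6a_pl_zero]
    have : flip0 x 0 = - x 0 := by
      simp only [flip0, PiLp.sub_apply, PiLp.smul_apply, PiLp.single_eq_same, smul_eq_mul, mul_one]; ring
    rw [this, abs_neg]
  · rw [rE6a_pl_of_ne _ hi, rE6a_pl_of_ne _ hi]
    simp [flip0, rE6a_ee_apply, hi]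

theorem rE6a_pl_dist {n : ℕ} (x y : E (n + 1)) : dist (rE6a_pl x) (rE6a_pl y) ≤ dist x y := by
  rw [EuclideanSpace.dist_eq, EuclideanSpace.dist_eq]
  apply Real.sqrt_le_sqrt
  apply Finset.sum_le_sum
  intro i _
  by_cases hi : i = 0
  · subst hi
    rw [rE6a_pl_zero, rE6a_pl_zero, Real.dist_eq, Real.dist_eq, sq_le_sq, abs_abs, abs_abs]
    exact abs_abs_sub_abs_le_abs_sub _ _
  · rw [rE6a_pl_of_ne _ hi, rE6a_pl_of_ne _ hi]

theorem rE6a_pl_self {n : ℕ} {x : E (n + 1)} (hx : 0 ≤ x 0) : rE6a_pl x = x := by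
  simp [rE6a_pl, abs_of_nonneg hx]

theorem rE6a_pl_norm {n : ℕ} (x : E (n + 1)) : ‖rE6a_pl x‖ ≤ ‖x‖ := by
  have := rE6a_pl_dist x 0
  rwa [rE6a_pl_self (x := (0 : E (n + 1))) (by simp), dist_zero_right, dist_zero_right] at this

theorem rE6a_dist_pl {n : ℕ} {x : E (n + 1)} {s : ℝ} (hs : 0 ≤ s) (hx : -s ≤ x 0) :
    dist x (rE6a_pl x) ≤ 2 * s := by
  have h1 : x - rE6a_pl x = (x 0 - |x 0|) • ee 0 := by
    simp only [rE6a_pl]
    rw [sub_add_eq_sub_sub, sub_self, zero_sub, ← neg_smul, neg_sub]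
  rw [dist_eq_norm, h1, norm_smul]
  have h2 : ‖(ee (0 : Fin (n + 1)) : E (n + 1))‖ = 1 := by simp [ee]
  rw [h2, mul_one, Real.norm_eq_abs]
  rcases le_total 0 (x 0) with h | h
  · rw [abs_of_nonneg h, sub_self, abs_zero]; linarith only [hs]
  · rw [abs_of_nonpos h]
    rw [abs_le]; constructor <;> linarith only [hs, h, hx]

/-- Continuity of the one-sided data. -/
theorem rE6a_cont {n : ℕ} {u P : E (n + 1) → ℝ} {ε δ r₀ θ : ℝ} (hε : 0 < ε) (hεδ : ε ≤ δ)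
    (hr : 0 < r₀) (hr1 : r₀ ≤ 1 / 4) (hδ : 3 * δ ≤ r₀ / 4 )
    (hP : ∀ x ∈ ball (0 : E (n + 1)) 1, |P x - x 0| ≤ δ) {x y : E (n + 1)} {A B : ℝ}
    (hx : x ∈ closedBall (0 : E (n + 1)) (1 / 2)) (hx0 : 0 ≤ x 0) (hxy : dist x y ≤ r₀ / 2)
    (hA : -1 ≤ A)
    (hTx : Trap u P (ε * A) (ε * (A + θ)) x r₀) (hTy : Trap u P (ε * B) (ε * (B + θ)) y r₀) :
    A ≤ B + θ := by
  set z : E (n + 1) := x + (r₀ / 4) • ee 0 with hz
  have hn : ‖(ee (0 : Fin (n + 1)) : E (n + 1))‖ = 1 := by simp only [ee, PiLp.norm_single, norm_one]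
  have hzx : dist z x = r₀ / 4 := by
    rw [hz, dist_eq_norm, add_sub_cancel_left, norm_smul, hn, mul_one, Real.norm_eq_abs,
      abs_of_pos (by (clear * - hr; positivity))]
  have hzx' : z ∈ ball x r₀ := by rw [mem_ball, hzx]; linarith only [hε, hεδ, hδ]
  have hzy' : z ∈ ball y r₀ := by
    rw [mem_ball]
    have := dist_triangle z x y
    linarith only [hε, hεδ, hδ, hxy, hzx, this]
  have hz1 : z ∈ ball (0 : E (n + 1)) 1 := by
    rw [mem_ball, dist_zero_right, hz]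
    have h1 := norm_add_le x ((r₀ / 4) • (ee 0 : E (n + 1)))
    rw [norm_smul, hn, mul_one, Real.norm_eq_abs, abs_of_pos (by positivity : 0 < r₀ / 4)] at h1
    rw [mem_closedBall, dist_zero_right] at hx
    linarith only [hr1, hx, h1]
  have hz0 : z 0 = x 0 + r₀ / 4 := by simp [hz, rE6a_ee_apply]
  have hPz := (abs_le.mp (hP z hz1)).1
  have h1 := (hTx z hzx').1
  have h2 := (hTy z hzy').2
  have hεA : -ε ≤ ε * A := by nlinarith only [hε, hA]
  have h3 : 0 < P z + ε * A := by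
    rw [hz0] at hPz
    linarith only [hε, hεδ, hδ, hx0, hPz, hεA]
  have h4 : P z + ε * A ≤ u z := (le_max_left _ _).trans h1
  have h5 : u z ≤ P z + ε * (B + θ) := by
    rcases le_total (P z + ε * (B + θ)) 0 with h | h
    · rw [max_eq_right h] at h2; linarith only [hε, hεδ, hδ, hx0, hz0, hPz, h2, hεA, h4]
    · rwa [max_eq_left h] at h2
  have h6 : ε * A ≤ ε * (B + θ) := by linarith only [h4, h5]
  exact le_of_mul_le_mul_left h6 hε

theorem rE6a_ev_flip {n : ℕ} {h : MvPolynomial (Fin (n + 1)) ℝ} (he : EvenP h) (x : E (n + 1)) :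
    ev h (flip0 x) = ev h x := by
  simp only [ev]
  rw [MvPolynomial.eval_eq, MvPolynomial.eval_eq]
  apply Finset.sum_congr rfl
  intro m hm
  congr 1
  apply Finset.prod_congr rfl
  intro i _
  by_cases hi : i = 0
  · subst hi
    have h1 : flip0 x 0 = - x 0 := by
      simp only [flip0, PiLp.sub_apply, PiLp.smul_apply, PiLp.single_eq_same, smul_eq_mul, mul_one]; ring
    rw [h1]
    exact (he m (MvPolynomial.mem_support_iff.mp hm)).neg_pow _
  · have : flip0 x i = x i := by simp [flip0, rE6a_ee_apply, hi]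
    rw [this]

theorem rE6a_P1_zero {n : ℕ} {h : MvPolynomial (Fin (n + 1)) ℝ} (he : EvenP h) {x : E (n + 1)}
    (hx : x 0 = 0) : P1 (ev h) 0 x = 0 := by
  have hd : DifferentiableAt ℝ (ev h) x := (contDiff_ev h).differentiable (by simp) x
  have h1 : HasDerivAt (fun t : ℝ => ev h (x + t • ee 0)) (P1 (ev h) 0 x) 0 := by
    have h2 : HasDerivAt (fun t : ℝ => x + t • (ee 0 : E (n + 1))) (ee 0) 0 := by
      have := ((hasDerivAt_id (0 : ℝ)).smul_const (ee 0 : E (n + 1))).const_add x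
      simpa using this
    have h3 : HasFDerivAt (ev h) (fderiv ℝ (ev h) x) (x + (0 : ℝ) • (ee 0 : E (n + 1))) := by
      simpa using hd.hasFDerivAt
    exact h3.comp_hasDerivAt (0 : ℝ) h2
  have h4 : ∀ t : ℝ, ev h (x + (-t) • ee 0) = ev h (x + t • ee 0) := by
    intro t
    rw [← rE6a_ev_flip he (x + t • ee 0)]
    congr 1
    ext i
    by_cases hi : i = 0
    · subst hi
      simp only [neg_smul, PiLp.add_apply, hx, PiLp.neg_apply, PiLp.smul_apply, PiLp.single_eq_same, smul_eq_mul, mul_one, zero_add, flip0, PiLp.sub_apply]; ring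
    · simp only [neg_smul, PiLp.add_apply, PiLp.neg_apply, PiLp.smul_apply, ne_eq, hi, not_false_eq_true, PiLp.single_eq_of_ne, smul_eq_mul, mul_zero, neg_zero, add_zero, flip0, PiLp.single_eq_same, mul_one, PiLp.sub_apply, sub_zero]
  have h5 : HasDerivAt (fun t : ℝ => ev h (x + t • ee 0)) (-(P1 (ev h) 0 x)) 0 := by
    have h6 : HasDerivAt (fun t : ℝ => ev h (x + (-t) • ee 0)) (P1 (ev h) 0 x * (-1)) 0 := by
      have h7 : HasDerivAt (fun t : ℝ => ev h (x + t • ee 0)) (P1 (ev h) 0 x) (-(0 : ℝ)) := by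
        simpa only [neg_zero] using h1
      exact h7.comp (0 : ℝ) (hasDerivAt_neg (0 : ℝ))
    simp only [h4] at h6
    simpa using h6
  have := h1.unique h5
  linarith only [this]

theorem rE6a_bound {n : ℕ} {h : MvPolynomial (Fin (n + 1)) ℝ} (he : EvenP h) :
    ∃ M : ℝ, 0 < M ∧ ∀ x ∈ ball (0 : E (n + 1)) 1,
      ‖fderiv ℝ (ev h) x‖ ≤ M ∧ |P1 (ev h) 0 x| ≤ M * |x 0| := by
  have hc : ContDiff ℝ ∞ (ev h) := contDiff_ev h
  have hc1 : ContDiff ℝ ∞ (P1 (ev h) 0) := by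
    have : P1 (ev h) (0 : Fin (n + 1)) = ev (MvPolynomial.pderiv 0 h) := by
      funext x; exact P1_ev h 0 x
    rw [this]; exact contDiff_ev _
  have hcf : Continuous (fderiv ℝ (ev h)) := hc.continuous_fderiv (by simp)
  have hcf1 : Continuous (fderiv ℝ (P1 (ev h) 0)) := hc1.continuous_fderiv (by simp)
  obtain ⟨M1, hM1⟩ := (isCompact_closedBall (0 : E (n + 1)) 1).exists_bound_of_continuousOn
    hcf.continuousOn
  obtain ⟨M2, hM2⟩ := (isCompact_closedBall (0 : E (n + 1)) 1).exists_bound_of_continuousOn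
    hcf1.continuousOn
  refine ⟨max (max M1 M2) 1, by (clear * -; positivity), fun x hx => ⟨?_, ?_⟩⟩
  · exact (hM1 x (ball_subset_closedBall hx)).trans ((le_max_left _ _).trans (le_max_left _ _))
  · set y : E (n + 1) := x - (x 0) • ee 0 with hy
    have hy0 : y 0 = 0 := by simp only [hy, PiLp.sub_apply, PiLp.smul_apply, PiLp.single_eq_same, smul_eq_mul, mul_one, sub_self]
    have hyn : y ∈ closedBall (0 : E (n + 1)) 1 := by
      rw [mem_closedBall, dist_zero_right]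
      have h1 : ‖y‖ ≤ ‖x‖ := by
        rw [EuclideanSpace.norm_eq, EuclideanSpace.norm_eq]
        apply Real.sqrt_le_sqrt
        apply Finset.sum_le_sum
        intro i _
        by_cases hi : i = 0
        · subst hi; rw [hy0]; simpa only [norm_zero, ne_eq, OfNat.ofNat_ne_zero, not_false_eq_true, zero_pow, Real.norm_eq_abs,     sq_abs] using sq_nonneg (x 0)
        · have : y i = x i := by simp only [hy, PiLp.sub_apply, PiLp.smul_apply, ne_eq, hi, not_false_eq_true, PiLp.single_eq_of_ne, smul_eq_mul, mul_zero, sub_zero]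
          rw [this]
      rw [mem_ball, dist_zero_right] at hx
      linarith only [hx, h1]
    have h2 := (convex_closedBall (0 : E (n + 1)) 1).norm_image_sub_le_of_norm_fderiv_le
      (f := P1 (ev h) 0) (C := M2)
      (fun z _ => (hc1.differentiable (by simp)) z) hM2 hyn (ball_subset_closedBall hx)
    rw [rE6a_P1_zero he hy0, sub_zero, Real.norm_eq_abs] at h2
    have h3 : ‖x - y‖ = |x 0| := by
      rw [hy, sub_sub_cancel, norm_smul]
      simp [ee]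
    rw [h3] at h2
    refine h2.trans ?_
    apply mul_le_mul_of_nonneg_right _ (abs_nonneg _)
    exact (le_max_right _ _).trans (le_max_left _ _)

theorem boundary_data (n : ℕ) (θ : ℝ) (hθ : 0 < θ) (hθ1 : θ ≤ 1 / 3) : ∃ M δ : ℝ, 0 < M ∧ 0 < δ ∧
    ∀ (L : ℝ≥0) (u P : E (n + 1) → ℝ) (ε : ℝ), MinL L u → 0 < ε → ε ≤ δ →
    Harm (ball 0 1) P → (∀ x ∈ ball (0 : E (n + 1)) 1, |P x - x 0| ≤ δ) →
    (∀ x ∈ ball (0 : E (n + 1)) 1, ‖gradient P x - ee 0‖ ≤ δ) →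
    (∀ x ∈ ball (0 : E (n + 1)) 1, |P x| ≤ 3 * ε → |‖fderiv ℝ P x‖ ^ 2 - 1| ≤ δ * ε) →
    Trap u P (-ε) ε 0 1 →
    ∃ h : MvPolynomial (Fin (n + 1)) ℝ, lapP h = 0 ∧ EvenP h ∧
      (∀ x ∈ closedBall (0 : E (n + 1)) (1 / 2), |ev h x| ≤ 1 + 3 * θ) ∧
      (∀ x ∈ ball (0 : E (n + 1)) 1, ‖fderiv ℝ (ev h) x‖ ≤ M ∧ |P1 (ev h) 0 x| ≤ M * |x 0|) ∧
      ∀ x ∈ sphere (0 : E (n + 1)) (1 / 2), max (P x + ε * (ev h x - 4 * θ)) 0 ≤ u x ∧
        u x ≤ max (P x + ε * (ev h x + 5 * θ)) 0 := by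
  obtain ⟨δ₁, r₀, hδ₁, hr₀, hr₁, hosc⟩ := trap_osc (n + 1) (by omega) θ hθ
  obtain ⟨F, hF, hfam⟩ := exists_family n θ (r₀ / 2) hθ (by positivity)
  have hM : ∀ h : MvPolynomial (Fin (n + 1)) ℝ, ∃ M : ℝ, 0 < M ∧ (h ∈ F →
      ∀ x ∈ ball (0 : E (n + 1)) 1, ‖fderiv ℝ (ev h) x‖ ≤ M ∧ |P1 (ev h) 0 x| ≤ M * |x 0|) := by
    intro h
    by_cases hh : h ∈ F
    · obtain ⟨M, hM0, hM⟩ := rE6a_bound (hF h hh).2
      exact ⟨M, hM0, fun _ => hM⟩
    · exact ⟨1, one_pos, fun h' => absurd h' hh⟩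
  choose MM hMM0 hMM using hM
  have hM1 : ∀ h ∈ F, MM h ≤ 1 + ∑ h ∈ F, MM h := by
    intro h hh
    have := Finset.single_le_sum (f := MM) (fun i _ => (hMM0 i).le) hh
    linarith only [this]
  have hMpos : 0 < 1 + ∑ h ∈ F, MM h := by
    have := Finset.sum_nonneg (s := F) (f := MM) (fun i _ => (hMM0 i).le)
    linarith only [this]
  refine ⟨1 + ∑ h ∈ F, MM h, min δ₁ (r₀ / 16), hMpos, lt_min hδ₁ (by positivity), ?_⟩
  intro L u P ε hu hε hεδ hPh hP hgr hfb hT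
  have hδ1 : min δ₁ (r₀ / 16) ≤ δ₁ := min_le_left _ _
  have hδ2 : min δ₁ (r₀ / 16) ≤ r₀ / 16 := min_le_right _ _
  generalize hδdef : min δ₁ (r₀ / 16) = δ at *
  have hδ0 : 0 < δ := by rw [← hδdef]; exact lt_min hδ₁ (by positivity)
  have hn : ‖(ee (0 : Fin (n + 1)) : E (n + 1))‖ = 1 := by simp only [ee, PiLp.norm_single, norm_one]
  have hA : ∀ x : E (n + 1), ∃ A : ℝ, x ∈ closedBall (0 : E (n + 1)) (1 / 2) → (-1 ≤ A ∧ A ≤ 1 ∧
      Trap u P (ε * A) (ε * (A + θ)) x r₀) := by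
    intro x
    by_cases hx : x ∈ closedBall (0 : E (n + 1)) (1 / 2)
    · obtain ⟨A, hA⟩ := hosc L u P (ee 0) ε hu hn hε (hεδ.trans hδ1) hPh
        (fun x hx => (hgr x hx).trans hδ1)
        (fun x hx hx' => (hfb x hx hx').trans (mul_le_mul_of_nonneg_right hδ1 hε.le)) hT x hx
      exact ⟨A, fun _ => hA⟩
    · exact ⟨0, fun h => absurd h hx⟩
  choose A hA using hA
  have hpl : ∀ x ∈ sphere (0 : E (n + 1)) (1 / 2),
      rE6a_pl x ∈ closedBall (0 : E (n + 1)) (1 / 2) := by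
    intro x hx
    rw [mem_closedBall, dist_zero_right]
    rw [mem_sphere, dist_zero_right] at hx
    exact (rE6a_pl_norm x).trans hx.le
  obtain ⟨h, hhF, hh⟩ := hfam (fun x => A (rE6a_pl x))
    (fun x hx => abs_le.mpr ⟨(hA _ (hpl x hx)).1, (hA _ (hpl x hx)).2.1⟩)
    (fun x _ => by simp only [rE6a_pl_flip])
    (fun x hx y hy hxy => by
      have hd : dist (rE6a_pl x) (rE6a_pl y) ≤ r₀ / 2 := (rE6a_pl_dist x y).trans hxy
      have hx1 : 0 ≤ rE6a_pl x 0 := by rw [rE6a_pl_zero]; exact abs_nonneg _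
      have hy1 : 0 ≤ rE6a_pl y 0 := by rw [rE6a_pl_zero]; exact abs_nonneg _
      have h1 := rE6a_cont hε hεδ hr₀ hr₁ (by linarith only [hε, hεδ, hδ2]) hP (hpl x hx) hx1 hd (hA _ (hpl x hx)).1
        (hA _ (hpl x hx)).2.2 (hA _ (hpl y hy)).2.2
      have h2 := rE6a_cont hε hεδ hr₀ hr₁ (by linarith only [hε, hεδ, hδ2]) hP (hpl y hy) hy1 (by rwa [dist_comm])
        (hA _ (hpl y hy)).1 (hA _ (hpl y hy)).2.2 (hA _ (hpl x hx)).2.2
      rw [abs_le]
      constructor <;> linarith only [h1, h2])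
  have habs : ∀ x ∈ closedBall (0 : E (n + 1)) (1 / 2), |ev h x| ≤ 1 + 3 * θ := by
    apply Harm.abs_le_of_sphere (by omega) (by norm_num) (harm_ev (hF h hhF).1 _)
      (contDiff_ev h).continuous.continuousOn
    intro x hx
    have h1 := hh x hx
    have h2 : |A (rE6a_pl x)| ≤ 1 := abs_le.mpr ⟨(hA _ (hpl x hx)).1, (hA _ (hpl x hx)).2.1⟩
    have h3 : |ev h x| ≤ |ev h x - A (rE6a_pl x)| + |A (rE6a_pl x)| := by
      have := abs_add_le (ev h x - A (rE6a_pl x)) (A (rE6a_pl x))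
      rwa [sub_add_cancel] at this
    linarith only [h1, h2, h3]
  refine ⟨h, (hF h hhF).1, (hF h hhF).2, habs, ?_, ?_⟩
  · intro x hx
    obtain ⟨h1, h2⟩ := hMM h hhF x hx
    exact ⟨h1.trans (hM1 h hhF), h2.trans (mul_le_mul_of_nonneg_right (hM1 h hhF) (abs_nonneg _))⟩
  · intro x hx
    have hxc : x ∈ closedBall (0 : E (n + 1)) (1 / 2) := sphere_subset_closedBall hx
    have hx1 : x ∈ ball (0 : E (n + 1)) 1 := by
      rw [mem_ball]; rw [mem_closedBall] at hxc; linarith only [hxc]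
    have hevx := abs_le.mp (habs x hxc)
    have hPx := abs_le.mp (hP x hx1)
    by_cases hx0 : -(r₀ / 4) ≤ x 0
    · have hmem : x ∈ ball (rE6a_pl x) r₀ := by
        rw [mem_ball]
        have := rE6a_dist_pl (by positivity) hx0
        linarith only [hε, hεδ, hδ2, this]
      obtain ⟨h1, h2⟩ := (hA _ (hpl x hx)).2.2 x hmem
      have h3 := abs_le.mp (hh x hx)
      have h4 : ε * (ev h x - 4 * θ) ≤ ε * A (rE6a_pl x) :=
        mul_le_mul_of_nonneg_left (by linarith only [h3]) hε.le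
      have h5 : ε * (A (rE6a_pl x) + θ) ≤ ε * (ev h x + 5 * θ) :=
        mul_le_mul_of_nonneg_left (by linarith only [h3]) hε.le
      exact ⟨(max_le_max (by linarith only [h4]) le_rfl).trans h1, h2.trans (max_le_max (by linarith only [h5]) le_rfl)⟩
    · push Not at hx0
      have h1 : ε * (ev h x - 4 * θ) ≤ ε * 1 := mul_le_mul_of_nonneg_left (by linarith only [hθ, hevx]) hε.le
      have h2 : P x + ε * (ev h x - 4 * θ) ≤ 0 := by linarith only [hεδ, hδ2, hPx, hx0, h1]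
      have h3 : P x + ε ≤ 0 := by linarith only [hεδ, hδ2, hPx, hx0]
      refine ⟨?_, ?_⟩
      · rw [max_eq_right h2]; exact hu.nonneg x
      · have h4 := (hT x hx1).2
        rw [max_eq_right h3] at h4
        exact h4.trans (le_max_right _ _)

end Vale.Agent.P098
end

section

/-! # E6: comparison with an even harmonic polynomial

Let `e = ee 0`, `θ' = min(θ/7, 1/3)`, `M, δ₁` and `h` from `boundary_data` with `θ'`, `δ ≤ δ₁` small
depending on `θ', M`. Let `ψ(x) = x 0 + (x 0)²`; `Δψ = 2`, `-1/4 ≤ ψ ≤ 3/4` on `closedBall 0 (1/2)`.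

Lower bound: `v = P + ε(h - 5θ' + θ'ψ)`, `sub_comparison` on `D = ball 0 (1/2)` (`N = ball 0 1`):
`Δv = 2εθ' > 0`; on the sphere `v ≤ P + ε(h - 4θ') ≤ u`.
Gradient: `u x = 0 < v x` gives `P x ≤ ε` (from `Trap`), `P x > -3ε` (`|h| ≤ 2`), so
`|‖∇P‖²-1| ≤ δε` and `|x 0| ≤ |P x| + δ ≤ 4δ`, `|∂₀h| ≤ 4Mδ`, `∂₀ψ ≥ 1-8δ`, `|∇h + θ'∇ψ| ≤ M + 2`.
`‖∇v‖² ≥ ‖∇P‖² + 2ε⟪∇P, ∇h+θ'∇ψ⟫ ≥ 1 - δε + 2ε(θ'(1-8δ) - 4Mδ - δ(M+2)) ≥ 1`
(`⟪∇P, X⟫ ≥ ⟪e, X⟫ - δ|X|`). So `u ≥ v ≥ P + ε(h - 6θ')` on `D`.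

Upper bound: `v = P + ε(h + 6θ' - θ'ψ)`, `super_comparison`: `Δv = -2εθ' < 0`; on the sphere
`v ≥ P + ε(h + 5θ')`. Gradient: `u x > 0 ≥ v x` gives `P x > -ε` (Trap), `P x ≤ 3ε`, and
`‖∇v‖² ≤ 1 + δε - 2ε(θ'(1-8δ) - 4Mδ - δ(M+2)) + ε²(M+2)² ≤ 1`. So
`u ≤ max(v,0) ≤ max(P + ε(h+7θ'), 0)`. And `|h| ≤ 1 + 3θ' ≤ 2`. -/


open MeasureTheory Set Metric Filter
open scoped ContDiff RealInnerProductSpace Topology NNReal

namespace Vale.Agent.P098

variable {d : ℕ}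

theorem rE6_inner_grad (f : E d → ℝ) (x : E d) (i : Fin d) :
    ⟪ee i, gradient f x⟫ = P1 f i x := by
  rw [real_inner_comm]
  unfold gradient P1
  exact InnerProductSpace.toDual_symm_apply ..

theorem rE6_norm_grad (f : E d → ℝ) (x : E d) : ‖gradient f x‖ = ‖fderiv ℝ f x‖ := by
  unfold gradient
  simp

/-- The perturbation polynomial. -/
noncomputable def rE6S {n : ℕ} (h : MvPolynomial (Fin (n + 1)) ℝ) (s t : ℝ) :
    MvPolynomial (Fin (n + 1)) ℝ :=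
  h + MvPolynomial.C s * (MvPolynomial.X 0 + MvPolynomial.X 0 ^ 2) + MvPolynomial.C t

theorem rE6_ev {n : ℕ} (h : MvPolynomial (Fin (n + 1)) ℝ) (s t : ℝ) (x : E (n + 1)) :
    ev (rE6S h s t) x = ev h x + s * (x 0 + x 0 ^ 2) + t := by
  simp [ev, rE6S]

theorem rE6_lapP {n : ℕ} {h : MvPolynomial (Fin (n + 1)) ℝ} (hh : lapP h = 0) (s t : ℝ) :
    lapP (rE6S h s t) = MvPolynomial.C (2 * s) := by
  unfold lapP at hh ⊢
  have h1 : ∀ i : Fin (n + 1), MvPolynomial.pderiv i (MvPolynomial.pderiv i (rE6S h s t)) =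
      MvPolynomial.pderiv i (MvPolynomial.pderiv i h) +
        if i = 0 then MvPolynomial.C (2 * s) else 0 := by
    intro i
    unfold rE6S
    by_cases hi : i = 0
    · subst hi
      have h2 : (2 : MvPolynomial (Fin (n + 1)) ℝ) = MvPolynomial.C 2 :=
        (map_ofNat MvPolynomial.C 2).symm
      have h3 : MvPolynomial.pderiv (0 : Fin (n + 1)) (2 : MvPolynomial (Fin (n + 1)) ℝ) = 0 := by
        rw [h2, MvPolynomial.pderiv_C]
      simp only [map_add, Derivation.leibniz, MvPolynomial.pderiv_X, Pi.single_eq_same, Derivation.leibniz_pow, Nat.add_one_sub_one, pow_one, smul_eq_mul, mul_one, nsmul_eq_mul, Nat.cast_ofNat, MvPolynomial.derivation_C, mul_zero, add_zero, Derivation.map_one_eq_zero, h3, zero_add, ↓reduceIte, MvPolynomial.C_mul, add_right_inj]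
      rw [← h2]
      ring
    · have h0 : MvPolynomial.pderiv i (MvPolynomial.X 0 : MvPolynomial (Fin (n + 1)) ℝ) = 0 :=
        MvPolynomial.pderiv_X_of_ne (fun h => hi h.symm)
      simp only [map_add, Derivation.leibniz, h0, Derivation.leibniz_pow, Nat.add_one_sub_one, pow_one, smul_eq_mul, mul_zero, nsmul_zero, add_zero, MvPolynomial.derivation_C, hi, ↓reduceIte]
  rw [Finset.sum_congr rfl (fun i _ => h1 i), Finset.sum_add_distrib, hh]
  simp only [MvPolynomial.C_mul, Finset.sum_ite_eq', Finset.mem_univ, ↓reduceIte, zero_add]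

theorem rE6_lap_add {f g : E d → ℝ} {N : Set (E d)} (hN : IsOpen N) (hf : ContDiffOn ℝ ∞ f N)
    (hg : ContDiffOn ℝ ∞ g N) {x : E d} (hx : x ∈ N) :
    lap (fun y => f y + g y) x = lap f x + lap g x := by
  unfold lap
  rw [← Finset.sum_add_distrib]
  refine Finset.sum_congr rfl fun i _ => ?_
  have h1 : ∀ y ∈ N, P1 (fun y => f y + g y) i y = P1 f i y + P1 g i y := fun y hy =>
    P1_add (diffAt_of hN hf hy) (diffAt_of hN hg hy) i
  change P1 (P1 (fun y => f y + g y) i) i x = P1 (P1 f i) i x + P1 (P1 g i) i x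
  rw [P1_congr_on hN h1 hx i, P1_add (diffAt_P1 hN hf hx i) (diffAt_P1 hN hg hx i)]

theorem rE6_lap {n : ℕ} {P : E (n + 1) → ℝ} {N : Set (E (n + 1))} (hN : IsOpen N)
    (hP : Harm N P) {h : MvPolynomial (Fin (n + 1)) ℝ} (hh : lapP h = 0) (ε s t : ℝ)
    {x : E (n + 1)} (hx : x ∈ N) :
    lap (fun y => P y + ε * ev (rE6S h s t) y) x = 2 * s * ε := by
  have h1 : (fun y => P y + ε * ev (rE6S h s t) y) =
      fun y => P y + ev (MvPolynomial.C ε * rE6S h s t) y := by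
    funext y
    simp only [ev, map_mul, MvPolynomial.eval_C]
  rw [h1, rE6_lap_add hN hP.1 (contDiff_ev _).contDiffOn hx, hP.2 x hx, lap_ev]
  have h2 : lapP (MvPolynomial.C ε * rE6S h s t) = MvPolynomial.C ε * lapP (rE6S h s t) := by
    unfold lapP
    simp only [Derivation.leibniz, smul_eq_mul, MvPolynomial.derivation_C, mul_zero, add_zero, Finset.mul_sum]
  rw [h2, rE6_lapP hh]
  simp [ev]
  ring

theorem rE6_toDual_symm_proj {n : ℕ} : (InnerProductSpace.toDual ℝ (E (n + 1))).symm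
    (EuclideanSpace.proj (0 : Fin (n + 1)) : E (n + 1) →L[ℝ] ℝ) = ee 0 := by
  rw [LinearIsometryEquiv.symm_apply_eq]
  ext y
  simp only [PiLp.proj_apply, InnerProductSpace.toDual_apply_apply, EuclideanSpace.inner_single_left, Real.ringHom_apply, one_mul]

/-- Gradient of the perturbed function. -/
theorem rE6_gradient {n : ℕ} {P : E (n + 1) → ℝ} {x : E (n + 1)} (hP : DifferentiableAt ℝ P x)
    (h : MvPolynomial (Fin (n + 1)) ℝ) (ε s t : ℝ) :
    gradient (fun y => P y + ε * ev (rE6S h s t) y) x =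
      gradient P x + ε • (gradient (ev h) x + (s * (1 + 2 * x 0)) • ee 0) := by
  have hh : DifferentiableAt ℝ (ev h) x := (contDiff_ev h).differentiable (by norm_num) x
  have e1 : HasFDerivAt (fun y : E (n + 1) => y 0)
      (EuclideanSpace.proj (0 : Fin (n + 1)) : E (n + 1) →L[ℝ] ℝ) x :=
    (EuclideanSpace.proj (0 : Fin (n + 1)) : E (n + 1) →L[ℝ] ℝ).hasFDerivAt
  have e2 := hP.hasFDerivAt.fun_add ((((hh.hasFDerivAt).fun_add
    ((e1.fun_add (e1.pow 2)).const_mul s)).add_const t).const_mul ε)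
  have e3 : (fun y => P y + ε * ev (rE6S h s t) y) =
      fun y => P y + ε * (ev h y + s * (y 0 + y 0 ^ 2) + t) := by
    funext y; rw [rE6_ev]
  rw [e3]
  unfold gradient
  rw [e2.fderiv]
  simp only [map_add, map_smul, rE6_toDual_symm_proj]
  congr 3
  rw [smul_add, smul_smul, ← add_smul]
  congr 1
  simp only [Nat.add_one_sub_one, pow_one, nsmul_eq_mul, Nat.cast_ofNat]
  ring

theorem rE6_est {n : ℕ} {a g : E (n + 1)} {x0 δ M s : ℝ} (hM : 0 ≤ M) (hs : |s| ≤ 1)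
    (ha : ‖a - ee 0‖ ≤ δ) (hg : ‖g‖ ≤ M) (hg0 : |⟪ee 0, g⟫| ≤ M * |x0|) (hx : |x0| ≤ 4 * δ)
    (hx2 : |x0| ≤ 1 / 2) :
    ‖g + (s * (1 + 2 * x0)) • ee 0‖ ≤ M + 2 ∧
      |⟪a, g + (s * (1 + 2 * x0)) • ee 0⟫ - s| ≤ δ * (4 * M + 8 + (M + 2)) := by
  have hδ : 0 ≤ δ := (norm_nonneg _).trans ha
  have he : ‖(ee 0 : E (n + 1))‖ = 1 := by simp [ee]
  have hx3 := abs_le.1 hx2
  have hx4 := abs_le.1 hx
  have hs2 := abs_le.1 hs
  have h1 : ‖g + (s * (1 + 2 * x0)) • ee 0‖ ≤ M + 2 := by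
    refine (norm_add_le _ _).trans (add_le_add hg ?_)
    rw [norm_smul, he, mul_one, Real.norm_eq_abs, abs_mul]
    have : |1 + 2 * x0| ≤ 2 := abs_le.2 ⟨by linarith only [hx3], by linarith only [hx3]⟩
    calc |s| * |1 + 2 * x0| ≤ 1 * 2 := mul_le_mul hs this (abs_nonneg _) zero_le_one
      _ = 2 := by norm_num
  refine ⟨h1, ?_⟩
  set G := g + (s * (1 + 2 * x0)) • ee 0 with hG
  have h2 : ⟪a, G⟫ = ⟪ee 0, g⟫ + s * (1 + 2 * x0) + ⟪a - ee 0, G⟫ := by
    have : ⟪(ee 0 : E (n + 1)), G⟫ = ⟪ee 0, g⟫ + s * (1 + 2 * x0) := by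
      rw [hG, inner_add_right, inner_smul_right, real_inner_self_eq_norm_sq, he]
      ring
    rw [inner_sub_left, this]
    ring
  have h3 : |⟪a - ee 0, G⟫| ≤ δ * (M + 2) :=
    (abs_real_inner_le_norm _ _).trans (mul_le_mul ha h1 (norm_nonneg _) hδ)
  have h4 : |⟪ee 0, g⟫| ≤ M * (4 * δ) := hg0.trans (mul_le_mul_of_nonneg_left hx hM)
  have h5 : |s * (2 * x0)| ≤ 8 * δ := by
    rw [abs_mul]
    calc |s| * |2 * x0| ≤ 1 * |2 * x0| := mul_le_mul_of_nonneg_right hs (abs_nonneg _)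
      _ = 2 * |x0| := by rw [one_mul, abs_mul, abs_two]
      _ ≤ 8 * δ := by linarith only [hx]
  rw [h2, show ⟪ee 0, g⟫ + s * (1 + 2 * x0) + ⟪a - ee 0, G⟫ - s =
    ⟪ee 0, g⟫ + s * (2 * x0) + ⟪a - ee 0, G⟫ by ring]
  calc |⟪ee 0, g⟫ + s * (2 * x0) + ⟪a - ee 0, G⟫|
      ≤ |⟪ee 0, g⟫ + s * (2 * x0)| + |⟪a - ee 0, G⟫| := abs_add_le _ _
    _ ≤ |⟪ee 0, g⟫| + |s * (2 * x0)| + |⟪a - ee 0, G⟫| := by
        gcongr; exact abs_add_le _ _
    _ ≤ M * (4 * δ) + 8 * δ + δ * (M + 2) := add_le_add (add_le_add h4 h5) h3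
    _ = δ * (4 * M + 8 + (M + 2)) := by ring

theorem linear_compare (n : ℕ) (θ : ℝ) (hθ : 0 < θ) : ∃ δ : ℝ, 0 < δ ∧
    ∀ (L : ℝ≥0) (u P : E (n + 1) → ℝ) (ε : ℝ), MinL L u → 0 < ε → ε ≤ δ →
    Harm (ball 0 1) P → (∀ x ∈ ball (0 : E (n + 1)) 1, |P x - x 0| ≤ δ) →
    (∀ x ∈ ball (0 : E (n + 1)) 1, ‖gradient P x - ee 0‖ ≤ δ) →
    (∀ x ∈ ball (0 : E (n + 1)) 1, |P x| ≤ 3 * ε → |‖fderiv ℝ P x‖ ^ 2 - 1| ≤ δ * ε) →
    Trap u P (-ε) ε 0 1 →
    ∃ h : MvPolynomial (Fin (n + 1)) ℝ, lapP h = 0 ∧ EvenP h ∧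
      (∀ x ∈ closedBall (0 : E (n + 1)) (1 / 2), |ev h x| ≤ 2) ∧
      ∀ x ∈ ball (0 : E (n + 1)) (1 / 2), max (P x + ε * (ev h x - θ)) 0 ≤ u x ∧
        u x ≤ max (P x + ε * (ev h x + θ)) 0 := by
  have hθ'0 : 0 < min (θ / 7) (1 / 3) := lt_min (by positivity) (by norm_num)
  have hθ'1 : min (θ / 7) (1 / 3) ≤ 1 / 3 := min_le_right _ _
  have hθ'2 : 7 * min (θ / 7) (1 / 3) ≤ θ := by
    have := min_le_left (θ / 7) (1 / 3 : ℝ)
    linarith only [this]
  generalize min (θ / 7) (1 / 3) = θ' at hθ'0 hθ'1 hθ'2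
  obtain ⟨M, δ₁, hM, hδ₁, H⟩ := boundary_data n θ' hθ'0 hθ'1
  have hD : 0 < 25 + 10 * M + (M + 2) ^ 2 := by (clear * - hM; positivity)
  refine ⟨min (min δ₁ (1 / 16)) (2 * θ' / (25 + 10 * M + (M + 2) ^ 2)),
    lt_min (lt_min hδ₁ (by norm_num)) (by (clear * - hθ'0 hM; positivity)), ?_⟩
  have hδ₁' : min (min δ₁ (1 / 16)) (2 * θ' / (25 + 10 * M + (M + 2) ^ 2)) ≤ δ₁ :=
    (min_le_left _ _).trans (min_le_left _ _)
  have hδ₂' : min (min δ₁ (1 / 16)) (2 * θ' / (25 + 10 * M + (M + 2) ^ 2)) *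
      (25 + 10 * M + (M + 2) ^ 2) ≤ 2 * θ' := by
    have := min_le_right (min δ₁ (1 / 16)) (2 * θ' / (25 + 10 * M + (M + 2) ^ 2))
    rwa [le_div_iff₀ hD] at this
  have hδ₃ : 0 < min (min δ₁ (1 / 16)) (2 * θ' / (25 + 10 * M + (M + 2) ^ 2)) :=
    lt_min (lt_min hδ₁ (by norm_num)) (by positivity)
  have hδ₄ : min (min δ₁ (1 / 16)) (2 * θ' / (25 + 10 * M + (M + 2) ^ 2)) ≤ 1 / 16 :=
    (min_le_left _ _).trans (min_le_right _ _)
  generalize min (min δ₁ (1 / 16)) (2 * θ' / (25 + 10 * M + (M + 2) ^ 2)) = δ at *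
  intro L u P ε hu hε hεδ hP h1 h2 h3 hT
  obtain ⟨h, hh, he, hb, hg, hs⟩ := H L u P ε hu hε (hεδ.trans hδ₁') hP
    (fun x hx => (h1 x hx).trans hδ₁') (fun x hx => (h2 x hx).trans hδ₁')
    (fun x hx hx2 => (h3 x hx hx2).trans (mul_le_mul_of_nonneg_right hδ₁' hε.le)) hT
  refine ⟨h, hh, he, fun x hx => (hb x hx).trans (by linarith only [hθ'1]), ?_⟩
  have hcl : closure (ball (0 : E (n + 1)) (1 / 2)) = closedBall 0 (1 / 2) :=
    closure_ball _ (by norm_num)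
  have hfr : frontier (ball (0 : E (n + 1)) (1 / 2)) = sphere 0 (1 / 2) :=
    frontier_ball _ (by norm_num)
  have hsub : closedBall (0 : E (n + 1)) (1 / 2) ⊆ ball 0 1 :=
    closedBall_subset_ball (by norm_num)
  have hx0 : ∀ x ∈ closedBall (0 : E (n + 1)) (1 / 2), |x 0| ≤ 1 / 2 := by
    intro x hx
    rw [mem_closedBall_zero_iff] at hx
    have := PiLp.norm_apply_le x (0 : Fin (n + 1))
    rw [Real.norm_eq_abs] at this
    exact this.trans hx
  have hsm : ∀ s t : ℝ, ContDiffOn ℝ ∞ (fun y => P y + ε * ev (rE6S h s t) y) (ball 0 1) :=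
    fun s t => hP.1.add (contDiff_const.mul (contDiff_ev _)).contDiffOn
  -- gradient computation
  have hgr : ∀ s t : ℝ, |s| ≤ 1 → ∀ x ∈ ball (0 : E (n + 1)) (1 / 2), |P x| ≤ 3 * ε →
      ∃ I G : ℝ, ‖fderiv ℝ (fun y => P y + ε * ev (rE6S h s t) y) x‖ ^ 2 =
        ‖fderiv ℝ P x‖ ^ 2 + 2 * ε * I + ε ^ 2 * G ∧
        |‖fderiv ℝ P x‖ ^ 2 - 1| ≤ δ * ε ∧ 0 ≤ G ∧ G ≤ (M + 2) ^ 2 ∧
        |I - s| ≤ δ * (4 * M + 8 + (M + 2)) := by
    intro s t hst x hx hPx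
    have hxb : x ∈ ball (0 : E (n + 1)) 1 := ball_subset_ball (by norm_num) hx
    have hx1 : |x 0| ≤ 1 / 2 := hx0 x (ball_subset_closedBall hx)
    have hx2 : |x 0| ≤ 4 * δ := by
      have e1 := abs_le.1 (h1 x hxb)
      have e2 := abs_le.1 hPx
      exact abs_le.2 ⟨by linarith only [hεδ, e1, e2], by linarith only [hεδ, e1, e2]⟩
    have hd : DifferentiableAt ℝ P x := diffAt_of isOpen_ball hP.1 hxb
    obtain ⟨k1, k2⟩ := rE6_est (a := gradient P x) (g := gradient (ev h) x) (x0 := x 0)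
      hM.le hst (h2 x hxb) (by rw [rE6_norm_grad]; exact (hg x hxb).1)
      (by rw [rE6_inner_grad]; exact (hg x hxb).2) hx2 hx1
    refine ⟨⟪gradient P x, gradient (ev h) x + (s * (1 + 2 * x 0)) • ee 0⟫,
      ‖gradient (ev h) x + (s * (1 + 2 * x 0)) • ee 0‖ ^ 2, ?_, h3 x hxb hPx, by (clear * -; positivity),
      pow_le_pow_left₀ (norm_nonneg _) k1 2, k2⟩
    rw [← rE6_norm_grad, ← rE6_norm_grad, rE6_gradient hd, norm_add_sq_real, inner_smul_right,
      norm_smul, mul_pow, Real.norm_eq_abs, sq_abs]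
    ring
  have hlow : ∀ x ∈ ball (0 : E (n + 1)) (1 / 2),
      P x + ε * ev (rE6S h θ' (-(5 * θ'))) x ≤ u x := by
    refine sub_comparison hu isOpen_ball isBounded_ball (isOpen_ball (x := 0) (ε := 1))
      (hcl ▸ hsub) (hsm _ _) ?_ ?_ ?_
    · intro x hx
      rw [rE6_lap isOpen_ball hP hh ε _ _ (ball_subset_ball (by norm_num) hx)]
      positivity
    · intro x hx hux hvx
      have hxb : x ∈ ball (0 : E (n + 1)) 1 := ball_subset_ball (by norm_num) hx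
      have hT1 := (hT x hxb).1
      rw [hux] at hT1
      have e1 : P x ≤ ε := by
        have := (le_max_left (P x + -ε) 0).trans hT1
        linarith only [this]
      have hbx := abs_le.1 (hb x (ball_subset_closedBall hx))
      have hx1 := abs_le.1 (hx0 x (ball_subset_closedBall hx))
      rw [rE6_ev] at hvx
      have e2 : ev h x + θ' * (x 0 + x 0 ^ 2) + -(5 * θ') ≤ 2 := by
        nlinarith only [hθ'1, hbx, hx1, hM]
      have e3 : -(3 * ε) ≤ P x := by nlinarith only [hε, hvx, e2]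
      obtain ⟨I, G, g1, g2, g3, g4, g5⟩ := hgr θ' (-(5 * θ')) (by rw [abs_of_pos hθ'0]; linarith only [hθ'1])
        x hx (abs_le.2 ⟨e3, by linarith only [hε, e1]⟩)
      have g2' := abs_le.1 g2
      have g5' := abs_le.1 g5
      have e4 : 1 ≤ ‖fderiv ℝ (fun y => P y + ε * ev (rE6S h θ' (-(5 * θ'))) y) x‖ ^ 2 := by
        rw [g1]
        have : 0 ≤ ε ^ 2 * G := by (clear * - hε g3; positivity)
        have : 2 * ε * (θ' - δ * (4 * M + 8 + (M + 2))) ≤ 2 * ε * I :=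
          mul_le_mul_of_nonneg_left (by linarith only [g5']) (by positivity)
        have : 0 ≤ ε * (2 * θ' - δ * (25 + 10 * M + (M + 2) ^ 2)) :=
          mul_nonneg hε.le (by linarith only [hδ₂'])
        have : 0 ≤ ε * δ * (4 + (M + 2) ^ 2) := by positivity
        (clear θ hθ hθ'0 hθ'1 hθ'2 δ₁ hδ₁ H hD hδ₁' hδ₄ L u hu hεδ hP h1 h2 h3 hT h hh he hb hg hs hcl hfr hsub hx0 hsm hgr hx hux hvx hxb hT1 e1 hbx hx1 e2 e3 g1 g4; nlinarith)
      exact (one_le_sq_iff₀ (norm_nonneg _)).1 e4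
    · intro x hx
      rw [hfr] at hx
      have hxc := sphere_subset_closedBall hx
      have e1 := (le_max_left _ _).trans (hs x hx).1
      have hx1 := abs_le.1 (hx0 x hxc)
      refine le_trans ?_ e1
      rw [rE6_ev]
      have : θ' * (x 0 + x 0 ^ 2) ≤ θ' * 1 := mul_le_mul_of_nonneg_left (by nlinarith only [hx1]) hθ'0.le
      have : ε * (ev h x + θ' * (x 0 + x 0 ^ 2) + -(5 * θ')) ≤ ε * (ev h x - 4 * θ') :=
        mul_le_mul_of_nonneg_left (by linarith only [this]) hε.le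
      linarith only [this]
  have hup : ∀ x ∈ ball (0 : E (n + 1)) (1 / 2),
      u x ≤ max (P x + ε * ev (rE6S h (-θ') (6 * θ')) x) 0 := by
    refine super_comparison hu isOpen_ball isBounded_ball (isOpen_ball (x := 0) (ε := 1))
      (hcl ▸ hsub) (hsm _ _) ?_ ?_ ?_
    · intro x hx
      rw [rE6_lap isOpen_ball hP hh ε _ _ (ball_subset_ball (by norm_num) hx)]
      have : 0 < θ' * ε := by positivity
      linarith only [this]
    · intro x hx hux hvx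
      have hxb : x ∈ ball (0 : E (n + 1)) 1 := ball_subset_ball (by norm_num) hx
      have hT1 := (hT x hxb).2
      have e1 : -ε ≤ P x := by
        by_contra hcon
        rw [not_le] at hcon
        have : max (P x + ε) 0 = 0 := max_eq_right (by linarith only [hcon])
        rw [this] at hT1
        linarith only [hux, hT1]
      have hbx := abs_le.1 (hb x (ball_subset_closedBall hx))
      have hx1 := abs_le.1 (hx0 x (ball_subset_closedBall hx))
      rw [rE6_ev] at hvx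
      have e2 : -2 ≤ ev h x + -θ' * (x 0 + x 0 ^ 2) + (6 * θ') := by
        nlinarith only [hθ'0, hbx, hθ'1, hx1]
      have e3 : P x ≤ 3 * ε := by nlinarith only [hε, hvx, e2]
      obtain ⟨I, G, g1, g2, g3, g4, g5⟩ := hgr (-θ') (6 * θ')
        (by rw [abs_neg, abs_of_pos hθ'0]; linarith only [hθ'1]) x hx (abs_le.2 ⟨by linarith only [hε, e1], e3⟩)
      have g2' := abs_le.1 g2
      have g5' := abs_le.1 g5
      have e4 : ‖fderiv ℝ (fun y => P y + ε * ev (rE6S h (-θ') (6 * θ')) y) x‖ ^ 2 ≤ 1 := by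
        rw [g1]
        have a1 : ε ^ 2 * G ≤ ε * δ * (M + 2) ^ 2 := by
          rw [pow_two, mul_assoc, mul_assoc]
          exact mul_le_mul_of_nonneg_left (mul_le_mul hεδ g4 g3 hδ₃.le) hε.le
        have a2 : 2 * ε * I ≤ 2 * ε * (-θ' + δ * (4 * M + 8 + (M + 2))) :=
          mul_le_mul_of_nonneg_left (by linarith only [g5']) (by positivity)
        have a3 : 0 ≤ ε * (2 * θ' - δ * (25 + 10 * M + (M + 2) ^ 2)) :=
          mul_nonneg hε.le (by linarith only [hδ₂'])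
        have a4 : 0 ≤ ε * δ := by positivity
        nlinarith only [g2', a1, a2, a3]
      exact (sq_le_one_iff₀ (norm_nonneg _)).1 e4
    · intro x hx
      rw [hfr] at hx
      have hxc := sphere_subset_closedBall hx
      have hx1 := abs_le.1 (hx0 x hxc)
      refine (hs x hx).2.trans (max_le_max ?_ le_rfl)
      rw [rE6_ev]
      have : θ' * (x 0 + x 0 ^ 2) ≤ θ' * 1 := mul_le_mul_of_nonneg_left (by nlinarith only [hx1]) hθ'0.le
      have : ε * (ev h x + 5 * θ') ≤ ε * (ev h x + -θ' * (x 0 + x 0 ^ 2) + 6 * θ') :=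
        mul_le_mul_of_nonneg_left (by linarith only [this]) hε.le
      linarith only [this]
  intro x hx
  have hx1 := abs_le.1 (hx0 x (ball_subset_closedBall hx))
  constructor
  · refine max_le ((le_trans ?_ (hlow x hx))) (hu.nonneg x)
    rw [rE6_ev]
    have : θ' * (-1 / 4) ≤ θ' * (x 0 + x 0 ^ 2) :=
      mul_le_mul_of_nonneg_left (by linarith only [sq_nonneg (x 0 + 1 / 2)]) hθ'0.le
    have : ε * (ev h x - θ) ≤ ε * (ev h x + θ' * (x 0 + x 0 ^ 2) + -(5 * θ')) :=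
      mul_le_mul_of_nonneg_left (by linarith only [hθ, hθ'2, this]) hε.le
    linarith only [this]
  · refine (hup x hx).trans (max_le_max ?_ le_rfl)
    rw [rE6_ev]
    have : θ' * (-1 / 4) ≤ θ' * (x 0 + x 0 ^ 2) :=
      mul_le_mul_of_nonneg_left (by linarith only [sq_nonneg (x 0 + 1 / 2)]) hθ'0.le
    have : ε * (ev h x + -θ' * (x 0 + x 0 ^ 2) + 6 * θ') ≤ ε * (ev h x + θ) :=
      mul_le_mul_of_nonneg_left (by linarith only [hθ, hθ'2, this]) hε.le
    linarith only [this]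

end Vale.Agent.P098
end
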