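import Mathlib
import Vale.Agent.P098.Bdl.B2
import Vale.Agent.P098.Bdl.B7
import Vale.Agent.P098.Bdl.B12
import Vale.Agent.P098.Bdl.B4
attribute [-instance] ProperSMul.toContinuousSMul IsTopologicalTorsor.toContinuousSMul IdemSemiring.toCanonicallyOrderedAdd IdemSemiring.toMulLeftMono IdemSemiring.toMulRightMono AddQuantale.instAddLeftMono AddQuantale.instAddRightMono Quantale.instMulLeftMono Quantale.instMulRightMono FiniteDimensional.rclike_to_real IsScalarTower.complexToReal FiniteDimensional.complexToReal

set_option linter.all false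

section

open MeasureTheory Set Metric Filter
open scoped ContDiff RealInnerProductSpace Topology

namespace Vale.Agent.P098

variable {d : ℕ}

/-! Module F2: jets calculus, composite functions -/

theorem P1_chain2 {Φ : ℝ × ℝ → ℝ} {a b : ℝ} {f g : E d → ℝ} {x : E d}
    (hΦ : HasFDerivAt Φ
      (a • ContinuousLinearMap.fst ℝ ℝ ℝ + b • ContinuousLinearMap.snd ℝ ℝ ℝ) (f x, g x))
    (hf : DifferentiableAt ℝ f x) (hg : DifferentiableAt ℝ g x) (k : Fin d) :
    P1 (fun y => Φ (f y, g y)) k x = a * P1 f k x + b * P1 g k x := by
  have h1 : HasFDerivAt (fun y => (f y, g y)) ((fderiv ℝ f x).prod (fderiv ℝ g x)) x :=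
    hf.hasFDerivAt.prodMk hg.hasFDerivAt
  have h2 := HasFDerivAt.comp x hΦ h1
  unfold P1
  have h3 : (Φ ∘ fun y => (f y, g y)) = fun y => Φ (f y, g y) := rfl
  rw [h3] at h2
  rw [h2.fderiv]
  simp only [ContinuousLinearMap.add_comp, ContinuousLinearMap.smul_comp, ContinuousLinearMap.fst_comp_prod, ContinuousLinearMap.snd_comp_prod, add_apply, smul_apply, smul_eq_mul]

theorem P1_chain3 {ψ : ℝ × ℝ × ℝ → ℝ} {a b c : ℝ} {f g h : E d → ℝ} {x : E d}
    (hψ : DifferentiableAt ℝ ψ (f x, g x, h x))
    (hψ' : ∀ p q r : ℝ, fderiv ℝ ψ (f x, g x, h x) (p, q, r) = a * p + b * q + c * r)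
    (hf : DifferentiableAt ℝ f x) (hg : DifferentiableAt ℝ g x) (hh : DifferentiableAt ℝ h x)
    (k : Fin d) :
    P1 (fun y => ψ (f y, g y, h y)) k x = a * P1 f k x + b * P1 g k x + c * P1 h k x := by
  have h1 : HasFDerivAt (fun y => (f y, g y, h y))
      ((fderiv ℝ f x).prod ((fderiv ℝ g x).prod (fderiv ℝ h x))) x :=
    hf.hasFDerivAt.prodMk (hg.hasFDerivAt.prodMk hh.hasFDerivAt)
  have h2 := HasFDerivAt.comp x hψ.hasFDerivAt h1
  unfold P1
  have h3 : (ψ ∘ fun y => (f y, g y, h y)) = fun y => ψ (f y, g y, h y) := rfl
  rw [h3] at h2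
  rw [h2.fderiv]
  simp [hψ']

section
variable {U : E d → ℝ} {N : Set (E d)}

theorem diffAt_SS (hN : IsOpen N) (hU : ContDiffOn ℝ ∞ U N) (δ : ℝ) {x : E d} (hx : x ∈ N) :
    DifferentiableAt ℝ (SS δ U) x := by
  unfold SS
  refine DifferentiableAt.add_const _ ?_
  refine DifferentiableAt.fun_sum (fun i _ => DifferentiableAt.fun_sum (fun j _ => ?_))
  exact (diffAt_P2 hN hU hx i j).pow 2

theorem diffAt_vv (hN : IsOpen N) (hU : ContDiffOn ℝ ∞ U N) {x : E d} (hx : x ∈ N) :
    DifferentiableAt ℝ (vv U) x := by
  unfold vv
  refine DifferentiableAt.fun_sum (fun i _ => ?_)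
  exact (diffAt_P1 hN hU hx i).pow 2

theorem diffAt_gg (hN : IsOpen N) (hU : ContDiffOn ℝ ∞ U N) {x : E d} (hx : x ∈ N) (k : Fin d) :
    DifferentiableAt ℝ (gg U k) x := by
  unfold gg
  refine DifferentiableAt.fun_sum (fun i _ => DifferentiableAt.fun_sum (fun j _ => ?_))
  exact (diffAt_P2 hN hU hx i j).mul (diffAt_P3 hN hU hx i j k)

theorem diffAt_Q1 (hN : IsOpen N) (hU : ContDiffOn ℝ ∞ U N) {x : E d} (hx : x ∈ N) (k : Fin d) :
    DifferentiableAt ℝ (Q1 U k) x := by
  unfold Q1
  refine DifferentiableAt.fun_sum (fun j _ => ?_)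
  exact (diffAt_P2 hN hU hx k j).mul (diffAt_P1 hN hU hx j)

theorem diffAt_Q2 (hN : IsOpen N) (hU : ContDiffOn ℝ ∞ U N) {x : E d} (hx : x ∈ N) (k : Fin d) :
    DifferentiableAt ℝ (Q2 U k) x := by
  unfold Q2
  refine DifferentiableAt.fun_sum (fun j _ => ?_)
  exact (diffAt_P2 hN hU hx k j).mul (diffAt_Q1 hN hU hx j)

/-- `∂_k S = 2 g_k` -/
theorem P1_SS (hN : IsOpen N) (hU : ContDiffOn ℝ ∞ U N) (δ : ℝ) {x : E d} (hx : x ∈ N)
    (k : Fin d) : P1 (SS δ U) k x = 2 * gg U k x := by
  have h1 : P1 (SS δ U) k x = P1 (fun y => ∑ i, ∑ j, P2 U i j y ^ 2) k x := by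
    unfold P1 SS
    rw [fderiv_add_const]
  rw [h1, P1_sum Finset.univ (f := fun i y => ∑ j, P2 U i j y ^ 2)
    (fun i _ => DifferentiableAt.fun_sum (fun j _ => (diffAt_P2 hN hU hx i j).pow 2)) k]
  unfold gg
  rw [Finset.mul_sum]
  refine Finset.sum_congr rfl (fun i _ => ?_)
  rw [P1_sum Finset.univ (f := fun j y => P2 U i j y ^ 2)
    (fun j _ => (diffAt_P2 hN hU hx i j).pow 2) k, Finset.mul_sum]
  refine Finset.sum_congr rfl (fun j _ => ?_)
  rw [P1_sq (diffAt_P2 hN hU hx i j)]
  rfl

/-- `∂_k v = 2 Q1_k` -/
theorem P1_vv (hN : IsOpen N) (hU : ContDiffOn ℝ ∞ U N) {x : E d} (hx : x ∈ N)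
    (k : Fin d) : P1 (vv U) k x = 2 * Q1 U k x := by
  unfold vv
  rw [P1_sum Finset.univ (f := fun i y => P1 U i y ^ 2)
    (fun i _ => (diffAt_P1 hN hU hx i).pow 2) k]
  unfold Q1
  rw [Finset.mul_sum]
  refine Finset.sum_congr rfl (fun i _ => ?_)
  rw [P1_sq (diffAt_P1 hN hU hx i)]
  have h : P1 (P1 U i) k x = P2 U k i x := P2_symm hN hU hx i k
  rw [h]
  ring

/-- `∑_k ∂_k g_k = |D³U|²` -/
theorem sum_P1_gg (hN : IsOpen N) (hU : ContDiffOn ℝ ∞ U N) (hlap : ∀ x ∈ N, lap U x = 0)
    {x : E d} (hx : x ∈ N) : ∑ k, P1 (gg U k) k x = TT U x := by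
  have h1 : ∀ k, P1 (gg U k) k x
      = ∑ i, ∑ j, (P3 U i j k x ^ 2 + P2 U i j x * P1 (P3 U i j k) k x) := by
    intro k
    unfold gg
    rw [P1_sum Finset.univ (f := fun i y => ∑ j, P2 U i j y * P3 U i j k y)
      (fun i _ => DifferentiableAt.fun_sum (fun j _ =>
        (diffAt_P2 hN hU hx i j).mul (diffAt_P3 hN hU hx i j k))) k]
    refine Finset.sum_congr rfl (fun i _ => ?_)
    rw [P1_sum Finset.univ (f := fun j y => P2 U i j y * P3 U i j k y)
      (fun j _ => (diffAt_P2 hN hU hx i j).mul (diffAt_P3 hN hU hx i j k)) k]
    refine Finset.sum_congr rfl (fun j _ => ?_)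
    rw [P1_mul (diffAt_P2 hN hU hx i j) (diffAt_P3 hN hU hx i j k)]
    have h : P1 (P2 U i j) k x = P3 U i j k x := rfl
    rw [h]
    ring
  have h2 : ∀ i j, ∑ k, (P3 U i j k x ^ 2 + P2 U i j x * P1 (P3 U i j k) k x)
      = ∑ k, P3 U i j k x ^ 2 := by
    intro i j
    rw [Finset.sum_add_distrib, ← Finset.mul_sum]
    have h3 : ∑ k, P1 (P3 U i j k) k x = 0 := P3_div hN hU hlap hx i j
    rw [h3]
    ring
  calc ∑ k, P1 (gg U k) k x
      = ∑ k, ∑ i, ∑ j, (P3 U i j k x ^ 2 + P2 U i j x * P1 (P3 U i j k) k x) :=
        Finset.sum_congr rfl (fun k _ => h1 k)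
    _ = ∑ i, ∑ j, ∑ k, (P3 U i j k x ^ 2 + P2 U i j x * P1 (P3 U i j k) k x) := by
        rw [Finset.sum_comm]
        refine Finset.sum_congr rfl (fun i _ => ?_)
        rw [Finset.sum_comm]
    _ = TT U x := by
        unfold TT
        refine Finset.sum_congr rfl (fun i _ => Finset.sum_congr rfl (fun j _ => h2 i j))

/-- `∑_k ∂_k Q1_k = |D²U|²` -/
theorem sum_P1_Q1 (hN : IsOpen N) (hU : ContDiffOn ℝ ∞ U N) (hlap : ∀ x ∈ N, lap U x = 0)
    {x : E d} (hx : x ∈ N) : ∑ k, P1 (Q1 U k) k x = ∑ i, ∑ j, P2 U i j x ^ 2 := by
  have h1 : ∀ k, P1 (Q1 U k) k x = ∑ j, (P3 U k k j x * P1 U j x + P2 U k j x ^ 2) := by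
    intro k
    unfold Q1
    rw [P1_sum Finset.univ (f := fun j y => P2 U k j y * P1 U j y)
      (fun j _ => (diffAt_P2 hN hU hx k j).mul (diffAt_P1 hN hU hx j)) k]
    refine Finset.sum_congr rfl (fun j _ => ?_)
    rw [P1_mul (diffAt_P2 hN hU hx k j) (diffAt_P1 hN hU hx j)]
    have h : P1 (P2 U k j) k x = P3 U k k j x := P3_symm23 hN hU hx k j k
    have h' : P1 (P1 U j) k x = P2 U k j x := P2_symm hN hU hx j k
    rw [h, h']
    ring
  simp only [h1, Finset.sum_add_distrib]
  rw [Finset.sum_comm]
  have h2 : ∀ j, ∑ k, P3 U k k j x * P1 U j x = 0 := by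
    intro j
    rw [← Finset.sum_mul, P3_trace hN hU hlap hx j, zero_mul]
  simp only [h2, Finset.sum_const_zero, zero_add]

/-- `∂_k Q1_j` -/
theorem P1_Q1 (hN : IsOpen N) (hU : ContDiffOn ℝ ∞ U N) {x : E d} (hx : x ∈ N) (j k : Fin d) :
    P1 (Q1 U j) k x = ∑ i, (P3 U j i k x * P1 U i x + P2 U j i x * P2 U i k x) := by
  unfold Q1
  rw [P1_sum Finset.univ (f := fun i y => P2 U j i y * P1 U i y)
    (fun i _ => (diffAt_P2 hN hU hx j i).mul (diffAt_P1 hN hU hx i)) k]
  refine Finset.sum_congr rfl (fun i _ => ?_)
  rw [P1_mul (diffAt_P2 hN hU hx j i) (diffAt_P1 hN hU hx i)]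
  have h : P1 (P2 U j i) k x = P3 U j i k x := rfl
  have h' : P1 (P1 U i) k x = P2 U i k x := rfl
  rw [h, h']
  ring

/-- `∑_k ∂_k Q2_k = g · ∇U + tr (D²U)³` -/
theorem sum_P1_Q2 (hN : IsOpen N) (hU : ContDiffOn ℝ ∞ U N) (hlap : ∀ x ∈ N, lap U x = 0)
    {x : E d} (hx : x ∈ N) :
    ∑ k, P1 (Q2 U k) k x = (∑ k, gg U k x * P1 U k x) + tr3 U x := by
  have h1 : ∀ k, P1 (Q2 U k) k x
      = ∑ j, (P3 U k k j x * Q1 U j x + P2 U k j x * P1 (Q1 U j) k x) := by
    intro k
    unfold Q2
    rw [P1_sum Finset.univ (f := fun j y => P2 U k j y * Q1 U j y)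
      (fun j _ => (diffAt_P2 hN hU hx k j).mul (diffAt_Q1 hN hU hx j)) k]
    refine Finset.sum_congr rfl (fun j _ => ?_)
    rw [P1_mul (diffAt_P2 hN hU hx k j) (diffAt_Q1 hN hU hx j)]
    have h : P1 (P2 U k j) k x = P3 U k k j x := P3_symm23 hN hU hx k j k
    rw [h]
    ring
  simp only [h1, Finset.sum_add_distrib]
  have h2 : ∑ k, ∑ j, P3 U k k j x * Q1 U j x = 0 := by
    rw [Finset.sum_comm]
    refine Finset.sum_eq_zero (fun j _ => ?_)
    rw [← Finset.sum_mul, P3_trace hN hU hlap hx j, zero_mul]
  rw [h2, zero_add]
  have h3 : ∀ k j, P2 U k j x * P1 (Q1 U j) k x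
      = (∑ i, P2 U j k x * P3 U j k i x * P1 U i x)
        + ∑ i, P2 U k j x * P2 U j i x * P2 U i k x := by
    intro k j
    rw [P1_Q1 hN hU hx, Finset.mul_sum, ← Finset.sum_add_distrib]
    refine Finset.sum_congr rfl (fun i _ => ?_)
    rw [P3_symm23 hN hU hx j i k, P2_symm hN hU hx j k]
    ring
  simp only [h3, Finset.sum_add_distrib]
  congr 1
  unfold gg
  simp only [Finset.sum_mul]
  calc ∑ k, ∑ j, ∑ i, P2 U j k x * P3 U j k i x * P1 U i x
      = ∑ j, ∑ k, ∑ i, P2 U j k x * P3 U j k i x * P1 U i x := Finset.sum_comm
    _ = ∑ j, ∑ i, ∑ k, P2 U j k x * P3 U j k i x * P1 U i x :=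
        Finset.sum_congr rfl (fun j _ => Finset.sum_comm)
    _ = ∑ i, ∑ j, ∑ k, P2 U j k x * P3 U j k i x * P1 U i x := Finset.sum_comm

end

theorem fderiv_comp2 {U : E d → ℝ} {N : Set (E d)} (hN : IsOpen N) (hU : ContDiffOn ℝ ∞ U N)
    {D : Set (ℝ × ℝ)} {Φ Φ1 Φ2 Φ11 Φ12 Φ22 : ℝ × ℝ → ℝ} (hΦ : Jet2 D Φ Φ1 Φ2 Φ11 Φ12 Φ22)
    {δ : ℝ} {x : E d} (hx : x ∈ N) (hD : (SS δ U x, U x) ∈ D) (k : Fin d) :
    P1 (fun y => Φ (SS δ U y, U y)) k x
      = 2 * Φ1 (SS δ U x, U x) * gg U k x + Φ2 (SS δ U x, U x) * P1 U k x := by
  rw [P1_chain2 (hΦ.d0 _ hD) (diffAt_SS hN hU δ hx) (diffAt_of hN hU hx) k, P1_SS hN hU δ hx]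
  ring

theorem lap_comp2 {U : E d → ℝ} {N : Set (E d)} (hN : IsOpen N) (hU : ContDiffOn ℝ ∞ U N)
    (hlap : ∀ x ∈ N, lap U x = 0)
    {D : Set (ℝ × ℝ)} {Φ Φ1 Φ2 Φ11 Φ12 Φ22 : ℝ × ℝ → ℝ} (hΦ : Jet2 D Φ Φ1 Φ2 Φ11 Φ12 Φ22)
    {δ : ℝ} (hD : ∀ x ∈ N, (SS δ U x, U x) ∈ D) {x : E d} (hx : x ∈ N) :
    lap (fun y => Φ (SS δ U y, U y)) x
      = 2 * Φ1 (SS δ U x, U x) * TT U x
        + 4 * Φ11 (SS δ U x, U x) * (∑ k, gg U k x ^ 2)
        + 4 * Φ12 (SS δ U x, U x) * (∑ k, gg U k x * P1 U k x)
        + Φ22 (SS δ U x, U x) * vv U x := by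
  have hdS := diffAt_SS hN hU δ hx
  have hdU := diffAt_of hN hU hx
  have hdp : DifferentiableAt ℝ (fun y => (SS δ U y, U y)) x := hdS.prodMk hdU
  have hd1 : DifferentiableAt ℝ (fun y => Φ1 (SS δ U y, U y)) x :=
    DifferentiableAt.comp x (hΦ.d1 _ (hD x hx)).differentiableAt hdp
  have hd2 : DifferentiableAt ℝ (fun y => Φ2 (SS δ U y, U y)) x :=
    DifferentiableAt.comp x (hΦ.d2 _ (hD x hx)).differentiableAt hdp
  have h1 : ∀ k, P2 (fun y => Φ (SS δ U y, U y)) k k x
      = 4 * Φ11 (SS δ U x, U x) * gg U k x ^ 2
        + 4 * Φ12 (SS δ U x, U x) * (gg U k x * P1 U k x)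
        + Φ22 (SS δ U x, U x) * P1 U k x ^ 2
        + 2 * Φ1 (SS δ U x, U x) * P1 (gg U k) k x + Φ2 (SS δ U x, U x) * P2 U k k x := by
    intro k
    have h2 : P2 (fun y => Φ (SS δ U y, U y)) k k x
        = P1 (fun y => Φ1 (SS δ U y, U y) * gg U k y + (Φ1 (SS δ U y, U y) * gg U k y
          + Φ2 (SS δ U y, U y) * P1 U k y)) k x := by
      refine P1_congr_on hN (fun y hy => ?_) hx k
      rw [fderiv_comp2 hN hU hΦ hy (hD y hy) k]
      ring
    have hdg := diffAt_gg hN hU hx k
    have hdP := diffAt_P1 hN hU hx k
    have e1 : DifferentiableAt ℝ (fun y => Φ1 (SS δ U y, U y) * gg U k y) x := hd1.mul hdg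
    have e2 : DifferentiableAt ℝ (fun y => Φ2 (SS δ U y, U y) * P1 U k y) x := hd2.mul hdP
    have e3 : DifferentiableAt ℝ (fun y => Φ1 (SS δ U y, U y) * gg U k y
      + Φ2 (SS δ U y, U y) * P1 U k y) x := e1.add e2
    rw [h2, P1_add e1 e3, P1_add e1 e2, P1_mul hd1 hdg, P1_mul hd2 hdP,
      P1_chain2 (hΦ.d1 _ (hD x hx)) hdS hdU, P1_chain2 (hΦ.d2 _ (hD x hx)) hdS hdU,
      P1_SS hN hU δ hx]
    have h3 : P1 (P1 U k) k x = P2 U k k x := rfl
    rw [h3]
    ring
  unfold lap
  simp only [h1, Finset.sum_add_distrib, ← Finset.mul_sum]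
  rw [sum_P1_gg hN hU hlap hx]
  have h4 : ∑ k, P2 U k k x = 0 := hlap x hx
  rw [h4]
  unfold vv
  ring

section
variable {U : E d → ℝ} {N : Set (E d)} {D : Set (ℝ × ℝ × ℝ)} {ψ ψ1 ψ2 ψ3 : ℝ × ℝ × ℝ → ℝ}

theorem diffAt_psi (hN : IsOpen N) (hU : ContDiffOn ℝ ∞ U N)
    (hψ : Jet3 D ψ ψ1 ψ2 ψ3) {δ : ℝ} {x : E d} (hx : x ∈ N)
    (hD : (SS δ U x, U x, vv U x) ∈ D) :
    DifferentiableAt ℝ (fun y => ψ (SS δ U y, U y, vv U y)) x := by
  have h1 : DifferentiableAt ℝ ψ (SS δ U x, U x, vv U x) :=
    (hψ.smooth.contDiffAt (hψ.isOpen.mem_nhds hD)).differentiableAt (by (clear * -; norm_num))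
  have h2 : DifferentiableAt ℝ (fun y => (SS δ U y, U y, vv U y)) x :=
    (diffAt_SS hN hU δ hx).prodMk ((diffAt_of hN hU hx).prodMk (diffAt_vv hN hU hx))
  exact DifferentiableAt.comp x h1 h2

theorem P1_psi (hN : IsOpen N) (hU : ContDiffOn ℝ ∞ U N)
    (hψ : Jet3 D ψ ψ1 ψ2 ψ3) {δ : ℝ} {x : E d} (hx : x ∈ N)
    (hD : (SS δ U x, U x, vv U x) ∈ D) (k : Fin d) :
    P1 (fun y => ψ (SS δ U y, U y, vv U y)) k x
      = 2 * ψ1 (SS δ U x, U x, vv U x) * gg U k x + ψ2 (SS δ U x, U x, vv U x) * P1 U k x
        + 2 * ψ3 (SS δ U x, U x, vv U x) * Q1 U k x := by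
  have h1 : DifferentiableAt ℝ ψ (SS δ U x, U x, vv U x) :=
    (hψ.smooth.contDiffAt (hψ.isOpen.mem_nhds hD)).differentiableAt (by norm_num)
  rw [P1_chain3 h1 (hψ.d0 _ hD) (diffAt_SS hN hU δ hx) (diffAt_of hN hU hx)
    (diffAt_vv hN hU hx) k, P1_SS hN hU δ hx, P1_vv hN hU hx]
  ring

/-- General product formula. -/
theorem div_psi (hN : IsOpen N) (hU : ContDiffOn ℝ ∞ U N)
    (hψ : Jet3 D ψ ψ1 ψ2 ψ3) {δ : ℝ} {x : E d} (hx : x ∈ N)
    (hD : (SS δ U x, U x, vv U x) ∈ D) {G : Fin d → E d → ℝ}
    (hG : ∀ k, DifferentiableAt ℝ (G k) x) :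
    ∑ k, fderiv ℝ (fun y => ψ (SS δ U y, U y, vv U y) * G k y) x (ee k)
      = 2 * ψ1 (SS δ U x, U x, vv U x) * (∑ k, gg U k x * G k x)
        + ψ2 (SS δ U x, U x, vv U x) * (∑ k, P1 U k x * G k x)
        + 2 * ψ3 (SS δ U x, U x, vv U x) * (∑ k, Q1 U k x * G k x)
        + ψ (SS δ U x, U x, vv U x) * (∑ k, P1 (G k) k x) := by
  have h1 : ∀ k, fderiv ℝ (fun y => ψ (SS δ U y, U y, vv U y) * G k y) x (ee k)
      = 2 * ψ1 (SS δ U x, U x, vv U x) * (gg U k x * G k x)
        + ψ2 (SS δ U x, U x, vv U x) * (P1 U k x * G k x)
        + 2 * ψ3 (SS δ U x, U x, vv U x) * (Q1 U k x * G k x)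
        + ψ (SS δ U x, U x, vv U x) * P1 (G k) k x := by
    intro k
    have h2 : fderiv ℝ (fun y => ψ (SS δ U y, U y, vv U y) * G k y) x (ee k)
        = P1 (fun y => ψ (SS δ U y, U y, vv U y) * G k y) k x := rfl
    rw [h2, P1_mul (diffAt_psi hN hU hψ hx hD) (hG k), P1_psi hN hU hψ hx hD]
    ring
  simp only [h1, Finset.sum_add_distrib, ← Finset.mul_sum]

end

/-- divergence of `ψ(S,U,v) ∇U` -/
theorem div_comp0 {U : E d → ℝ} {N : Set (E d)} (hN : IsOpen N) (hU : ContDiffOn ℝ ∞ U N)
    (hlap : ∀ x ∈ N, lap U x = 0) {D : Set (ℝ × ℝ × ℝ)} {ψ ψ1 ψ2 ψ3 : ℝ × ℝ × ℝ → ℝ}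
    (hψ : Jet3 D ψ ψ1 ψ2 ψ3) {δ : ℝ} (hD : ∀ x ∈ N, (SS δ U x, U x, vv U x) ∈ D)
    {x : E d} (hx : x ∈ N) :
    ∑ k, fderiv ℝ (fun y => ψ (SS δ U y, U y, vv U y) * P1 U k y) x (ee k)
      = 2 * ψ1 (SS δ U x, U x, vv U x) * (∑ k, gg U k x * P1 U k x)
        + ψ2 (SS δ U x, U x, vv U x) * vv U x
        + 2 * ψ3 (SS δ U x, U x, vv U x) * (∑ k, Q1 U k x * P1 U k x) := by
  rw [div_psi hN hU hψ hx (hD x hx) (G := fun k => P1 U k) (fun k => diffAt_P1 hN hU hx k)]
  have h1 : ∑ k, P1 (P1 U k) k x = 0 := hlap x hx
  rw [h1]
  have h2 : ∑ k, P1 U k x * P1 U k x = vv U x := by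
    unfold vv
    exact Finset.sum_congr rfl (fun k _ => by ring)
  rw [h2]
  ring

/-- divergence of `ψ(S,U,v) D²U ∇U` -/
theorem div_comp1 {U : E d → ℝ} {N : Set (E d)} (hN : IsOpen N) (hU : ContDiffOn ℝ ∞ U N)
    (hlap : ∀ x ∈ N, lap U x = 0) {D : Set (ℝ × ℝ × ℝ)} {ψ ψ1 ψ2 ψ3 : ℝ × ℝ × ℝ → ℝ}
    (hψ : Jet3 D ψ ψ1 ψ2 ψ3) {δ : ℝ} (hD : ∀ x ∈ N, (SS δ U x, U x, vv U x) ∈ D)
    {x : E d} (hx : x ∈ N) :
    ∑ k, fderiv ℝ (fun y => ψ (SS δ U y, U y, vv U y) * Q1 U k y) x (ee k)
      = 2 * ψ1 (SS δ U x, U x, vv U x) * (∑ k, gg U k x * Q1 U k x)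
        + ψ2 (SS δ U x, U x, vv U x) * (∑ k, P1 U k x * Q1 U k x)
        + 2 * ψ3 (SS δ U x, U x, vv U x) * (∑ k, Q1 U k x ^ 2)
        + ψ (SS δ U x, U x, vv U x) * (∑ i, ∑ j, P2 U i j x ^ 2) := by
  rw [div_psi hN hU hψ hx (hD x hx) (G := fun k => Q1 U k) (fun k => diffAt_Q1 hN hU hx k),
    sum_P1_Q1 hN hU hlap hx]
  have h2 : ∑ k, Q1 U k x * Q1 U k x = ∑ k, Q1 U k x ^ 2 :=
    Finset.sum_congr rfl (fun k _ => by ring)
  rw [h2]

/-- divergence of `ψ(S,U,v) (D²U)² ∇U` -/
theorem div_comp2 {U : E d → ℝ} {N : Set (E d)} (hN : IsOpen N) (hU : ContDiffOn ℝ ∞ U N)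
    (hlap : ∀ x ∈ N, lap U x = 0) {D : Set (ℝ × ℝ × ℝ)} {ψ ψ1 ψ2 ψ3 : ℝ × ℝ × ℝ → ℝ}
    (hψ : Jet3 D ψ ψ1 ψ2 ψ3) {δ : ℝ} (hD : ∀ x ∈ N, (SS δ U x, U x, vv U x) ∈ D)
    {x : E d} (hx : x ∈ N) :
    ∑ k, fderiv ℝ (fun y => ψ (SS δ U y, U y, vv U y) * Q2 U k y) x (ee k)
      = 2 * ψ1 (SS δ U x, U x, vv U x) * (∑ k, gg U k x * Q2 U k x)
        + ψ2 (SS δ U x, U x, vv U x) * (∑ k, P1 U k x * Q2 U k x)
        + 2 * ψ3 (SS δ U x, U x, vv U x) * (∑ k, Q1 U k x * Q2 U k x)
        + ψ (SS δ U x, U x, vv U x) * ((∑ k, gg U k x * P1 U k x) + tr3 U x) := by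
  rw [div_psi hN hU hψ hx (hD x hx) (G := fun k => Q2 U k) (fun k => diffAt_Q2 hN hU hx k),
    sum_P1_Q2 hN hU hlap hx]

end Vale.Agent.P098
end

section

open MeasureTheory Set Metric Filter
open scoped ContDiff RealInnerProductSpace Topology

namespace Vale.Agent.P098

variable {d m : ℕ}

/-! ### Module F3: calculus -/

section

variable {U : E d → ℝ} {N : Set (E d)}

theorem f3_SS_pos {δ : ℝ} (hδ : 0 < δ) (U : E d → ℝ) (x : E d) : 0 < SS δ U x := by
  unfold SS
  positivity

theorem f3_FF_pos {δ : ℝ} (hδ : 0 < δ) (U : E d → ℝ) (x : E d) : 0 < FF δ U x :=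
  Real.sqrt_pos.2 (f3_SS_pos hδ U x)

theorem f3_cd_SS (hN : IsOpen N) (hU : ContDiffOn ℝ ∞ U N) (δ : ℝ) :
    ContDiffOn ℝ ∞ (SS δ U) N := by
  unfold SS
  exact (ContDiffOn.sum fun i _ => ContDiffOn.sum fun j _ =>
    (contDiffOn_P2 hN hU i j).pow 2).add contDiffOn_const

theorem f3_cd_FF (hN : IsOpen N) (hU : ContDiffOn ℝ ∞ U N) {δ : ℝ} (hδ : 0 < δ) :
    ContDiffOn ℝ ∞ (FF δ U) N :=
  (f3_cd_SS hN hU δ).sqrt fun x _ => (f3_SS_pos hδ U x).ne'

theorem f3_cd_rpow (hN : IsOpen N) (hU : ContDiffOn ℝ ∞ U N) {δ : ℝ} (hδ : 0 < δ) (β : ℝ) :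
    ContDiffOn ℝ ∞ (fun y => FF δ U y ^ β) N :=
  (f3_cd_FF hN hU hδ).rpow_const_of_ne fun x _ => (f3_FF_pos hδ U x).ne'

theorem f3_cd_vv (hN : IsOpen N) (hU : ContDiffOn ℝ ∞ U N) : ContDiffOn ℝ ∞ (vv U) N := by
  unfold vv
  exact ContDiffOn.sum fun i _ => (contDiffOn_P1 hN hU i).pow 2

theorem f3_cd_yy (hN : IsOpen N) (hU : ContDiffOn ℝ ∞ U N) {δ : ℝ} (hδ : 0 < δ)
    (h1 : ∀ x ∈ N, 0 < 1 + U x * FF δ U x) : ContDiffOn ℝ ∞ (yy δ U) N := by
  unfold yy
  exact contDiffOn_const.div (contDiffOn_const.add (hU.mul (f3_cd_FF hN hU hδ)))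
    fun x hx => (h1 x hx).ne'

theorem f3_cd_tau (hN : IsOpen N) (hU : ContDiffOn ℝ ∞ U N) {δ : ℝ} (hδ : 0 < δ) (j : ℕ) :
    ContDiffOn ℝ ∞ (fun y => tt U j y / FF δ U y ^ j) N :=
  (f3_cd_tt hN hU j).div ((f3_cd_FF hN hU hδ).pow j) fun x _ =>
    pow_ne_zero _ (f3_FF_pos hδ U x).ne'

theorem contDiffOn_lift (hN : IsOpen N) (hU : ContDiffOn ℝ ∞ U N)
    (f : SF) {δ β : ℝ} (hδ : 0 < δ) (h1 : ∀ x ∈ N, 0 < 1 + U x * FF δ U x) :
    ContDiffOn ℝ ∞ (fun y => FF δ U y ^ β * lift f.g δ U y) N := by
  refine (f3_cd_rpow hN hU hδ β).mul ?_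
  unfold lift
  exact f.smooth.comp_contDiffOn ((f3_cd_yy hN hU hδ h1).prodMk ((f3_cd_vv hN hU).prodMk
    ((f3_cd_tau hN hU hδ 3).prodMk (f3_cd_tau hN hU hδ 4))))

theorem contDiffOn_ZZ (hN : IsOpen N) (hU : ContDiffOn ℝ ∞ U N)
    (Φ : Fam) {α δ K : ℝ} (hδ : 0 < δ) (h1 : ∀ x ∈ N, 0 < 1 + U x * FF δ U x) :
    ContDiffOn ℝ ∞ (ZZ Φ α δ K U) N := by
  rw [contDiffOn_euclidean]
  intro k
  have e : (fun x => ZZ Φ α δ K U x k) = fun x =>
    (∑ j ∈ Finset.range Φ.na,
      FF δ U x ^ (2 * α - 2 - j) * lift (Φ.a j).g δ U x * GG U (j + 1) k x)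
    + (∑ q ∈ Finset.range Φ.ne,
      FF δ U x ^ (2 * α - 1 - Φ.ea q - Φ.ej q) * lift (Φ.e q).g δ U x
        * EE U (Φ.ea q) (Φ.ej q) k x)
    - (∑ j ∈ Finset.range Φ.nf,
      FF δ U x ^ (2 * α + 1 - j) * lift (Φ.f j).g δ U x * QQ U j k x)
    + K * P1 U k x := rfl
  rw [e]
  refine (((ContDiffOn.sum fun j _ => ?_).add (ContDiffOn.sum fun q _ => ?_)).sub
    (ContDiffOn.sum fun j _ => ?_)).add (contDiffOn_const.mul (contDiffOn_P1 hN hU k))
  · exact (contDiffOn_lift hN hU (Φ.a j) hδ h1).mul (f3_cd_GG hN hU (j + 1) k)
  · exact (contDiffOn_lift hN hU (Φ.e q) hδ h1).mul (f3_cd_EE hN hU (Φ.ea q) (Φ.ej q) k)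
  · exact (contDiffOn_lift hN hU (Φ.f j) hδ h1).mul (f3_cd_QQ hN hU j k)

/-! ### First derivatives -/

theorem f3_hasDerivAt_comp (f : SF) (q : ℝ × ℝ × ℝ × ℝ) {c : ℝ → ℝ × ℝ × ℝ × ℝ}
    {c' : ℝ × ℝ × ℝ × ℝ} {s : ℝ} (hc : HasDerivAt c c' s) (hq : c s = q) :
    HasDerivAt (fun r => f.g (c r).1 (c r).2.1 (c r).2.2.1 (c r).2.2.2)
      (fderiv ℝ (fun q : ℝ × ℝ × ℝ × ℝ => f.g q.1 q.2.1 q.2.2.1 q.2.2.2) q c') s := by
  have hd : DifferentiableAt ℝ (fun q : ℝ × ℝ × ℝ × ℝ => f.g q.1 q.2.1 q.2.2.1 q.2.2.2) q :=
    f.smooth.differentiable (by simp) q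
  exact hd.hasFDerivAt.comp_hasDerivAt_of_eq s hc hq.symm

theorem f3_fderiv_g (f : SF) (y v t i a b c e : ℝ) :
    fderiv ℝ (fun q : ℝ × ℝ × ℝ × ℝ => f.g q.1 q.2.1 q.2.2.1 q.2.2.2) (y, v, t, i) (a, b, c, e)
      = f.gy y v t i * a + f.gv y v t i * b + f.gt y v t i * c + f.gi y v t i * e := by
  have h1 : f.gy y v t i
      = fderiv ℝ (fun q : ℝ × ℝ × ℝ × ℝ => f.g q.1 q.2.1 q.2.2.1 q.2.2.2) (y, v, t, i)
        (1, 0, 0, 0) := by
    refine (f.hy y v t i).unique ?_
    exact f3_hasDerivAt_comp f (y, v, t, i) (c := fun s => (s, v, t, i))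
      ((hasDerivAt_id _).prodMk (hasDerivAt_const _ _)) rfl
  have h2 : f.gv y v t i
      = fderiv ℝ (fun q : ℝ × ℝ × ℝ × ℝ => f.g q.1 q.2.1 q.2.2.1 q.2.2.2) (y, v, t, i)
        (0, 1, 0, 0) := by
    refine (f.hv y v t i).unique ?_
    exact f3_hasDerivAt_comp f (y, v, t, i) (c := fun s => (y, s, t, i))
      ((hasDerivAt_const _ _).prodMk ((hasDerivAt_id _).prodMk (hasDerivAt_const _ _))) rfl
  have h3 : f.gt y v t i
      = fderiv ℝ (fun q : ℝ × ℝ × ℝ × ℝ => f.g q.1 q.2.1 q.2.2.1 q.2.2.2) (y, v, t, i)
        (0, 0, 1, 0) := by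
    refine (f.ht y v t i).unique ?_
    exact f3_hasDerivAt_comp f (y, v, t, i) (c := fun s => (y, v, s, i))
      ((hasDerivAt_const _ _).prodMk ((hasDerivAt_const _ _).prodMk
        ((hasDerivAt_id _).prodMk (hasDerivAt_const _ _)))) rfl
  have h4 : f.gi y v t i
      = fderiv ℝ (fun q : ℝ × ℝ × ℝ × ℝ => f.g q.1 q.2.1 q.2.2.1 q.2.2.2) (y, v, t, i)
        (0, 0, 0, 1) := by
    refine (f.hi y v t i).unique ?_
    exact f3_hasDerivAt_comp f (y, v, t, i) (c := fun s => (y, v, t, s))
      ((hasDerivAt_const _ _).prodMk ((hasDerivAt_const _ _).prodMk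
        ((hasDerivAt_const _ _).prodMk (hasDerivAt_id _)))) rfl
  have h5 : ((a, b, c, e) : ℝ × ℝ × ℝ × ℝ) = a • (1, 0, 0, 0) + b • (0, 1, 0, 0)
      + c • (0, 0, 1, 0) + e • (0, 0, 0, 1) := by
    simp
  rw [h5, map_add, map_add, map_add, map_smul, map_smul, map_smul, map_smul, ← h1, ← h2, ← h3,
    ← h4]
  simp only [smul_eq_mul]
  ring

theorem f3_P1_g (f : SF) {f1 f2 f3 f4 : E d → ℝ} {x : E d}
    (d1 : DifferentiableAt ℝ f1 x) (d2 : DifferentiableAt ℝ f2 x)
    (d3 : DifferentiableAt ℝ f3 x) (d4 : DifferentiableAt ℝ f4 x) (k : Fin d) :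
    P1 (fun y => f.g (f1 y) (f2 y) (f3 y) (f4 y)) k x
      = f.gy (f1 x) (f2 x) (f3 x) (f4 x) * P1 f1 k x
        + f.gv (f1 x) (f2 x) (f3 x) (f4 x) * P1 f2 k x
        + f.gt (f1 x) (f2 x) (f3 x) (f4 x) * P1 f3 k x
        + f.gi (f1 x) (f2 x) (f3 x) (f4 x) * P1 f4 k x := by
  have hd : DifferentiableAt ℝ (fun q : ℝ × ℝ × ℝ × ℝ => f.g q.1 q.2.1 q.2.2.1 q.2.2.2)
      (f1 x, f2 x, f3 x, f4 x) := f.smooth.differentiable (by simp) _
  have h1 : HasFDerivAt (fun y => (f1 y, f2 y, f3 y, f4 y))
      ((fderiv ℝ f1 x).prod ((fderiv ℝ f2 x).prod ((fderiv ℝ f3 x).prod (fderiv ℝ f4 x)))) x :=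
    d1.hasFDerivAt.prodMk (d2.hasFDerivAt.prodMk (d3.hasFDerivAt.prodMk d4.hasFDerivAt))
  have h2 := HasFDerivAt.comp x hd.hasFDerivAt h1
  have h3 : ((fun q : ℝ × ℝ × ℝ × ℝ => f.g q.1 q.2.1 q.2.2.1 q.2.2.2) ∘
      fun y => (f1 y, f2 y, f3 y, f4 y)) = fun y => f.g (f1 y) (f2 y) (f3 y) (f4 y) := rfl
  rw [h3] at h2
  unfold P1
  rw [h2.fderiv]
  exact f3_fderiv_g f _ _ _ _ _ _ _ _

theorem f3_gg_eq (U : E d → ℝ) (k : Fin d) (x : E d) : gg U k x = GG U 1 k x := by
  unfold gg GG
  simp only [pow_one]
  rfl

theorem f3_Q1_eq (U : E d → ℝ) (k : Fin d) (x : E d) : Q1 U k x = QQ U 1 k x := by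
  unfold Q1 QQ
  simp only [pow_one]
  rfl

theorem f3_P1_FF (hN : IsOpen N) (hU : ContDiffOn ℝ ∞ U N) {δ : ℝ} (hδ : 0 < δ) {x : E d}
    (hx : x ∈ N) (k : Fin d) : P1 (FF δ U) k x = GG U 1 k x / FF δ U x := by
  have h1 : HasFDerivAt (SS δ U) (fderiv ℝ (SS δ U) x) x := (diffAt_SS hN hU δ hx).hasFDerivAt
  have h2 : HasFDerivAt (FF δ U) ((1 / (2 * √(SS δ U x))) • fderiv ℝ (SS δ U) x) x :=
    h1.sqrt (f3_SS_pos hδ U x).ne'
  have h3 : fderiv ℝ (SS δ U) x (ee k) = 2 * GG U 1 k x := by
    have := P1_SS hN hU δ hx k
    rw [f3_gg_eq] at this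
    exact this
  unfold P1
  rw [h2.fderiv]
  have h4 : √(SS δ U x) = FF δ U x := rfl
  have hF := f3_FF_pos hδ U x
  rw [smul_apply, smul_eq_mul, h3, h4]
  (clear * - hF; field_simp)

theorem f3_P1_rpow (hN : IsOpen N) (hU : ContDiffOn ℝ ∞ U N) {δ : ℝ} (hδ : 0 < δ) {x : E d}
    (hx : x ∈ N) (β : ℝ) (k : Fin d) :
    P1 (fun y => FF δ U y ^ β) k x = β * FF δ U x ^ β / FF δ U x ^ 2 * GG U 1 k x := by
  have hF := f3_FF_pos hδ U x
  have h1 : HasFDerivAt (FF δ U) (fderiv ℝ (FF δ U) x) x :=
    (diffAt_of hN (f3_cd_FF hN hU hδ) hx).hasFDerivAt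
  have h2 := h1.rpow_const (p := β) (Or.inl hF.ne')
  have h3 : fderiv ℝ (FF δ U) x (ee k) = GG U 1 k x / FF δ U x := f3_P1_FF hN hU hδ hx k
  unfold P1
  rw [h2.fderiv]
  rw [smul_apply, smul_eq_mul, h3]
  rw [Real.rpow_sub_one hF.ne']
  (clear * - hF; field_simp)

theorem f3_P1_tau (hN : IsOpen N) (hU : ContDiffOn ℝ ∞ U N) {δ : ℝ} (hδ : 0 < δ) {x : E d}
    (hx : x ∈ N) (j : ℕ) (k : Fin d) :
    P1 (fun y => tt U (j + 1) y / FF δ U y ^ (j + 1)) k x
      = (j + 1) * GG U j k x / FF δ U x ^ (j + 1)
        - (j + 1) * (tt U (j + 1) x / FF δ U x ^ (j + 1)) * GG U 1 k x / FF δ U x ^ 2 := by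
  have hF := f3_FF_pos hδ U x
  have dF := diffAt_of hN (f3_cd_FF hN hU hδ) hx
  have h1 : HasFDerivAt (tt U (j + 1)) (fderiv ℝ (tt U (j + 1)) x) x :=
    (diffAt_of hN (f3_cd_tt hN hU (j + 1)) hx).hasFDerivAt
  have hp : P1 (fun y => FF δ U y ^ (j + 1)) k x = (j + 1) * FF δ U x ^ j * (GG U 1 k x / FF δ U x) := by
    have h2 := dF.hasFDerivAt.pow (j + 1)
    unfold P1
    rw [h2.fderiv]
    have h3 : fderiv ℝ (FF δ U) x (ee k) = GG U 1 k x / FF δ U x := f3_P1_FF hN hU hδ hx k
    simp only [add_tsub_cancel_right, nsmul_eq_mul, Nat.cast_add, Nat.cast_one, smul_apply, h3, smul_eq_mul]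
  have ht : P1 (tt U (j + 1)) k x = (j + 1) * GG U j k x := by
    rw [f3_P1_tt hN hU hx]
    push_cast
    rfl
  have dt := diffAt_of hN (f3_cd_tau hN hU hδ (j + 1)) hx
  have dpow : DifferentiableAt ℝ (fun y => FF δ U y ^ (j + 1)) x := dF.pow (j + 1)
  -- tt = (tt / F^(j+1)) * F^(j+1)
  have e : P1 (tt U (j + 1)) k x = P1 (fun y => (tt U (j + 1) y / FF δ U y ^ (j + 1)) *
      FF δ U y ^ (j + 1)) k x := by
    congr 1
    funext y
    have := f3_FF_pos hδ U y
    (clear * - this; field_simp)
  rw [P1_mul dt dpow, ht, hp] at e
  have hFj : FF δ U x ^ (j + 1) ≠ 0 := pow_ne_zero _ hF.ne'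
  have e2 : P1 (fun y => tt U (j + 1) y / FF δ U y ^ (j + 1)) k x
      = ((j + 1) * GG U j k x - tt U (j + 1) x / FF δ U x ^ (j + 1) *
        ((j + 1) * FF δ U x ^ j * (GG U 1 k x / FF δ U x))) / FF δ U x ^ (j + 1) := by
    rw [eq_div_iff hFj]
    linarith
  rw [e2]
  field_simp
  ring

theorem f3_P1_yy (hN : IsOpen N) (hU : ContDiffOn ℝ ∞ U N) {δ : ℝ} (hδ : 0 < δ) {x : E d}
    (hx : x ∈ N) (h1 : 0 < 1 + U x * FF δ U x) (k : Fin d) :
    P1 (yy δ U) k x = -(yy δ U x ^ 2) * (FF δ U x * P1 U k x + U x * (GG U 1 k x / FF δ U x)) := by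
  have hF := f3_FF_pos hδ U x
  have dF := diffAt_of hN (f3_cd_FF hN hU hδ) hx
  have dU := diffAt_of hN hU hx
  have dUF : DifferentiableAt ℝ (fun y => U y * FF δ U y) x := dU.mul dF
  have dz : DifferentiableAt ℝ (fun y => 1 + U y * FF δ U y) x := (differentiableAt_const _).add dUF
  have hz : P1 (fun y => 1 + U y * FF δ U y) k x
      = U x * (GG U 1 k x / FF δ U x) + FF δ U x * P1 U k x := by
    rw [P1_add (differentiableAt_const _) dUF, P1_const, P1_mul dU dF, f3_P1_FF hN hU hδ hx,
      zero_add]
  have h2 := (hasDerivAt_inv h1.ne').comp_hasFDerivAt x dz.hasFDerivAt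
  have h3 : yy δ U = (Inv.inv ∘ fun y => 1 + U y * FF δ U y) := by
    funext y
    unfold yy
    rw [one_div]
    rfl
  have h4 : P1 (yy δ U) k x = -((1 + U x * FF δ U x) ^ 2)⁻¹ * P1 (fun y => 1 + U y * FF δ U y) k x := by
    rw [h3]
    unfold P1
    rw [h2.fderiv]
    simp
  rw [h4, hz]
  unfold yy
  rw [one_div, inv_pow]
  ring

theorem P1_lift (hN : IsOpen N) (hU : ContDiffOn ℝ ∞ U N)
    (f : SF) {δ β : ℝ} (hδ : 0 < δ) {x : E d} (hx : x ∈ N) (h1 : 0 < 1 + U x * FF δ U x)
    (k : Fin d) :
    P1 (fun y => FF δ U y ^ β * lift f.g δ U y) k x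
      = FF δ U x ^ (β - 2) * (β * lift f.g δ U x + lift f.zd δ U x) * GG U 1 k x
        + FF δ U x ^ (β + 1) * lift f.gz δ U x * P1 U k x
        + 2 * FF δ U x ^ β * lift f.gv δ U x * QQ U 1 k x
        + 3 * FF δ U x ^ (β - 3) * lift f.gt δ U x * GG U 2 k x
        + 4 * FF δ U x ^ (β - 4) * lift f.gi δ U x * GG U 3 k x := by
  have hF := f3_FF_pos hδ U x
  have dR := diffAt_of hN (f3_cd_rpow hN hU hδ β) hx
  have dF := diffAt_of hN (f3_cd_FF hN hU hδ) hx
  have dU := diffAt_of hN hU hx
  have dv := diffAt_of hN (f3_cd_vv hN hU) hx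
  have d3 := diffAt_of hN (f3_cd_tau hN hU hδ 3) hx
  have d4 := diffAt_of hN (f3_cd_tau hN hU hδ 4) hx
  have dy : DifferentiableAt ℝ (yy δ U) x := by
    have dz : DifferentiableAt ℝ (fun y => 1 + U y * FF δ U y) x :=
      (differentiableAt_const _).add (dU.mul dF)
    have h2 := ((hasDerivAt_inv h1.ne').comp_hasFDerivAt x dz.hasFDerivAt).differentiableAt
    have h3 : yy δ U = (Inv.inv ∘ fun y => 1 + U y * FF δ U y) := by
      funext y
      unfold yy
      rw [one_div]
      rfl
    rw [h3]
    exact h2
  have dL : DifferentiableAt ℝ (lift f.g δ U) x := by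
    have hd : DifferentiableAt ℝ (fun q : ℝ × ℝ × ℝ × ℝ => f.g q.1 q.2.1 q.2.2.1 q.2.2.2)
      (yy δ U x, vv U x, tt U 3 x / FF δ U x ^ 3, tt U 4 x / FF δ U x ^ 4) :=
        f.smooth.differentiable (by simp) _
    exact hd.comp (f := fun y => (yy δ U y, vv U y, tt U 3 y / FF δ U y ^ 3,
      tt U 4 y / FF δ U y ^ 4)) x (dy.prodMk (dv.prodMk (d3.prodMk d4)))
  rw [P1_mul dR dL, f3_P1_rpow hN hU hδ hx]
  have e1 : P1 (lift f.g δ U) k x
      = lift f.gy δ U x * P1 (yy δ U) k x + lift f.gv δ U x * P1 (vv U) k x
        + lift f.gt δ U x * P1 (fun y => tt U 3 y / FF δ U y ^ 3) k x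
        + lift f.gi δ U x * P1 (fun y => tt U 4 y / FF δ U y ^ 4) k x :=
    f3_P1_g f dy dv d3 d4 k
  have e3 := f3_P1_tau hN hU hδ hx 2 k
  have e4 := f3_P1_tau hN hU hδ hx 3 k
  norm_num at e3 e4
  rw [e1, e3, e4, f3_P1_yy hN hU hδ hx h1, P1_vv hN hU hx, f3_Q1_eq]
  have r1 : FF δ U x ^ (β - 2) = FF δ U x ^ β / FF δ U x ^ 2 := by
    rw [Real.rpow_sub hF]; norm_num
  have r2 : FF δ U x ^ (β + 1) = FF δ U x ^ β * FF δ U x := Real.rpow_add_one hF.ne' _
  have r3 : FF δ U x ^ (β - 3) = FF δ U x ^ β / FF δ U x ^ 3 := by
    rw [Real.rpow_sub hF]; norm_num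
  have r4 : FF δ U x ^ (β - 4) = FF δ U x ^ β / FF δ U x ^ 4 := by
    rw [Real.rpow_sub hF]; norm_num
  rw [r1, r2, r3, r4]
  have z1 : lift f.zd δ U x = -(yy δ U x * (1 - yy δ U x)) * lift f.gy δ U x
      - 3 * (tt U 3 x / FF δ U x ^ 3) * lift f.gt δ U x
      - 4 * (tt U 4 x / FF δ U x ^ 4) * lift f.gi δ U x := rfl
  have z2 : lift f.gz δ U x = -(yy δ U x ^ 2) * lift f.gy δ U x := rfl
  rw [z1, z2]
  have z3 : yy δ U x * (1 - yy δ U x) = yy δ U x ^ 2 * (U x * FF δ U x) := by
    unfold yy
    field_simp
    ring
  rw [z3]
  generalize lift f.g δ U x = G0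
  generalize lift f.gy δ U x = Gy
  generalize lift f.gv δ U x = Gv
  generalize lift f.gt δ U x = Gt
  generalize lift f.gi δ U x = Gi
  generalize yy δ U x = Y
  generalize FF δ U x ^ β = R
  generalize tt U 3 x / FF δ U x ^ 3 = τ
  generalize tt U 4 x / FF δ U x ^ 4 = ι
  generalize FF δ U x = F at *
  field_simp
  ring

/-- The product rule for the divergence. -/
theorem f3_div_lift (hN : IsOpen N) (hU : ContDiffOn ℝ ∞ U N)
    (f : SF) {δ β : ℝ} (hδ : 0 < δ) (h1 : ∀ x ∈ N, 0 < 1 + U x * FF δ U x) {x : E d} (hx : x ∈ N)
    {G : Fin d → E d → ℝ} (hG : ∀ k, DifferentiableAt ℝ (G k) x) :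
    ∑ k, P1 (fun y => FF δ U y ^ β * lift f.g δ U y * G k y) k x
      = FF δ U x ^ (β - 2) * (β * lift f.g δ U x + lift f.zd δ U x)
            * (∑ k, GG U 1 k x * G k x)
        + FF δ U x ^ (β + 1) * lift f.gz δ U x * (∑ k, P1 U k x * G k x)
        + 2 * FF δ U x ^ β * lift f.gv δ U x * (∑ k, QQ U 1 k x * G k x)
        + 3 * FF δ U x ^ (β - 3) * lift f.gt δ U x * (∑ k, GG U 2 k x * G k x)
        + 4 * FF δ U x ^ (β - 4) * lift f.gi δ U x * (∑ k, GG U 3 k x * G k x)
        + FF δ U x ^ β * lift f.g δ U x * (∑ k, P1 (G k) k x) := by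
  have dL := diffAt_of hN (contDiffOn_lift hN hU f (β := β) hδ h1) hx
  have h2 : ∀ k, P1 (fun y => FF δ U y ^ β * lift f.g δ U y * G k y) k x
      = FF δ U x ^ (β - 2) * (β * lift f.g δ U x + lift f.zd δ U x) * (GG U 1 k x * G k x)
        + FF δ U x ^ (β + 1) * lift f.gz δ U x * (P1 U k x * G k x)
        + 2 * FF δ U x ^ β * lift f.gv δ U x * (QQ U 1 k x * G k x)
        + 3 * FF δ U x ^ (β - 3) * lift f.gt δ U x * (GG U 2 k x * G k x)
        + 4 * FF δ U x ^ (β - 4) * lift f.gi δ U x * (GG U 3 k x * G k x)
        + FF δ U x ^ β * lift f.g δ U x * P1 (G k) k x := by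
    intro k
    rw [P1_mul dL (hG k), P1_lift hN hU f hδ hx (h1 x hx)]
    ring
  simp only [h2, Finset.sum_add_distrib, ← Finset.mul_sum]

/-- divergence of one term `F^β g E_{a,j}` -/
theorem div_lift_EE (hN : IsOpen N) (hU : ContDiffOn ℝ ∞ U N)
    (hlap : ∀ x ∈ N, lap U x = 0)
    (f : SF) {δ β : ℝ} (hδ : 0 < δ) (h1 : ∀ x ∈ N, 0 < 1 + U x * FF δ U x) {x : E d} (hx : x ∈ N)
    {a j : ℕ} (ha : 1 ≤ a) (hj : 1 ≤ j) :
    ∑ k, P1 (fun y => FF δ U y ^ β * lift f.g δ U y * EE U a j k y) k x
      = FF δ U x ^ (β - 2) * (β * lift f.g δ U x + lift f.zd δ U x)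
            * (∑ k, GG U 1 k x * EE U a j k x)
        + FF δ U x ^ (β + 1) * lift f.gz δ U x * (∑ k, P1 U k x * EE U a j k x)
        + 2 * FF δ U x ^ β * lift f.gv δ U x * (∑ k, QQ U 1 k x * EE U a j k x)
        + 3 * FF δ U x ^ (β - 3) * lift f.gt δ U x * (∑ k, GG U 2 k x * EE U a j k x)
        + 4 * FF δ U x ^ (β - 4) * lift f.gi δ U x * (∑ k, GG U 3 k x * EE U a j k x)
        + FF δ U x ^ β * lift f.g δ U x *
          ((∑ b ∈ Finset.range (a - 1), ∑ l, GG U (b + 1) l x * MG U (a - 2 - b) j l x)
          - (∑ b ∈ Finset.range (j - 1), ∑ l, GG U (b + 1) l x * MG U (j - 2 - b) a l x)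
          + DT U a j x - DT U j a x) := by
  rw [f3_div_lift hN hU f hδ h1 hx (G := fun k => EE U a j k)
    (fun k => diffAt_of hN (f3_cd_EE hN hU a j k) hx), sum_P1_EE hN hU hlap hx ha hj]

/-- divergence of one term `F^β g (D²U)^j : D³U` -/
theorem div_lift_GG (hN : IsOpen N) (hU : ContDiffOn ℝ ∞ U N)
    (hlap : ∀ x ∈ N, lap U x = 0)
    (f : SF) {δ β : ℝ} (hδ : 0 < δ) (h1 : ∀ x ∈ N, 0 < 1 + U x * FF δ U x) {x : E d} (hx : x ∈ N)
    {j : ℕ} (hj : 1 ≤ j) :
    ∑ k, P1 (fun y => FF δ U y ^ β * lift f.g δ U y * GG U j k y) k x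
      = FF δ U x ^ (β - 2) * (β * lift f.g δ U x + lift f.zd δ U x)
            * (∑ k, GG U 1 k x * GG U j k x)
        + FF δ U x ^ (β + 1) * lift f.gz δ U x * (∑ k, GG U j k x * P1 U k x)
        + 2 * FF δ U x ^ β * lift f.gv δ U x * (∑ k, GG U j k x * QQ U 1 k x)
        + 3 * FF δ U x ^ (β - 3) * lift f.gt δ U x * (∑ k, GG U 2 k x * GG U j k x)
        + 4 * FF δ U x ^ (β - 4) * lift f.gi δ U x * (∑ k, GG U 3 k x * GG U j k x)
        + FF δ U x ^ β * lift f.g δ U x * DG U j x := by
  rw [f3_div_lift hN hU f hδ h1 hx (G := fun k => GG U j k)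
    (fun k => diffAt_of hN (f3_cd_GG hN hU j k) hx), sum_P1_GG hN hU hlap hx hj]
  have e1 : ∑ k, P1 U k x * GG U j k x = ∑ k, GG U j k x * P1 U k x :=
    Finset.sum_congr rfl fun k _ => mul_comm _ _
  have e2 : ∑ k, QQ U 1 k x * GG U j k x = ∑ k, GG U j k x * QQ U 1 k x :=
    Finset.sum_congr rfl fun k _ => mul_comm _ _
  rw [e1, e2]

/-- divergence of one term `F^β g (D²U)^j ∇U` -/
theorem div_lift_QQ (hN : IsOpen N) (hU : ContDiffOn ℝ ∞ U N)
    (hlap : ∀ x ∈ N, lap U x = 0)
    (f : SF) {δ β : ℝ} (hδ : 0 < δ) (h1 : ∀ x ∈ N, 0 < 1 + U x * FF δ U x) {x : E d} (hx : x ∈ N)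
    (j : ℕ) :
    ∑ k, P1 (fun y => FF δ U y ^ β * lift f.g δ U y * QQ U j k y) k x
      = FF δ U x ^ (β - 2) * (β * lift f.g δ U x + lift f.zd δ U x)
            * (∑ k, GG U 1 k x * QQ U j k x)
        + FF δ U x ^ (β + 1) * lift f.gz δ U x * (∑ k, P1 U k x * QQ U j k x)
        + 2 * FF δ U x ^ β * lift f.gv δ U x * (∑ k, QQ U 1 k x * QQ U j k x)
        + 3 * FF δ U x ^ (β - 3) * lift f.gt δ U x * (∑ k, GG U 2 k x * QQ U j k x)
        + 4 * FF δ U x ^ (β - 4) * lift f.gi δ U x * (∑ k, GG U 3 k x * QQ U j k x)
        + FF δ U x ^ β * lift f.g δ U x * ((∑ a ∈ Finset.range (j - 1), ∑ k,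
            GG U (a + 1) k x * QQ U (j - 2 - a) k x) + tt U (j + 1) x) := by
  rw [f3_div_lift hN hU f hδ h1 hx (G := fun k => QQ U j k)
    (fun k => diffAt_of hN (f3_cd_QQ hN hU j k) hx), sum_P1_QQ hN hU hlap hx j]

end

end Vale.Agent.P098
end

section

open MeasureTheory Set Metric Filter
open scoped ContDiff RealInnerProductSpace Topology

namespace Vale.Agent.P098

variable {d m : ℕ}

theorem m3_inner_gradient (U : E d → ℝ) (x v : E d) : ⟪gradient U x, v⟫ = fderiv ℝ U x v := by
  unfold gradient
  rw [InnerProductSpace.toDual_symm_apply]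

theorem m3_gradient_apply (U : E d → ℝ) (x : E d) (i : Fin d) : gradient U x i = P1 U i x := by
  have h := m3_inner_gradient U x (ee i)
  rw [EuclideanSpace.inner_single_right] at h
  simpa only [P1, Real.ringHom_apply, one_mul] using h

theorem m3_norm_gradient_sq (U : E d → ℝ) (x : E d) :
    ‖gradient U x‖ ^ 2 = ∑ i, P1 U i x ^ 2 := by
  rw [EuclideanSpace.norm_sq_eq]
  refine Finset.sum_congr rfl fun i _ => ?_
  rw [m3_gradient_apply]
  simp

theorem m3_inner (v x : E d) : ⟪v, x⟫ = ∑ k, v k * x k := by
  rw [PiLp.inner_apply]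
  refine Finset.sum_congr rfl fun k _ => ?_
  simp [mul_comm]

theorem m3_divg_eq {Z : E d → E d} {x : E d} (hZ : DifferentiableAt ℝ Z x) :
    divg Z x = ∑ k, P1 (fun y => Z y k) k x := by
  unfold divg P1
  refine Finset.sum_congr rfl fun k _ => ?_
  have h1 : HasFDerivAt (fun y => Z y k)
      ((EuclideanSpace.proj k : E d →L[ℝ] ℝ).comp (fderiv ℝ Z x)) x := by
    have h2 := (EuclideanSpace.proj k : E d →L[ℝ] ℝ).hasFDerivAt.comp x hZ.hasFDerivAt
    exact h2
  rw [h1.fderiv]
  simp

theorem m3_diff_MMpow {U : E d → ℝ} {N : Set (E d)} (hN : IsOpen N) (hU : ContDiffOn ℝ ∞ U N)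
    {x : E d} (hx : x ∈ N) (j : ℕ) (i l : Fin d) :
    DifferentiableAt ℝ (fun y => (MM U y ^ j) i l) x := by
  induction j generalizing i l with
  | zero => simp only [pow_zero]; exact differentiableAt_const _
  | succ n ih =>
    have h : (fun y => (MM U y ^ (n + 1)) i l) = fun y => ∑ q, (MM U y ^ n) i q * P2 U q l y := by
      funext y
      rw [pow_succ, Matrix.mul_apply]
      rfl
    rw [h]
    exact DifferentiableAt.fun_sum fun q _ => (ih i q).mul (diffAt_P2 hN hU hx q l)

theorem m3_diff_GG {U : E d → ℝ} {N : Set (E d)} (hN : IsOpen N) (hU : ContDiffOn ℝ ∞ U N)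
    {x : E d} (hx : x ∈ N) (j : ℕ) (k : Fin d) : DifferentiableAt ℝ (GG U j k) x := by
  unfold GG
  exact DifferentiableAt.fun_sum fun i _ => DifferentiableAt.fun_sum fun l _ =>
    (m3_diff_MMpow hN hU hx j i l).mul (diffAt_P3 hN hU hx i l k)

theorem m3_diff_QQ {U : E d → ℝ} {N : Set (E d)} (hN : IsOpen N) (hU : ContDiffOn ℝ ∞ U N)
    {x : E d} (hx : x ∈ N) (j : ℕ) (k : Fin d) : DifferentiableAt ℝ (QQ U j k) x := by
  unfold QQ
  exact DifferentiableAt.fun_sum fun i _ =>
    (m3_diff_MMpow hN hU hx j k i).mul (diffAt_P1 hN hU hx i)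

theorem m3_diff_MG {U : E d → ℝ} {N : Set (E d)} (hN : IsOpen N) (hU : ContDiffOn ℝ ∞ U N)
    {x : E d} (hx : x ∈ N) (a j : ℕ) (k : Fin d) : DifferentiableAt ℝ (MG U a j k) x := by
  unfold MG
  exact DifferentiableAt.fun_sum fun i _ =>
    (m3_diff_MMpow hN hU hx a k i).mul (m3_diff_GG hN hU hx j i)

theorem m3_diff_EE {U : E d → ℝ} {N : Set (E d)} (hN : IsOpen N) (hU : ContDiffOn ℝ ∞ U N)
    {x : E d} (hx : x ∈ N) (a j : ℕ) (k : Fin d) : DifferentiableAt ℝ (EE U a j k) x := by
  unfold EE
  exact (m3_diff_MG hN hU hx a j k).sub (m3_diff_MG hN hU hx j a k)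

theorem m3_P1_const_mul {f : E d → ℝ} {x : E d} (hf : DifferentiableAt ℝ f x) (c : ℝ)
    (k : Fin d) : P1 (fun y => c * f y) k x = c * P1 f k x := by
  unfold P1
  rw [fderiv_const_mul hf]
  simp

theorem m3_P1_sub {f g : E d → ℝ} {x : E d} (hf : DifferentiableAt ℝ f x)
    (hg : DifferentiableAt ℝ g x) (k : Fin d) :
    P1 (fun y => f y - g y) k x = P1 f k x - P1 g k x := by
  unfold P1
  rw [fderiv_fun_sub hf hg]
  simp only [sub_apply]

theorem m3_divg_ZZ {U : E d → ℝ} {N : Set (E d)} (hN : IsOpen N) (hU : ContDiffOn ℝ ∞ U N)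
    (hlap : ∀ x ∈ N, lap U x = 0) (Φ : Fam) {α δ K : ℝ} (hδ : 0 < δ)
    (h1 : ∀ x ∈ N, 0 < 1 + U x * FF δ U x) {x : E d} (hx : x ∈ N) :
    divg (ZZ Φ α δ K U) x =
      (∑ j ∈ Finset.range Φ.na, ∑ k, P1 (fun y => FF δ U y ^ (2 * α - 2 - j)
          * lift (Φ.a j).g δ U y * GG U (j + 1) k y) k x)
      + (∑ q ∈ Finset.range Φ.ne, ∑ k, P1 (fun y => FF δ U y ^ (2 * α - 1 - Φ.ea q - Φ.ej q)
          * lift (Φ.e q).g δ U y * EE U (Φ.ea q) (Φ.ej q) k y) k x)
      - ∑ j ∈ Finset.range Φ.nf, ∑ k, P1 (fun y => FF δ U y ^ (2 * α + 1 - j)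
          * lift (Φ.f j).g δ U y * QQ U j k y) k x := by
  have hZ : DifferentiableAt ℝ (ZZ Φ α δ K U) x :=
    ((contDiffOn_ZZ hN hU Φ hδ h1).contDiffAt (hN.mem_nhds hx)).differentiableAt (by norm_num)
  rw [m3_divg_eq hZ]
  have hdL : ∀ (f : SF) (β : ℝ), DifferentiableAt ℝ (fun y => FF δ U y ^ β * lift f.g δ U y) x :=
    fun f β => ((contDiffOn_lift hN hU f hδ h1).contDiffAt (hN.mem_nhds hx)).differentiableAt
      (by norm_num)
  have e : ∀ k, P1 (fun y => ZZ Φ α δ K U y k) k x =
      (∑ j ∈ Finset.range Φ.na, P1 (fun y => FF δ U y ^ (2 * α - 2 - j)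
          * lift (Φ.a j).g δ U y * GG U (j + 1) k y) k x)
      + (∑ q ∈ Finset.range Φ.ne, P1 (fun y => FF δ U y ^ (2 * α - 1 - Φ.ea q - Φ.ej q)
          * lift (Φ.e q).g δ U y * EE U (Φ.ea q) (Φ.ej q) k y) k x)
      - (∑ j ∈ Finset.range Φ.nf, P1 (fun y => FF δ U y ^ (2 * α + 1 - j)
          * lift (Φ.f j).g δ U y * QQ U j k y) k x) + K * P2 U k k x := by
    intro k
    have e1 : (fun y => ZZ Φ α δ K U y k) = fun y =>
        ((∑ j ∈ Finset.range Φ.na,
          FF δ U y ^ (2 * α - 2 - j) * lift (Φ.a j).g δ U y * GG U (j + 1) k y)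
        + (∑ q ∈ Finset.range Φ.ne, FF δ U y ^ (2 * α - 1 - Φ.ea q - Φ.ej q)
          * lift (Φ.e q).g δ U y * EE U (Φ.ea q) (Φ.ej q) k y)
        - (∑ j ∈ Finset.range Φ.nf,
          FF δ U y ^ (2 * α + 1 - j) * lift (Φ.f j).g δ U y * QQ U j k y))
        + K * P1 U k y := rfl
    have d1 : ∀ j ∈ Finset.range Φ.na, DifferentiableAt ℝ (fun y => FF δ U y ^ (2 * α - 2 - j)
        * lift (Φ.a j).g δ U y * GG U (j + 1) k y) x := fun j _ =>
      (hdL (Φ.a j) _).mul (m3_diff_GG hN hU hx (j + 1) k)
    have d4 : ∀ q ∈ Finset.range Φ.ne, DifferentiableAt ℝ (fun y =>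
        FF δ U y ^ (2 * α - 1 - Φ.ea q - Φ.ej q)
          * lift (Φ.e q).g δ U y * EE U (Φ.ea q) (Φ.ej q) k y) x := fun q _ =>
      (hdL (Φ.e q) _).mul (m3_diff_EE hN hU hx (Φ.ea q) (Φ.ej q) k)
    have d2 : ∀ j ∈ Finset.range Φ.nf, DifferentiableAt ℝ (fun y => FF δ U y ^ (2 * α + 1 - j)
        * lift (Φ.f j).g δ U y * QQ U j k y) x := fun j _ =>
      (hdL (Φ.f j) _).mul (m3_diff_QQ hN hU hx j k)
    have d3 : DifferentiableAt ℝ (P1 U k) x := diffAt_P1 hN hU hx k
    have d5 := (DifferentiableAt.fun_sum d1).fun_add (DifferentiableAt.fun_sum d4)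
    rw [e1, P1_add (d5.fun_sub (DifferentiableAt.fun_sum d2))
      (d3.const_mul K), m3_P1_sub d5 (DifferentiableAt.fun_sum d2),
      P1_add (DifferentiableAt.fun_sum d1) (DifferentiableAt.fun_sum d4),
      P1_sum _ d1, P1_sum _ d2, P1_sum _ d4, m3_P1_const_mul d3]
    rfl
  rw [Finset.sum_congr rfl fun k _ => e k, Finset.sum_add_distrib, Finset.sum_sub_distrib,
    Finset.sum_add_distrib, ← Finset.mul_sum]
  have hl : ∑ k, P2 U k k x = 0 := hlap x hx
  rw [hl, mul_zero, add_zero, Finset.sum_comm (s := Finset.univ) (t := Finset.range Φ.na),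
    Finset.sum_comm (s := Finset.univ) (t := Finset.range Φ.nf),
    Finset.sum_comm (s := Finset.univ) (t := Finset.range Φ.ne)]

theorem m3_FF_sq {δ : ℝ} (hδ : 0 < δ) (U : E d → ℝ) (x : E d) :
    0 < FF δ U x ∧ FF δ U x ^ 2 = SS δ U x ∧ 0 < SS δ U x := by
  have h0 : 0 < SS δ U x := by
    unfold SS
    have : 0 ≤ ∑ i, ∑ j, P2 U i j x ^ 2 :=
      Finset.sum_nonneg fun i _ => Finset.sum_nonneg fun j _ => sq_nonneg _
    linarith
  exact ⟨Real.sqrt_pos.2 h0, Real.sq_sqrt h0.le, h0⟩

theorem m3_lift {δ : ℝ} (hδ : 0 < δ) {U : E (m + 1) → ℝ} {x : E (m + 1)} {lam ξ : Fin m → ℝ}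
    {T : Fin m → Fin m → Fin m → ℝ} (D : FrameData δ U x lam ξ T)
    (g : ℝ → ℝ → ℝ → ℝ → ℝ) :
    lift g δ U x = g (yy δ U x) (vv U x) (pw lam 3) (pw lam 4) := by
  obtain ⟨hF, -, -⟩ := m3_FF_sq hδ U x
  unfold lift
  rw [D.ht 3 (by norm_num), D.ht 4 (by norm_num), mul_div_cancel_left₀ _ (by (clear * - hF; positivity)),
    mul_div_cancel_left₀ _ (by positivity)]

theorem m3_pow {F : ℝ} (hF : 0 < F) {a c : ℝ} {n : ℕ} (h : a + n = c) : F ^ a * F ^ n = F ^ c := by
  rw [← h, Real.rpow_add_natCast hF.ne']

theorem m3_QQ_zero (U : E d → ℝ) (k : Fin d) (x : E d) : QQ U 0 k x = P1 U k x := by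
  unfold QQ
  rw [Finset.sum_eq_single k]
  · simp
  · intro i _ hi
    simp [hi.symm]
  · simp only [Finset.mem_univ, not_true_eq_false, pow_zero, Matrix.one_apply_eq, one_mul, IsEmpty.forall_iff]

theorem m3_MG_zero (U : E d → ℝ) (j : ℕ) (k : Fin d) (x : E d) : MG U 0 j k x = GG U j k x := by
  unfold MG
  rw [Finset.sum_eq_single k]
  · simp
  · intro i _ hi
    simp [hi.symm]
  · simp only [Finset.mem_univ, not_true_eq_false, pow_zero, Matrix.one_apply_eq, one_mul, IsEmpty.forall_iff]

/-- one `a`-term -/
theorem m3_div_a {U : E (m + 1) → ℝ} {N : Set (E (m + 1))} (hN : IsOpen N)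
    (hU : ContDiffOn ℝ ∞ U N) (hlap : ∀ x ∈ N, lap U x = 0) (f : SF) {α δ : ℝ} (hδ : 0 < δ)
    (h1 : ∀ x ∈ N, 0 < 1 + U x * FF δ U x) {x : E (m + 1)} (hx : x ∈ N) {lam ξ : Fin m → ℝ}
    {T : Fin m → Fin m → Fin m → ℝ} (D : FrameData δ U x lam ξ T) (j : ℕ) :
    ∑ k, P1 (fun y => FF δ U y ^ (2 * α - 2 - j) * lift f.g δ U y * GG U (j + 1) k y) k x =
      FF δ U x ^ (2 * α + 2) * m3_Da f α (1 / (‖x‖ ^ 2 * SS δ U x)) (U x * FF δ U x)
        (yy δ U x) (vv U x) lam ξ T j := by
  obtain ⟨hF, -, -⟩ := m3_FF_sq hδ U x
  rw [div_lift_GG hN hU hlap f hδ h1 hx (by omega : 1 ≤ j + 1),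
    D.hGG 1 (j + 1) le_rfl (by omega), D.hGp (j + 1) (by omega),
    D.hGQ (j + 1) 1 (by omega) le_rfl, D.hGG 2 (j + 1) (by norm_num) (by omega),
    D.hGG 3 (j + 1) (by norm_num) (by omega), D.hDG (j + 1) (by omega),
    m3_lift hδ D, m3_lift hδ D, m3_lift hδ D, m3_lift hδ D, m3_lift hδ D, m3_lift hδ D]
  unfold m3_Da
  generalize 1 / (‖x‖ ^ 2 * SS δ U x) = κ
  generalize U x * FF δ U x = z
  generalize yy δ U x = y
  generalize vv U x = v
  generalize f.g y v (pw lam 3) (pw lam 4) = g
  generalize f.zd y v (pw lam 3) (pw lam 4) = zd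
  generalize f.gz y v (pw lam 3) (pw lam 4) = gz
  generalize f.gv y v (pw lam 3) (pw lam 4) = gv
  generalize f.gt y v (pw lam 3) (pw lam 4) = gt
  generalize f.gi y v (pw lam 3) (pw lam 4) = gi
  have p1 : FF δ U x ^ (2 * α - 2 - j - 2) * FF δ U x ^ (1 + (j + 1) + 4)
      = FF δ U x ^ (2 * α + 2) := m3_pow hF (by push_cast; ring)
  have p2 : FF δ U x ^ (2 * α - 2 - j + 1) * FF δ U x ^ (j + 1 + 2)
      = FF δ U x ^ (2 * α + 2) := m3_pow hF (by push_cast; ring)
  have p3 : FF δ U x ^ (2 * α - 2 - (j : ℝ)) * FF δ U x ^ (j + 1 + 1 + 2)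
      = FF δ U x ^ (2 * α + 2) := m3_pow hF (by push_cast; ring)
  have p4 : FF δ U x ^ (2 * α - 2 - (j : ℝ) - 3) * FF δ U x ^ (2 + (j + 1) + 4)
      = FF δ U x ^ (2 * α + 2) := m3_pow hF (by push_cast; ring)
  have p5 : FF δ U x ^ (2 * α - 2 - (j : ℝ) - 4) * FF δ U x ^ (3 + (j + 1) + 4)
      = FF δ U x ^ (2 * α + 2) := m3_pow hF (by push_cast; ring)
  generalize hP : FF δ U x ^ (2 * α + 2) = P at p1 p2 p3 p4 p5 ⊢
  generalize FF δ U x ^ (2 * α - 2 - (j : ℝ) - 2) = a1 at p1 ⊢
  generalize FF δ U x ^ (2 * α - 2 - (j : ℝ) + 1) = a2 at p2 ⊢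
  generalize FF δ U x ^ (2 * α - 2 - (j : ℝ) - 3) = a4 at p4 ⊢
  generalize FF δ U x ^ (2 * α - 2 - (j : ℝ) - 4) = a5 at p5 ⊢
  generalize FF δ U x ^ (2 * α - 2 - (j : ℝ)) = a3 at p3 ⊢
  generalize FF δ U x ^ (1 + (j + 1) + 4) = b1 at p1 ⊢
  generalize FF δ U x ^ (j + 1 + 2) = b2 at p2 ⊢
  generalize FF δ U x ^ (j + 1 + 1 + 2) = b3 at p3 ⊢
  generalize FF δ U x ^ (2 + (j + 1) + 4) = b4 at p4 ⊢
  generalize FF δ U x ^ (3 + (j + 1) + 4) = b5 at p5 ⊢
  have q1 : pw lam (1 + 1) = pw lam 2 := rfl
  have q2 : pw lam (j + 1 + 1) = pw lam (j + 2) := rfl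
  have q3 : pw lam (2 + 1) = pw lam 3 := rfl
  have q4 : pw lam (3 + 1) = pw lam 4 := rfl
  rw [q1, q2, q3, q4]
  generalize (∑ k, XX lam (fun l => T l l k) 1 * XX lam (fun l => T l l k) (j + 1)) = S1
  generalize (∑ k, XX lam (fun l => T l l k) (j + 1) * ξ k) = S2
  generalize (∑ k, XX lam (fun l => T l l k) (j + 1) * lam k ^ 1 * ξ k) = S3
  generalize (∑ k, XX lam (fun l => T l l k) 2 * XX lam (fun l => T l l k) (j + 1)) = S4
  generalize (∑ k, XX lam (fun l => T l l k) 3 * XX lam (fun l => T l l k) (j + 1)) = S5
  generalize (∑ i, ∑ l, ∑ k, hh (j + 1) (lam i) (lam l) * T i l k ^ 2) = S6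
  push_cast
  linear_combination (((2 * α - 2 - j) * g + zd) * (S1 + κ * pw lam 2 * pw lam (j + 2))) * p1
    + (gz * (S2 - κ * z * pw lam (j + 2))) * p2 + (2 * gv * S3) * p3
    + (3 * gt * (S4 + κ * pw lam 3 * pw lam (j + 2))) * p4
    + (4 * gi * (S5 + κ * pw lam 4 * pw lam (j + 2))) * p5
    + (g * (S6 + κ * (j + 3) * pw lam (j + 2))) * p3

end Vale.Agent.P098
end

section

/-!
Module M5a, part 3: bounds of the fields.
-/

open MeasureTheory Set Metric Filter
open scoped ContDiff RealInnerProductSpace Topology

namespace Vale.Agent.P098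

variable {d : ℕ}

namespace M5a

/-- the smooth function of four variables -/
lemma sf_partials (f : SF) (y v t i : ℝ) :
    f.gy y v t i = fderiv ℝ (fun q : ℝ × ℝ × ℝ × ℝ => f.g q.1 q.2.1 q.2.2.1 q.2.2.2)
      (y, v, t, i) (1, 0, 0, 0) ∧
    f.gv y v t i = fderiv ℝ (fun q : ℝ × ℝ × ℝ × ℝ => f.g q.1 q.2.1 q.2.2.1 q.2.2.2)
      (y, v, t, i) (0, 1, 0, 0) ∧
    f.gt y v t i = fderiv ℝ (fun q : ℝ × ℝ × ℝ × ℝ => f.g q.1 q.2.1 q.2.2.1 q.2.2.2)
      (y, v, t, i) (0, 0, 1, 0) ∧
    f.gi y v t i = fderiv ℝ (fun q : ℝ × ℝ × ℝ × ℝ => f.g q.1 q.2.1 q.2.2.1 q.2.2.2)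
      (y, v, t, i) (0, 0, 0, 1) := by
  have hd : HasFDerivAt (fun q : ℝ × ℝ × ℝ × ℝ => f.g q.1 q.2.1 q.2.2.1 q.2.2.2)
      (fderiv ℝ (fun q : ℝ × ℝ × ℝ × ℝ => f.g q.1 q.2.1 q.2.2.1 q.2.2.2) (y, v, t, i))
      (y, v, t, i) :=
    ((f.smooth.differentiable (by simp)) _).hasFDerivAt
  refine ⟨?_, ?_, ?_, ?_⟩
  · have h : HasDerivAt (fun s : ℝ => (s, v, t, i)) ((1 : ℝ), (0 : ℝ), (0 : ℝ), (0 : ℝ)) y :=
      (hasDerivAt_id y).prodMk (hasDerivAt_const _ _)
    have h2 := HasFDerivAt.comp_hasDerivAt (f := fun s : ℝ => (s, v, t, i)) y hd h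
    exact (f.hy y v t i).unique h2
  · have h : HasDerivAt (fun s : ℝ => (y, s, t, i)) ((0 : ℝ), (1 : ℝ), (0 : ℝ), (0 : ℝ)) v :=
      (hasDerivAt_const _ _).prodMk ((hasDerivAt_id v).prodMk (hasDerivAt_const _ _))
    have h2 := HasFDerivAt.comp_hasDerivAt (f := fun s : ℝ => (y, s, t, i)) v hd h
    exact (f.hv y v t i).unique h2
  · have h : HasDerivAt (fun s : ℝ => (y, v, s, i)) ((0 : ℝ), (0 : ℝ), (1 : ℝ), (0 : ℝ)) t :=
      (hasDerivAt_const _ _).prodMk ((hasDerivAt_const _ _).prodMk
        ((hasDerivAt_id t).prodMk (hasDerivAt_const _ _)))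
    have h2 := HasFDerivAt.comp_hasDerivAt (f := fun s : ℝ => (y, v, s, i)) t hd h
    exact (f.ht y v t i).unique h2
  · have h : HasDerivAt (fun s : ℝ => (y, v, t, s)) ((0 : ℝ), (0 : ℝ), (0 : ℝ), (1 : ℝ)) i :=
      (hasDerivAt_const _ _).prodMk ((hasDerivAt_const _ _).prodMk
        ((hasDerivAt_const _ _).prodMk (hasDerivAt_id i)))
    have h2 := HasFDerivAt.comp_hasDerivAt (f := fun s : ℝ => (y, v, t, s)) i hd h
    exact (f.hi y v t i).unique h2

lemma sf_box (f : SF) (D : ℝ) : ∃ C : ℝ, 0 ≤ C ∧ ∀ y v t i : ℝ, 0 ≤ y → y ≤ 1 → 0 ≤ v → v ≤ 1 →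
    |t| ≤ D → |i| ≤ D → |f.g y v t i| ≤ C ∧ |f.gy y v t i| ≤ C ∧ |f.gv y v t i| ≤ C ∧
      |f.gt y v t i| ≤ C ∧ |f.gi y v t i| ≤ C := by
  have hK : IsCompact (Set.Icc ((0 : ℝ), (0 : ℝ), -D, -D) ((1 : ℝ), (1 : ℝ), D, D)) :=
    isCompact_Icc
  have hc : Continuous (fun q : ℝ × ℝ × ℝ × ℝ => f.g q.1 q.2.1 q.2.2.1 q.2.2.2) :=
    f.smooth.continuous
  have hc' : Continuous (fderiv ℝ (fun q : ℝ × ℝ × ℝ × ℝ => f.g q.1 q.2.1 q.2.2.1 q.2.2.2)) :=
    f.smooth.continuous_fderiv (by simp)
  have hv : ∀ w : ℝ × ℝ × ℝ × ℝ, Continuous (fun q => fderiv ℝ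
      (fun q : ℝ × ℝ × ℝ × ℝ => f.g q.1 q.2.1 q.2.2.1 q.2.2.2) q w) := fun w => by (clear * - hc'; fun_prop)
  obtain ⟨C0, h0⟩ := hK.exists_bound_of_continuousOn hc.continuousOn
  obtain ⟨C1, h1⟩ := hK.exists_bound_of_continuousOn (hv (1, 0, 0, 0)).continuousOn
  obtain ⟨C2, h2⟩ := hK.exists_bound_of_continuousOn (hv (0, 1, 0, 0)).continuousOn
  obtain ⟨C3, h3⟩ := hK.exists_bound_of_continuousOn (hv (0, 0, 1, 0)).continuousOn
  obtain ⟨C4, h4⟩ := hK.exists_bound_of_continuousOn (hv (0, 0, 0, 1)).continuousOn
  refine ⟨|C0| + |C1| + |C2| + |C3| + |C4|, by (clear * -; positivity), ?_⟩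
  intro y v t i hy hy1 hv hv1 ht hi
  have hm : (y, v, t, i) ∈ Set.Icc ((0 : ℝ), (0 : ℝ), -D, -D) ((1 : ℝ), (1 : ℝ), D, D) := by
    rw [abs_le] at ht hi
    exact ⟨⟨hy, hv, ht.1, hi.1⟩, ⟨hy1, hv1, ht.2, hi.2⟩⟩
  obtain ⟨p1, p2, p3, p4⟩ := sf_partials f y v t i
  have q0 := (h0 _ hm).trans (le_abs_self C0)
  have q1 := (h1 _ hm).trans (le_abs_self C1)
  have q2 := (h2 _ hm).trans (le_abs_self C2)
  have q3 := (h3 _ hm).trans (le_abs_self C3)
  have q4 := (h4 _ hm).trans (le_abs_self C4)
  rw [Real.norm_eq_abs] at q0 q1 q2 q3 q4
  rw [p1, p2, p3, p4]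
  have a0 := abs_nonneg C0
  have a1 := abs_nonneg C1
  have a2 := abs_nonneg C2
  have a3 := abs_nonneg C3
  have a4 := abs_nonneg C4
  refine ⟨?_, ?_, ?_, ?_, ?_⟩
  · exact q0.trans (by linarith only [a1, a2, a3, a4])
  · linarith only [q1, a0, a2, a3, a4]
  · linarith only [q2, a0, a1, a3, a4]
  · linarith only [q3, a0, a1, a2, a4]
  · linarith only [q4, a0, a1, a2, a3]

/-- a point where all arguments of the coefficient functions are bounded -/
structure Pt (δ : ℝ) (U : E d → ℝ) (x : E d) : Prop where
  hδ : 0 < δ
  U0 : 0 < U x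
  v1 : vv U x ≤ 1

lemma Pt.y0 {δ : ℝ} {U : E d → ℝ} {x : E d} (h : Pt δ U x) : 0 ≤ yy δ U x := by
  unfold yy
  have := mul_pos h.U0 (FF_pos h.hδ U x)
  positivity

lemma Pt.y1 {δ : ℝ} {U : E d → ℝ} {x : E d} (h : Pt δ U x) : yy δ U x ≤ 1 := by
  unfold yy
  have := mul_pos h.U0 (FF_pos h.hδ U x)
  rw [div_le_one (by positivity)]
  linarith

lemma Pt.v0 {δ : ℝ} {U : E d → ℝ} {x : E d} (_ : Pt δ U x) : 0 ≤ vv U x :=
  Finset.sum_nonneg fun _ _ => sq_nonneg _

lemma lift_bounds (f : SF) (d : ℕ) : ∃ C : ℝ, 0 ≤ C ∧ ∀ (δ : ℝ) (U : E d → ℝ) (x : E d),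
    Pt δ U x → |lift f.g δ U x| ≤ C ∧ |lift f.zd δ U x| ≤ C ∧ |lift f.gz δ U x| ≤ C ∧
      |lift f.gv δ U x| ≤ C ∧ |lift f.gt δ U x| ≤ C ∧ |lift f.gi δ U x| ≤ C := by
  obtain ⟨C, hC, h⟩ := sf_box f d
  have hd : (0 : ℝ) ≤ d := Nat.cast_nonneg d
  refine ⟨C * (1 + 7 * d), by (clear * - hC; positivity), ?_⟩
  intro δ U x hp
  have hτ := tt_bound hp.hδ U x 3
  have hι := tt_bound hp.hδ U x 4
  obtain ⟨h1, h2, h3, h4, h5⟩ := h (yy δ U x) (vv U x) _ _ hp.y0 hp.y1 hp.v0 hp.v1 hτ hι
  have hle : C ≤ C * (1 + 7 * d) := by nlinarith only [hC]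
  have hy0 := hp.y0
  have hy1 := hp.y1
  unfold lift
  refine ⟨h1.trans hle, ?_, ?_, h3.trans hle, h4.trans hle, h5.trans hle⟩
  · unfold SF.zd
    have e1 : |-(yy δ U x * (1 - yy δ U x)) * f.gy (yy δ U x) (vv U x)
        (tt U 3 x / FF δ U x ^ 3) (tt U 4 x / FF δ U x ^ 4)| ≤ C := by
      rw [abs_mul, abs_neg, abs_of_nonneg (mul_nonneg hy0 (by linarith only [hy1]))]
      calc _ ≤ 1 * C := mul_le_mul (by nlinarith only [hy1, hy0]) h2 (abs_nonneg _) zero_le_one
        _ = C := one_mul C
    have e2 : |3 * (tt U 3 x / FF δ U x ^ 3) * f.gt (yy δ U x) (vv U x)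
        (tt U 3 x / FF δ U x ^ 3) (tt U 4 x / FF δ U x ^ 4)| ≤ 3 * d * C := by
      rw [abs_mul, abs_mul, abs_of_pos (by norm_num : (0 : ℝ) < 3)]
      exact mul_le_mul (by linarith only [hτ]) h4 (abs_nonneg _) (by (clear * -; positivity))
    have e3 : |4 * (tt U 4 x / FF δ U x ^ 4) * f.gi (yy δ U x) (vv U x)
        (tt U 3 x / FF δ U x ^ 3) (tt U 4 x / FF δ U x ^ 4)| ≤ 4 * d * C := by
      rw [abs_mul, abs_mul, abs_of_pos (by norm_num : (0 : ℝ) < 4)]
      exact mul_le_mul (by linarith only [hι]) h5 (abs_nonneg _) (by (clear * -; positivity))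
    refine (abs_sub _ _).trans ?_
    refine (add_le_add (abs_sub _ _) le_rfl).trans ?_
    linarith only [e1, e2, e3]
  · unfold SF.gz
    rw [abs_mul, abs_neg, abs_of_nonneg (sq_nonneg _)]
    calc _ ≤ 1 * C := mul_le_mul (by nlinarith only [hy1, hy0]) h2 (abs_nonneg _) zero_le_one
      _ ≤ C * (1 + 7 * d) := by linarith only [hle]

end M5a

end Vale.Agent.P098
end

section

/-!
Module M5a, part 4: bounds of the fields, given the formula for the gradient of `W`.
-/

open MeasureTheory Set Metric Filter
open scoped ContDiff RealInnerProductSpace Topology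

namespace Vale.Agent.P098

variable {d : ℕ}

namespace M5a

lemma rpow_two_mul {F s : ℝ} (hF : 0 < F) : F ^ (2 * s) = (F ^ 2) ^ s := by
  rw [Real.rpow_mul hF.le, Real.rpow_two]

lemma rpow_sub_mul {F β : ℝ} (hF : 0 < F) (j : ℕ) : F ^ (β - j) * F ^ j = F ^ β := by
  rw [← Real.rpow_natCast, ← Real.rpow_add hF]
  congr 1
  ring

lemma gterm {δ : ℝ} {U : E d → ℝ} {x : E d} (hp : Pt δ U x) {T : ℝ} (hT0 : 0 ≤ T)
    (hT : ∀ i j k, |P3 U i j k x| ≤ T) {L C : ℝ} (hL : |L| ≤ C) (β : ℝ) (j : ℕ) (k : Fin d) :
    |FF δ U x ^ (β - j) * L * GG U j k x| ≤ C * d ^ 2 * (FF δ U x ^ β * T) := by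
  have hF := FF_pos hp.hδ U x
  have hC : 0 ≤ C := (abs_nonneg _).trans hL
  rw [abs_mul, abs_mul, abs_of_pos (Real.rpow_pos_of_pos hF _)]
  calc FF δ U x ^ (β - j) * |L| * |GG U j k x|
      ≤ FF δ U x ^ (β - j) * C * ((d : ℝ) ^ 2 * FF δ U x ^ j * T) :=
        mul_le_mul (mul_le_mul_of_nonneg_left hL (Real.rpow_nonneg hF.le _))
          (GG_bound hp.hδ U x hT j k) (abs_nonneg _) (by (clear * - hF hC; positivity))
    _ = C * d ^ 2 * ((FF δ U x ^ (β - j) * FF δ U x ^ j) * T) := by ring
    _ = C * d ^ 2 * (FF δ U x ^ β * T) := by rw [rpow_sub_mul hF]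

lemma qterm {δ : ℝ} {U : E d → ℝ} {x : E d} (hp : Pt δ U x) {L C : ℝ} (hL : |L| ≤ C)
    (β : ℝ) (j : ℕ) (k : Fin d) :
    |FF δ U x ^ (β - j) * L * QQ U j k x| ≤ C * d * FF δ U x ^ β := by
  have hF := FF_pos hp.hδ U x
  have hC : 0 ≤ C := (abs_nonneg _).trans hL
  rw [abs_mul, abs_mul, abs_of_pos (Real.rpow_pos_of_pos hF _)]
  calc FF δ U x ^ (β - j) * |L| * |QQ U j k x|
      ≤ FF δ U x ^ (β - j) * C * ((d : ℝ) * FF δ U x ^ j) :=
        mul_le_mul (mul_le_mul_of_nonneg_left hL (Real.rpow_nonneg hF.le _))
          (QQ_bound hp.hδ hp.v1 j k) (abs_nonneg _) (by (clear * - hF hC; positivity))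
    _ = C * d * (FF δ U x ^ (β - j) * FF δ U x ^ j) := by ring
    _ = C * d * FF δ U x ^ β := by rw [rpow_sub_mul hF]

lemma MG_bound {δ : ℝ} (hδ : 0 < δ) (U : E d → ℝ) (x : E d) {T : ℝ}
    (hT0 : 0 ≤ T) (hT : ∀ i j k, |P3 U i j k x| ≤ T) (a j : ℕ) (k : Fin d) :
    |MG U a j k x| ≤ (d : ℝ) ^ 3 * FF δ U x ^ (a + j) * T := by
  have hF := FF_pos hδ U x
  unfold MG
  calc |∑ l, (MM U x ^ a) k l * GG U j l x|
      ≤ ∑ l : Fin d, FF δ U x ^ a * ((d : ℝ) ^ 2 * FF δ U x ^ j * T) := by
        refine (Finset.abs_sum_le_sum_abs _ _).trans (Finset.sum_le_sum fun l _ => ?_)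
        rw [abs_mul]
        exact mul_le_mul (MM_entry hδ U x a k l) (GG_bound hδ U x hT j l) (abs_nonneg _)
          (pow_nonneg hF.le _)
    _ = (d : ℝ) ^ 3 * FF δ U x ^ (a + j) * T := by
        simp only [Finset.sum_const, Finset.card_univ, Fintype.card_fin, nsmul_eq_mul]
        ring

lemma EE_bound {δ : ℝ} (hδ : 0 < δ) (U : E d → ℝ) (x : E d) {T : ℝ}
    (hT0 : 0 ≤ T) (hT : ∀ i j k, |P3 U i j k x| ≤ T) (a j : ℕ) (k : Fin d) :
    |EE U a j k x| ≤ 2 * (d : ℝ) ^ 3 * FF δ U x ^ (a + j) * T := by
  unfold EE
  have h1 := MG_bound hδ U x hT0 hT a j k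
  have h2 := MG_bound hδ U x hT0 hT j a k
  rw [add_comm j a] at h2
  have h3 := abs_sub (MG U a j k x) (MG U j a k x)
  (clear * - h1 h2 h3; linarith)

lemma eterm {δ : ℝ} {U : E d → ℝ} {x : E d} (hp : Pt δ U x) {T : ℝ} (hT0 : 0 ≤ T)
    (hT : ∀ i j k, |P3 U i j k x| ≤ T) {L C : ℝ} (hL : |L| ≤ C) (β : ℝ) (a j : ℕ) (k : Fin d) :
    |FF δ U x ^ (β - a - j) * L * EE U a j k x| ≤ C * (2 * d ^ 3) * (FF δ U x ^ β * T) := by
  have hF := FF_pos hp.hδ U x
  have hC : 0 ≤ C := (abs_nonneg _).trans hL
  have e : β - a - j = β - ((a + j : ℕ) : ℝ) := by push_cast; ring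
  rw [e, abs_mul, abs_mul, abs_of_pos (Real.rpow_pos_of_pos hF _)]
  calc FF δ U x ^ (β - ((a + j : ℕ) : ℝ)) * |L| * |EE U a j k x|
      ≤ FF δ U x ^ (β - ((a + j : ℕ) : ℝ)) * C * (2 * (d : ℝ) ^ 3 * FF δ U x ^ (a + j) * T) :=
        mul_le_mul (mul_le_mul_of_nonneg_left hL (Real.rpow_nonneg hF.le _))
          (EE_bound hp.hδ U x hT0 hT a j k) (abs_nonneg _) (by (clear * - hF hC; positivity))
    _ = C * (2 * d ^ 3) * ((FF δ U x ^ (β - ((a + j : ℕ) : ℝ)) * FF δ U x ^ (a + j)) * T) := by
        ring
    _ = C * (2 * d ^ 3) * (FF δ U x ^ β * T) := by rw [rpow_sub_mul hF]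

lemma norm_le_sum (v : E d) : ‖v‖ ≤ ∑ k, |v k| := by
  have hv : v = ∑ i, v i • (ee i : E d) := by
    ext k
    simp only [ee, WithLp.ofLp_sum, WithLp.ofLp_smul, PiLp.ofLp_single, Finset.sum_apply, Pi.smul_apply, Pi.single_apply, smul_eq_mul, mul_ite, mul_one, mul_zero, Finset.sum_ite_eq, Finset.mem_univ, ↓reduceIte]
  calc ‖v‖ = ‖∑ i, v i • (ee i : E d)‖ := by rw [← hv]
    _ ≤ ∑ i, ‖v i • (ee i : E d)‖ := norm_sum_le _ _
    _ = ∑ k, |v k| := by
        refine Finset.sum_congr rfl fun k _ => ?_
        rw [norm_smul, Real.norm_eq_abs, EuclideanSpace.norm_single, norm_one, mul_one]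

/-- The formula for the gradient of `F^β f`. -/
def LiftFormula (U : E d → ℝ) (N : Set (E d)) : Prop :=
  ∀ (f : SF) (δ β : ℝ), 0 < δ → ∀ x ∈ N, 0 < 1 + U x * FF δ U x → ∀ k : Fin d,
    P1 (fun y => FF δ U y ^ β * lift f.g δ U y) k x
      = FF δ U x ^ (β - 2) * (β * lift f.g δ U x + lift f.zd δ U x) * GG U 1 k x
        + FF δ U x ^ (β + 1) * lift f.gz δ U x * P1 U k x
        + 2 * FF δ U x ^ β * lift f.gv δ U x * QQ U 1 k x
        + 3 * FF δ U x ^ (β - 3) * lift f.gt δ U x * GG U 2 k x
        + 4 * FF δ U x ^ (β - 4) * lift f.gi δ U x * GG U 3 k x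

lemma abs_add5 (a b c e f : ℝ) : |a + b + c + e + f| ≤ |a| + |b| + |c| + |e| + |f| := by
  refine (abs_add_le _ _).trans (add_le_add ?_ le_rfl)
  refine (abs_add_le _ _).trans (add_le_add ?_ le_rfl)
  refine (abs_add_le _ _).trans (add_le_add ?_ le_rfl)
  exact abs_add_le _ _

lemma P1_WW_bound {U : E d → ℝ} {N : Set (E d)} (HL : LiftFormula U N) (f : SF) {C : ℝ}
    (hC : 0 ≤ C) {δ : ℝ} {x : E d} (hxN : x ∈ N) (hp : Pt δ U x)
    (hb : |lift f.g δ U x| ≤ C ∧ |lift f.zd δ U x| ≤ C ∧ |lift f.gz δ U x| ≤ C ∧
      |lift f.gv δ U x| ≤ C ∧ |lift f.gt δ U x| ≤ C ∧ |lift f.gi δ U x| ≤ C) {T : ℝ}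
    (hT0 : 0 ≤ T) (hT : ∀ i j k, |P3 U i j k x| ≤ T) (α : ℝ) (k : Fin d) :
    |P1 (fun y => FF δ U y ^ (2 * α) * lift f.g δ U y) k x| ≤
      ((|2 * α| + 8) * C * d ^ 2) * (FF δ U x ^ (2 * α - 1) * T)
        + ((1 + 2 * d) * C) * FF δ U x ^ (2 * α + 1) := by
  have hF := FF_pos hp.hδ U x
  obtain ⟨b1, b2, b3, b4, b5, b6⟩ := hb
  have h1 : 0 < 1 + U x * FF δ U x := by
    have := mul_pos hp.U0 hF
    linarith only [this]
  rw [HL f δ (2 * α) hp.hδ x hxN h1 k]
  have t1 : |FF δ U x ^ (2 * α - 2) * (2 * α * lift f.g δ U x + lift f.zd δ U x) * GG U 1 k x| ≤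
      ((|2 * α| + 1) * C) * d ^ 2 * (FF δ U x ^ (2 * α - 1) * T) := by
    have e : 2 * α - 2 = (2 * α - 1) - ((1 : ℕ) : ℝ) := by push_cast; ring
    rw [e]
    refine gterm hp hT0 hT ?_ _ _ _
    refine (abs_add_le _ _).trans ?_
    rw [abs_mul]
    have := mul_le_mul_of_nonneg_left b1 (abs_nonneg (2 * α))
    linarith only [b2, this]
  have t2 : |FF δ U x ^ (2 * α + 1) * lift f.gz δ U x * P1 U k x| ≤
      C * FF δ U x ^ (2 * α + 1) := by
    rw [abs_mul, abs_mul, abs_of_pos (Real.rpow_pos_of_pos hF _)]
    have h0 := Real.rpow_nonneg hF.le (2 * α + 1)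
    calc _ ≤ FF δ U x ^ (2 * α + 1) * C * 1 :=
          mul_le_mul (mul_le_mul_of_nonneg_left b3 h0) (P1_le hp.v1 k) (abs_nonneg _)
            (mul_nonneg h0 hC)
      _ = C * FF δ U x ^ (2 * α + 1) := by ring
  have t3 : |2 * FF δ U x ^ (2 * α) * lift f.gv δ U x * QQ U 1 k x| ≤
      2 * (C * d * FF δ U x ^ (2 * α + 1)) := by
    have e : 2 * α = (2 * α + 1) - ((1 : ℕ) : ℝ) := by push_cast; ring
    have h := qterm hp b4 (2 * α + 1) 1 k
    rw [← e] at h
    rw [mul_assoc 2, mul_assoc 2, abs_mul, abs_of_pos (by norm_num : (0 : ℝ) < 2)]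
    exact mul_le_mul_of_nonneg_left h (by norm_num)
  have t4 : |3 * FF δ U x ^ (2 * α - 3) * lift f.gt δ U x * GG U 2 k x| ≤
      3 * (C * d ^ 2 * (FF δ U x ^ (2 * α - 1) * T)) := by
    have e : 2 * α - 3 = (2 * α - 1) - ((2 : ℕ) : ℝ) := by push_cast; ring
    have h := gterm hp hT0 hT b5 (2 * α - 1) 2 k
    rw [← e] at h
    rw [mul_assoc 3, mul_assoc 3, abs_mul, abs_of_pos (by norm_num : (0 : ℝ) < 3)]
    exact mul_le_mul_of_nonneg_left h (by norm_num)
  have t5 : |4 * FF δ U x ^ (2 * α - 4) * lift f.gi δ U x * GG U 3 k x| ≤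
      4 * (C * d ^ 2 * (FF δ U x ^ (2 * α - 1) * T)) := by
    have e : 2 * α - 4 = (2 * α - 1) - ((3 : ℕ) : ℝ) := by push_cast; ring
    have h := gterm hp hT0 hT b6 (2 * α - 1) 3 k
    rw [← e] at h
    rw [mul_assoc 4, mul_assoc 4, abs_mul, abs_of_pos (by norm_num : (0 : ℝ) < 4)]
    exact mul_le_mul_of_nonneg_left h (by norm_num)
  refine (abs_add5 _ _ _ _ _).trans ?_
  calc _ ≤ ((|2 * α| + 1) * C) * d ^ 2 * (FF δ U x ^ (2 * α - 1) * T)
        + C * FF δ U x ^ (2 * α + 1) + 2 * (C * d * FF δ U x ^ (2 * α + 1))
        + 3 * (C * d ^ 2 * (FF δ U x ^ (2 * α - 1) * T))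
        + 4 * (C * d ^ 2 * (FF δ U x ^ (2 * α - 1) * T)) := by linarith
    _ = _ := by ring

end M5a

theorem fields_bound_aux {u : E d → ℝ} (hc : Continuous u)
    (hhom : ∀ r : ℝ, 0 < r → ∀ x, u (r • x) = r * u x)
    {N₀ : Set (E d)} {U : E d → ℝ} (hU : LocalExt u N₀ U)
    (hN₀ : closure {y | 0 < u y} \ {0} ⊆ N₀) (hv : ∀ x, 0 < u x → vv U x ≤ 1)
    {α : ℝ} (hα : 1 / 2 ≤ α) (Φ : Fam) (HL : M5a.LiftFormula U N₀) :
    ∃ B : ℝ, 0 ≤ B ∧ ∀ δ K : ℝ, 0 < δ → δ ≤ 1 → ∀ x, 0 < u x →
      WW Φ α δ U x ≤ B * (1 / ‖x‖ ^ 2 + δ) ^ α ∧
      ‖(1 / 2 : ℝ) • gradient (WW Φ α δ U) x - ZZ Φ α δ K U x‖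
        ≤ B * (1 / ‖x‖ ^ 2 + δ) ^ (α + 1 / 2) + |K| := by
  obtain ⟨C, hC, hjets⟩ := M5a.jets_bound hc hhom hU hN₀
  have hsub := M5a.pos_sub hhom hN₀
  obtain ⟨Cw, hCw, hw⟩ := M5a.lift_bounds Φ.w d
  choose Ca hCa ha using fun j => M5a.lift_bounds (Φ.a j) d
  choose Cf hCf hf using fun j => M5a.lift_bounds (Φ.f j) d
  choose Ce hCe he using fun j => M5a.lift_bounds (Φ.e j) d
  obtain ⟨Se, hSe⟩ : ∃ Se, Se = ∑ j ∈ Finset.range Φ.ne, Ce j := ⟨_, rfl⟩
  have hSe0 : 0 ≤ Se := by rw [hSe]; exact Finset.sum_nonneg fun j _ => hCe j
  obtain ⟨Sa, hSa⟩ : ∃ Sa, Sa = ∑ j ∈ Finset.range Φ.na, Ca j := ⟨_, rfl⟩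
  obtain ⟨Sf, hSf⟩ : ∃ Sf, Sf = ∑ j ∈ Finset.range Φ.nf, Cf j := ⟨_, rfl⟩
  have hSa0 : 0 ≤ Sa := by rw [hSa]; exact Finset.sum_nonneg fun j _ => hCa j
  have hSf0 : 0 ≤ Sf := by rw [hSf]; exact Finset.sum_nonneg fun j _ => hCf j
  obtain ⟨c0, hc0⟩ : ∃ c0 : ℝ, c0 = d ^ 2 * C ^ 2 + 1 := ⟨_, rfl⟩
  have hc01 : 1 ≤ c0 := by rw [hc0]; linarith only [mul_nonneg (sq_nonneg (↑d : ℝ)) (sq_nonneg (C : ℝ))]
  have hc00 : 0 < c0 := by linarith only [hc01]
  obtain ⟨M1, hM1⟩ : ∃ M1 : ℝ, M1 = (|2 * α| + 8) * Cw * d ^ 2 + Sa * d ^ 2
      + Se * (2 * d ^ 3) := ⟨_, rfl⟩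
  obtain ⟨M2, hM2⟩ : ∃ M2 : ℝ, M2 = (1 + 2 * d) * Cw + Sf * d := ⟨_, rfl⟩
  have hM10 : 0 ≤ M1 := by rw [hM1]; (clear * - hα hCw hSa0 hSe0; positivity)
  have hM20 : 0 ≤ M2 := by rw [hM2]; (clear * - hCw hSf0; positivity)
  have hp1 : 0 ≤ c0 ^ α := Real.rpow_nonneg hc00.le _
  have hp2 : 0 ≤ c0 ^ (α - 1 / 2) := Real.rpow_nonneg hc00.le _
  have hp3 : 0 ≤ c0 ^ (α + 1 / 2) := Real.rpow_nonneg hc00.le _
  refine ⟨Cw * c0 ^ α + d * (M1 * (C * c0 ^ (α - 1 / 2)) + M2 * c0 ^ (α + 1 / 2)),
    by (clear * - hCw hc01 hM10 hC hM20; positivity), ?_⟩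
  intro δ K hδ hδ1 x hx
  have hxN : x ∈ N₀ := hsub hx
  have hx0 : x ≠ 0 := by
    rintro rfl
    rw [M5a.u_zero hhom] at hx
    exact lt_irrefl _ hx
  have hr : 0 < ‖x‖ := norm_pos_iff.2 hx0
  have hp : M5a.Pt δ U x := ⟨hδ, by rw [hU.eq x hxN hx]; exact hx, hv x hx⟩
  obtain ⟨hj2, hj3⟩ := hjets x hx
  have hF := M5a.FF_pos hδ U x
  obtain ⟨R2, hR2⟩ : ∃ R2 : ℝ, R2 = 1 / ‖x‖ ^ 2 := ⟨_, rfl⟩
  have hR20 : 0 < R2 := by rw [hR2]; positivity
  obtain ⟨Y, hY⟩ : ∃ Y : ℝ, Y = R2 + δ := ⟨_, rfl⟩
  have hY0 : 0 < Y := by rw [hY]; linarith only [hδ, hR20]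
  have hRY : R2 ≤ Y := by rw [hY]; linarith only [hδ]
  -- the size of `F`
  have hFY : FF δ U x ^ 2 ≤ c0 * Y := by
    rw [M5a.FF_sq hδ]
    have h1 : ∑ i : Fin d, ∑ j : Fin d, P2 U i j x ^ 2 ≤ ∑ i : Fin d, ∑ j : Fin d, C ^ 2 * R2 := by
      refine Finset.sum_le_sum fun i _ => Finset.sum_le_sum fun j _ => ?_
      have h2 := hj2 i j
      have h3 : P2 U i j x ^ 2 ≤ (C * (1 / ‖x‖)) ^ 2 := by
        rw [← sq_abs (P2 U i j x)]
        exact pow_le_pow_left₀ (abs_nonneg _) h2 2
      rw [hR2]
      calc P2 U i j x ^ 2 ≤ (C * (1 / ‖x‖)) ^ 2 := h3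
        _ = C ^ 2 * (1 / ‖x‖ ^ 2) := by ring
    rw [Finset.sum_const, Finset.sum_const, Finset.card_univ, Fintype.card_fin, nsmul_eq_mul,
      nsmul_eq_mul] at h1
    unfold SS
    rw [hc0, hY]
    have h4 : (0 : ℝ) ≤ d ^ 2 * C ^ 2 * δ := by (clear * - hδ; positivity)
    have h5 : (d : ℝ) * (d * (C ^ 2 * R2)) = d ^ 2 * C ^ 2 * R2 := by ring
    rw [h5] at h1
    linarith only [hR20, h1, h4]
  have hF2 : 0 ≤ FF δ U x ^ 2 := sq_nonneg _
  have hpow : ∀ s : ℝ, 0 ≤ s → FF δ U x ^ (2 * s) ≤ c0 ^ s * Y ^ s := by
    intro s hs
    rw [M5a.rpow_two_mul hF, ← Real.mul_rpow hc00.le hY0.le]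
    exact Real.rpow_le_rpow hF2 hFY hs
  have hT0 : 0 ≤ C * R2 := by (clear * - hC hR20; positivity)
  have hT : ∀ i j k, |P3 U i j k x| ≤ C * R2 := by
    intro i j k
    rw [hR2]
    exact hj3 i j k
  have hA : FF δ U x ^ (2 * α - 1) * (C * R2) ≤ C * c0 ^ (α - 1 / 2) * Y ^ (α + 1 / 2) := by
    have e : 2 * α - 1 = 2 * (α - 1 / 2) := by ring
    have h1 := hpow (α - 1 / 2) (by linarith only [hα])
    have h2 : Y ^ (α + 1 / 2) = Y ^ (α - 1 / 2) * Y := by
      rw [← Real.rpow_add_one hY0.ne']
      congr 1
      ring
    rw [e, h2]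
    have h3 : 0 ≤ Y ^ (α - 1 / 2) := Real.rpow_nonneg hY0.le _
    calc FF δ U x ^ (2 * (α - 1 / 2)) * (C * R2)
        ≤ (c0 ^ (α - 1 / 2) * Y ^ (α - 1 / 2)) * (C * Y) :=
          mul_le_mul h1 (mul_le_mul_of_nonneg_left hRY hC) hT0 (mul_nonneg hp2 h3)
      _ = C * c0 ^ (α - 1 / 2) * (Y ^ (α - 1 / 2) * Y) := by ring
  have hB : FF δ U x ^ (2 * α + 1) ≤ c0 ^ (α + 1 / 2) * Y ^ (α + 1 / 2) := by
    have e : 2 * α + 1 = 2 * (α + 1 / 2) := by ring
    rw [e]
    exact hpow _ (by linarith only [hα])
  have hYa : 0 ≤ Y ^ α := Real.rpow_nonneg hY0.le _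
  have hYb : 0 ≤ Y ^ (α + 1 / 2) := Real.rpow_nonneg hY0.le _
  have hD0 : (0 : ℝ) ≤ d := Nat.cast_nonneg d
  rw [← hR2, ← hY]
  constructor
  · unfold WW
    have h1 := (abs_le.1 (hw δ U x hp).1).2
    have h2 := hpow α (by linarith only [hα])
    calc FF δ U x ^ (2 * α) * lift Φ.w.g δ U x
        ≤ FF δ U x ^ (2 * α) * Cw := mul_le_mul_of_nonneg_left h1 (Real.rpow_nonneg hF.le _)
      _ ≤ (c0 ^ α * Y ^ α) * Cw := mul_le_mul_of_nonneg_right h2 hCw
      _ = Cw * c0 ^ α * Y ^ α := by ring
      _ ≤ (Cw * c0 ^ α + d * (M1 * (C * c0 ^ (α - 1 / 2)) + M2 * c0 ^ (α + 1 / 2))) * Y ^ α := by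
          refine mul_le_mul_of_nonneg_right ?_ hYa
          have : 0 ≤ d * (M1 * (C * c0 ^ (α - 1 / 2)) + M2 * c0 ^ (α + 1 / 2)) := by (clear * - hM10 hC hc01 hM20; positivity)
          linarith only [this]
  · -- the remaining vector field
    obtain ⟨R, hR⟩ : ∃ R : E d, R = (1 / 2 : ℝ) • gradient (WW Φ α δ U) x - ZZ Φ α δ K U x
        + WithLp.toLp 2 (fun k => K * P1 U k x) := ⟨_, rfl⟩
    have hRk : ∀ k, |R k| ≤ M1 * (C * c0 ^ (α - 1 / 2) * Y ^ (α + 1 / 2))
        + M2 * (c0 ^ (α + 1 / 2) * Y ^ (α + 1 / 2)) := by
      intro k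
      have e1 : R k = 1 / 2 * P1 (fun y => FF δ U y ^ (2 * α) * lift Φ.w.g δ U y) k x
          - (∑ j ∈ Finset.range Φ.na,
              FF δ U x ^ (2 * α - 2 - j) * lift (Φ.a j).g δ U x * GG U (j + 1) k x)
          + (∑ j ∈ Finset.range Φ.nf,
              FF δ U x ^ (2 * α + 1 - j) * lift (Φ.f j).g δ U x * QQ U j k x)
          - (∑ q ∈ Finset.range Φ.ne, FF δ U x ^ (2 * α - 1 - Φ.ea q - Φ.ej q)
              * lift (Φ.e q).g δ U x * EE U (Φ.ea q) (Φ.ej q) k x) := by
        have h1 : gradient (WW Φ α δ U) x k =
            P1 (fun y => FF δ U y ^ (2 * α) * lift Φ.w.g δ U y) k x := by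
          unfold P1
          rw [← inner_gradient_left, EuclideanSpace.inner_single_right]
          simp only [map_one, one_mul]
          rfl
        rw [hR, PiLp.add_apply, PiLp.sub_apply, PiLp.smul_apply, h1, smul_eq_mul]
        unfold ZZ
        show _ - (_ + _ - _ + K * P1 U k x) + K * P1 U k x = _
        ring
      have e2 := M5a.P1_WW_bound HL Φ.w hCw hxN hp (hw δ U x hp) hT0 hT α k
      have e3 : |∑ j ∈ Finset.range Φ.na,
          FF δ U x ^ (2 * α - 2 - j) * lift (Φ.a j).g δ U x * GG U (j + 1) k x| ≤
          Sa * d ^ 2 * (FF δ U x ^ (2 * α - 1) * (C * R2)) := by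
        rw [hSa, Finset.sum_mul, Finset.sum_mul]
        refine (Finset.abs_sum_le_sum_abs _ _).trans (Finset.sum_le_sum fun j _ => ?_)
        have e : 2 * α - 2 - (j : ℝ) = (2 * α - 1) - ((j + 1 : ℕ) : ℝ) := by push_cast; ring
        rw [e]
        exact M5a.gterm hp hT0 hT (ha j δ U x hp).1 _ _ _
      have e4 : |∑ j ∈ Finset.range Φ.nf,
          FF δ U x ^ (2 * α + 1 - j) * lift (Φ.f j).g δ U x * QQ U j k x| ≤
          Sf * d * FF δ U x ^ (2 * α + 1) := by
        rw [hSf, Finset.sum_mul, Finset.sum_mul]
        refine (Finset.abs_sum_le_sum_abs _ _).trans (Finset.sum_le_sum fun j _ => ?_)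
        exact M5a.qterm hp (hf j δ U x hp).1 _ _ _
      have e9 : |∑ q ∈ Finset.range Φ.ne, FF δ U x ^ (2 * α - 1 - Φ.ea q - Φ.ej q)
          * lift (Φ.e q).g δ U x * EE U (Φ.ea q) (Φ.ej q) k x| ≤
          Se * (2 * d ^ 3) * (FF δ U x ^ (2 * α - 1) * (C * R2)) := by
        rw [hSe, Finset.sum_mul, Finset.sum_mul]
        refine (Finset.abs_sum_le_sum_abs _ _).trans (Finset.sum_le_sum fun j _ => ?_)
        exact M5a.eterm hp hT0 hT (he j δ U x hp).1 _ _ _ _
      rw [e1]
      have e5 := abs_add_le (1 / 2 * P1 (fun y => FF δ U y ^ (2 * α) * lift Φ.w.g δ U y) k x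
          - (∑ j ∈ Finset.range Φ.na,
              FF δ U x ^ (2 * α - 2 - j) * lift (Φ.a j).g δ U x * GG U (j + 1) k x))
          (∑ j ∈ Finset.range Φ.nf,
              FF δ U x ^ (2 * α + 1 - j) * lift (Φ.f j).g δ U x * QQ U j k x)
      have e6 := abs_sub (1 / 2 * P1 (fun y => FF δ U y ^ (2 * α) * lift Φ.w.g δ U y) k x)
          (∑ j ∈ Finset.range Φ.na,
              FF δ U x ^ (2 * α - 2 - j) * lift (Φ.a j).g δ U x * GG U (j + 1) k x)
      have e7 : |1 / 2 * P1 (fun y => FF δ U y ^ (2 * α) * lift Φ.w.g δ U y) k x| ≤
          ((|2 * α| + 8) * Cw * d ^ 2) * (FF δ U x ^ (2 * α - 1) * (C * R2))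
          + ((1 + 2 * d) * Cw) * FF δ U x ^ (2 * α + 1) := by
        rw [abs_mul, abs_of_pos (by norm_num : (0 : ℝ) < 1 / 2)]
        have := abs_nonneg (P1 (fun y => FF δ U y ^ (2 * α) * lift Φ.w.g δ U y) k x)
        linarith only [e2, this]
      have e10 := abs_sub (1 / 2 * P1 (fun y => FF δ U y ^ (2 * α) * lift Φ.w.g δ U y) k x
          - (∑ j ∈ Finset.range Φ.na,
              FF δ U x ^ (2 * α - 2 - j) * lift (Φ.a j).g δ U x * GG U (j + 1) k x)
          + (∑ j ∈ Finset.range Φ.nf,
              FF δ U x ^ (2 * α + 1 - j) * lift (Φ.f j).g δ U x * QQ U j k x))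
          (∑ q ∈ Finset.range Φ.ne, FF δ U x ^ (2 * α - 1 - Φ.ea q - Φ.ej q)
              * lift (Φ.e q).g δ U x * EE U (Φ.ea q) (Φ.ej q) k x)
      have e8 : |1 / 2 * P1 (fun y => FF δ U y ^ (2 * α) * lift Φ.w.g δ U y) k x
          - (∑ j ∈ Finset.range Φ.na,
              FF δ U x ^ (2 * α - 2 - j) * lift (Φ.a j).g δ U x * GG U (j + 1) k x)
          + (∑ j ∈ Finset.range Φ.nf,
              FF δ U x ^ (2 * α + 1 - j) * lift (Φ.f j).g δ U x * QQ U j k x)
          - (∑ q ∈ Finset.range Φ.ne, FF δ U x ^ (2 * α - 1 - Φ.ea q - Φ.ej q)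
              * lift (Φ.e q).g δ U x * EE U (Φ.ea q) (Φ.ej q) k x)| ≤
          M1 * (FF δ U x ^ (2 * α - 1) * (C * R2)) + M2 * FF δ U x ^ (2 * α + 1) := by
        rw [hM1, hM2]
        linarith only [e3, e4, e9, e5, e6, e7, e10]
      refine e8.trans (add_le_add (mul_le_mul_of_nonneg_left hA hM10)
        (mul_le_mul_of_nonneg_left hB hM20))
    have hRn : ‖R‖ ≤ d * (M1 * (C * c0 ^ (α - 1 / 2) * Y ^ (α + 1 / 2))
        + M2 * (c0 ^ (α + 1 / 2) * Y ^ (α + 1 / 2))) := by
      refine (M5a.norm_le_sum R).trans ?_
      refine (Finset.sum_le_sum fun k _ => hRk k).trans ?_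
      rw [Finset.sum_const, Finset.card_univ, Fintype.card_fin, nsmul_eq_mul]
    have hKn : ‖(WithLp.toLp 2 (fun k => K * P1 U k x) : E d)‖ ≤ |K| := by
      have e : (WithLp.toLp 2 (fun k => K * P1 U k x) : E d) =
          K • (WithLp.toLp 2 (fun k => P1 U k x) : E d) := rfl
      rw [e, norm_smul, Real.norm_eq_abs]
      have h1 : ‖(WithLp.toLp 2 (fun k => P1 U k x) : E d)‖ ≤ 1 := by
        rw [EuclideanSpace.norm_eq]
        rw [Real.sqrt_le_one]
        simp only [Real.norm_eq_abs, sq_abs]
        exact hv x hx
      calc |K| * _ ≤ |K| * 1 := mul_le_mul_of_nonneg_left h1 (abs_nonneg _)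
        _ = |K| := mul_one _
    have e : (1 / 2 : ℝ) • gradient (WW Φ α δ U) x - ZZ Φ α δ K U x =
        R - WithLp.toLp 2 (fun k => K * P1 U k x) := by
      rw [hR, add_sub_cancel_right]
    rw [e]
    refine (norm_sub_le _ _).trans ?_
    refine add_le_add (hRn.trans ?_) hKn
    have h9 : 0 ≤ Cw * c0 ^ α * Y ^ (α + 1 / 2) := by (clear * - hCw hc01 hY0; positivity)
    calc _ = (d * (M1 * (C * c0 ^ (α - 1 / 2)) + M2 * c0 ^ (α + 1 / 2))) * Y ^ (α + 1 / 2) := by
          ring
      _ ≤ _ := by
          rw [add_mul]
          linarith only [h9]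

end Vale.Agent.P098
end

section

/-!
Module M5a: stability inequality with `W, Z` (see ModM5a1) and bounds of the fields.
-/

open MeasureTheory Set Metric Filter
open scoped ContDiff RealInnerProductSpace Topology

namespace Vale.Agent.P098

variable {d : ℕ}

/-- Bounds of the fields, from `|D²U| ≤ C/|x|`, `|D³U| ≤ C/|x|²`. -/
theorem fields_bound (_hd : 2 ≤ d) {u : E d → ℝ} (hc : Continuous u)
    (hhom : ∀ r : ℝ, 0 < r → ∀ x, u (r • x) = r * u x)
    {N₀ : Set (E d)} {U : E d → ℝ} (hU : LocalExt u N₀ U)
    (hN₀ : closure {y | 0 < u y} \ {0} ⊆ N₀) (hv : ∀ x, 0 < u x → vv U x ≤ 1)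
    {α : ℝ} (hα : 1 / 2 ≤ α) (Φ : Fam) :
    ∃ B : ℝ, 0 ≤ B ∧ ∀ δ K : ℝ, 0 < δ → δ ≤ 1 → ∀ x, 0 < u x →
      WW Φ α δ U x ≤ B * (1 / ‖x‖ ^ 2 + δ) ^ α ∧
      ‖(1 / 2 : ℝ) • gradient (WW Φ α δ U) x - ZZ Φ α δ K U x‖
        ≤ B * (1 / ‖x‖ ^ 2 + δ) ^ (α + 1 / 2) + |K| :=
  fields_bound_aux hc hhom hU hN₀ hv hα Φ
    (fun f _ _ hδ _ hx h1 k => P1_lift hU.isOpen hU.smooth f hδ hx h1 k)

end Vale.Agent.P098
end

section

/-! Permutation invariance of the forms in a certificate: it is enough to check the conditions
for the first index. -/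

open MeasureTheory Set Metric Filter
open scoped ContDiff RealInnerProductSpace Topology

namespace Vale.Agent.P098

variable {m : ℕ}

theorem pw_perm (σ : Equiv.Perm (Fin m)) (lam : Fin m → ℝ) (j : ℕ) :
    pw (fun i => lam (σ i)) j = pw lam j := by
  unfold pw
  exact Equiv.sum_comp σ (fun i => lam i ^ j)

theorem XX_perm (σ : Equiv.Perm (Fin m)) (lam x : Fin m → ℝ) (j : ℕ) :
    XX (fun i => lam (σ i)) (fun i => x (σ i)) j = XX lam x j := by
  unfold XX
  exact Equiv.sum_comp σ (fun i => lam i ^ j * x i)

theorem qf_perm (σ : Equiv.Perm (Fin m)) (lam x : Fin m → ℝ) (k : Fin m) (j : ℕ) :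
    qf (fun i => lam (σ i)) (fun i => x (σ i)) k j = qf lam x (σ k) j := by
  unfold qf
  rw [← Equiv.sum_comp σ (fun i => (if i = σ k then hh j (lam (σ k)) (lam (σ k))
    else hh j (lam i) (lam i) + 2 * hh j (lam i) (lam (σ k))) * x i ^ 2)]
  refine Finset.sum_congr rfl fun i _ => ?_
  simp only [σ.injective.eq_iff]

theorem XE_perm (σ : Equiv.Perm (Fin m)) (lam x : Fin m → ℝ) (k : Fin m) (a j : ℕ) :
    XE (fun i => lam (σ i)) (fun i => x (σ i)) k a j = XE lam x (σ k) a j := by
  unfold XE
  simp only [XX_perm]

theorem qe_perm (σ : Equiv.Perm (Fin m)) (lam x : Fin m → ℝ) (k : Fin m) (a j : ℕ) :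
    qe (fun i => lam (σ i)) (fun i => x (σ i)) k a j = qe lam x (σ k) a j := by
  unfold qe
  simp only [XX_perm]
  rw [← Equiv.sum_comp σ (fun i => (if i = σ k then
      lam (σ k) ^ a * hh j (lam (σ k)) (lam (σ k)) - lam (σ k) ^ j * hh a (lam (σ k)) (lam (σ k))
      else lam (σ k) ^ a * hh j (lam i) (lam i) - lam (σ k) ^ j * hh a (lam i) (lam i)
        + 2 * (lam i ^ a * hh j (lam i) (lam (σ k)) - lam i ^ j * hh a (lam i) (lam (σ k))))
      * x i ^ 2)]
  simp only [σ.injective.eq_iff]

theorem formC_perm (Φ : Fam) (α y v : ℝ) (σ : Equiv.Perm (Fin m)) (lam : Fin m → ℝ) (k : Fin m)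
    (x : Fin m → ℝ) (t : ℝ) :
    formC Φ α y v (fun i => lam (σ i)) k (fun i => x (σ i)) t = formC Φ α y v lam (σ k) x t := by
  unfold formC
  simp only [pw_perm, qf_perm, XX_perm, qe_perm, XE_perm]

theorem formB_perm (Φ : Fam) (α y v : ℝ) (σ : Equiv.Perm (Fin m)) (lam : Fin m → ℝ) (k : Fin m)
    (x : Fin m → ℝ) (t : ℝ) :
    formB Φ α y v (fun i => lam (σ i)) k (fun i => x (σ i)) t = formB Φ α y v lam (σ k) x t := by
  unfold formB
  simp only [pw_perm, XX_perm, XE_perm]

theorem formG_perm (Φ : Fam) (y v : ℝ) (σ : Equiv.Perm (Fin m)) (lam : Fin m → ℝ) :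
    formG Φ y v (fun i => lam (σ i)) = formG Φ y v lam := by
  unfold formG
  simp only [pw_perm]

theorem formA_perm (Φ : Fam) (y v : ℝ) (σ : Equiv.Perm (Fin m)) (lam : Fin m → ℝ) (k : Fin m) :
    formA Φ y v (fun i => lam (σ i)) k = formA Φ y v lam (σ k) := by
  unfold formA
  simp only [pw_perm, formG_perm]

theorem formN_perm (Φ : Fam) (σ : Equiv.Perm (Fin m)) (lam : Fin m → ℝ) (k : Fin m) :
    formN Φ (fun i => lam (σ i)) k = formN Φ lam (σ k) := by
  unfold formN
  simp only [pw_perm]

/-- The conditions of a certificate for the index `k₀` only. -/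
structure Cert0 (m : ℕ) (k₀ : Fin m) (α : ℝ) (Φ : Fam) : Prop where
  hα : 1 / 2 ≤ α
  w_pos : ∀ y v : ℝ, 0 ≤ y → y ≤ 1 → 0 ≤ v → v ≤ 1 → ∀ lam : Fin m → ℝ, pw lam 1 = 0 →
    pw lam 2 ≤ 1 → 0 < Φ.w.g y v (pw lam 3) (pw lam 4)
  form_pos : ∀ y ρ : ℝ, 0 ≤ y → y ≤ 1 → 0 ≤ ρ → ρ ≤ 1 → ∀ lam : Fin m → ℝ, pw lam 1 = 0 →
    pw lam 2 = 1 → ∀ (ξ t : ℝ) (x : Fin m → ℝ), ∑ i, x i = 0 →
      ¬ (ξ = 0 ∧ t = 0 ∧ x = 0) →
      0 < formA Φ y (ρ ^ 2) lam k₀ * ξ ^ 2 + ρ * ξ * formB Φ α y (ρ ^ 2) lam k₀ x t
        + formC Φ α y (ρ ^ 2) lam k₀ x t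
  formC_pos : ∀ y v : ℝ, 0 ≤ y → y ≤ 1 → 0 ≤ v → v ≤ 1 → ∀ lam : Fin m → ℝ, pw lam 1 = 0 →
    pw lam 2 ≤ 1 → ∀ (t : ℝ) (x : Fin m → ℝ), ∑ i, x i = 0 →
      ¬ (t = 0 ∧ x = 0) → 0 < formC Φ α y v lam k₀ x t
  triple : ∀ y v : ℝ, 0 ≤ y → y ≤ 1 → 0 ≤ v → v ≤ 1 → ∀ lam : Fin m → ℝ, pw lam 1 = 0 →
    pw lam 2 ≤ 1 → ∀ i j k : Fin m, i ≠ j → j ≠ k → i ≠ k →
      0 ≤ (∑ q ∈ Finset.range Φ.na, (Φ.a q).g y v (pw lam 3) (pw lam 4)
        * (hh (q + 1) (lam i) (lam j) + hh (q + 1) (lam j) (lam k) + hh (q + 1) (lam i) (lam k)))
        + (∑ q ∈ Finset.range Φ.ne, (Φ.e q).g y v (pw lam 3) (pw lam 4)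
        * (lam i ^ Φ.ea q * hh (Φ.ej q) (lam j) (lam k) - lam i ^ Φ.ej q * hh (Φ.ea q) (lam j) (lam k)
          + lam j ^ Φ.ea q * hh (Φ.ej q) (lam i) (lam k) - lam j ^ Φ.ej q * hh (Φ.ea q) (lam i) (lam k)
          + lam k ^ Φ.ea q * hh (Φ.ej q) (lam i) (lam j)
          - lam k ^ Φ.ej q * hh (Φ.ea q) (lam i) (lam j)))
  kappa : ∃ ε : ℝ, 0 < ε ∧ ∀ y v : ℝ, 0 ≤ y → y ≤ 1 → 0 ≤ v → v ≤ 1 → ∀ lam : Fin m → ℝ,
    pw lam 1 = 0 → pw lam 2 = 1 →
      ε * (v + (1 - y) ^ 2) ≤ v * formK Φ y v lam + (1 - y) ^ 2 * formG Φ y v lam
  bdry : ∀ lam : Fin m → ℝ, pw lam 1 = 0 → pw lam 2 = 1 → lam k₀ ≤ 0 → 0 ≤ formN Φ lam k₀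

theorem Cert0.cert {k₀ : Fin m} {α : ℝ} {Φ : Fam} (h : Cert0 m k₀ α Φ) : Cert m α Φ where
  hα := h.hα
  w_pos := h.w_pos
  form_pos := by
    intro y ρ hy0 hy1 hρ0 hρ1 lam h1 h2 k ξ t x hx hne
    have e : Equiv.swap k₀ k k₀ = k := Equiv.swap_apply_left _ _
    have h3 := h.form_pos y ρ hy0 hy1 hρ0 hρ1 (fun i => lam (Equiv.swap k₀ k i))
      (by rw [pw_perm]; exact h1) (by rw [pw_perm]; exact h2) ξ t
      (fun i => x (Equiv.swap k₀ k i)) (by rw [Equiv.sum_comp (Equiv.swap k₀ k) x]; exact hx)
      (fun hz => hne ⟨hz.1, hz.2.1, by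
        funext i
        have := congrFun hz.2.2 (Equiv.swap k₀ k i)
        simpa using this⟩)
    rwa [formA_perm, formB_perm, formC_perm, e] at h3
  formC_pos := by
    intro y v hy0 hy1 hv0 hv1 lam h1 h2 k t x hx hne
    have e : Equiv.swap k₀ k k₀ = k := Equiv.swap_apply_left _ _
    have h3 := h.formC_pos y v hy0 hy1 hv0 hv1 (fun i => lam (Equiv.swap k₀ k i))
      (by rw [pw_perm]; exact h1) (by rw [pw_perm]; exact h2) t
      (fun i => x (Equiv.swap k₀ k i)) (by rw [Equiv.sum_comp (Equiv.swap k₀ k) x]; exact hx)
      (fun hz => hne ⟨hz.1, by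
        funext i
        have := congrFun hz.2 (Equiv.swap k₀ k i)
        simpa only [Pi.zero_apply, Equiv.swap_apply_self] using this⟩)
    rwa [formC_perm, e] at h3
  triple := h.triple
  kappa := h.kappa
  bdry := by
    intro lam h1 h2 k hk
    have e : Equiv.swap k₀ k k₀ = k := Equiv.swap_apply_left _ _
    have h3 := h.bdry (fun i => lam (Equiv.swap k₀ k i))
      (by rw [pw_perm]; exact h1) (by rw [pw_perm]; exact h2) (by rw [e]; exact hk)
    rwa [formN_perm, e] at h3

end Vale.Agent.P098
end

section

/-!
# Data of the certificate formC for m = 5: group CE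
-/

namespace Vale.Agent.P098.S5

/-- Components of the group CE: types yE2 | E1T SE1T E2T E3T EgT tE2. -/
def cCE : List (List (List (List (ℤ × ℕ × ℕ × ℕ)))) :=
  [[[[(16, 0, 2, 0), (-16, 0, 0, 2)]],
      [[], [], [], [], [(32, 1, 2, 0), (-32, 1, 0, 2)], []],
      [[(4, 0, 1, 0)], [(16, 2, 1, 0), (16, 0, 3, 0), (16, 0, 1, 2)], [(8, 1, 0, 1)], [(16, 0, 3, 0)], [(-16, 0, 1, 2), (16, 2, 1, 0)], []],
      [[(-4, 0, 0, 1)], [(-16, 2, 0, 1), (-16, 0, 2, 1), (-16, 0, 0, 3)], [(-8, 1, 1, 0)], [(-16, 0, 0, 3)], [(-16, 2, 0, 1), (16, 0, 2, 1)], []],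
      [[], [], [], [], [], [(4, 0, 2, 0), (-4, 0, 0, 2)]]],
    [[[(16, 0, 0, 2), (-16, 2, 0, 0)]],
      [[(-4, 1, 0, 0)], [(-16, 3, 0, 0), (-16, 1, 2, 0), (-16, 1, 0, 2)], [(-8, 0, 1, 1)], [(-16, 3, 0, 0)], [(-16, 1, 2, 0), (16, 1, 0, 2)], []],
      [[], [], [], [], [(32, 0, 1, 2), (-32, 2, 1, 0)], []],
      [[(4, 0, 0, 1)], [(16, 2, 0, 1), (16, 0, 2, 1), (16, 0, 0, 3)], [(8, 1, 1, 0)], [(16, 0, 0, 3)], [(-16, 2, 0, 1), (16, 0, 2, 1)], []],
      [[], [], [], [], [], [(4, 0, 0, 2), (-4, 2, 0, 0)]]],
    [[[(16, 2, 0, 0), (-16, 0, 2, 0)]],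
      [[(4, 1, 0, 0)], [(16, 3, 0, 0), (16, 1, 2, 0), (16, 1, 0, 2)], [(8, 0, 1, 1)], [(16, 3, 0, 0)], [(-16, 1, 2, 0), (16, 1, 0, 2)], []],
      [[(-4, 0, 1, 0)], [(-16, 2, 1, 0), (-16, 0, 3, 0), (-16, 0, 1, 2)], [(-8, 1, 0, 1)], [(-16, 0, 3, 0)], [(-16, 0, 1, 2), (16, 2, 1, 0)], []],
      [[], [], [], [], [(32, 2, 0, 1), (-32, 0, 2, 1)], []],
      [[], [], [], [], [], [(4, 2, 0, 0), (-4, 0, 2, 0)]]]]

/-- Types for the index 0. -/
def xCE_y1 : List (ℕ × List (ℕ × ℕ)) :=
  [(2, [(1, 0), (1, 4), (1, 1), (1, 5), (4, 16), (4, 20), (4, 17), (4, 21)])]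

/-- Types for the other indices. -/
def zCE_y1 : List (ℕ × List (ℕ × ℕ)) :=
  [(10, [(1, 0), (1, 4), (1, 1), (1, 5), (4, 16), (4, 20), (4, 17), (4, 21), (16, 32), (16, 36), (16, 33), (16, 37)]),
    (22, [(1, 0), (1, 4), (1, 1), (1, 5)]),
    (26, [(1, 0), (1, 4), (1, 1), (1, 5), (4, 16), (4, 20), (4, 17), (4, 21)]),
    (34, [(1, 0), (1, 4), (1, 1), (1, 5)]),
    (38, [(1, 0), (1, 4), (1, 1), (1, 5)]),
    (42, [(1, 0), (1, 4), (1, 1), (1, 5)])]

/-- Rows. -/
def rCE_y1 : List ℕ :=
  [23323093323128829056831743509405821224953960351170318204362472269245024481124023708090754393164657404531059672464888198848769566795234656839425633435125982010340069896041622219932674598315240027391282814892691968036587448405750527932539749057619507954746812901311250461275708445946422551163363520271210662961238533696469920830690657802848044593689444544730446249170905247038317357220403845710036469870303598336182957948486304263897108317865694376383048133056546535833822650551951549085,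
    22996806195495028675031005823934639576055646876380421712982619980772282942458726700906943007538821811127945241215984883606696711405409912921265519514195657713483269434628135388991207269251241580845620897957907098789054892345522695884592246829281801672155134221000859288707384827266936751465610720860121023356086957196878465285776360308188586360779727926697914668105082995459469879355941493156307724523279054611895710979973882598628077787091348114519280732336772409290798734167244645296,
    22662720494337555136295772041743346660004584455190779766883705241710157217390714180318340690916552647505178320423953678947976855301903612609769434259572137570042035164628073060003933851786698797386163413889299518271118955884145219729338353533436609353562966179702525552424200953350315436942343487433290125669489326870465382553997752178038125520340371726562641102572179106949679790329706774360505589468490882108651982714526539534551358737609852434373241269776475430692115667203504240950,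
    23641841537907723633274955477296226965305745474477569050211380216864292848808552794870873153483161174287619983370718698366502345656875074595119360302948693544415613765740782147450563242394542856126008741504343031461400553416486587057096940098855668985070084043922089386635364905928751438559219047708617139051308261702188313153706440599445665887005972396053106167995129162389420982441537494935546908449866824201139723538882829658760911747005839148156381426376481507661659305298325733913,
    23645847210304553573254495052678901862860793371310606837524259374803063914641483021301113692048881427611233864896559007837871371980232107624240571450841941848385607883112457324153769411547914801569555617739631423574856765277298107277056205190667324259183667105531729141245873363990950501934859685961041935270662672870736925904979383914292720294986655158360839959469855622279507507339219473022180435663825331815288298376010496436004854120899668642816540189647724358961648115871559469598,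
    22354768754597626547323072115047103452619613451582044320503088233362265655768261850713409848097824358041912859351444857995185136026978944229960322610096434176453140801839984599669005625156342643126250750791771538898939580487831348872726570302792781477259662113559074119302376876091228257646804947890524387496683843262159332176002090390689178873385220547652262532013506737810051286846243125991405935889955008347897973192197944881019584393808490242307168754168455668344638703931225294618,
    22553516288879182699857758008621332814516498497070975411833118587075833478302311170359136945020111278056304146419992995848429268658216499322376933579457542424872577746701221787283128381276820379730819037516426966698886371820056127420043900019688227505096086470693962881750618475235817369056550874976099444059289209920533385237092726152446668715793687969897395524274975521446694437806580754803940218749577211225599257402192828398507520200116859166810340096312671066703048528039938036877,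
    23275847810409865248559127328589048705403063601728909769155404823495813505543848159004033571669461107074415682563098161370029178335733947945020817557021128871617629567281700567730553516058547649736576573413649090957851471398314354598640844203249979038446249947754645992912033612833475694552342323445554545106097596954265544979253263570114854628588639548086698261752668223800750479085482741904156740305414793965735190424304375235233267225372894419185977350664738716134608618473089119655]

/-- Rows. -/
def sCE_y1 : List ℕ :=
  [23001799554484027672756226438243541675983680631417294578801210598872601202281669822142728849864124007948199267159271462447507764393191084547917806206592135548309351525229946264412052955541732459429840301964501495188478509787343855785777937149842437206429299170515004409514561757942122481541682044471528932678080302548322677106850799091640205331922307559323571181142381555997657270749629078444582986441264930007586859926777652029751428065083133922267671418781655524324786381540378341539,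
    22747114712556046913339911715992539619891534639549477506071328137610902000019624665272132054019402284623767059894898067536412371556917723501464553461184750526974617831226358979033447351735830214774595861904098316653114594318958792327095772666173228408087908387015085843462557549910102745724486649546320530821560293469549129646218960301805489531396963010766631159704003839183492299696551468420550323074845444761707827045053965621479082202407470133350974101744537787026870878744554497485,
    22464443697214228018856091782323184568261927218430504093676284203557994436452263800292903690250015611158735302133838962873848370718161525776726163499232681498506927100060463621491089550018217595425453638879835691567127322451079865514982389334994479282816700657053414213024675384462809179389134481205678624312725822263817368811759710669798812271914058675905979745873248356949536915358856096848750008714479301539559947249927887789555054386533632200300184812578797136789441199815904135932,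
    23023198469968577560493727140798006373769695703698943667586603135563507770609037215785207406903031046910626330819885230827610915017339823364286620630592836476030806094046357273852008587145541437081029255324746342124386166242467445679483547585698560183049890210014248239883197864470631048382185042445660358794633763023626314861387635473886065838930374453733406858772241990721770649702049409732560983326933612891713162912193679454912039850465084789120403447636231689544437041452825358682,
    22548319472627309162562601706320581041988777185560901754872915090016948259006247419772147087904132913277808335649413370161275896969979055603044352308918298788404349157398286701476536089699149294843966701752739303919441474686880237792842072934580044211876990619175734519478657652780039865915529433978609224899487101555871540507506075818643227759386809108624102712374134611655364666763213597756780741492089202983658259306579150439793437669595651424749577785992120542655928211680126434314,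
    22494637518984160015264971387199064320698177896762209833803676742947637455557161633284157166842381189973093206782383046044564996036231172283089940295990138798122188228315049115913827801497265548553603376093745313143946356829195613774442957422150274788927071473058565596873824861988346982409908222744323340921318022064557714719696691407432449379924215427404815965445272010696227486583900958730698960581857581456685952561001228224894368577459411708204900870456034479575308942049805211090,
    22831974697542829863780689508027918028949952873185891624891825797999235106234872505340764306321995822319935255067030663482277702290424681981686431637027841796547794771101873825033980701628023500368999669478866572480328614352182832141149311670662564987517302513645862341737342214568737568495361834278188085858332801694185135743172313898504509263753203755082023727331974970806825188668119692161736935070739693963881444746980677618460661795335442466700161818461934386660604622849360495200,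
    21767753065664107124468710117047232373614156911336500886518411670297608310067609969047159584145168803464685833509177693587355732124294790401240108660692142762438484524965453682004054438935071544487439113035531076708512989793242255561663391590477310169290390170949871189996928786147762712573724897380088103421239285848599773070158814090600377509276986764014795261492511432485315447607058418758598136122492806444896511581451353212986281176769825011058066979651625089921524678952553799938,
    22721047227914573619294479275810858514110006967882980639944058963067397062940945204666434958977532854111545214227076934824211810874384604028660712330616032159139105534574627643340745887208574347138707357486871519133544599091623045975631663030532620209257233992765655528171195457694921969243081923415315045510560773019998546483136828981710780360605776744557843166834653410443833819045179999452549850888939169845980247191266390000423296975546157283927352698654973839117734355314576065719,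
    22888291662749324042757766449450628962564024260808134156686765381274882791847361066303267932433970103786887147035240608391210827013696923785207167659993860536340318378226994402143008863177548670340431829697430348605211375665230209579424039087618121160773740615787692756005067779497276758831497948642582614807584205503180356295722206081103892396910998606820121544378940188959824544945696246808505876482752366631841751102506055181410284527182501847441251819847040466789953895630878117427,
    22357071883157802375920746497190880259636443176766468061813392220669073964943947834091627023353117596557850798584464741357109367034896501561685089391471631590338858259476460169571395149154358229772211974090063251177904855974054694685984604994704049502036034693128569654229008744292216739877492529598581056607052412368124133841844222219441066439753468032559710471682284231921450975805917946570488761258047961989776688511663757756193737272001579804405534893580909644724414020977839457714,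
    23213358496026153810882469512723395553960857941637343920852764947701467540650746178394516595550960768579410898673563892536025206720836015261960021677347196411087209646872720227284506847781396384909112851698916360871729933103441066300480671448193456723172751223419228900022739851524138731284185882471060591250156056370498854008540727875117151704597451102382904912006340473145981908877551750741053781696841956967523154595004957776982422779415309713419177206253921905396978751670786988309,
    23478384811199305287672042892228857066310452907575931477352495357034015998339822779611873356311929715910284500715715072986241144901272196701277703263037128731462134283583899937291338492916122614569167897485856699270204496354992818195747934413959273529366731917110009452014081007678350303407971160261612886757352533240426141650752376395225919399549331685754352822052206407977901742981417575737468237335721850644567928311890038458016387936900637702128697278830255914724362043691864442653,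
    23128420773700314756802260998548649543345307611560510123698233575823782837977632191537124408337197057281805011386602555468707786126055238774241071453177217109947814900948269811228563479849351094586492642630290456499837854500276586402812501355763879644207434032411632505171757081311328848710766424056881225299364780680451109424196757715221024315828142225047770719942494652752717610219004098401367903464692899341015124929117876765073735734723776398619071091591694874401446835995026647136,
    22238047867203803908546219262588098805748620236654820778583412874390937237135303077359573287270433149175978325420843667409129284038199508782008887402721859172301591284876512823180676843215025901750271103715906643227563478377832016425415624049872680511822161306084854057039303823447936954614907986918779408547673887089168350010947735783499906873068746356285516863935895925954363048943011918492706947478308751323730243083120836214857084960399198501083797204620703025528206473708531811200,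
    23186939939844381154336030452210580601154735433739533167121505516640765436244785861484984373557447007499407337270834402671040287229911632671654522828710098176183122334996851673633991114908110076832557410001531372891435980671475318208239256816146558873862209722109400096081663674933370243207028904311469766750315769882362369356397837888427118174165386351988415006164170407245036109398644974581106917209230839799296077231348296041047863813073634060484287597232615498477908321514773701499,
    22823388319612299475667645314068757408448257312783605425102696792496221009885935646950090096644058073397705230958490273355399550722244784701598114815602127005626810314739200520556969230012902228814580584411664707204962091030271700076042110891130030789106092236764592974228686261238157218473652039400552525157559457239546645692746349128804367853510559606939638106367318960848765279845215956664331141807831941849826267940659481553565012057326716633812176009291674212697506502282251023518,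
    22793500232981293733214465416124877917429495187184432108182971247065068708225641488580815191560334962886174076598580944825765668388362146390414584257178382024858985594006078777130990806708424841705157970312452142073587289999041990467195916832771880017943429451972791759184942302306672666835280461985976871723257342458082068695906266973645145904243002872194010290340518637369112664770990198119742645265897271383550457990119071446897432613537230556166118135890181588836907391432881834575,
    22535073900507576526813055780702408979280315637707722559537608440297732395701896132532785125937122447344498507927950413388057050325680404644782294124580707652570483109461184730084302933766611387102599843814294234251880113524549043237813255239748043342555037481437811197165368407627771058309441164245293763631615788676817607520673868673575361162762513896299066749403829439114983469579217477985913141123962743104619174311363609174791060456810133045135877947021241168411711140608746544248,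
    23152984417363688038924693549988325518315263923870360148980311315877334131214426450963161009978889483415333180736655743417565418025016011126950312479844432623663228465623100357492100414026374561666736880177117003048904642849904286239260714902085972347929672509342723492604498256398785712936111073640815693002281700449738375318565797472556680024003750535072852092270990225636906143305320447772493549808630874626468345677462259468631067762905973015626611341488563417815807486870072474185,
    22846378832365719514816375995270978573022682325332311615952230801936725032618865252055850416155886811519569996281224928651966637943902106061401800589481823237604984762510771638120036281878115561553298748286196968299997831235064905479040303230224805964846844966579372093031154919510698263629615641453249802102408587736551322237888281001350855183969420412439988220659255913180146626456881838024992374908282522076042722732002089248390020811745541695452931834488759110707907051389017075338,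
    22567899892860614598933074027890866023018468645720044528785110474680148195195950141090315551174503241268085847077245362006251823950022686834468945316843458950593645294586278740634773326243685635971693373333659342648886428909409175225220630974084167725743236683455902370829440650082648724909943670823321704518521125241263963242740753232788918658102844083907321041925984865429412258010478620262022342850679310513829546083143380028090525787518722411645614633962329641803788839040803553255,
    22468908378457476460298681147058517117417934877634601949259481944545069622598757523082403037230656974757285225932808338988154780890067564712228652667206821673854330456215975398500714622948113959754460309783435281226776553639004063432280492999595690833510796198947484451510290679381770544087119229639338188772628909270221164989722230075855527922623089481923817325473253574909288023562026251928526672552676846850011093378545917363903076862705166536233127007693154182792907566500988926804,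
    23020221144350715177943538044762647996615822697252352573445183007115039890128863970240592200639716251101742536779538760417316275572016086879512375425378593990003935371285577685177212432492498805531396419968610516034706834930426765356865197407011188725644846883027009244208769994088495108873358935071280232997091026118064164414327016857800816972868070043194957182634100636653839541792496219567322468141924247107530173517855920930572335130568797367726131322300325327724332664584332930733,
    22990471367254770984014200473199337553585451071361611407606153228407676147794055291184816758937152274513618943610375504261723584118750817969700078412605658734424376605894590617671224186500934992422126552674374372870245471073773577593905393887439235313786538672587997199601879480440431118431887685949948809577848670974791142236149691867574034729093321702643246631793321142165628516206361878746679324016635053816566367984133447530323987221450303966910646472820995161605835102826491384773,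
    22464448389332796992927750136172610861530276991855419445005560968007811740209978939826605123912409628749910421024273804623821017045939355679590188991664794060894296379274912848990441768107635802833315579022330739888314587304504369105151555289184731184971207601620935226304696403281865683153440668614717213415633287397871339241751456713222998356165405699557856194333579184576267235908680403399140887188363602432713667884748930443461030916427415692114416275936682844786053492869518595816,
    22430610558095719046609263792646350072179681357955984128638066139727002350619379035783839162959889478648724951350928869782818620652529044636793317472021690166544697090322138458949878259349443073012196774768590322829836830853686354910138011443844293580798393193173453496235946906480072988054858107454357443975211570148414178010301282298927757554379165932768534498476380713377671586961574854208261072598292036232546488087225724247329404219578215156413845824462871633525762433810829296114,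
    22889651595713266184959630774396286229600358482644928442024005717464325224578506617956629282432697272085928384046981158952898940424653491593275374996637322354401980444151724096761208667365314049061472221548757640122979945987944428726625873824525322400110640379116012636357779694338713828095522505021453236073537330005715114604781592169532212291757114656076053863530696636542203175375523931357596287297710246264648516212414648314786496317321895418002850767056076543505590103600152227384,
    22794070365958581324390187284118975202197298217939172037070852026742363109962483877031765633903274425500839657506910018187970631149285593747196337221232103847050208468360240082612417679548921840318823376425479350057726380448197108656144242442726377486366932086854453305954019283167050780590818450571680888278570583128879820135378801334856255906038314979552584950155634925162433626730979036405138979934169566472043718514610783774938328841305477465580237451203843511855373999316429029609,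
    22586843527103269873713997921620307372232237230903554302228306272019082866500646210332147678715896694556822286681148218680376447906222969652781632944380623073600212364307611899563461088837949068883769566268712630143938830479368276204247004629194277512710694063206783080270536811499856680765337549417475412788377414298678338570940374963631181785299947074118836662761211967924330954494968740315345399276033345791019324398621063479740094614707687917763366433526834301281482129850451998130,
    22686310318404149690664558238229214651961425379167950352153446664162145829400613847751267367373701085516570145219178583134592815777483130298288488525289531732619313296591021283944131277882709147773886866467686804065761951749985849680478779312086800012793750908180310816471591504276802432363574318265723592864008110521137017649720269446843460035511283498157217549643072840367121122385858351114512291454008324949794823012390558286959844550364438300931873925348771063107956039865882648862,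
    23042633708784328585436946609491456159504938820185450856079884145904071621144557738750057951712234988181224555502698080613044539415187955015857488210855744595727024893954501119372524284192858512912545480354042603873528475685033279842693393717382074045868931235088047240770129578685148456949532472623641717395103158157216957718746153158301576216532653547902586142621186852125488946366589813798169444919122457591848559376919146321898364988024658510351235142771073087387165739177585521516,
    23444118677258864784880793132953625513649256433095167871971714628424070653954349954698276353423002541523239299698560521288085024298075654998072964646599634914463465972491637609967147967341748039287661694900914760242961941298759511616833044542571082677282653283734603003461762379406916242020032469304364163156338291458730457519605618674464763030409762131845181103348114224304495992733876799485864213521410461401739727461591274474813695206664043574551297976526820410232063792884775235759,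
    21860673639500805448961286568834493535952022092507633198362462225818873530913794610498444746635394853408901880323517788423538319342798758255059685479204050957525514248098487727365435404679296434281878671682015924084116009881765460126485369938924552131543150527628174328867832970965455253640829288161491418005842471898336122338166084968400109082954629149637976717383227878863785570215902843022996769380793427482472084611702632003994653297782199235119746170350213730889221620033224204393,
    22131113109338293961489391510709025507642760420249696019169407677175230835079120589171067622302714004558705556775886497144987915184282168053260028021559317402367898454411779234846504927025355005011900856756420571916906973928974938709188742916628520074866446484582200337751431068947018385287826130613086096591538062228687442670095787932221227460485472160823117893483462925426173052643120132282213657149815884875916335723359313122833707290798423039777626874838420089138976427235234638905,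
    23039420177792391475013322262374699871821499952288339356772774942074050987250653173250709997671562820045881546819277934151993147344686053292336183947725568015662916628496603049239974025497113480252494006891890772241331783067674965496907523304227152139353948515237368158275573962751549257094874117211555498863342172795671886085315309252016700780996681890578017141797216707024096081625371217409848344036541659749895798509614824442294541964969427921382000973914504044403653041055859728865]

/-- Types for the index 0. -/
def xCE_o1 : List (ℕ × List (ℕ × ℕ)) :=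
  [(2, [(1, 0), (1, 4), (1, 1), (1, 5), (4, 16), (4, 20), (4, 17), (4, 21)])]

/-- Types for the other indices. -/
def zCE_o1 : List (ℕ × List (ℕ × ℕ)) :=
  [(10, [(1, 0), (1, 4), (1, 1), (1, 5), (4, 16), (4, 20), (4, 17), (4, 21), (16, 32), (16, 36), (16, 33), (16, 37)]),
    (22, [(1, 0), (1, 4), (1, 1), (1, 5)]),
    (26, [(1, 0), (1, 4), (1, 1), (1, 5), (4, 16), (4, 20), (4, 17), (4, 21)]),
    (34, [(1, 0), (1, 4), (1, 1), (1, 5)]),
    (38, [(1, 0), (1, 4), (1, 1), (1, 5)]),
    (42, [(1, 0), (1, 4), (1, 1), (1, 5)])]

/-- Rows. -/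
def rCE_o1 : List ℕ :=
  [22926576351538800641655285023395088526881193887174937730845668106780711115990831768434731611675781673768308107024059422729159180259897716992050992624527705119288572274960586911582587085152992962967104297899527234528572926575537659314840554215633399281976362478816553471537607820610180906121908684672176857565422426921586685344220173893072676698693096001999941215581606739466807669818449390094073731826368263732760395121272548642380009441498767125341410038821117170694189360642287210794,
    22797225362727196609391176378178029168914055397145367085451336015346078427192675496574536982756305089502083847019412420229199335863543786278561567478339532954911257732310886080596650310431155892110362618737692098857265554047409475894052647075897306134776903602816363517394687638982317630667065647913709513459519022964166770326494137181865289150673462461912516856493545991764868741905282291621264826669677667972330423350103298316149512355103020665031491951098756239746913272749612529431,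
    22737117454863202445066259148815845470928167289589816220384607705167123727095715043398099611228061894771181604115678963233318900424164510721918159876973320213027671005305234198746081209815766497458918323939002596252083691755494441728227071265399317326825320982730238721130021059309172426942298300416798293473095552248301411926582051094716185787556928703238367157304690600871443518450599977699686932281125390679676787258794229090176319458302759511364374303713881894300640285407852235966,
    22941482123131980780322174085928856221776667764801875973535283818394420360847562566380725072646025499528232471128581905179345923400414049244124966405882212825155766660933888018639578207789954616932502611327305873033535547784756046111638011684106224189803644452412998933326042723287182184929904003575423372656867235297013903239932302317283797080103349908183809964469171516322436850435377713508330207199302090029194313320848337032286130876681407157938906444222581313373740950475036314040,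
    22380023686251796904557664692880700268486417468106159491547414825221389331360561232210415849550719819042147550161596504751664646702942042936248272121471226557001193765202541943761770703648003157178969126571040159067921057405261675742592458099703830303313542355266360992591417276266420483648817990197362309883093952034430328893815032644440541870518777713829808753372917324740510156643806413253357354371817677423047670091326548867002233286695711091021685468099941048361327241349036299991,
    22725605452083685177789690064846149586569689569985846360495873513301970210008721690948578710608378802639145937131722944050339704808116476780848019173106633506989388878544846911113134219006262513764474295452533821241728958033331944679845489930178114129247241050037441012930394236887118132747961661028830697883222258598835842111320504346375004244512839311936119156188520331028016059117977431030083466239042425325335506483556234023454798157792557871805879028236052166788617997102349851797,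
    22380704716779961451715021235204914863371838234856064677154076451923804435102455449719956893259896202934020895952395022470146344969615250398701735901506789161062396911031807824104718054890123774296948312417969786544044099935719201963186601436418681813010207320421291860016507217152080310230235079823498689178949716791653976567741122221525654313073613097922825971683795289852327624793538056949356477265534474017860985907960157007426783474788589648547863428577501023846017601087078494890,
    23302373234562230594616194904635165225512108098060282851964238544001562407576032281344617046097469850857257211477912459962048310142052975916545595452380811355277040446377983766426066609962992581845210408395532789492741271632716029163819184559525296805462514998657938430719633621035890726798276250768383106770284899436044273144467635523572655312477930698466837671070933795281008502082488259246269545690139958831485957423515500737722382900644105363381277523056341169564881660019101336692]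

/-- Rows. -/
def sCE_o1 : List ℕ :=
  [22477194027414093555845666966752114621486063454499511471728209310180453967586692167542236993577715863836475210917105922346863289510314416293494771109935781072726807917314073607027756572722515664048172745695172065655908205074396788860051586974166979230503531125688709875105858771710059758373981144148987637418599379596131844297324180637187616452141611088262611222617967801295994773730207580339312802572444452642720024374434220650343591645088470579581083682838637298277441915312019364615,
    22921395564817291548737069931951029447027545977736145512155877049937724131011060653654090481918705585637528830320054224606588139334952017957272450420788693235663026481926133639687791881604076866776885214204996967859787774203917622240132453983110877714140429500656919974517195633448824924315481659171523906096060805645133575347446246589845167599803115483916375042629471814581228729326037092554609985871721822296540777839050931865128174498323595718524173653162043940094455414793652561512,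
    22851727577366381533042481206468783334305815420025086736727138710605317487250032424923693065753904571543545363751694174714651724253575991875488468721817345465686271963527013306423652355760682019532146402100551365016240092964341261609233753934058150406289946681923178176740271077150772692654677165196991634927781926880066980207351953667348496660246496629188357973058433889828067833323101543733052418418896805502242425286763669526312906659025203079144319839217607553785643037256867796167,
    22677265196646046934545862042970996036450702334062201681714705309092302615962710318757188803133346337155296483500414183195248069987781662029085124541789147973531206386340607970624623787856267816529480012123362240941632643468001678012837179163777288474427979468847305601318343546434965746345410101160070395100586513506535653256270924077191926420388403681742771625581167538068112834078505034519502153400954746599545254237793353571728233939062048433192421009038091167593148995626347171733,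
    22333506785141945457852755901654248528636144155276515739181667373096455920380398964945334332656486836864553353368429982789984593158395178983248218092308127376012989155448136062454157021918448488828867630293048937674680916340925244066440929971834156813443000362861481296758596980352716656272241079326837632415497272932022825240506180403372943033876355524851895722317024067958108856774055606281613410641794304871155715634914614109425638672121106756911589576854465808288198520070126932140,
    22476657183171716600984297444407972880024570744096801621361197926433633698948018314494925706500220032418727817308433672107083051823777045942892100339752905143215757645060067660913901387749903344844998156918395722349987460957192308711148444218164472144171267812652114529342847831906427787228824290515486475470178546933354553498888371626478396596221830913214513905641037216251101764198054259492505827407041007601454367579378561135239543034106001728597696319819728027263602663489808871782,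
    22618282615750679648372695409701917213381331925459413637250946333466374528975704451094155328614014257221417364103685491672749221822455942787416173330571200886505992910471577039884950411478478716355646760274043680777125063106715496600160268184973417736144787005198061583598880084362690631356019382182075677244442465570201542277907500023789050489172577077814174541276615949344595460019252863890727756307207791031227625867850689256121920237890790154052808624486705439865315205747827016137,
    22618043602537345336964005625752970262275245130851564897196403906803031260742322469589650156218840328485057775623961302845946375596374289982041098128494298294742189996013956311424729258042175160917978184196283782416074869283732477533312127390532846989066463622407980911533853944098459513162389273240064809498704240831918429365251796216045686716817591493609987866535265555627153999546164553858339425942367712244284010945448633652654834343198215370870062665876617283754316319203260823984,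
    22555881655265729639576262524116188020119449895197212447480591709536496265286761273029506843729596331174658754123847035109663120286974684766514154143174088192359632912469732236775364294020199833367608225630756782437520131388925541020431300626412313050413470553629115085562257001993744157835933392173358819366043711083725616442025688173628618973049714262076525682273858379817352028939202152132636859917147587508202963889840142919194929623353373632425463774617030361701633016608419004720,
    22575540941807041195710563299391951036612416221647787854169816420650264793095523806518127808230748773753433968842030169144368869924088940080678716256419497007085164997940496382149392332117308152153932456469084114706086658159241443360876229963188946062081088176469082733275854853317988882165056896562337885314555826757674549649279173563033248067688008506351248595499785562972099551387864112622761095444174149282833555202605924753219181917489858848658337439197240283928085251684564521681,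
    22508038711538825289690762464366176395190944705481854739532218657811130938540459375433832760452186705772687325314290207299198443185951026091259277108954870144562376391833045071062792252792873907958950951519900562080116851110326975740799776742372106214620463871674205173873128892210746159692305071993563867378618000646375559825152474033998590053808681201515634122080438973822402943871270619442864960894745232935929091269151805973763149636288560040192882363022956711983022973801106471093,
    23121787116673852684680208139527791081982023232680029810698708015347212707533392028520332992020005616009766675021942054450839407688489769622251294753023509375649484636934177213756041904510554941705020782054953291513683373508656924566233971665890425224433603940948627171856263736918824670227831496563303066799109288728181907982585362644529171085606455433183259321542621331743779908877742007276474905753154428286030629291831859077030376372869214380041853381794502327744809785612943404929,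
    23346919380395167632085829418236132657311055584939644180140182976626249806947321081241473375925241640130301501695518380833756327453822290842517887749518898793362747580885156164411816344784342351192125749879488541241619653805511099422716958014398766181212452444435759837676038743371004471578773951175461452580504317780051490488577754033636289980747801860218216280811868100816170312450707628721469175967527885418667843076612020288014110304187433963119691487211815557912431917618655430261,
    22815584665727513530576996683608115686671787094009137255181517904267945653606454278535395240395657949789334185582510367631273191282776355710285393029030005860571679184520686541973415527805871085287735341500042723113581034306901948696081549842882710934974534545354550375509499057596922694097377507507726600918815681739750989682854234998370632721006307579066968952977239638498183314788140140533185244667280850038972247634168446209315096267525954865258228830488497495593467457631699904551,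
    22461369478848572854341573417678406603810276144109083109297811294157559756956660299251620042026026882986066413793274308661449166410687794331976165779520302583815711382599747909037660081049603380600346577952387448505000540728947141262348572836882961770292598949700679121972424197961901209684119224449908429616851317778268158702481086453865631305038341714818229209860726044637078369558230057009878516508242398249564456159765013266592623132643602520142496585119916016237075380750474562198,
    22994284074398216123972247071470232891794117680272860334522545177466620265187970730905901370119404905118660306488867496849471697516036609440534888122185238002003205323933055752967391612786704537700591964879232405541266133069503460265798505021478410113352827613101851598660590249645336086682159906818275880774295618567246149881599487985408064579645538345996984037420307517450626336394652715735017416055316882831807609889297040255294283167926018795785129978606926895018815943348098814656,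
    22929341866574765846192813860833774635457360116178218338298668082068557221444746325041685009474330605072527846071756016812276921927386273219088474164290139101311066820723265191435937173234003351181296436681383228891144789967411861835182815264365212445915888129152220785320552295063133319921853165575261480509148162166713517061893307769915062349557518310241305384483242351522106458453895628151997714820829801286211975407778690345577807144512511535522852845350567202397546761374680992392,
    22839537791845738322159309937725818365004818412385267396412302235245367170801824737619644975253853532884972931062163494440402386651065004615299993458669917064829908927155844858492939292312883907046359494864619935068281476361560665939563237381316744277925666908169121804631800194259349263559534141644626356657187149273872522607764529182603393303703198420931540456480340781359019735168137463794816859688002826789300632947737082823599602347125644356592842787830764583420452656681234331716,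
    23020539928900919408726444616969528874864081189601097497330491830593070252683335618275808243611567417344990075122862401155168298617722674690898533671661263054120979243267075169098923259669524204520897118953110366010083505675589545000318952904487008408036215709353806960506728160049876371757672503011376934883151556407911921238246424534128627771766168121439750364368255198720369578910234203077284817660001108243684334040545970019341271443942625041922449597117547407396289023069417034429,
    23149621075112743422934979019783594108886455215525556561259943593150576171138285683963789246205916220699965866179580494829226988249410365822255753875817194777859876081662883576827606173561249409109989552198481478735969918793341942897025285337386635272705394109721677246137339814087727251006075687124138281414614035492693210036811723064430261540660228447230406497618596003737838294288816097154352025488142352977558540993668247864934636099667990626962434503766970356331660955189208193596,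
    22434917400713478442766547308730814340778593800060624981629050456159048045761193453544732316298535466773509533836974466431655302693352330501610348976283110542957798117633612640579493526896688932645281704870316861629055234894661950737650239042694200516127990227954004648500227907571764582373620263347445577219852319425940326409983567730921545771428970448005342303685169436190905958327257914726455688553184973107239458848258609400544462240491941227475008491706263097142126209100219540176,
    22704489624735530643614243573905147062602600657377901340104672375257731859976878625950247753584436042386542035653561352327324230711344107416555675059385248897677862332232304934706276149943502532567674881892780260638796208642392021499249769601181764920929860316455378785562110470367497488619542928235197613381355824505047063252370774570615022230527692842617196041486295737135363521711879813710448249878365973221143104612199831167078721859926814831185768534344603460558653944866074369719,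
    22488842247431871644856040779782062964834649635111477568657535315151867066327577942866288682507239705361939867509469899286854227222655180560361040897969194899901277192894416295292551226382370293182672269179148838045204436288033947146898044124209275149561488758893736236997608386952527972043838716063417360591456483307953580738294672315339554623189044368041249973524165917624397491952420787463886098274923131953543914906357486657562822720584317049420848197914074371661918082591510627840,
    22970749043864417099029437045452866054567160769724156651890065338935756088235717412584747836860899285558996036961643124862971312867361421938339284949108349228403202797800066798783839444996133099672797373809649536678008636339513444495438856862668130725421734644024316958560038957516845698373978997136026702495917617465073488002553376960778647974930328041505579600800191434334565232036272963225891606817728110844377416426820191588355194338292694239379299796671754427699148978054273926943,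
    22628840750714200406918741731656424941373889728887239360944675793303673009125471468856492993806555204662241429611967644312635193668268356743321615463261497747181254161583104420167437240766113820859201924686632039365780789940243453274910525707429496778756937437931759421427962812446708988149105320156862203081429884462290417551664174574284133862948147694868219756734436753093990136149377201085321885231640301778105434433501447508491750172911924311791813057178368460532055482145724331641,
    22677816141089087943496994094661190443662435425307701902802184769911136020100482571472065120017213581799126420804229501856935145509221497177917056477391723798233220827922523742342424842193388351069282238447652989245886028005292275414514585362877294640281255011886841064876876720730127101754859682190970177682303366325489242450068435479173633500471054585241633949977455510055890385733590641404040024708142760348385375585541874234735221463506390136458731035103710770380815778262898490543,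
    22367933297876480917949080709285140356324154320323155872646861892373491351404038808971022048044003557408466454452527468221686693133858770235496310540227727893168835051836473595598924437922874017059531198740011996484608951981902356200209891134597260621312238601362474360812095341684577681359686112195215773441534623699054505754355935330748429958218715245481776477497120136328914652679271890172509003377011931991396496495169548132757480345327535315843505522825421155368007123687930070103,
    22821700815481839697535792286157738153341441263541543415050526035280147319222713312748100266134579333392372785040677029893505430499190962738653102472714070691644073499649982282409195828571949046956990642228465958890859933595214756368683502245899967611750209606689269750770399876950657792841967310333209974312555442112554547451816184627873341842357371750410814197897357894178633399959314026585159220852029809207980928828544385369211645530802055206517960198488163143504190830025790341436,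
    22595951326624464039187573677100796292226748547236713165903964282276824296075490921736213306034785496656237322177703305905782823687011806508528729003487655774988801870766831097426655849231285056242303549470344965715373522676688135420940956142441330306122079975349524291138924856666951332729615058500790085662042300176850488916136173182909536640404197509190597751172773161513483970426604978930320902944860337160789864052102936801029685790936433794053219404669997192670915819129309225006,
    22263415792678499076671157351915990284050282648682675239568694879463802280243043762647568425302076803976149841764272020276722714656496062071227319082616973550757560485620153274900517565913159213747684724490990597055176010548552348333422767673898822389204508470281827090773568088564688263999813196200634945902821529461491582977758453085615245766071190617052921279352636507898402185715697234288569790230503442290046215359665078024704145994979882621550762804386467307117836343448049477731,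
    22724729678052604315820540449969716388057579083351353898066082742863251000072191157984209864691983632890873784249170433811539514561763420361090921606511259728313392993655468256830639198688341337749608864162429761521369282812577226609090753659087526159649601656556417755669103839681430993965710556693755927957327660473699922981386205748594874463168430875737889272450819546223201017925808846632275419513296597905484039394804788062454934243029469442181079555784042192947816517330420556454,
    23117592725909643076811222467764870207270022917576155400547416565386787897225184401561725563902477478189279707617079643718322840151563730514401893392670707918121715154738444522134339476260978240063682615880236085106377478771256004097932176799271506448392681662943422717567943407238278790640922377079024141012408322534079376082251204759543677460588083232603350388474315063791343639554001469022806855105759147858472480995719111766459083947641468886900769210486162066586510813103974643638,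
    23809922575993336652628808958764071187792512235280446658528015431291905142613316599743143043332343894983098105043954733256997178664401107311109587310528355691036748797372204551518981717602096133220445852783848429033850698890126571436766081537874987634189810815669263840108727172339105239412910590348886478550635580357197779819042659235318895662003992592303775181440496128807794096178585962556852336830409360353642354193670402150020350924305987142645951603065612014569619495683611268668,
    21929369604175921510412397349126791143407308520716827568563195199818803045260431856705905341449243146181038498818994534878526929501620547614274594337359657999427575344771489376475242274409354886451504389415059834786165086277165458063855652476918225945332899663194673117426048662859844773180554886266830092863524228032230174203203523934665220641518357206250434950687228302292018081002074666477837448739412606212596062625619790266970739918785049361008516090339426219636594067157114096710,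
    21605544430921223201620157354587674291654309458297927050788730282467173008941518475316088234821700345436213703714902886917310282052358025532291000160073765487011749544471829889630464916301793521884766252920027993693600885975589710263168223183530874061784545469903633128489875557522079593631565164669684365963000613497620191357309398210894545943990728371947124638967720944076075936824541323537968195152220406717289782974073511434893703162735834253642781708258772948508220922832029042610,
    23570081507677651344510154691998794942649336108633734473119101060332245156421655528931426858835738772826898059291961454251883958559324212481359768910896031957283754990447822889832836328175134069940063039348122160560198597744884130543690569154491771670653987644994761886206102931649007237639366239543129317260009098266304108389261685119060202498078684471409926656059246316196796702954875218560499140597657515498259117778162567751310843876653128542005526494074828478649712911930101868059]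

/-- Types for the index 0. -/
def xCE_yq : List (ℕ × List (ℕ × ℕ)) :=
  [(2, [(1, 0)])]

/-- Types for the other indices. -/
def zCE_yq : List (ℕ × List (ℕ × ℕ)) :=
  [(3, [(1, 0), (4, 16)]),
    (2, []),
    (5, [(1, 0)]),
    (2, []),
    (2, []),
    (2, [])]

/-- Rows. -/
def rCE_yq : List ℕ :=
  [198829128930127839344625521424081722006259351734332537502088]

/-- Rows. -/
def sCE_yq : List ℕ :=
  [166540935314171818924384398537764240214733426932157226286698,
    208217709305227262864211869032490076332442788028956632618345,
    220663415006387073211986830857110167262614593685826222167595]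

/-- Types for the index 0. -/
def xCE_oq : List (ℕ × List (ℕ × ℕ)) :=
  [(2, [(1, 0)])]

/-- Types for the other indices. -/
def zCE_oq : List (ℕ × List (ℕ × ℕ)) :=
  [(3, [(1, 0), (4, 16)]),
    (2, []),
    (5, [(1, 0)]),
    (2, []),
    (2, []),
    (2, [])]

/-- Rows. -/
def rCE_oq : List ℕ :=
  [10522560845978798670018353329174861807565969768484117943928873]

/-- Rows. -/
def sCE_oq : List ℕ :=
  [7243365297854982772334911758487262707057039215910346523739996,
    13337259982430481738176014473652437764742891541072182799928190,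
    14242878353735398065545664877553434582880039902938039325390725]

end Vale.Agent.P098.S5
end

section

/-!
# Data of a certificate for m = 5: N

Target times 4398046511104 minus 81064793292669 is a sum of squares up to a residual of size at most 2133881627372945408 / 2 ^ 24 (bound on the
domain). Integer rows packed with 2 random low digits.
-/

namespace Vale.Agent.P098.S5

/-- Components of the types of the group A1 (for every component the list over the types). -/
def cNA1 : List (List (List (ℤ × ℕ × ℕ × ℕ))) :=
  [[[(1, 0, 0, 0)], [(8, 1, 1, 1)], [(16, 2, 2, 0), (16, 0, 2, 2), (16, 2, 0, 2)]]]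

/-- Monomials, multiplier 1, degrees [0, 0, 4]. -/
def csNA1_1 : List (List (ℕ × List (ℤ × ℕ))) :=
  [[(2, [(1, 0)]), (3, [(4, 16)]), (4, [(16, 32)]), (5, [(64, 48)]), (6, [(256, 64)])],
    [(7, [(1, 0)]), (8, [(4, 16)])],
    [(9, [(1, 0)])]]

/-- Rows (31 bits). -/
def rNA1_1 : List ℕ :=
  [1160685184464600969344447968792969864475831931332546438260352569892840835775582521184754145639,
    1012537038662068705770540629651037094195630016376351947170907822820391433833619220960253325629,
    1024587069856802928382112643736564034891937416278808171822432715301347232837336408307709856905,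
    1174734416653853722412464348190670666790266059830170334944936872638181173552813362567104001089,
    983126402142307069254975898893322481517913838331029625347081173813694385572313928887205549503,
    886695442138202271202467470686249643643661382080775115547867151489506405356510924828851528449,
    1063182473942560340736573904060897673295820005527937409828637368428929823788602173406360317799,
    1054811292176554183131065185614153599347802034314376812638206596573754461919521701975332155762]

/-- Monomials, multiplier L, degrees [0, 0, 3]. -/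
def csNA1_L : List (List (ℕ × List (ℤ × ℕ))) :=
  [[(2, [(1, 0)]), (3, [(4, 16)]), (4, [(16, 32)]), (5, [(64, 48)])],
    [(6, [(1, 0)])],
    []]

/-- Rows (32 bits). -/
def rNA1_L : List ℕ :=
  [13557223137008117360244379976855448989329706760755249602424704423547,
    14090921069382244496178977942657167438260403252762890620899337973953,
    13232913963016898786644317564406859699507738998610734039524144126101,
    13592357561858779820725632793209029131834676894813231554152700389718,
    13686628550828901223865657891338352225350234102305201066471246810560]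

/-- Components of the types of the group E (for every component the list over the types). -/
def cNE : List (List (List (ℤ × ℕ × ℕ × ℕ))) :=
  [[[(4, 0, 2, 0), (-4, 0, 0, 2)], [(16, 2, 0, 2), (-16, 2, 2, 0)]],
    [[(4, 0, 0, 2), (-4, 2, 0, 0)], [(16, 2, 2, 0), (-16, 0, 2, 2)]],
    [[(4, 2, 0, 0), (-4, 0, 2, 0)], [(16, 0, 2, 2), (-16, 2, 0, 2)]]]

/-- Monomials, multiplier 1, degrees [0, 0, 2]. -/
def csNE_1 : List (List (ℕ × List (ℤ × ℕ))) :=
  [[(2, [(1, 0)]), (3, [(4, 16)]), (4, [(16, 32)])],
    [(5, [(1, 0)])]]

/-- Rows (30 bits). -/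
def rNE_1 : List ℕ :=
  [761682861015904398725243566649399994557726483198677599,
    739168426692860194164894429873269976767735569828590956,
    793026715801760360028092872992665216536662864881031621,
    839973164151817965667157091670659652063996193294617988]

/-- Monomials, multiplier L, degrees [0, 0, 1]. -/
def csNE_L : List (List (ℕ × List (ℤ × ℕ))) :=
  [[(2, [(1, 0)]), (3, [(4, 16)])],
    []]

/-- Rows (28 bits). -/
def rNE_L : List ℕ :=
  [4284563740459520367677988065878038,
    2767526208012091865674888099787164]

/-- Components of the types of the group T1 (for every component the list over the types). -/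
def cNT1 : List (List (List (ℤ × ℕ × ℕ × ℕ))) :=
  [[[(8, 1, 2, 0), (-8, 1, 0, 2)], [(16, 0, 3, 1), (-16, 0, 1, 3)]],
    [[(8, 0, 1, 2), (-8, 2, 1, 0)], [(16, 1, 0, 3), (-16, 3, 0, 1)]],
    [[(8, 2, 0, 1), (-8, 0, 2, 1)], [(16, 3, 1, 0), (-16, 1, 3, 0)]]]

/-- Monomials, multiplier 1, degrees [0, 0, 1]. -/
def csNT1_1 : List (List (ℕ × List (ℤ × ℕ))) :=
  [[(2, [(1, 0)]), (3, [(4, 16)])],
    [(4, [(1, 0)])]]

/-- Rows (30 bits). -/
def rNT1_1 : List ℕ :=
  [595547188804784424807967991287688302857065840,
    811722869674248694533114544660164522595076383,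
    803090650325863830139336015827742343481501426]

/-- Monomials, multiplier L, degrees [0, 0, 0]. -/
def csNT1_L : List (List (ℕ × List (ℤ × ℕ))) :=
  [[(2, [(1, 0)])],
    []]

/-- Rows (27 bits). -/
def rNT1_L : List ℕ :=
  [1820970146406893330490731]

/-- Components of the types of the group V (for every component the list over the types). -/
def cNV : List (List (List (ℤ × ℕ × ℕ × ℕ))) :=
  [[[(2, 1, 0, 0)], [(4, 0, 1, 1)], [(8, 3, 0, 0)], [(16, 2, 1, 1)]],
    [[(2, 0, 1, 0)], [(4, 1, 0, 1)], [(8, 0, 3, 0)], [(16, 1, 2, 1)]],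
    [[(2, 0, 0, 1)], [(4, 1, 1, 0)], [(8, 0, 0, 3)], [(16, 1, 1, 2)]]]

/-- Monomials, multiplier 1, degrees [0, 0, 3]. -/
def csNV_1 : List (List (ℕ × List (ℤ × ℕ))) :=
  [[(2, [(1, 0)]), (3, [(4, 16)]), (4, [(16, 32)]), (5, [(64, 48)])],
    [(6, [(1, 0)]), (7, [(4, 16)]), (8, [(16, 32)])],
    [(9, [(1, 0)]), (10, [(4, 16)])],
    [(11, [(1, 0)])]]

/-- Rows (31 bits). -/
def rNV_1 : List ℕ :=
  [4145063871936646787692840514734761386503316810023838199341235103444146339419263231891482846595546534114196702806,
    5617306226623093552690102397887840101022182107812898178896852816975929258376998464470877938903050443070251228653,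
    4371383355403179172317011931688235835285700385627135848432563001214098742704756247307355861337274235635432277028,
    5335176327248698557205202655395292404810584829634888185438245741002143331736878733015134841481917142614028477559,
    4658003368872753672109021389681821330163771934288607702211387188667157146172606288397930180709443613799733272911,
    5126883220344231254750798097327144637117201486154793509576323755727500300955997288480916107520158751416534406649,
    4534609367453566501436351146613595093642911387460540032172021029132710469256806363696358407236875900064807692179,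
    4591605061238708410702643522642212847042904472946989067985322775933608442097601133080891018730738864028710816268,
    4887383494089707413188862817766761118094360571087021746290495939062951166261574870604572784817469448863032226423,
    4875448427395453991543701335962517196135526904175092669793736275354999302023856048916610379674736522634828319897]

/-- Monomials, multiplier L, degrees [0, 0, 2]. -/
def csNV_L : List (List (ℕ × List (ℤ × ℕ))) :=
  [[(2, [(1, 0)]), (3, [(4, 16)]), (4, [(16, 32)])],
    [(5, [(1, 0)]), (6, [(4, 16)])],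
    [(7, [(1, 0)])],
    []]

/-- Rows (30 bits). -/
def rNV_L : List ℕ :=
  [865792316818075161887961443038003371502735700917059130911006611864545468,
    938681967138656001984604690584115346475280623400749851229589431569829104,
    853392433372432751738202378407198541953775002396293217843330279738982438,
    878558641862309926643195279383833079215872932287786730121359161297609725,
    890302168475308395689307865735299242541634965974768259860152897963584047,
    900160990150311313948240123162011218276780179226913972367030640100051848]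

end Vale.Agent.P098.S5
end

section

/-!
# The multiplier of the splitting of the condition kappa for m = 5

`4096 H = sum n y ^ a v ^ b (pw lam 3) ^ c (pw lam 4) ^ d` over `hKa`, plus
`sum n y ^ a v ^ b (pw lam 5)` over `hKb`. The two conditions are
K1: `formK + (1 - y) ^ 2 * H >= eps`, K2: `formG - v * H >= eps`.
-/

namespace Vale.Agent.P098.S5

/-- Coefficients `(n, a, b, c, d)`. -/
def hKa : List (ℤ × ℕ × ℕ × ℕ × ℕ) :=
  [(271717, 0, 0, 0, 0), (33060, 0, 0, 0, 1), (127962, 0, 0, 0, 2), (193058, 0, 0, 1, 0),
    (-81847, 0, 0, 1, 1), (437018, 0, 0, 2, 0), (-557441, 0, 1, 0, 0), (41301, 0, 1, 0, 1),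
    (173365, 0, 1, 0, 2), (-224462, 0, 1, 1, 0), (175162, 0, 1, 1, 1), (-175889, 0, 1, 2, 0),
    (551728, 0, 2, 0, 0), (-307836, 0, 2, 0, 1), (-245631, 0, 2, 0, 2), (402486, 0, 2, 1, 0),
    (191723, 0, 2, 1, 1), (-16825, 0, 2, 2, 0), (-483114, 1, 0, 0, 0), (-264981, 1, 0, 0, 1),
    (-204922, 1, 0, 0, 2), (-367365, 1, 0, 1, 0), (-167288, 1, 0, 1, 1), (-323568, 1, 0, 2, 0),
    (770092, 1, 1, 0, 0), (331984, 1, 1, 0, 1), (116728, 1, 1, 0, 2), (697014, 1, 1, 1, 0),
    (327893, 1, 1, 1, 1), (561205, 1, 1, 2, 0), (-368565, 1, 2, 0, 0), (-399817, 1, 2, 0, 1),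
    (-108265, 1, 2, 0, 2), (-575626, 1, 2, 1, 0), (121885, 1, 2, 1, 1), (15080, 1, 2, 2, 0),
    (158892, 2, 0, 0, 0), (547364, 2, 0, 0, 1), (-137477, 2, 0, 0, 2), (-326042, 2, 0, 1, 0),
    (161384, 2, 0, 1, 1), (-695824, 2, 0, 2, 0), (-152105, 2, 1, 0, 0), (-594922, 2, 1, 0, 1),
    (-232287, 2, 1, 0, 2), (709410, 2, 1, 1, 0), (-366988, 2, 1, 1, 1), (-116836, 2, 1, 2, 0),
    (-278623, 2, 2, 0, 0), (699487, 2, 2, 0, 1), (685031, 2, 2, 0, 2), (-558077, 2, 2, 1, 0),
    (-392005, 2, 2, 1, 1), (209460, 2, 2, 2, 0)]

/-- Coefficients `(n, a, b)` of `pw lam 5`. -/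
def hKb : List (ℤ × ℕ × ℕ) :=
  [(497058, 0, 0), (-705168, 0, 1), (-232316, 0, 2), (-237858, 1, 0), (75732, 1, 1),
    (-118878, 1, 2), (-216443, 2, 0), (583064, 2, 1), (461286, 2, 2)]

end Vale.Agent.P098.S5
end

section

/-!
# A small verified checker for the positivity of polynomials on boxes

Homogeneous polynomials are given by lists of integer coefficients; a box is halved in one of the
directions, and on the leaves all coefficients are nonnegative.
-/

namespace Vale.Agent.P098.Bn

variable {α : Type}

/-- Auxiliary for the multiplication by `s + 2 t`. -/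
def mulAux (add : α → α → α) (dbl : α → α) : α → List α → List α
  | p, [] => [dbl p]
  | p, a :: l => add a (dbl p) :: mulAux add dbl a l

/-- Add to the head, keeping the rest. -/
def fin' (add : α → α → α) (dbl : α → α) (a : α) : List α → List α
  | [] => [a]
  | b :: r => add a b :: mulAux add dbl b r

/-- The substitution `t ↦ s + 2 t`. -/
def splitL (add : α → α → α) (dbl : α → α) : List α → List α
  | [] => []
  | a :: l => fin' add dbl a (splitL add dbl l)

/-- The substitution `s ↦ t + 2 s`. -/
def splitR (add : α → α → α) (dbl : α → α) (l : List α) : List α :=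
  (splitL add dbl l.reverse).reverse

/-- The value `∑ V(l_i) s^(n-i) t^i`, `n + 1` the length. -/
def ev (V : α → ℝ) (s t : ℝ) : List α → ℝ
  | [] => 0
  | a :: l => V a * s ^ l.length + t * ev V s t l

theorem length_mulAux (add : α → α → α) (dbl : α → α) (l : List α) : ∀ p,
    (mulAux add dbl p l).length = l.length + 1 := by
  induction l with
  | nil => intro p; rfl
  | cons a l ih => intro p; simp only [mulAux, List.length_cons, ih, Nat.add_left_cancel_iff]

theorem length_splitL (add : α → α → α) (dbl : α → α) (l : List α) :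
    (splitL add dbl l).length = l.length := by
  induction l with
  | nil => rfl
  | cons a l ih =>
    simp only [splitL]
    cases h : splitL add dbl l with
    | nil => rw [h] at ih; simp [fin', ← ih]
    | cons b r => rw [h] at ih; simp [fin', length_mulAux, ← ih]

theorem ev_mulAux {add : α → α → α} {dbl : α → α} {V : α → ℝ}
    (hadd : ∀ a b, V (add a b) = V a + V b) (hdbl : ∀ a, V (dbl a) = 2 * V a) (s t : ℝ)
    (l : List α) : ∀ a, V a * s ^ (l.length + 1) + t * ev V s t (mulAux add dbl a l)
      = (s + 2 * t) * ev V s t (a :: l) := by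
  induction l with
  | nil => intro a; simp only [List.length_nil, zero_add, pow_one, mulAux, ev, hdbl, pow_zero, mul_one, mul_zero, add_zero]; ring
  | cons b l ih =>
    intro a
    have h := ih b
    simp only [mulAux, ev, hadd, hdbl, length_mulAux, List.length_cons] at h ⊢
    linear_combination t * h

theorem ev_splitL {add : α → α → α} {dbl : α → α} {V : α → ℝ}
    (hadd : ∀ a b, V (add a b) = V a + V b) (hdbl : ∀ a, V (dbl a) = 2 * V a) (s t : ℝ)
    (l : List α) : ev V s t (splitL add dbl l) = ev V s (s + 2 * t) l := by
  induction l with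
  | nil => rfl
  | cons a l ih =>
    have hlen := length_splitL add dbl l
    simp only [splitL]
    cases h : splitL add dbl l with
    | nil =>
      rw [h] at hlen ih
      have hl : l = [] := List.eq_nil_of_length_eq_zero hlen.symm
      subst hl
      simp [fin', ev]
    | cons b r =>
      rw [h] at hlen ih
      have h2 := ev_mulAux hadd hdbl s t r b
      simp only [ev, List.length_cons, fin', hadd, length_mulAux] at h2 ih hlen ⊢
      rw [← ih, ← hlen]
      linear_combination h2

theorem ev_append (V : α → ℝ) (s t : ℝ) (a : α) (l : List α) :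
    ev V s t (l ++ [a]) = s * ev V s t l + V a * t ^ l.length := by
  induction l with
  | nil => simp [ev]
  | cons b l ih =>
    simp only [List.cons_append, ev, ih, List.length_append, List.length_cons, List.length_nil]
    ring

theorem ev_reverse (V : α → ℝ) (s t : ℝ) (l : List α) :
    ev V s t l.reverse = ev V t s l := by
  induction l with
  | nil => rfl
  | cons a l ih =>
    rw [List.reverse_cons, ev_append, ih, List.length_reverse]
    simp only [ev]
    ring

theorem ev_splitR {add : α → α → α} {dbl : α → α} {V : α → ℝ}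
    (hadd : ∀ a b, V (add a b) = V a + V b) (hdbl : ∀ a, V (dbl a) = 2 * V a) (s t : ℝ)
    (l : List α) : ev V s t (splitR add dbl l) = ev V (t + 2 * s) t l := by
  rw [splitR, ev_reverse, ev_splitL hadd hdbl, ev_reverse]

theorem ev_nonneg {V : α → ℝ} {s t : ℝ} (hs : 0 ≤ s) (ht : 0 ≤ t) {l : List α}
    (h : ∀ a ∈ l, 0 ≤ V a) : 0 ≤ ev V s t l := by
  induction l with
  | nil => exact le_rfl
  | cons a l ih =>
    simp only [ev]
    have h1 := h a (by simp)
    have h2 := ih fun b hb => h b (by simp [hb])
    (clear * - h1 hs ht h2; positivity)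

/-! ### Rows -/

/-- Value of an integer row. -/
def evz (s t : ℝ) (l : List ℤ) : ℝ := ev (fun z : ℤ => (z : ℝ)) s t l

/-- Sum of rows of length `n`; other rows are not changed. -/
def addR : List ℤ → List ℤ → List ℤ
  | [], b => b
  | a, [] => a
  | a :: l, b :: r => (a + b) :: addR l r

/-- Twice a row. -/
def dblR (l : List ℤ) : List ℤ := l.map fun a => 2 * a

/-- Value of a row of nominal degree `n`. -/
def evn (s t : ℝ) : ℕ → List ℤ → ℝ
  | _, [] => 0
  | n, a :: l => a * s ^ n + t * evn s t (n - 1) l

theorem evn_addR (s t : ℝ) (a : List ℤ) : ∀ (n : ℕ) (b : List ℤ),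
    evn s t n (addR a b) = evn s t n a + evn s t n b := by
  induction a with
  | nil => intro n b; simp only [addR, evn, zero_add]
  | cons x l ih =>
    intro n b
    cases b with
    | nil => simp only [addR, evn, add_zero]
    | cons y r => simp only [addR, evn, Int.cast_add, ih]; ring

theorem evn_dblR (s t : ℝ) (a : List ℤ) : ∀ n : ℕ, evn s t n (dblR a) = 2 * evn s t n a := by
  induction a with
  | nil => intro n; simp only [dblR, List.map_nil, evn, mul_zero]
  | cons x l ih =>
    intro n
    have := ih (n - 1)
    simp only [dblR, List.map_cons, evn] at this ⊢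
    rw [this]
    push_cast
    ring

theorem evn_eq (s t : ℝ) (a : List ℤ) : ∀ n : ℕ, a.length = n + 1 → evn s t n a = evz s t a := by
  induction a with
  | nil => intro n h; simp at h
  | cons x l ih =>
    intro n h
    simp only [List.length_cons, add_left_inj] at h
    cases l with
    | nil => simp only [List.length_nil, evn, mul_zero, add_zero, evz, ev, pow_zero, mul_one] at h ⊢; rw [← h]; simp
    | cons y r =>
      have h' : n = r.length + 1 := by simp only [List.length_cons] at h; (clear * - h; omega)
      have := ih (n - 1) (by simp only [List.length_cons]; omega)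
      simp only [evn, evz, ev] at this ⊢
      rw [this]
      simp only [h', List.length_cons]

/-! ### Matrices -/

/-- A bihomogeneous polynomial. -/
abbrev Mt := List (List ℤ)

/-- Value of a matrix with row degree `n`. -/
def evm (n : ℕ) (M : Mt) (s t u w : ℝ) : ℝ := ev (fun r => evn u w n r) s t M

/-- Halving in the first pair of variables. -/
def yL (M : Mt) : Mt := splitL addR dblR M
/-- Halving in the first pair of variables. -/
def yR (M : Mt) : Mt := splitR addR dblR M
/-- Halving in the second pair of variables. -/
def vL (M : Mt) : Mt := M.map (splitL (fun a b : ℤ => a + b) (fun a => 2 * a))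
/-- Halving in the second pair of variables. -/
def vR (M : Mt) : Mt := M.map (splitR (fun a b : ℤ => a + b) (fun a => 2 * a))
/-- All rows have length `n + 1`. -/
def wf (n : ℕ) (M : Mt) : Bool := M.all fun r => r.length == n + 1
/-- All entries are nonnegative. -/
def nn (M : Mt) : Bool := M.all fun r => r.all fun a => decide (0 ≤ a)

theorem evm_yL (n : ℕ) (M : Mt) (s t u w : ℝ) :
    evm n (yL M) s t u w = evm n M s (s + 2 * t) u w :=
  ev_splitL (fun a b => evn_addR u w a n b) (fun a => evn_dblR u w a n) s t M

theorem evm_yR (n : ℕ) (M : Mt) (s t u w : ℝ) :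
    evm n (yR M) s t u w = evm n M (t + 2 * s) t u w :=
  ev_splitR (fun a b => evn_addR u w a n b) (fun a => evn_dblR u w a n) s t M

theorem ev_map {β : Type} (V : β → ℝ) (f : α → β) (s t : ℝ) (l : List α) :
    ev V s t (l.map f) = ev (fun a => V (f a)) s t l := by
  induction l with
  | nil => rfl
  | cons a l ih => simp [ev, ih]

theorem ev_congr {V V' : α → ℝ} {s t : ℝ} {l : List α} (h : ∀ a ∈ l, V a = V' a) :
    ev V s t l = ev V' s t l := by
  induction l with
  | nil => rfl
  | cons a l ih =>
    simp only [ev]
    rw [h a (by simp), ih fun b hb => h b (by simp [hb])]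

theorem evm_vL {n : ℕ} {M : Mt} (h : wf n M = true) (s t u w : ℝ) :
    evm n (vL M) s t u w = evm n M s t u (u + 2 * w) := by
  simp only [wf, List.all_eq_true, beq_iff_eq] at h
  unfold evm vL
  rw [ev_map]
  refine ev_congr fun r hr => ?_
  rw [evn_eq _ _ _ _ (by rw [length_splitL]; exact h r hr), evn_eq _ _ _ _ (h r hr)]
  exact ev_splitL (fun a b => by push_cast; ring) (fun a => by push_cast; ring) u w r

theorem evm_vR {n : ℕ} {M : Mt} (h : wf n M = true) (s t u w : ℝ) :
    evm n (vR M) s t u w = evm n M s t (w + 2 * u) w := by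
  simp only [wf, List.all_eq_true, beq_iff_eq] at h
  unfold evm vR
  rw [ev_map]
  refine ev_congr fun r hr => ?_
  have hl : (splitR (fun a b : ℤ => a + b) (fun a => 2 * a) r).length = n + 1 := by
    rw [splitR, List.length_reverse, length_splitL, List.length_reverse]; exact h r hr
  rw [evn_eq _ _ _ _ hl, evn_eq _ _ _ _ (h r hr)]
  exact ev_splitR (fun a b => by push_cast; ring) (fun a => by push_cast; ring) u w r

theorem evn_nonneg {s t : ℝ} (hs : 0 ≤ s) (ht : 0 ≤ t) {l : List ℤ} (h : ∀ a ∈ l, (0 : ℤ) ≤ a) :
    ∀ n : ℕ, 0 ≤ evn s t n l := by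
  induction l with
  | nil => intro n; exact le_rfl
  | cons a l ih =>
    intro n
    simp only [evn]
    have h1 : (0 : ℝ) ≤ a := by exact_mod_cast h a (by simp)
    have h2 := ih (fun b hb => h b (by simp [hb])) (n - 1)
    positivity

theorem evm_nonneg {n : ℕ} {M : Mt} (h : nn M = true) {s t u w : ℝ} (hs : 0 ≤ s) (ht : 0 ≤ t)
    (hu : 0 ≤ u) (hw : 0 ≤ w) : 0 ≤ evm n M s t u w := by
  simp only [nn, List.all_eq_true, decide_eq_true_eq] at h
  exact ev_nonneg hs ht fun r hr => evn_nonneg hu hw (fun a ha => h r hr a ha) n

/-! ### The checker -/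

/-- Subdivision trees. -/
inductive Tr
  | lf : Tr
  | y : Tr → Tr → Tr
  | v : Tr → Tr → Tr

/-- The checker: on each leaf, `D ≥ 0` or both `K ≥ 0` and `G ≥ 0`. -/
def chk (nD nK nG : ℕ) : Tr → Mt → Mt → Mt → Bool
  | .lf, D, K, G => nn D || (nn K && nn G)
  | .y a b, D, K, G => chk nD nK nG a (yL D) (yL K) (yL G) && chk nD nK nG b (yR D) (yR K) (yR G)
  | .v a b, D, K, G => (wf nD D && wf nK K && wf nG G) &&
      (chk nD nK nG a (vL D) (vL K) (vL G) && chk nD nK nG b (vR D) (vR K) (vR G))

theorem chk_sound {nD nK nG : ℕ} (T : Tr) : ∀ {D K G : Mt}, chk nD nK nG T D K G = true →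
    ∀ s t u w : ℝ, 0 ≤ s → 0 ≤ t → 0 ≤ u → 0 ≤ w →
      0 ≤ evm nD D s t u w ∨ (0 ≤ evm nK K s t u w ∧ 0 ≤ evm nG G s t u w) := by
  induction T with
  | lf =>
    intro D K G h s t u w hs ht hu hw
    simp only [chk, Bool.or_eq_true, Bool.and_eq_true] at h
    rcases h with h | ⟨h1, h2⟩
    · exact Or.inl (evm_nonneg h hs ht hu hw)
    · exact Or.inr ⟨evm_nonneg h1 hs ht hu hw, evm_nonneg h2 hs ht hu hw⟩
  | y a b iha ihb =>
    intro D K G h s t u w hs ht hu hw
    simp only [chk, Bool.and_eq_true] at h
    rcases le_total s t with hst | hst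
    · have h1 := iha h.1 s ((t - s) / 2) u w hs (by linarith only [hst]) hu hw
      simpa only [evm_yL, show s + 2 * ((t - s) / 2) = t by ring] using h1
    · have h1 := ihb h.2 ((s - t) / 2) t u w (by linarith only [hst]) ht hu hw
      simpa only [evm_yR, show t + 2 * ((s - t) / 2) = s by ring] using h1
  | v a b iha ihb =>
    intro D K G h s t u w hs ht hu hw
    simp only [chk, Bool.and_eq_true] at h
    obtain ⟨⟨⟨hD, hK⟩, hG⟩, ha, hb⟩ := h
    rcases le_total u w with huw | huw
    · have h1 := iha ha s t u ((w - u) / 2) hs ht hu (by linarith)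
      simpa only [evm_vL hD, evm_vL hK, evm_vL hG, show u + 2 * ((w - u) / 2) = w by ring]
        using h1
    · have h1 := ihb hb s t ((u - w) / 2) w hs ht (by linarith only [huw]) hw
      simpa only [evm_vR hD, show w + 2 * ((u - w) / 2) = u by ring, evm_vR hK, evm_vR hG] using h1

end Vale.Agent.P098.Bn
end
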