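import Mathlib
import Vale.Agent.P098.Bdl.B3
import Vale.Agent.P098.Bdl.B4
import Vale.Agent.P098.Bdl.B10
attribute [-instance] ProperSMul.toContinuousSMul IsTopologicalTorsor.toContinuousSMul IdemSemiring.toCanonicallyOrderedAdd IdemSemiring.toMulLeftMono IdemSemiring.toMulRightMono AddQuantale.instAddLeftMono AddQuantale.instAddRightMono Quantale.instMulLeftMono Quantale.instMulRightMono FiniteDimensional.rclike_to_real IsScalarTower.complexToReal FiniteDimensional.complexToReal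

set_option linter.all false

section

/-! # S5: continuous representative

For `s = r/2, r/4` and `h` on `ball x r`: `av h s x = h x` (`Harm.av_eq`) and by Cauchy-Schwarz
`|av u s x - h x| = I⁻¹ |∫ mk(y)(u-h)(x+sy) dy| ≤ I⁻¹ ‖mk‖₂ (s^{-d} ∫_{ball x s}(u-h)²)^{1/2} ≤ C r`.
So `|av u (r/2) x - av u (r/4) x| ≤ C r` for all `x, r`; for fixed `r`, `x ↦ av u r x` is continuous;
`av u (2^{-k}) x` converges uniformly to a continuous `v` with `|av u r x - v x| ≤ C r` for
`r = 2^{-k}`, and for general `r` (sum from `r/2^k`; the limits along `r 2^{-k}` are independent of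
`r ∈ [1,2]` because `u = v` a.e. …: `av u ρ x → u x` for a.e. `x` as `ρ → 0` (Lebesgue points), and
both limits are continuous). Then `u = v` a.e. and `av u r x = av v r x`. -/

open MeasureTheory Set Metric Filter
open scoped ContDiff RealInnerProductSpace Topology NNReal

namespace Vale.Agent.P098

variable {d : ℕ}

/-- Iterated halving. -/
theorem rS5_halving {f : ℝ → ℝ} {K : ℝ} (hK : 0 ≤ K)
    (H : ∀ s s' : ℝ, 0 < s → s / 2 ≤ s' → s' ≤ s → |f s - f s'| ≤ K * s) :
    ∀ n : ℕ, ∀ r s : ℝ, 0 < s → s ≤ r → r ≤ 2 ^ n * s → |f r - f s| ≤ 2 * K * r := by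
  intro n
  induction n with
  | zero =>
    intro r s hs hsr hr
    have h : r = s := by
      rw [pow_zero, one_mul] at hr
      exact le_antisymm hr hsr
    subst h
    simp only [sub_self, abs_zero]
    (clear * - hK hs; positivity)
  | succ n ih =>
    intro r s hs hsr hr
    by_cases h2 : r ≤ 2 * s
    · have h := H r s (by linarith only [hs, hsr]) (by linarith only [h2]) hsr
      have hr0 : 0 < r := by linarith only [hs, hsr]
      nlinarith only [h, hK, hs, hsr]
    · push Not at h2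
      have h1 := H r (r / 2) (by linarith only [hs, h2]) le_rfl (by linarith only [hs, h2])
      have h3 := ih (r / 2) s hs (by linarith only [h2]) (by rw [pow_succ] at hr; linarith only [hr])
      calc |f r - f s| ≤ |f r - f (r / 2)| + |f (r / 2) - f s| := abs_sub_le _ _ _
        _ ≤ K * r + 2 * K * (r / 2) := add_le_add h1 h3
        _ = _ := by ring

theorem rS5_halving' {f : ℝ → ℝ} {K : ℝ} (hK : 0 ≤ K)
    (H : ∀ s s' : ℝ, 0 < s → s / 2 ≤ s' → s' ≤ s → |f s - f s'| ≤ K * s)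
    (r s : ℝ) (hs : 0 < s) (hsr : s ≤ r) : |f r - f s| ≤ 2 * K * r := by
  obtain ⟨n, hn⟩ := pow_unbounded_of_one_lt (r / s) (one_lt_two (α := ℝ))
  refine rS5_halving hK H n r s hs hsr ?_
  rw [div_lt_iff₀ hs] at hn
  exact hn.le

theorem rS5_mk_continuous : Continuous (mk : E d → ℝ) := mk_contDiff.continuous

theorem rS5_mk_smul_hcs {c : ℝ} (hc : c ≠ 0) :
    HasCompactSupport (fun z : E d => mk (c • z)) :=
  mk_hasCompactSupport.comp_smul hc

theorem rS5_integrable {u : E d → ℝ} (hu : LocallyIntegrable u) (x : E d) {r : ℝ} (hr : 0 < r) :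
    Integrable (fun y : E d => mk y * u (x + r • y)) := by
  have h1 : Integrable (fun z : E d => mk (r⁻¹ • (z - x)) • u z) := by
    apply LocallyIntegrable.integrable_smul_left_of_hasCompactSupport hu
    · exact rS5_mk_continuous.comp (by fun_prop)
    · have := (rS5_mk_smul_hcs (d := d) (inv_ne_zero hr.ne'))
      exact this.comp_homeomorph (Homeomorph.subRight x)
  have h2 := (h1.comp_add_left x).comp_smul hr.ne'
  refine h2.congr (Eventually.of_forall fun y => ?_)
  simp only [add_sub_cancel_left, smul_smul, inv_mul_cancel₀ hr.ne', one_smul, smul_eq_mul]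

theorem rS5_continuous {u : E d → ℝ} (hu : LocallyIntegrable u) {r : ℝ} (hr : 0 < r) :
    Continuous (fun x : E d => av u r x) := by
  have h1 : ∀ x : E d, ∫ y : E d, mk y * u (x + r • y) =
      |((-r) ^ Module.finrank ℝ (E d))⁻¹| *
        (MeasureTheory.convolution (fun t : E d => mk ((-r)⁻¹ • t)) u
          (ContinuousLinearMap.mul ℝ ℝ) volume x) := by
    intro x
    rw [convolution_def]
    have h := Measure.integral_comp_smul (volume : Measure (E d))
      (fun t : E d => mk ((-r)⁻¹ • t) * u (x - t)) (-r)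
    rw [smul_eq_mul] at h
    simp only [ContinuousLinearMap.mul_apply']
    rw [← h]
    refine integral_congr_ae (Eventually.of_forall fun y => ?_)
    have hr' : (-r) ≠ 0 := neg_ne_zero.mpr hr.ne'
    show mk y * u (x + r • y) = mk ((-r)⁻¹ • ((-r) • y)) * u (x - (-r) • y)
    rw [inv_smul_smul₀ hr', neg_smul, sub_neg_eq_add]
  have h2 : Continuous (MeasureTheory.convolution (fun t : E d => mk ((-r)⁻¹ • t)) u
          (ContinuousLinearMap.mul ℝ ℝ) volume) := by
    apply HasCompactSupport.continuous_convolution_left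
    · exact rS5_mk_smul_hcs (inv_ne_zero (neg_ne_zero.mpr hr.ne'))
    · exact rS5_mk_continuous.comp (by fun_prop)
    · exact hu
  unfold av
  simp only [h1]
  exact (h2.const_mul _ |>.div_const _) 

/-- The comparison of the average with a harmonic function. -/
theorem rS5_close {u h : E d → ℝ} (hu : LocallyIntegrable u) {C : ℝ} {x : E d} {r s : ℝ}
    (hr : 0 < r) (hs1 : r / 4 ≤ s) (hs2 : s ≤ r / 2) (hh : Harm (ball x r) h)
    (hL : MemLp (fun x => u x - h x) 2 (volume.restrict (ball x r)))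
    (hC : ∫ z in ball x r, (u z - h z) ^ 2 ≤ C * r ^ (d + 2)) :
    |av u s x - h x| ≤
      ((∫ y : E d, mk y)⁻¹ * ((∫ y : E d, mk y) / 2 + 4 ^ d * |C| / 2)) * r := by
  have hs : 0 < s := by linarith
  have hI : 0 < ∫ y : E d, mk y := mk_integral_pos
  -- the dominating function
  set F : E d → ℝ := (ball x r).indicator (fun z => (u z - h z) ^ 2) with hF
  have hFi : Integrable F := by
    rw [hF, integrable_indicator_iff measurableSet_ball]
    exact hL.integrable_sq
  have hFint : ∫ z, F z ≤ |C| * r ^ (d + 2) := by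
    rw [hF, integral_indicator measurableSet_ball]
    refine hC.trans ?_
    gcongr
    exact le_abs_self C
  have hF0 : ∀ z, 0 ≤ F z := fun z => by
    rw [hF]; exact indicator_nonneg (fun _ _ => sq_nonneg _) z
  have hF0' : 0 ≤ ∫ z, F z := integral_nonneg hF0
  have hFs : Integrable (fun y : E d => F (x + s • y)) := (hFi.comp_add_left x).comp_smul hs.ne'
  have hFsi : ∫ y : E d, F (x + s • y) ≤ 4 ^ d * |C| * r ^ 2 := by
    have h1 := Measure.integral_comp_smul (volume : Measure (E d)) (fun t : E d => F (x + t)) s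
    rw [h1, integral_add_left_eq_self, finrank_euclideanSpace_fin, smul_eq_mul,
      abs_of_pos (by positivity)]
    calc (s ^ d)⁻¹ * ∫ z, F z ≤ ((r / 4) ^ d)⁻¹ * (|C| * r ^ (d + 2)) := by
          (clear * - hr hs1 hFint hF0'; gcongr)
      _ = 4 ^ d * |C| * r ^ 2 := by
          rw [div_pow, inv_div, pow_add]
          (clear * - hr; field_simp)
  have hmi : Integrable (mk : E d → ℝ) :=
    rS5_mk_continuous.integrable_of_hasCompactSupport mk_hasCompactSupport
  -- pointwise facts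
  have hball : ∀ y : E d, ‖y‖ < 1 → x + s • y ∈ ball x r := by
    intro y hy
    rw [mem_ball, dist_eq_norm, add_sub_cancel_left, norm_smul, Real.norm_of_nonneg hs.le]
    linarith only [mul_nonneg (le_of_lt (sub_pos.2 hy)) (sub_nonneg.2 hs1), mul_pos (sub_pos.2 hr) (sub_pos.2 hy), hs2, hr]
  have hpt : ∀ y : E d, ‖mk y * (u (x + s • y) - h (x + s • y))‖ ≤
      r / 2 * mk y + (2 * r)⁻¹ * F (x + s • y) := by
    intro y
    by_cases hy : ‖y‖ < 1
    · have hF1 : F (x + s • y) = (u (x + s • y) - h (x + s • y)) ^ 2 := by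
        rw [hF]; exact indicator_of_mem (hball y hy) _
      rw [hF1, norm_mul, Real.norm_of_nonneg (mk_nonneg y), Real.norm_eq_abs]
      set w := u (x + s • y) - h (x + s • y)
      have hw : |w| ≤ r / 2 + (2 * r)⁻¹ * w ^ 2 := by
        have : 0 ≤ (|w| - r) ^ 2 / (2 * r) := by (clear * - hr; positivity)
        have h2 : (|w| - r) ^ 2 / (2 * r) = (2 * r)⁻¹ * w ^ 2 + r / 2 - |w| := by
          rw [sub_sq, sq_abs]; field_simp; ring
        linarith only [this, h2]
      have hw2 : mk y * ((2 * r)⁻¹ * w ^ 2) ≤ (2 * r)⁻¹ * w ^ 2 :=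
        mul_le_of_le_one_left (by (clear * - hr; positivity)) (mk_le_one y)
      calc mk y * |w| ≤ mk y * (r / 2 + (2 * r)⁻¹ * w ^ 2) :=
            mul_le_mul_of_nonneg_left hw (mk_nonneg y)
        _ = r / 2 * mk y + mk y * ((2 * r)⁻¹ * w ^ 2) := by ring
        _ ≤ _ := by linarith only [hw2]
    · rw [mk_eq_zero (not_lt.mp hy)]
      simp only [zero_mul, norm_zero, mul_zero, zero_add]
      exact mul_nonneg (by positivity) (hF0 _)
  -- integrability of the harmonic part
  have hhi : Integrable (fun y : E d => mk y * h (x + s • y)) := by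
    have h1 : IntegrableOn (fun y : E d => mk y * h (x + s • y)) (closedBall 0 1) := by
      apply ContinuousOn.integrableOn_compact (isCompact_closedBall _ _)
      apply rS5_mk_continuous.continuousOn.mul
      apply hh.1.continuousOn.comp (by fun_prop)
      intro y hy
      rw [mem_closedBall_zero_iff] at hy
      rw [mem_ball, dist_eq_norm, add_sub_cancel_left, norm_smul, Real.norm_of_nonneg hs.le]
      nlinarith only [hs2, hr, hy, hs1]
    refine (integrableOn_iff_integrable_of_support_subset ?_).mp h1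
    intro y hy
    rw [mem_closedBall_zero_iff]
    by_contra hcon
    apply hy
    simp only [mk_eq_zero (not_le.mp hcon).le, zero_mul]
  have hui := rS5_integrable hu x hs
  have hsub : ∫ y : E d, mk y * (u (x + s • y) - h (x + s • y)) =
      (∫ y : E d, mk y) * (av u s x - h x) := by
    have h1 : av h s x = h x := hh.av_eq hs.le (by linarith only [hs2, hs])
    have h2 : ∫ y : E d, mk y * (u (x + s • y) - h (x + s • y)) =
        (∫ y : E d, mk y * u (x + s • y)) - ∫ y : E d, mk y * h (x + s • y) := by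
      rw [← integral_sub hui hhi]
      simp only [mul_sub]
    rw [h2, ← h1]
    unfold av
    (clear * - hI; field_simp)
  have hfin : (∫ y : E d, mk y) * |av u s x - h x| ≤
      (∫ y : E d, mk y) / 2 * r + 4 ^ d * |C| / 2 * r := by
    have h1 : (∫ y : E d, mk y) * |av u s x - h x| =
        ‖∫ y : E d, mk y * (u (x + s • y) - h (x + s • y))‖ := by
      rw [hsub, norm_mul, Real.norm_of_nonneg hI.le, Real.norm_eq_abs]
    rw [h1]
    calc ‖∫ y : E d, mk y * (u (x + s • y) - h (x + s • y))‖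
        ≤ ∫ y : E d, (r / 2 * mk y + (2 * r)⁻¹ * F (x + s • y)) :=
          norm_integral_le_of_norm_le ((hmi.const_mul _).add (hFs.const_mul _))
            (Eventually.of_forall hpt)
      _ = r / 2 * (∫ y : E d, mk y) + (2 * r)⁻¹ * ∫ y : E d, F (x + s • y) := by
          rw [integral_add (hmi.const_mul _) (hFs.const_mul _), integral_const_mul,
            integral_const_mul]
      _ ≤ r / 2 * (∫ y : E d, mk y) + (2 * r)⁻¹ * (4 ^ d * |C| * r ^ 2) := by
          (clear * - hFsi hr; gcongr)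
      _ = _ := by (clear * - hI hr; field_simp)
  rw [mul_assoc, ← div_eq_inv_mul, le_div_iff₀ hI]
  linarith only [hfin]

theorem rS5_step {u : E d → ℝ} (hu : LocallyIntegrable u) {C : ℝ}
    (H : ∀ (x₀ : E d) (r : ℝ), 0 < r → ∃ h : E d → ℝ, Harm (ball x₀ r) h ∧
      MemLp (fun x => u x - h x) 2 (volume.restrict (ball x₀ r)) ∧
      ∫ x in ball x₀ r, (u x - h x) ^ 2 ≤ C * r ^ (d + 2)) :
    ∃ K : ℝ, 0 ≤ K ∧ ∀ (x : E d) (r s : ℝ), 0 < s → s ≤ r → |av u r x - av u s x| ≤ K * r := by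
  have hI : 0 < ∫ y : E d, mk y := mk_integral_pos
  set K₀ := (∫ y : E d, mk y)⁻¹ * ((∫ y : E d, mk y) / 2 + 4 ^ d * |C| / 2) with hK₀
  have hK₀' : 0 ≤ K₀ := by (clear * - hI; positivity)
  refine ⟨2 * (4 * K₀), by (clear * - hI; positivity), fun x r s hs hsr => ?_⟩
  refine rS5_halving' (f := fun t => av u t x) (K := 4 * K₀) (by (clear * - hI; positivity))
    (fun s s' hs h1 h2 => ?_) r s hs hsr
  obtain ⟨h, hh, hL, hC⟩ := H x (2 * s) (by linarith only [hs])
  have e1 := rS5_close hu (by linarith only [hs] : (0:ℝ) < 2 * s) (by linarith only [hs]) (by linarith only []) hh hL hC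
    (s := s)
  have e2 := rS5_close hu (by linarith only [hs] : (0:ℝ) < 2 * s) (by linarith only [h1]) (by linarith only [h2]) hh hL hC
    (s := s')
  rw [← hK₀] at e1 e2
  calc |av u s x - av u s' x| ≤ |av u s x - h x| + |h x - av u s' x| := abs_sub_le _ _ _
    _ ≤ K₀ * (2 * s) + K₀ * (2 * s) := add_le_add e1 (by rw [abs_sub_comm]; exact e2)
    _ = 4 * K₀ * s := by ring

/-- Lebesgue points. -/
theorem rS5_lebesgue {u : E d → ℝ} (hu : LocallyIntegrable u) :
    ∀ᵐ x : E d, Tendsto (fun n : ℕ => av u (1 / ((n : ℝ) + 1)) x) atTop (𝓝 (u x)) := by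
  have hI : 0 < ∫ y : E d, mk y := mk_integral_pos
  have hmi : Integrable (mk : E d → ℝ) :=
    rS5_mk_continuous.integrable_of_hasCompactSupport mk_hasCompactSupport
  filter_upwards [IsUnifLocDoublingMeasure.ae_tendsto_average_norm_sub (μ := volume) hu 1]
    with x hx
  have hδ : Tendsto (fun n : ℕ => 1 / ((n : ℝ) + 1)) atTop (𝓝[>] 0) :=
    tendsto_nhdsWithin_iff.mpr ⟨tendsto_one_div_add_atTop_nhds_zero_nat,
      Eventually.of_forall fun n => by simp only [mem_Ioi]; (clear * -; positivity)⟩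
  have h1 := hx (l := atTop) (fun _ : ℕ => x) (fun n : ℕ => 1 / ((n : ℝ) + 1)) hδ
    (Eventually.of_forall fun n => by
      simp only [one_mul]
      exact mem_closedBall_self (by (clear * -; positivity)))
  -- bound
  rw [tendsto_iff_norm_sub_tendsto_zero]
  have h2 := h1.const_mul ((∫ y : E d, mk y)⁻¹ * volume.real (closedBall (0 : E d) 1))
  rw [mul_zero] at h2
  refine squeeze_zero (fun _ => norm_nonneg _) (fun n => ?_) h2
  set s : ℝ := 1 / ((n : ℝ) + 1) with hs_def
  have hs : 0 < s := by rw [hs_def]; (clear * -; positivity)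
  have hui := rS5_integrable hu x hs
  have e1 : av u s x - u x = (∫ y : E d, mk y)⁻¹ * ∫ y : E d, mk y * (u (x + s • y) - u x) := by
    have : ∫ y : E d, mk y * (u (x + s • y) - u x) =
        (∫ y : E d, mk y * u (x + s • y)) - ∫ y : E d, mk y * u x := by
      rw [← integral_sub hui (hmi.mul_const _)]
      simp only [mul_sub]
    rw [this, integral_mul_const]
    unfold av
    (clear * - hI; field_simp)
  set F : E d → ℝ := (closedBall x s).indicator (fun z => ‖u z - u x‖) with hF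
  have hFi : Integrable F := by
    rw [hF, integrable_indicator_iff measurableSet_closedBall]
    exact ((hu.integrableOn_isCompact (isCompact_closedBall x s)).sub
      (integrableOn_const (by
        exact (isCompact_closedBall x s).measure_lt_top.ne))).norm
  have hFs : Integrable (fun y : E d => F (x + s • y)) := (hFi.comp_add_left x).comp_smul hs.ne'
  have hpt : ∀ y : E d, ‖mk y * (u (x + s • y) - u x)‖ ≤ F (x + s • y) := by
    intro y
    by_cases hy : ‖y‖ < 1
    · have hmem : x + s • y ∈ closedBall x s := by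
        rw [mem_closedBall, dist_eq_norm, add_sub_cancel_left, norm_smul,
          Real.norm_of_nonneg hs.le]
        nlinarith only [hs, hy]
      have hF1 : F (x + s • y) = ‖u (x + s • y) - u x‖ := by
        rw [hF]; exact indicator_of_mem hmem _
      rw [hF1, norm_mul, Real.norm_of_nonneg (mk_nonneg y)]
      exact mul_le_of_le_one_left (norm_nonneg _) (mk_le_one y)
    · rw [mk_eq_zero (not_lt.mp hy), zero_mul, norm_zero, hF]
      exact indicator_nonneg (fun _ _ => norm_nonneg _) _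
  have e2 : ∫ y : E d, F (x + s • y) =
      volume.real (closedBall (0 : E d) 1) * ⨍ z in closedBall x s, ‖u z - u x‖ := by
    have h1 := Measure.integral_comp_smul (volume : Measure (E d)) (fun t : E d => F (x + t)) s
    rw [h1, integral_add_left_eq_self, finrank_euclideanSpace_fin, smul_eq_mul,
      abs_of_pos (by (clear * -; positivity)), setAverage_eq, hF, integral_indicator measurableSet_closedBall,
      smul_eq_mul]
    have hv : volume.real (closedBall x s) = s ^ d * volume.real (closedBall (0 : E d) 1) := by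
      simp only [Measure.real]
      rw [Measure.addHaar_closedBall _ _ hs.le, Measure.addHaar_closedBall _ _ zero_le_one,
        finrank_euclideanSpace_fin]
      simp only [one_pow, ENNReal.ofReal_one, one_mul, ENNReal.toReal_mul]
      rw [ENNReal.toReal_ofReal (by (clear * -; positivity))]
    rw [hv]
    have hpos : 0 < volume.real (closedBall (0 : E d) 1) :=
      ENNReal.toReal_pos (measure_closedBall_pos _ _ one_pos).ne'
        (isCompact_closedBall _ _).measure_lt_top.ne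
    (clear * - hpos hs; field_simp)
  rw [e1, norm_mul, Real.norm_of_nonneg (inv_nonneg.mpr hI.le), mul_assoc, ← e2]
  gcongr
  exact norm_integral_le_of_norm_le hFs (Eventually.of_forall hpt)

theorem exists_cont_rep (hd : 1 ≤ d) {u : E d → ℝ} (hu : LocallyIntegrable u) {C : ℝ}
    (H : ∀ (x₀ : E d) (r : ℝ), 0 < r → ∃ h : E d → ℝ, Harm (ball x₀ r) h ∧
      MemLp (fun x => u x - h x) 2 (volume.restrict (ball x₀ r)) ∧
      ∫ x in ball x₀ r, (u x - h x) ^ 2 ≤ C * r ^ (d + 2)) :
    ∃ (C' : ℝ) (v : E d → ℝ), Continuous v ∧ u =ᵐ[volume] v ∧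
      ∀ (x : E d) (r : ℝ), 0 < r → |av v r x - v x| ≤ C' * r := by
  obtain ⟨K, hK, hstep⟩ := rS5_step hu H
  set δ : ℕ → ℝ := fun n => 1 / ((n : ℝ) + 1) with hδ
  have hδ0 : ∀ n, 0 < δ n := fun n => by simp only [hδ]; (clear * -; positivity)
  have hδlim : Tendsto δ atTop (𝓝 0) := tendsto_one_div_add_atTop_nhds_zero_nat
  have hδanti : Antitone δ := fun m n hmn => by
    simp only [hδ]
    gcongr
  have hcauchy : ∀ x : E d, CauchySeq (fun n => av u (δ n) x) := by
    intro x
    refine cauchySeq_of_le_tendsto_0 (fun n => K * δ n) (fun n m N hn hm => ?_) ?_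
    · rw [Real.dist_eq]
      rcases le_total n m with h | h
      · exact (hstep x _ _ (hδ0 m) (hδanti h)).trans
          (mul_le_mul_of_nonneg_left (hδanti hn) hK)
      · rw [abs_sub_comm]
        exact (hstep x _ _ (hδ0 n) (hδanti h)).trans
          (mul_le_mul_of_nonneg_left (hδanti hm) hK)
    · simpa only [mul_zero] using hδlim.const_mul K
  choose v hv using fun x => cauchySeq_tendsto_of_complete (hcauchy x)
  have hclose : ∀ (x : E d) (r : ℝ), 0 < r → |av u r x - v x| ≤ K * r := by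
    intro x r hr
    have h1 : Tendsto (fun n => |av u r x - av u (δ n) x|) atTop (𝓝 |av u r x - v x|) :=
      ((hv x).const_sub _).abs
    refine le_of_tendsto h1 ?_
    filter_upwards [hδlim.eventually (gt_mem_nhds hr)] with n hn
    exact hstep x r (δ n) (hδ0 n) hn.le
  have hcont : Continuous v := by
    refine continuous_of_uniform_approx_of_continuous fun U hU => ?_
    obtain ⟨ε, hε, hεU⟩ := Metric.mem_uniformity_dist.mp hU
    obtain ⟨n, hn⟩ := ((hδlim.const_mul K).eventually (gt_mem_nhds (by simpa only [mul_zero, gt_iff_lt] using hε))).exists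
    refine ⟨av u (δ n), rS5_continuous hu (hδ0 n), fun y => hεU ?_⟩
    rw [Real.dist_eq, abs_sub_comm]
    exact (hclose y _ (hδ0 n)).trans_lt hn
  have hae : u =ᵐ[volume] v := by
    filter_upwards [rS5_lebesgue hu] with x hx
    exact tendsto_nhds_unique hx (hv x)
  refine ⟨K, v, hcont, hae, fun x r hr => ?_⟩
  have h1 : av v r x = av u r x := by
    unfold av
    congr 1
    have hq : Measure.QuasiMeasurePreserving (fun y : E d => x + r • y) volume volume := by
      have h1 : Measure.QuasiMeasurePreserving (fun y : E d => r • y) volume volume := by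
        refine ⟨measurable_const_smul r, ?_⟩
        rw [Measure.map_addHaar_smul _ hr.ne']
        exact Measure.smul_absolutelyContinuous
      exact (measurePreserving_add_left volume x).quasiMeasurePreserving.comp h1
    refine integral_congr_ae ?_
    filter_upwards [hq.ae_eq_comp hae] with y hy
    simp only [Function.comp] at hy
    rw [hy]
  rw [h1]
  exact hclose x r hr

end Vale.Agent.P098
end

section

/-!
# Blocks, groups, entries (radix `8` for `y`)
-/

namespace Vale.Agent.P098.N.R8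

open Vale.Agent.P098.K

variable {B h : ℕ} {X : ℕ → ℝ}

/-- Table of class `(i, j)`. -/
def tabZ (B i j : ℕ) : List Bk → List (List ℤ)
  | [] => []
  | b :: l => add2 (scl2 (krE B rs6 (.mul b.m (b.th i j)))
      (gramZ B b.bb (b.cs i) (b.cs j) b.rows)) (tabZ B i j l)

noncomputable def tabR (X : ℕ → ℝ) (i j : ℕ) : List Bk → List (List ℝ)
  | [] => []
  | b :: l => addR2 (sclR2 (evE rs6 X (.mul b.m (b.th i j)))
      (gramR rs6 X b.bb (b.cs i) (b.cs j) b.rows)) (tabR X i j l)

/-- Bound for the table. -/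
def tabL (i j : ℕ) : List Bk → ℕ
  | [] => 0
  | b :: l => lE (.mul b.m (b.th i j))
      * (b.rows.length * ((2 ^ (b.bb - 1) * maxL (b.cs i)) * (2 ^ (b.bb - 1) * maxL (b.cs j))))
      + tabL i j l

/-- Degree bounds of the tables. -/
abbrev dsT : List ℕ := [4, 3, 8, 0, 0, 0]

/-- Well-formedness of the table. -/
def tabO (i j : ℕ) : List Bk → Bool
  | [] => true
  | b :: l => okE rs6 (.mul b.m (b.th i j)) && Nat.ble 1 b.bb && okcs rs6 (b.ds i) (b.cs i)
      && okcs rs6 (b.ds j) (b.cs j)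
      && fits rs6 (List.zipWith (· + ·) (b.ds i) (b.ds j))
      && fits rs6 (List.zipWith (· + ·) (dgE rs6 (.mul b.m (b.th i j)))
          (List.zipWith (· + ·) (b.ds i) (b.ds j)))
      && leL (List.zipWith (· + ·) (dgE rs6 (.mul b.m (b.th i j)))
          (List.zipWith (· + ·) (b.ds i) (b.ds j))) dsT
      && tabO i j l

theorem rm_tab (i j : ℕ) : ∀ {l : List Bk}, tabO i j l = true →
    RM B rs6 X dsT (tabL i j l) (tabZ B i j l) (tabR X i j l) := by
  intro l
  induction l with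
  | nil => intro _; exact List.Forall₂.nil
  | cons b l ih =>
    intro h
    simp only [tabO, Bool.and_eq_true] at h
    obtain ⟨⟨⟨⟨⟨⟨⟨h1, h2⟩, h3⟩, h3'⟩, h4⟩, h5⟩, h6⟩, h7⟩ := h
    have r1 := (rep_Ex (B := B) (X := X) (rs := rs6) (by decide) _ h1).1
    have r2 := rm_gram (B := B) (X := X) (Nat.le_of_ble_eq_true h2) h3 h3' h4 b.rows
    exact RM.add ((RM.scl r1 r2 h5).weaken h6 le_rfl) (ih h7)


/-- Entry `(i, j)` of the sum of squares. -/
def sosP (B i j : ℕ) : List Grp → P3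
  | [] => []
  | g :: l => add3 (cmpP (tabZ B (kd i) (kd j) g.blks) i j g.comps) (sosP B i j l)

noncomputable def sosR (X : ℕ → ℝ) (i j : ℕ) : List Grp → ℝ
  | [] => 0
  | g :: l => cmpR X (tabR X (kd i) (kd j) g.blks) i j g.comps + sosR X i j l

def sosL (bE i j : ℕ) : List Grp → ℕ
  | [] => 0
  | g :: l => cmpL (tabL (kd i) (kd j) g.blks) bE i j g.comps + sosL bE i j l


def sosO (bE i j : ℕ) : List Grp → Bool
  | [] => true
  | g :: l => tabO (kd i) (kd j) g.blks && cmpO bE i j g.comps && sosO bE i j l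

theorem rl_S {bE : ℕ} : ∀ {l : List S3}, okSs bE l = true →
    RL B rs6 X [0, 0, 0, 4, 4, 4] bE
      (l.map (fvS ((B : ℤ) ^ 544) ((B : ℤ) ^ 9248) ((B : ℤ) ^ 157216))) (l.map (evS X)) := by
  intro l
  induction l with
  | nil => intro _; exact List.Forall₂.nil
  | cons e l ih =>
    intro h
    simp only [okSs, Bool.and_eq_true] at h
    exact List.Forall₂.cons ((rep_S h.1.1).weaken (leL_refl _) (Nat.le_of_ble_eq_true h.1.2))
      (ih h.2)

theorem rep_cmp {bT bE i j : ℕ} {M : List (List ℤ)} {MR : List (List ℝ)}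
    (hM : RM B rs6 X dsT bT M MR) : ∀ {l : List (List (List S3))}, cmpO bE i j l = true →
    Rep B rs6 X [4, 3, 8, 8, 8, 8] (cmpL bT bE i j l)
      (fv3 ((B : ℤ) ^ 544) ((B : ℤ) ^ 9248) ((B : ℤ) ^ 157216) (cmpP M i j l))
      (cmpR X MR i j l) := by
  intro l
  induction l with
  | nil => intro _; simpa [cmpP, cmpR, cmpL, fv3_nil] using Rep.zero
  | cons c l ih =>
    intro h
    simp only [cmpO, Bool.and_eq_true] at h
    obtain ⟨⟨h1, h2⟩, h3⟩ := h
    rw [cmpP, cmpR, cmpL, fv3_add, fv3_bilP]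
    refine Rep.add ?_ (ih h3)
    have := rep_bil hM (rl_S (B := B) (X := X) h1) (rl_S (B := B) (X := X) h2) (by decide)
      (by decide)
    simpa only [List.getD_eq_getElem?_getD, List.zipWith_cons_cons, add_zero, zero_add, List.zipWith_self,     List.map_nil, List.map_cons, Nat.reduceAdd, List.length_map] using this

theorem rep_sos {bE i j : ℕ} : ∀ {l : List Grp}, sosO bE i j l = true →
    Rep B rs6 X [4, 3, 8, 8, 8, 8] (sosL bE i j l)
      (fv3 ((B : ℤ) ^ 544) ((B : ℤ) ^ 9248) ((B : ℤ) ^ 157216) (sosP B i j l))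
      (sosR X i j l) := by
  intro l
  induction l with
  | nil => intro _; simpa only [sosL, sosP, fv3_nil, sosR] using Rep.zero
  | cons g l ih =>
    intro h
    simp only [sosO, Bool.and_eq_true] at h
    rw [sosP, sosR, sosL, fv3_add]
    exact (rep_cmp (rm_tab (kd i) (kd j) h.1.1) h.1.2).add (ih h.2)

/-! ### Evaluation of expressions as nested lists -/

/-- Value of an expression as a nested list. -/
def evq (B : ℕ) : Ex → P3
  | .v 3 => mon 1 0 0 1
  | .v 4 => mon 0 1 0 1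
  | .v 5 => mon 0 0 1 1
  | .v i => [[[(B : ℤ) ^ wt rs6 i]]]
  | .c n => [[[n]]]
  | .p _ l => [[[kr B l]]]
  | .add a b => add3 (evq B a) (evq B b)
  | .sub a b => add3 (evq B a) (scl3 (-1) (evq B b))
  | .mul a b => mul3 (evq B a) (evq B b)

theorem fv3_const (s t r n : ℤ) : fv3 s t r [[[n]]] = n := by
  simp only [fv3, pev, fv2, fv1, mul_zero, add_zero]

theorem fv3_evq (e : Ex) : fv3 ((B : ℤ) ^ 544) ((B : ℤ) ^ 9248) ((B : ℤ) ^ 157216) (evq B e)
    = krE B rs6 e := by
  induction e with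
  | v i =>
    rcases Nat.lt_or_ge i 3 with h | h
    · have : evq B (.v i) = [[[(B : ℤ) ^ wt rs6 i]]] := by
        interval_cases i <;> rfl
      rw [this, fv3_const]; rfl
    · rcases Nat.lt_or_ge i 6 with h' | h'
      · have : i = 3 ∨ i = 4 ∨ i = 5 := by omega
        rcases this with rfl | rfl | rfl
        · have e : krE B rs6 (.v 3) = (B : ℤ) ^ wt rs6 3 := rfl
          rw [evq, fv3_mon, e]; simp only [pow_one, one_mul, pow_zero, mul_one, wt, Nat.reduceMul]
        · have e : krE B rs6 (.v 4) = (B : ℤ) ^ wt rs6 4 := rfl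
          rw [evq, fv3_mon, e]; simp only [pow_zero, mul_one, pow_one, one_mul, wt, Nat.reduceMul]
        · have e : krE B rs6 (.v 5) = (B : ℤ) ^ wt rs6 5 := rfl
          rw [evq, fv3_mon, e]; simp [wt]
      · obtain ⟨k, rfl⟩ : ∃ k, i = k + 6 := ⟨i - 6, by omega⟩
        have : evq B (.v (k + 6)) = [[[(B : ℤ) ^ wt rs6 (k + 6)]]] := rfl
        rw [this, fv3_const]; rfl
  | c n => rw [evq, fv3_const]; rfl
  | p ds l => rw [evq, fv3_const]; rfl
  | add a b iha ihb => rw [evq, fv3_add, iha, ihb]; rfl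
  | sub a b iha ihb =>
    have e : krE B rs6 (.sub a b) = krE B rs6 a - krE B rs6 b := rfl
    rw [evq, fv3_add, fv3_scl, iha, ihb, e]; ring
  | mul a b iha ihb => rw [evq, fv3_mul, iha, ihb]; rfl

theorem tabR_nil (X : ℕ → ℝ) (i j : ℕ) : tabR X i j [] = [] := by rw [tabR]

end Vale.Agent.P098.N.R8
end

section

/-!
# The checker: soundness (radix `8` for `y`)
-/

namespace Vale.Agent.P098.N.R8

open Vale.Agent.P098.K

variable {X : ℕ → ℝ}

/-! ### Symmetry and positivity of the sums of squares -/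

theorem bilR_tab_symm (i j : ℕ) (xs ys : List ℝ) : ∀ l : List Bk,
    bilR (tabR X i j l) xs ys = bilR (tabR X j i l) ys xs := by
  intro l
  induction l with
  | nil => simp [tabR, bilR]
  | cons b l ih =>
    rw [tabR, tabR, bilR_add, bilR_add, bilR_scl, bilR_scl, bilR_gram, bilR_gram, ih,
      th_symm b i j]
    congr 2
    congr 1
    refine List.map_congr_left fun r _ => ?_
    ring

theorem cmpR_symm (k k' i j : ℕ) (bl : List Bk) : ∀ l : List (List (List S3)),
    cmpR X (tabR X k k' bl) i j l = cmpR X (tabR X k' k bl) j i l := by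
  intro l
  induction l with
  | nil => rfl
  | cons c l ih => rw [cmpR, cmpR, bilR_tab_symm, ih]

theorem sosR_symm (i j : ℕ) : ∀ l : List Grp, sosR X i j l = sosR X j i l := by
  intro l
  induction l with
  | nil => rfl
  | cons g l ih => rw [sosR, sosR, ih, cmpR_symm]

/-- Compatibility of a block with the weights. -/
def Bk.good (b : Bk) (X : ℕ → ℝ) (ρ : ℝ) : Prop :=
  0 ≤ evE rs6 X b.m ∧ ∃ r0 r1 : ℝ, evE rs6 X b.t00 = r0 * r0 ∧ evE rs6 X b.t01 * ρ = r0 * r1 ∧
    evE rs6 X b.t11 = r1 * r1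

theorem Bk.good_th {b : Bk} {ρ r0 r1 : ℝ} (h0 : evE rs6 X b.t00 = r0 * r0)
    (h1 : evE rs6 X b.t01 * ρ = r0 * r1) (h2 : evE rs6 X b.t11 = r1 * r1) (i j : ℕ) :
    evE rs6 X (b.th (kd i) (kd j)) * wgt ρ i j
      = (if i = 0 then r0 else r1) * (if j = 0 then r0 else r1) := by
  cases i with
  | zero =>
    cases j with
    | zero => simp [kd, Bk.th, wgt, h0]
    | succ j => simp [kd, Bk.th, wgt, h1]
  | succ i =>
    cases j with
    | zero => simp only [Bk.th, kd, wgt, Nat.add_eq_zero_iff, one_ne_zero, and_false, ↓reduceIte, h1]; ring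
    | succ j => simp only [Bk.th, kd, h2, wgt, Nat.add_eq_zero_iff, one_ne_zero, and_false, ↓reduceIte, mul_one]

theorem tab_nonneg (n : ℕ) (ρ : ℝ) (x : ℕ → List ℝ) (u : ℕ → ℝ) : ∀ l : List Bk,
    (∀ b ∈ l, Bk.good b X ρ) →
    0 ≤ ∑ i ∈ Finset.range n, ∑ j ∈ Finset.range n,
      bilR (tabR X (kd i) (kd j) l) (x i) (x j) * (wgt ρ i j * (u i * u j)) := by
  intro l
  induction l with
  | nil => intro _; simp [tabR, bilR]
  | cons b l ih =>
    intro h
    simp only [tabR, bilR_add, bilR_scl, add_mul, Finset.sum_add_distrib]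
    refine add_nonneg ?_ (ih fun b' hb' => h b' (List.mem_cons_of_mem _ hb'))
    obtain ⟨hm, r0, r1, h0, h1, h2⟩ := h b List.mem_cons_self
    have : ∑ i ∈ Finset.range n, ∑ j ∈ Finset.range n,
        evE rs6 X (.mul b.m (b.th (kd i) (kd j)))
          * bilR (gramR rs6 X b.bb (b.cs (kd i)) (b.cs (kd j)) b.rows) (x i) (x j)
            * (wgt ρ i j * (u i * u j))
        = evE rs6 X b.m * ∑ i ∈ Finset.range n, ∑ j ∈ Finset.range n,
            (b.rows.map fun r => dotR (rowR rs6 X b.bb (b.cs (kd i)) r) (x i)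
              * dotR (rowR rs6 X b.bb (b.cs (kd j)) r) (x j)).sum
            * (((if i = 0 then r0 else r1) * u i) * ((if j = 0 then r0 else r1) * u j)) := by
      rw [Finset.mul_sum]
      refine Finset.sum_congr rfl fun i _ => ?_
      rw [Finset.mul_sum]
      refine Finset.sum_congr rfl fun j _ => ?_
      have := Bk.good_th h0 h1 h2 i j
      rw [bilR_gram]
      simp only [evE]
      linear_combination evE rs6 X b.m
        * (b.rows.map fun r => dotR (rowR rs6 X b.bb (b.cs (kd i)) r) (x i)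
              * dotR (rowR rs6 X b.bb (b.cs (kd j)) r) (x j)).sum * (u i * u j) * this
    rw [this]
    exact mul_nonneg hm (rows_nonneg n (fun r i => dotR (rowR rs6 X b.bb (b.cs (kd i)) r) (x i))
      (fun i => (if i = 0 then r0 else r1) * u i) b.rows)

theorem cmp_nonneg (n : ℕ) (ρ : ℝ) (u : ℕ → ℝ) (bl : List Bk) (hb : ∀ b ∈ bl, Bk.good b X ρ) :
    ∀ l : List (List (List S3)),
    0 ≤ ∑ i ∈ Finset.range n, ∑ j ∈ Finset.range n,
      cmpR X (tabR X (kd i) (kd j) bl) i j l * (wgt ρ i j * (u i * u j)) := by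
  intro l
  induction l with
  | nil => simp [cmpR]
  | cons c l ih =>
    simp only [cmpR, add_mul, Finset.sum_add_distrib]
    exact add_nonneg (tab_nonneg n ρ (fun i => (c.getD i []).map (evS X)) u bl hb) ih

theorem sos_nonneg (n : ℕ) (ρ : ℝ) (u : ℕ → ℝ) : ∀ l : List Grp,
    (∀ g ∈ l, ∀ b ∈ g.blks, Bk.good b X ρ) →
    0 ≤ ∑ i ∈ Finset.range n, ∑ j ∈ Finset.range n,
      sosR X i j l * (wgt ρ i j * (u i * u j)) := by
  intro l
  induction l with
  | nil => intro _; simp [sosR]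
  | cons g l ih =>
    intro h
    simp only [sosR, add_mul, Finset.sum_add_distrib]
    exact add_nonneg (cmp_nonneg n ρ u g.blks (h g List.mem_cons_self) g.comps)
      (ih fun g' hg' => h g' (List.mem_cons_of_mem _ hg'))

/-! ### The check -/

/-- Certificate data. -/
structure Cd where
  B : ℕ
  h : ℕ
  bE : ℕ
  grps : List Grp

/-- Final check of a residual. -/
def fin (B h Δ : ℕ) (R : P3) : Bool := rchk B R && Nat.ble (rbd B h R) Δ

/-- The residual of an entry. -/
def Cd.res (c : Cd) (T : Ex) (e : ℤ) (i j : ℕ) : P3 :=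
  add3 (evq c.B (.sub T (.c e))) (scl3 (-1) (sosP c.B i j c.grps))

/-- The cheap part of the check. -/
def Cd.chk0 (c : Cd) (T : Ex) (e : ℤ) (i j : ℕ) : Bool :=
  okE rs6 T && leL (dgE rs6 T) [4, 3, 8, 8, 8, 8] && sosO c.bE i j c.grps
    && Nat.blt ((lE T + e.natAbs + sosL c.bE i j c.grps) * 893101) c.h
    && Nat.ble (2 * c.h) c.B

/-- The whole check of an entry. -/
def Cd.chk (c : Cd) (T : Ex) (e : ℤ) (Δ i j : ℕ) : Bool :=
  c.chk0 T e i j && fin c.B c.h Δ (c.res T e i j)

theorem Cd.chk_sound {c : Cd} (hX : Pt X)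
    (hs : 20 * X 2 ^ 2 + 4 * (X 3 ^ 2 + X 4 ^ 2 + X 5 ^ 2) = 1) {T : Ex} {e : ℤ} {Δ i j : ℕ}
    (h : c.chk T e Δ i j = true) :
    |evE rs6 X T - e - sosR X i j c.grps| * 2 ^ 24 ≤ Δ := by
  simp only [Cd.chk, Cd.chk0, fin, Bool.and_eq_true] at h
  obtain ⟨⟨⟨⟨⟨h1, h2⟩, h3⟩, h4⟩, h5⟩, h6, h7⟩ := h
  obtain ⟨r1, hl⟩ := rep_Ex (B := c.B) (X := X) (rs := rs6) (by decide) T h1
  have r1' := r1.weaken h2 le_rfl
  have r2 := (Rep.const (B := c.B) (X := X) (rs := rs6) e).weaken
    (ds' := [4, 3, 8, 8, 8, 8]) (by decide) le_rfl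
  have r3 := rep_sos (B := c.B) (X := X) h3
  have r4 := (r1'.sub r2).sub r3
  have e1 : fv3 ((c.B : ℤ) ^ 544) ((c.B : ℤ) ^ 9248) ((c.B : ℤ) ^ 157216) (c.res T e i j)
      = krE c.B rs6 T - e - fv3 ((c.B : ℤ) ^ 544) ((c.B : ℤ) ^ 9248) ((c.B : ℤ) ^ 157216)
        (sosP c.B i j c.grps) := by
    rw [Cd.res, fv3_add, fv3_scl, fv3_evq]
    simp only [krE]
    ring
  rw [← e1] at r4
  have h4' : (lE T + e.natAbs + sosL c.bE i j c.grps) * 893101 < c.h := by
    rw [Nat.blt, Nat.ble_eq] at h4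
    exact h4
  refine (reduce_bound hX hs r4 h4' (Nat.le_of_ble_eq_true h5) h6).trans ?_
  exact_mod_cast Nat.le_of_ble_eq_true h7

/-- Main theorem: if all entries pass the check, the quadratic form with matrix `T i j * w i j` is
positive definite. -/
theorem Cd.main {c : Cd} (hX : Pt X)
    (hs : 20 * X 2 ^ 2 + 4 * (X 3 ^ 2 + X 4 ^ 2 + X 5 ^ 2) = 1) {n : ℕ}
    {T : ℕ → ℕ → Ex} {ε Δ : ℕ}
    (hchk : ∀ i < n, ∀ j < n, i ≤ j → c.chk (T i j) (if i = j then (ε : ℤ) else 0) Δ i j = true)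
    (hsym : ∀ i < n, ∀ j < n, evE rs6 X (T i j) = evE rs6 X (T j i))
    {ρ : ℝ} (hρ : |ρ| ≤ 1)
    (hb : ∀ g ∈ c.grps, ∀ b ∈ g.blks, Bk.good b X ρ) (u : ℕ → ℝ) :
    ((ε : ℝ) - n * (Δ / 2 ^ 24)) * ∑ i ∈ Finset.range n, u i ^ 2 ≤
      ∑ i ∈ Finset.range n, ∑ j ∈ Finset.range n, evE rs6 X (T i j) * (wgt ρ i j * (u i * u j)) := by
  set δ : ℝ := Δ / 2 ^ 24 with hδ
  have hδ0 : 0 ≤ δ := by (clear * -; positivity)
  have hw : ∀ i j, |wgt ρ i j| ≤ 1 := by
    intro i j
    simp only [wgt]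
    split_ifs <;> simp [hρ]
  have hwd : ∀ i, wgt ρ i i = 1 := by
    intro i
    simp only [wgt]
    split_ifs <;> rfl
  have key : ∀ i < n, ∀ j < n, |evE rs6 X (T i j) - sosR X i j c.grps
      - (if i = j then (ε : ℝ) else 0)| ≤ δ := by
    intro i hi j hj
    rw [hδ, le_div_iff₀ (by positivity)]
    rcases le_total i j with hij | hij
    · have := Cd.chk_sound hX hs (hchk i hi j hj hij)
      refine le_trans (le_of_eq ?_) this
      congr 2
      split_ifs <;> push_cast <;> ring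
    · have := Cd.chk_sound hX hs (hchk j hj i hi hij)
      refine le_trans (le_of_eq ?_) this
      rw [hsym i hi j hj, sosR_symm i j]
      congr 2
      by_cases h : i = j
      · subst h; simp only [↓reduceIte, Int.cast_natCast]; ring
      · rw [if_neg h, if_neg (fun h' => h h'.symm)]; push_cast; ring
  have h1 := sos_nonneg n ρ u c.grps hb
  have h2 : ∑ i ∈ Finset.range n, ∑ j ∈ Finset.range n,
      (if i = j then (ε : ℝ) else 0) * (wgt ρ i j * (u i * u j))
      = ε * ∑ i ∈ Finset.range n, u i ^ 2 := by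
    rw [Finset.mul_sum]
    refine Finset.sum_congr rfl fun i hi => ?_
    rw [Finset.sum_eq_single i]
    · rw [if_pos rfl, hwd i]; ring
    · intro j _ hj
      rw [if_neg (fun h => hj h.symm)]; ring
    · intro h; exact absurd hi h
  have h3 : |∑ i ∈ Finset.range n, ∑ j ∈ Finset.range n,
      (evE rs6 X (T i j) - sosR X i j c.grps - (if i = j then (ε : ℝ) else 0))
        * (wgt ρ i j * (u i * u j))| ≤ n * δ * ∑ i ∈ Finset.range n, u i ^ 2 := by
    have h4 : ∀ i ∈ Finset.range n, ∀ j ∈ Finset.range n,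
        |(evE rs6 X (T i j) - sosR X i j c.grps - (if i = j then (ε : ℝ) else 0))
          * (wgt ρ i j * (u i * u j))| ≤ δ * (|u i| * |u j|) := by
      intro i hi j hj
      rw [abs_mul, abs_mul, abs_mul]
      have e1 := key i (Finset.mem_range.mp hi) j (Finset.mem_range.mp hj)
      have e2 := hw i j
      have e3 : 0 ≤ |u i| * |u j| := by (clear * -; positivity)
      calc _ ≤ δ * (1 * (|u i| * |u j|)) :=
            mul_le_mul e1 (mul_le_mul_of_nonneg_right e2 e3) (by (clear * -; positivity)) hδ0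
        _ = _ := by ring
    refine (Finset.abs_sum_le_sum_abs _ _).trans ?_
    refine (Finset.sum_le_sum fun i hi => (Finset.abs_sum_le_sum_abs _ _).trans
      (Finset.sum_le_sum fun j hj => h4 i hi j hj)).trans ?_
    have h5 : ∑ i ∈ Finset.range n, ∑ j ∈ Finset.range n, δ * (|u i| * |u j|)
        = δ * (∑ i ∈ Finset.range n, |u i|) ^ 2 := by
      rw [sq, Finset.sum_mul_sum, Finset.mul_sum]
      refine Finset.sum_congr rfl fun i _ => ?_
      rw [Finset.mul_sum]
    rw [h5]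
    have h6 : (∑ i ∈ Finset.range n, |u i|) ^ 2 ≤ n * ∑ i ∈ Finset.range n, u i ^ 2 := by
      have := sq_sum_le_card_mul_sum_sq (s := Finset.range n) (f := fun i => |u i|)
      simpa only [ge_iff_le, Finset.card_range, sq_abs] using this
    calc δ * (∑ i ∈ Finset.range n, |u i|) ^ 2 ≤ δ * (n * ∑ i ∈ Finset.range n, u i ^ 2) :=
          mul_le_mul_of_nonneg_left h6 hδ0
      _ = _ := by ring
  have h7 : ∑ i ∈ Finset.range n, ∑ j ∈ Finset.range n,
        evE rs6 X (T i j) * (wgt ρ i j * (u i * u j))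
      = (∑ i ∈ Finset.range n, ∑ j ∈ Finset.range n,
          (evE rs6 X (T i j) - sosR X i j c.grps - (if i = j then (ε : ℝ) else 0))
            * (wgt ρ i j * (u i * u j)))
        + (∑ i ∈ Finset.range n, ∑ j ∈ Finset.range n,
            sosR X i j c.grps * (wgt ρ i j * (u i * u j)))
        + ∑ i ∈ Finset.range n, ∑ j ∈ Finset.range n,
            (if i = j then (ε : ℝ) else 0) * (wgt ρ i j * (u i * u j)) := by
    simp only [← Finset.sum_add_distrib]
    refine Finset.sum_congr rfl fun i _ => Finset.sum_congr rfl fun j _ => ?_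
    ring
  rw [h7, h2]
  have := (abs_le.mp h3).1
  linarith only [h1, this]

end Vale.Agent.P098.N.R8
end

section

/-!
# The condition `kappa` for `m = 5`
-/

namespace Vale.Agent.P098.N.R8

open Vale.Agent.P098.K

variable {rs : List ℕ} {r : ℕ} {X : ℕ → ℝ}

/-- Terms with the exponents `s, t` of `τ, ι`, packed in `y, v` with radix `r` for `y`. -/
def selM (r s t : ℕ) : List Mo → List (ℤ × ℕ)
  | [] => []
  | q :: l => bif Nat.beq q.2.2.2.1 s && Nat.beq q.2.2.2.2 t then
      (q.1, q.2.1 + r * q.2.2.1) :: selM r s t l else selM r s t l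

/-- All exponents of `y, v` are at most two. -/
def okYV : List Mo → Bool
  | [] => true
  | q :: l => Nat.ble q.2.1 2 && Nat.ble q.2.2.1 2 && okYV l

/-- All exponents of `y, v` are at most two and those of `τ, ι` are `00`, `10`, `01`. -/
def okM : List Mo → Bool
  | [] => true
  | q :: l => Nat.ble q.2.1 2 && Nat.ble q.2.2.1 2
      && ((Nat.beq q.2.2.2.1 0 && Nat.beq q.2.2.2.2 0)
        || (Nat.beq q.2.2.2.1 1 && Nat.beq q.2.2.2.2 0)
        || (Nat.beq q.2.2.2.1 0 && Nat.beq q.2.2.2.2 1)) && okM l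

/-- Packed polynomial in `y, v`. -/
def pk (l : List (ℤ × ℕ)) : Ex := .p [2, 2, 0, 0, 0, 0] l

/-- The power sums. -/
def p3E : Ex := pwE crd5 5 3
def p4E : Ex := pwE crd5 5 4
def p5E : Ex := pwE crd5 5 5

/-- Multiple of `e` (zero if the coefficient list is empty). -/
def tmE : List (ℤ × ℕ) → Ex → Ex
  | [], _ => .c 0
  | q :: l, e => .mul (pk (q :: l)) e

/-- Polynomials in `y, v, τ, ι`, packed. -/
def peS (r : ℕ) (l : List Mo) : Ex :=
  .add (.add (pk (selM r 0 0 l)) (tmE (selM r 1 0 l) p3E)) (tmE (selM r 0 1 l) p4E)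

/-- The radices `rs` with `y`-radix `r` code the monomials in `y, v`. -/
def Cod (rs : List ℕ) (r : ℕ) : Prop :=
  ∀ (X : ℕ → ℝ) (i j : ℕ), i ≤ 2 → j ≤ 2 → mono rs 0 (i + r * j) X = X 0 ^ i * X 1 ^ j

theorem cod8 : Cod rs6 8 := by
  intro X i j hi hj
  simp only [mono]
  have e1 : (i + 8 * j) % 8 = i := by omega
  have e2 : (i + 8 * j) / 8 % 4 = j := by omega
  have e3 : (i + 8 * j) / 8 / 4 % 17 = 0 := by omega
  have e4 : (i + 8 * j) / 8 / 4 / 17 % 17 = 0 := by omega
  have e5 : (i + 8 * j) / 8 / 4 / 17 / 17 % 17 = 0 := by omega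
  have e6 : (i + 8 * j) / 8 / 4 / 17 / 17 / 17 % 9 = 0 := by omega
  rw [e1, e2, e3, e4, e5, e6]
  simp

theorem cod4 : Cod N.rs6 4 := by
  intro X i j hi hj
  simp only [mono]
  have e1 : (i + 4 * j) % 4 = i := by (clear * - hi; omega)
  have e2 : (i + 4 * j) / 4 % 4 = j := by omega
  have e3 : (i + 4 * j) / 4 / 4 % 17 = 0 := by omega
  have e4 : (i + 4 * j) / 4 / 4 / 17 % 17 = 0 := by omega
  have e5 : (i + 4 * j) / 4 / 4 / 17 / 17 % 17 = 0 := by omega
  have e6 : (i + 4 * j) / 4 / 4 / 17 / 17 / 17 % 9 = 0 := by (clear * - e1 e2 e3 e4 e5; omega)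
  rw [e1, e2, e3, e4, e5, e6]
  simp only [zero_add, Nat.reduceAdd, pow_zero, mul_one]

theorem evE_pk (l : List (ℤ × ℕ)) : evE rs X (pk l) = K.ev rs l X := rfl

theorem evE_tmE (l : List (ℤ × ℕ)) (e : Ex) :
    evE rs X (tmE l e) = K.ev rs l X * evE rs X e := by
  cases l with
  | nil => simp [tmE, K.ev]
  | cons q l => rfl

/-- Real value of the terms with exponents `s, t`. -/
noncomputable def sR (s t : ℕ) : List Mo → ℝ → ℝ → ℝ
  | [], _, _ => 0
  | q :: l, y, v => (if q.2.2.2.1 = s ∧ q.2.2.2.2 = t then q.1 * (y ^ q.2.1 * v ^ q.2.2.1) else 0)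
      + sR s t l y v

theorem ev_selM (hc : Cod rs r) (s t : ℕ) {l : List Mo} (h : okYV l = true) :
    K.ev rs (selM r s t l) X = sR s t l (X 0) (X 1) := by
  induction l with
  | nil => simp only [K.ev, selM, List.map_nil, List.sum_nil, sR]
  | cons q l ih =>
    simp only [okYV, Bool.and_eq_true] at h
    obtain ⟨⟨hi, hj⟩, hl⟩ := h
    have hm := hc X q.2.1 q.2.2.1 (Nat.le_of_ble_eq_true hi) (Nat.le_of_ble_eq_true hj)
    have ih := ih hl
    rw [selM, sR]
    by_cases hst : q.2.2.2.1 = s ∧ q.2.2.2.2 = t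
    · rw [if_pos hst]
      have h1 : Nat.beq q.2.2.2.1 s = true := by rw [hst.1]; exact Nat.beq_refl s
      have h2 : Nat.beq q.2.2.2.2 t = true := by rw [hst.2]; exact Nat.beq_refl t
      rw [h1, h2, Bool.and_self, cond_true, ← ih]
      simp only [K.ev, List.map_cons, List.sum_cons, hm]
    · rw [if_neg hst, zero_add]
      have h1 : (Nat.beq q.2.2.2.1 s && Nat.beq q.2.2.2.2 t) = false := by
        rw [Bool.eq_false_iff]
        intro hcon
        rw [Bool.and_eq_true] at hcon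
        exact hst ⟨Nat.eq_of_beq_eq_true hcon.1, Nat.eq_of_beq_eq_true hcon.2⟩
      rw [h1, cond_false, ih]

theorem okYV_of_okM : ∀ {l : List Mo}, okM l = true → okYV l = true := by
  intro l
  induction l with
  | nil => intro _; rfl
  | cons q l ih =>
    intro h
    simp only [okM, Bool.and_eq_true] at h
    simp only [okYV, Bool.and_eq_true]
    exact ⟨h.1.1, ih h.2⟩

theorem pe_eq_sR {l : List Mo} (h : okM l = true) (y v t i : ℝ) :
    pe l y v t i = sR 0 0 l y v + sR 1 0 l y v * t + sR 0 1 l y v * i := by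
  induction l with
  | nil => simp [pe, sR]
  | cons q l ih =>
    obtain ⟨c, a, b, s, u⟩ := q
    simp only [okM, Bool.and_eq_true, Bool.or_eq_true] at h
    obtain ⟨⟨_, hst⟩, hl⟩ := h
    simp only [pe, sR, me]
    rw [ih hl]
    rcases hst with (⟨h1, h2⟩ | ⟨h1, h2⟩) | ⟨h1, h2⟩
    · have h1 := Nat.eq_of_beq_eq_true h1
      have h2 := Nat.eq_of_beq_eq_true h2
      subst h1 h2
      simp only [pow_zero, mul_one, and_self, ↓reduceIte, zero_ne_one, and_true, zero_add, and_false]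
      ring
    · have h1 := Nat.eq_of_beq_eq_true h1
      have h2 := Nat.eq_of_beq_eq_true h2
      subst h1 h2
      simp only [pow_one, pow_zero, mul_one, one_ne_zero, and_true, ↓reduceIte, zero_add, and_self, zero_ne_one]
      ring
    · have h1 := Nat.eq_of_beq_eq_true h1
      have h2 := Nat.eq_of_beq_eq_true h2
      subst h1 h2
      simp only [pow_zero, mul_one, pow_one, one_ne_zero, and_false, ↓reduceIte, zero_add, zero_ne_one, and_self]
      ring

theorem evE_peS (hc : Cod rs r) {l : List Mo} (h : okM l = true) :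
    evE rs X (peS r l) = pe l (X 0) (X 1) (evE rs X p3E) (evE rs X p4E) := by
  have h' := okYV_of_okM h
  simp only [peS, evE_add, evE_tmE, evE_pk, ev_selM hc _ _ h']
  rw [pe_eq_sR h]

/-- `D formK`. -/
def KE (r : ℕ) (F : FD) : Ex :=
  .add (.mul (powE (.v 0) 2) (.sub (.add
      (sumE (fun j => .mul (nE 5 (peS r (F.a.getD j []))) (pwE crd5 5 (j + 2))) F.na)
      (sumE (fun q => .mul (peS r (F.e.getD q []))
        (.sub (if F.ea q = 1 then .c 0 else .mul (pwE crd5 5 (F.ea q)) (pwE crd5 5 (F.ej q + 1)))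
          (if F.ej q = 1 then .c 0 else .mul (pwE crd5 5 (F.ej q)) (pwE crd5 5 (F.ea q + 1)))))
        F.ne)) (nE 4 (peS r F.w))))
    (.mul (.mul (.v 0) (.sub (.c 1) (.v 0)))
      (sumE (fun j => .mul (peS r (F.f.getD j []))
        (if j = 0 then .c 5 else if j = 1 then .c 0 else pwE crd5 5 j)) F.nf))

/-- `D formG`. -/
def GS (r : ℕ) (F : FD) : Ex :=
  nE (-1) (sumE (fun j => if j = 0 then .c 0
    else .mul (peS r (F.f.getD j [])) (pwE crd5 5 (j + 1))) F.nf)

/-- All coefficient lists are of the standard form. -/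
def okF (F : FD) : Bool :=
  okM F.w && F.a.all okM && F.e.all okM && F.f.all okM

theorem okM_getD {L : List (List Mo)} (h : L.all okM = true) (j : ℕ) :
    okM (L.getD j []) = true := by
  rw [List.getD_eq_getElem?_getD]
  rcases lt_or_ge j L.length with h' | h'
  · rw [List.getElem?_eq_getElem h']
    exact List.all_eq_true.mp h _ (List.getElem_mem h')
  · rw [List.getElem?_eq_none h']
    rfl

theorem ptX8 (rs : List ℕ) {y v : ℝ} {lam : Fin 5 → ℝ} (h : pw lam 1 = 0) :
    PtX crd5 rs (pt5 y v lam) y v lam := by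
  have h1 : lam 0 + lam 1 + lam 2 + lam 3 + lam 4 = 0 := by
    simpa only [Fin.isValue, add_assoc, pw, pow_one, Fin.sum_univ_succ, Fin.succ_zero_eq_one, Fin.succ_one_eq_two,     Fin.reduceSucc, Finset.univ_unique, Fin.default_eq_zero, Finset.sum_singleton] using h
  refine ⟨rfl, rfl, fun i => ?_⟩
  fin_cases i
  · simp only [crd5, lam5_0, evE_nE, Int.cast_ofNat, evE_v, pt5_2, Fin.isValue, Fin.zero_eta]; ring
  · simp only [crd5, lam5_1, sgE, evE_sub, evE_add, evE_nE, Int.cast_one, evE_v, pt5_3, Fin.isValue, one_mul, pt5_4, pt5_5, pt5_2, Fin.mk_one]; linarith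
  · simp only [crd5, lam5_2, sgE, Int.reduceNeg, evE_sub, evE_add, evE_nE, Int.cast_one, evE_v, pt5_3, Fin.isValue, one_mul, Int.cast_neg, pt5_4, neg_mul, neg_add_rev, add_add_neg_add_cancel, pt5_5, pt5_2, Fin.reduceFinMk]; linarith
  · simp only [crd5, lam5_3, sgE, Int.reduceNeg, evE_sub, evE_add, evE_nE, Int.cast_neg, Int.cast_one, evE_v, pt5_3, Fin.isValue, neg_mul, one_mul, neg_add_rev, pt5_4, pt5_5, pt5_2, Fin.reduceFinMk]; linarith
  · simp only [crd5, lam5_4, sgE, Int.reduceNeg, evE_sub, evE_add, evE_nE, Int.cast_neg, Int.cast_one, evE_v, pt5_3, Fin.isValue, neg_mul, one_mul, neg_add_rev, pt5_4, pt5_5, pt5_2, Fin.reduceFinMk]; linarith only [h1]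

theorem evE_S (hc : Cod rs r) {F : FD} (hD : 0 < F.D) {y v : ℝ} {lam : Fin 5 → ℝ}
    (h : pw lam 1 = 0) {l : List Mo} (hl : okM l = true) :
    evE rs (pt5 y v lam) (peS r l) = F.D * (sf F.D l).g y v (pw lam 3) (pw lam 4) := by
  have hD' : (F.D : ℝ) ≠ 0 := by exact_mod_cast hD.ne'
  have hX := ptX8 rs (y := y) (v := v) h
  rw [evE_peS hc hl, p3E, p4E, hX.pw 3, hX.pw 4]
  simp only [sf]
  have e0 : pt5 y v lam 0 = y := rfl
  have e1 : pt5 y v lam 1 = v := rfl
  rw [e0, e1]
  (clear * - hD'; field_simp)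

theorem evE_K (hc : Cod rs r) {F : FD} (hD : 0 < F.D) (hF : okF F = true) {y v : ℝ}
    {lam : Fin 5 → ℝ} (h : pw lam 1 = 0) :
    evE rs (pt5 y v lam) (KE r F) = F.D * formK F.fam y v lam := by
  have hX := ptX8 rs (y := y) (v := v) h
  simp only [okF, Bool.and_eq_true] at hF
  obtain ⟨⟨⟨hw, ha⟩, he⟩, hf⟩ := hF
  have e0 : pt5 y v lam 0 = y := rfl
  simp only [KE, evE_add, evE_mul, evE_pow, evE_v, e0, evE_sub, evE_sum, evE_nE, evE_S hc hD h (okM_getD ha _), hX.pw, evE_S hc hD h (okM_getD he _), evE_ite, evE_c, evE_S hc hD h hw, evE_S hc hD h (okM_getD hf _)]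
  have h1 : F.fam.na = F.na := rfl
  have h2 : F.fam.ne = F.ne := rfl
  have h3 : F.fam.nf = F.nf := rfl
  rw [formK, h1, h2, h3, mul_add]
  have a1 : ∀ j ∈ Finset.range F.na, ((5 : ℤ) : ℝ)
      * (F.D * (sf F.D (F.a.getD j [])).g y v (pw lam 3) (pw lam 4)) * pw lam (j + 2)
      = F.D * (((5 : ℕ) : ℝ) * (F.fam.a j).g y v (pw lam 3) (pw lam 4) * pw lam (j + 2)) := by
    intro j _
    have hf : F.fam.a j = sf F.D (F.a.getD j []) := rfl
    rw [hf]
    push_cast
    ring
  have a2 : ∀ q ∈ Finset.range F.ne,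
      F.D * (sf F.D (F.e.getD q [])).g y v (pw lam 3) (pw lam 4)
        * ((if F.ea q = 1 then ((0 : ℤ) : ℝ) else pw lam (F.ea q) * pw lam (F.ej q + 1))
          - (if F.ej q = 1 then ((0 : ℤ) : ℝ) else pw lam (F.ej q) * pw lam (F.ea q + 1)))
      = F.D * ((F.fam.e q).g y v (pw lam 3) (pw lam 4)
        * ((if F.fam.ea q = 1 then 0 else pw lam (F.fam.ea q) * pw lam (F.fam.ej q + 1))
          - (if F.fam.ej q = 1 then 0 else pw lam (F.fam.ej q) * pw lam (F.fam.ea q + 1)))) := by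
    intro q _
    have hf : F.fam.e q = sf F.D (F.e.getD q []) := rfl
    have hf1 : F.fam.ea q = F.ea q := rfl
    have hf2 : F.fam.ej q = F.ej q := rfl
    rw [hf, hf1, hf2]
    push_cast
    ring
  have a3 : ∀ j ∈ Finset.range F.nf,
      F.D * (sf F.D (F.f.getD j [])).g y v (pw lam 3) (pw lam 4)
        * (if j = 0 then ((5 : ℤ) : ℝ) else if j = 1 then ((0 : ℤ) : ℝ) else pw lam j)
      = F.D * ((F.fam.f j).g y v (pw lam 3) (pw lam 4)
        * (if j = 0 then ((5 : ℕ) : ℝ) else if j = 1 then 0 else pw lam j)) := by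
    intro j _
    have hf : F.fam.f j = sf F.D (F.f.getD j []) := rfl
    rw [hf]
    push_cast
    ring
  rw [Finset.sum_congr rfl a1, Finset.sum_congr rfl a2, Finset.sum_congr rfl a3,
    ← Finset.mul_sum, ← Finset.mul_sum, ← Finset.mul_sum]
  have hf : F.fam.w = sf F.D F.w := rfl
  rw [hf]
  push_cast
  ring

theorem evE_GS (hc : Cod rs r) {F : FD} (hD : 0 < F.D) (hF : okF F = true) {y v : ℝ}
    {lam : Fin 5 → ℝ} (h : pw lam 1 = 0) :
    evE rs (pt5 y v lam) (GS r F) = F.D * formG F.fam y v lam := by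
  have hX := ptX8 rs (y := y) (v := v) h
  simp only [okF, Bool.and_eq_true] at hF
  obtain ⟨⟨⟨hw, ha⟩, he⟩, hf⟩ := hF
  simp only [GS, evE_nE, evE_sum, evE_ite, evE_mul, evE_c, hX.pw, evE_S hc hD h (okM_getD hf _)]
  rw [formG]
  have hf3 : F.fam.nf = F.nf := rfl
  have : ∀ j ∈ Finset.range F.nf, (if j = 0 then ((0 : ℤ) : ℝ)
      else F.D * (sf F.D (F.f.getD j [])).g y v (pw lam 3) (pw lam 4) * pw lam (j + 1))
      = F.D * (if j = 0 then 0 else
        (F.fam.f j).g y v (pw lam 3) (pw lam 4) * pw lam (j + 1)) := by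
    intro j _
    split_ifs
    · simp
    · have hf : F.fam.f j = sf F.D (F.f.getD j []) := rfl
      rw [hf]
      ring
  rw [hf3, Finset.sum_congr rfl this, ← Finset.mul_sum]
  push_cast
  ring

/-! ### The splitting function -/

/-- Terms without `τ, ι`. -/
def exM (l : List (ℤ × ℕ × ℕ)) : List Mo := l.map fun q => (q.1, q.2.1, q.2.2, 0, 0)

/-- The splitting function: coefficients in `y, v, p₃, p₄` and coefficients of `p₅`. -/
def HE (r : ℕ) (ha : List Mo) (hb : List (ℤ × ℕ × ℕ)) : Ex :=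
  .add (.add (.add (.add (.add (.add (pk (selM r 0 0 ha)) (tmE (selM r 0 0 (exM hb)) p5E))
    (tmE (selM r 1 0 ha) p3E)) (tmE (selM r 0 1 ha) p4E))
    (tmE (selM r 2 0 ha) (.mul p3E p3E))) (tmE (selM r 1 1 ha) (.mul p3E p4E)))
    (tmE (selM r 0 2 ha) (.mul p4E p4E))

/-- Its value. -/
noncomputable def hR (ha : List Mo) (hb : List (ℤ × ℕ × ℕ)) (y v p3 p4 p5 : ℝ) : ℝ :=
  sR 0 0 ha y v + sR 0 0 (exM hb) y v * p5 + sR 1 0 ha y v * p3 + sR 0 1 ha y v * p4
    + sR 2 0 ha y v * (p3 * p3) + sR 1 1 ha y v * (p3 * p4) + sR 0 2 ha y v * (p4 * p4)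

theorem evE_HE (hc : Cod rs r) {ha : List Mo} {hb : List (ℤ × ℕ × ℕ)} (h1 : okYV ha = true)
    (h2 : okYV (exM hb) = true) :
    evE rs X (HE r ha hb)
      = hR ha hb (X 0) (X 1) (evE rs X p3E) (evE rs X p4E) (evE rs X p5E) := by
  simp only [HE, hR, evE_add, evE_tmE, evE_pk, evE_mul, ev_selM hc _ _ h1, ev_selM hc _ _ h2]

/-- `s (D formK + (1 - y)² h)`. -/
def K1E (r : ℕ) (F : FD) (ha : List Mo) (hb : List (ℤ × ℕ × ℕ)) (s : ℤ) : Ex :=
  nE s (.add (KE r F) (.mul (powE (.sub (.c 1) (.v 0)) 2) (HE r ha hb)))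

/-- `s (D formG - v h)`. -/
def K2E (r : ℕ) (F : FD) (ha : List Mo) (hb : List (ℤ × ℕ × ℕ)) (s : ℤ) : Ex :=
  nE s (.sub (GS r F) (.mul (.v 1) (HE r ha hb)))

/-- Expressions which are nonnegative on the domain. -/
inductive Nn : Ex → Prop
  | one : Nn (.c 1)
  | y : Nn (.v 0)
  | v : Nn (.v 1)
  | ym : Nn (.sub (.c 1) (.v 0))
  | vm : Nn (.sub (.c 1) (.v 1))
  | mul {a b : Ex} : Nn a → Nn b → Nn (.mul a b)

theorem Nn.nonneg (h0 : 0 ≤ X 0) (h1 : X 0 ≤ 1) (h2 : 0 ≤ X 1) (h3 : X 1 ≤ 1) {e : Ex}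
    (h : Nn e) : 0 ≤ evE rs X e := by
  induction h with
  | one => simp only [evE_c, Int.cast_one, zero_le_one]
  | y => simpa only [evE_v] using h0
  | v => simpa only [evE_v] using h2
  | ym => simp only [evE_sub, evE_c, evE_v]; push_cast; linarith
  | vm => simp only [evE_sub, evE_c, evE_v]; push_cast; linarith only [h3]
  | mul _ _ iha ihb => rw [evE_mul]; exact mul_nonneg iha ihb

/-- Scalar block. -/
def bkS (m : Ex) (bb : ℕ) (ds : List ℕ) (cs : Cs) (rows : List ℕ) : Bk where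
  m := m
  t00 := .c 1
  t01 := .c 1
  t11 := .c 1
  bb := bb
  d0 := ds
  d1 := []
  c0 := cs
  c1 := []
  rows := rows

/-- All blocks of the group are scalar blocks. -/
def sclr (g : Grp) : Prop := ∀ b ∈ g.blks, ∃ m bb ds cs rows, Nn m ∧ b = bkS m bb ds cs rows

/-- A scalar polynomial with a passed check is at least `ε - Δ / 2^24` (`y`-radix `8`). -/
theorem scl_pos8 {c : Cd} {T : Ex} {ε Δ : ℕ} (h : c.chk T ε Δ 0 0 = true)
    (hst : ∀ g ∈ c.grps, sclr g) {y v : ℝ} (hy0 : 0 ≤ y) (hy1 : y ≤ 1) (hv0 : 0 ≤ v)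
    (hv1 : v ≤ 1) {lam : Fin 5 → ℝ} (hl1 : pw lam 1 = 0) (hl2 : pw lam 2 = 1) :
    (ε : ℝ) - Δ / 2 ^ 24 ≤ evE rs6 (pt5 y v lam) T := by
  obtain ⟨hX, hsph⟩ := pt5_ok hy0 hy1 hv0 hv1 hl1 hl2.le
  rw [hl2] at hsph
  have hm := Cd.main (c := c) hX hsph (n := 1) (T := fun _ _ => T) (ε := ε) (Δ := Δ)
    (fun i hi j hj _ => by
      have hi' : i = 0 := by omega
      have hj' : j = 0 := by omega
      subst hi' hj'
      simpa using h)
    (fun _ _ _ _ => rfl) (ρ := 1) (by simp)
    (by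
      intro g hg b hb
      obtain ⟨m, bb, ds, cs, rows, hn, rfl⟩ := hst g hg b hb
      exact ⟨hn.nonneg hy0 hy1 hv0 hv1, 1, 1, by simp only [bkS, evE_c, Int.cast_one, mul_one], by simp [bkS], by simp [bkS]⟩)
    (fun _ => 1)
  simpa only [tsub_le_iff_right, ge_iff_le, Nat.cast_one, one_mul, Finset.range_one, one_pow, Finset.sum_const,     Finset.card_singleton, one_smul, mul_one, wgt, ite_self] using hm

/-- A scalar polynomial with a passed check is at least `ε - Δ / 2^24` (`y`-radix `4`). -/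
theorem scl_pos4 {c : N.Cd} {T : Ex} {ε Δ : ℕ} (h : c.chk T ε Δ 0 0 = true)
    (hst : ∀ g ∈ c.grps, sclr g) {y v : ℝ} (hy0 : 0 ≤ y) (hy1 : y ≤ 1) (hv0 : 0 ≤ v)
    (hv1 : v ≤ 1) {lam : Fin 5 → ℝ} (hl1 : pw lam 1 = 0) (hl2 : pw lam 2 = 1) :
    (ε : ℝ) - Δ / 2 ^ 24 ≤ evE N.rs6 (pt5 y v lam) T := by
  obtain ⟨hX, hsph⟩ := pt5_ok hy0 hy1 hv0 hv1 hl1 hl2.le
  rw [hl2] at hsph
  have hm := N.Cd.main (c := c) hX hsph (n := 1) (T := fun _ _ => T) (ε := ε) (Δ := Δ)
    (fun i hi j hj _ => by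
      have hi' : i = 0 := by omega
      have hj' : j = 0 := by omega
      subst hi' hj'
      simpa using h)
    (fun _ _ _ _ => rfl) (ρ := 1) (by simp)
    (by
      intro g hg b hb
      obtain ⟨m, bb, ds, cs, rows, hn, rfl⟩ := hst g hg b hb
      exact ⟨hn.nonneg hy0 hy1 hv0 hv1, 1, 1, by simp [bkS], by simp [bkS], by simp [bkS]⟩)
    (fun _ => 1)
  simpa only [tsub_le_iff_right, ge_iff_le, Nat.cast_one, one_mul, Finset.range_one, one_pow, Finset.sum_const,     Finset.card_singleton, one_smul, mul_one, wgt, ite_self] using hm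

/-- The condition `kappa` for `m = 5`. -/
theorem kappa5_of {F : FD} (hD : 0 < F.D) (hF : okF F = true) {ha : List Mo}
    {hb : List (ℤ × ℕ × ℕ)} (hha : okYV ha = true) (hhb : okYV (exM hb) = true)
    {c1 : Cd} {c2 : N.Cd} {s1 s2 ε1 ε2 Δ1 Δ2 : ℕ} (hs1 : 0 < s1) (hs2 : 0 < s2)
    (he1 : Δ1 < ε1 * 2 ^ 24) (he2 : Δ2 < ε2 * 2 ^ 24)
    (hc1 : c1.chk (K1E 8 F ha hb s1) ε1 Δ1 0 0 = true) (hst1 : ∀ g ∈ c1.grps, sclr g)
    (hc2 : c2.chk (K2E 4 F ha hb s2) ε2 Δ2 0 0 = true) (hst2 : ∀ g ∈ c2.grps, sclr g) :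
    ∃ ε : ℝ, 0 < ε ∧ ∀ y v : ℝ, 0 ≤ y → y ≤ 1 → 0 ≤ v → v ≤ 1 → ∀ lam : Fin 5 → ℝ,
      pw lam 1 = 0 → pw lam 2 = 1 →
        ε * (v + (1 - y) ^ 2) ≤ v * formK F.fam y v lam + (1 - y) ^ 2 * formG F.fam y v lam := by
  have hDr : (0 : ℝ) < F.D := by exact_mod_cast hD
  have hs1r : (0 : ℝ) < s1 := by exact_mod_cast hs1
  have hs2r : (0 : ℝ) < s2 := by exact_mod_cast hs2
  have q1 : (0 : ℝ) < (ε1 : ℝ) - Δ1 / 2 ^ 24 := by
    have : (Δ1 : ℝ) < ε1 * 2 ^ 24 := by exact_mod_cast he1
    have := (div_lt_iff₀ (by positivity)).mpr this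
    (clear F hD hF ha hb hha hhb c1 c2 s1 s2 ε2 Δ2 hs1 hs2 he2 hc1 hst1 hc2 hst2 hDr hs1r hs2r this; linarith)
  have q2 : (0 : ℝ) < (ε2 : ℝ) - Δ2 / 2 ^ 24 := by
    have : (Δ2 : ℝ) < ε2 * 2 ^ 24 := by exact_mod_cast he2
    have := (div_lt_iff₀ (by positivity)).mpr this
    (clear F hD hF ha hb hha hhb c1 c2 s1 s2 ε1 Δ1 hs1 hs2 he1 hc1 hst1 hc2 hst2 hDr hs1r hs2r q1 this; linarith)
  set δ1 : ℝ := (ε1 : ℝ) - Δ1 / 2 ^ 24 with hδ1
  set δ2 : ℝ := (ε2 : ℝ) - Δ2 / 2 ^ 24 with hδ2
  refine ⟨min (δ1 / (s1 * F.D)) (δ2 / (s2 * F.D)), lt_min (by (clear * - q1 hs1 hD; positivity)) (by (clear * - q2 hs2 hD; positivity)), ?_⟩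
  intro y v hy0 hy1 hv0 hv1 lam hl1 hl2
  have k1 := scl_pos8 hc1 hst1 hy0 hy1 hv0 hv1 hl1 hl2
  have k2 := scl_pos4 hc2 hst2 hy0 hy1 hv0 hv1 hl1 hl2
  rw [← hδ1] at k1
  rw [← hδ2] at k2
  have e0 : pt5 y v lam 0 = y := rfl
  have e1 : pt5 y v lam 1 = v := rfl
  have hX8 := ptX8 rs6 (y := y) (v := v) hl1
  have hX4 := ptX8 N.rs6 (y := y) (v := v) hl1
  simp only [K1E, evE_nE, evE_add, evE_mul, evE_pow, evE_sub, evE_c, evE_v,
    evE_K cod8 hD hF hl1, evE_HE cod8 hha hhb, p3E, p4E, p5E, hX8.pw, e0, e1] at k1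
  simp only [K2E, evE_nE, evE_sub, evE_mul, evE_v, evE_GS cod4 hD hF hl1,
    evE_HE cod4 hha hhb, p3E, p4E, p5E, hX4.pw, e0, e1] at k2
  set H : ℝ := hR ha hb y v (pw lam 3) (pw lam 4) (pw lam 5) with hH
  set K : ℝ := formK F.fam y v lam with hK
  set G : ℝ := formG F.fam y v lam with hG
  push_cast at k1 k2
  have m1 : min (δ1 / (s1 * F.D)) (δ2 / (s2 * F.D)) * (s1 * F.D) ≤ δ1 := by
    have := min_le_left (δ1 / (s1 * F.D)) (δ2 / (s2 * F.D))
    calc _ ≤ δ1 / (s1 * F.D) * (s1 * F.D) := mul_le_mul_of_nonneg_right this (by positivity)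
      _ = δ1 := by (clear * - hs1 hD q1; field_simp)
  have m2 : min (δ1 / (s1 * F.D)) (δ2 / (s2 * F.D)) * (s2 * F.D) ≤ δ2 := by
    have := min_le_right (δ1 / (s1 * F.D)) (δ2 / (s2 * F.D))
    calc _ ≤ δ2 / (s2 * F.D) * (s2 * F.D) := mul_le_mul_of_nonneg_right this (by positivity)
      _ = δ2 := by (clear * - hs2 hD q2; field_simp)
  set ε : ℝ := min (δ1 / (s1 * F.D)) (δ2 / (s2 * F.D)) with hε
  have n1 : ε * F.D ≤ F.D * K + (1 - y) ^ 2 * H := by
    have : s1 * (ε * F.D) ≤ s1 * (F.D * K + (1 - y) ^ 2 * H) := by linarith only [k1, m1]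
    exact le_of_mul_le_mul_left this hs1r
  have n2 : ε * F.D ≤ F.D * G - v * H := by
    have : s2 * (ε * F.D) ≤ s2 * (F.D * G - v * H) := by linarith only [k2, m2]
    exact le_of_mul_le_mul_left this hs2r
  have n3 : F.D * (ε * (v + (1 - y) ^ 2)) ≤ F.D * (v * K + (1 - y) ^ 2 * G) := by
    have t1 := mul_le_mul_of_nonneg_left n1 hv0
    have t2 := mul_le_mul_of_nonneg_left n2 (sq_nonneg (1 - y))
    linarith only [t2, t1]
  exact le_of_mul_le_mul_left n3 hDr

end Vale.Agent.P098.N.R8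
end
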