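import Mathlib
import Vale.Agent.P098.Bdl.B3
import Vale.Agent.P098.Bdl.B6
import Vale.Agent.P098.Bdl.B13
import Vale.Agent.P098.Bdl.B10

set_option linter.all false

section

/-! # H4: derivative bounds for harmonic functions

By `Harm.av_eq` with radius `r/4`, for `y` near a point of `ball x (r/2)`:
`f y = I⁻¹ ∫ mk(w) f(y + (r/4) w) dw = I⁻¹ (r/4)^{-d} ∫ mk(4(z - y)/r) f(z) dz`, and one may
differentiate `k` times under the integral sign in `y`:
`‖D^k f(y)‖ ≤ I⁻¹ (r/4)^{-d} (4/r)^k ∫_{B(y, r/4)} ‖(D^k mk)(4(z-y)/r)‖ |f z| dz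
 ≤ C M / r^k`, with `C = 4^k I⁻¹ ∫ ‖D^k mk‖` (+1). (Convolution API:
`HasCompactSupport.contDiff_convolution_left`, or iterate `hasFDerivAt_convolution`.) -/

open MeasureTheory Set Metric Filter
open scoped ContDiff RealInnerProductSpace Topology NNReal

namespace Vale.Agent.P098

variable {d : ℕ}

/-- Iterated derivatives of a convolution with a smooth compactly supported kernel. -/
theorem rH4_conv {F : E d → ℝ} (hF : Integrable F) (n : ℕ) :
    ∀ (V : Type) [NormedAddCommGroup V] [NormedSpace ℝ V] (κ : E d → V),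
      ContDiff ℝ ∞ κ → HasCompactSupport κ → ∀ B : ℝ, (∀ v, ‖iteratedFDeriv ℝ n κ v‖ ≤ B) →
      ∀ y, ‖iteratedFDeriv ℝ n (fun y => ∫ z, F z • κ (y - z)) y‖ ≤ B * ∫ z, |F z| := by
  induction n with
  | zero =>
    intro V _ _ κ hκ hκs B hB y
    have hB' : ∀ v, ‖κ v‖ ≤ B := fun v => by simpa only [norm_iteratedFDeriv_zero] using hB v
    rw [norm_iteratedFDeriv_zero]
    calc ‖∫ z, F z • κ (y - z)‖ ≤ ∫ z, B * |F z| := by
          refine norm_integral_le_of_norm_le (hF.abs.const_mul B) ?_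
          refine Eventually.of_forall fun z => ?_
          rw [norm_smul, Real.norm_eq_abs, mul_comm]
          exact mul_le_mul_of_nonneg_right (hB' _) (abs_nonneg _)
      _ = _ := integral_const_mul _ _
  | succ n ih =>
    intro V _ _ κ hκ hκs B hB y
    have hκ1 : ContDiff ℝ 1 κ := hκ.of_le (by norm_cast)
    have hconv : (fun y => ∫ z, F z • κ (y - z)) =
        (convolution F κ (ContinuousLinearMap.lsmul ℝ ℝ) volume) := by
      ext y
      rw [convolution_def]
      rfl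
    have hder : fderiv ℝ (fun y => ∫ z, F z • κ (y - z)) =
        fun y => ∫ z, F z • fderiv ℝ κ (y - z) := by
      ext1 y
      rw [hconv]
      rw [(hκs.hasFDerivAt_convolution_right (ContinuousLinearMap.lsmul ℝ ℝ)
        hF.locallyIntegrable hκ1 y).fderiv, convolution_def]
      refine integral_congr_ae (Eventually.of_forall fun z => ?_)
      ext v
      simp
    rw [← norm_iteratedFDeriv_fderiv, hder]
    refine ih (E d →L[ℝ] V) (fderiv ℝ κ) (hκ.fderiv_right (m := ∞) (by norm_cast))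
      (hκs.fderiv (𝕜 := ℝ)) B (fun v => ?_) y
    rw [norm_iteratedFDeriv_fderiv]
    exact hB v

theorem rH4_scale {s c B : ℝ} (hs : 0 < s) (hc : 0 ≤ c) {k : ℕ}
    (hB : ∀ v : E d, ‖iteratedFDeriv ℝ k (mk : E d → ℝ) v‖ ≤ B) (v : E d) :
    ‖iteratedFDeriv ℝ k (fun v : E d => c * mk (s⁻¹ • v)) v‖ ≤ c * (B * (s⁻¹) ^ k) := by
  let g : E d →L[ℝ] E d := s⁻¹ • ContinuousLinearMap.id ℝ (E d)
  have hg : ‖g‖ ≤ s⁻¹ := by
    refine ContinuousLinearMap.opNorm_le_bound _ (by positivity) fun v => ?_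
    simp only [smul_apply, ContinuousLinearMap.id_apply, norm_smul, norm_inv, Real.norm_eq_abs, abs_of_pos hs, Std.le_refl, g]
  have hmk : ContDiff ℝ k (mk : E d → ℝ) := mk_contDiff.of_le (by exact_mod_cast le_top)
  have h1 : (fun v : E d => c * mk (s⁻¹ • v)) = c • ((mk : E d → ℝ) ∘ g) := by
    ext v
    simp [g]
  have hcd : ContDiff ℝ k ((mk : E d → ℝ) ∘ g) := hmk.comp g.contDiff
  rw [h1]
  have h2 : iteratedFDeriv ℝ k (c • ((mk : E d → ℝ) ∘ g)) v =
      c • iteratedFDeriv ℝ k ((mk : E d → ℝ) ∘ g) v :=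
    iteratedFDeriv_const_smul_apply hcd.contDiffAt
  rw [h2, norm_smul, Real.norm_eq_abs, abs_of_nonneg hc]
  refine mul_le_mul_of_nonneg_left ?_ hc
  rw [g.iteratedFDeriv_comp_right hmk v le_rfl]
  refine (ContinuousMultilinearMap.norm_compContinuousLinearMap_le _ _).trans ?_
  rw [Finset.prod_const, Finset.card_univ, Fintype.card_fin]
  have hB0 : 0 ≤ B := (norm_nonneg _).trans (hB v)
  exact mul_le_mul (hB _) (pow_le_pow_left₀ (norm_nonneg _) hg k) (by (clear * -; positivity)) hB0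

theorem rH4_mk_neg (v : E d) : mk (-v) = mk v := by
  unfold mk
  rw [norm_neg]

theorem harm_deriv_bound (d k : ℕ) : ∃ C : ℝ, 0 < C ∧ ∀ (f : E d → ℝ) (x : E d) (r M : ℝ), 0 < r →
    Harm (ball x r) f → (∀ y ∈ ball x r, |f y| ≤ M) →
    ∀ y ∈ ball x (r / 2), ‖iteratedFDeriv ℝ k f y‖ ≤ C * M / r ^ k := by
  have hmkk : Continuous (iteratedFDeriv ℝ k (mk : E d → ℝ)) :=
    mk_contDiff.continuous_iteratedFDeriv (by exact_mod_cast le_top)
  obtain ⟨B, hB⟩ := (mk_hasCompactSupport (d := d)).iteratedFDeriv (𝕜 := ℝ) k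
    |>.exists_bound_of_continuous hmkk
  have hB0 : 0 ≤ B := (norm_nonneg _).trans (hB 0)
  set I : ℝ := ∫ y : E d, mk y with hI
  have hI0 : 0 < I := mk_integral_pos
  set V : ℝ := (volume : Measure (E d)).real (ball (0 : E d) 1) with hV
  have hV0 : 0 ≤ V := measureReal_nonneg
  refine ⟨I⁻¹ * 3 ^ d * 4 ^ k * B * V + 1, by (clear * - hI0 hB0; positivity), ?_⟩
  intro f x r M hr hf hM y hy
  have hM0 : 0 ≤ M := (abs_nonneg _).trans (hM x (mem_ball_self hr))
  set s : ℝ := r / 4 with hs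
  have hs0 : 0 < s := by (clear * - hr; positivity)
  set F : E d → ℝ := (closedBall x (3 * s)).indicator f with hFd
  have hsub : closedBall x (3 * s) ⊆ ball x r := closedBall_subset_ball (by rw [hs]; linarith)
  have hFi : Integrable F :=
    (integrable_indicator_iff measurableSet_closedBall).2
      ((hf.1.continuousOn.mono hsub).integrableOn_compact (isCompact_closedBall _ _))
  have hFM : ∫ z, |F z| ≤ M * ((3 * s) ^ d * V) := by
    have h1 : ∀ z, |F z| ≤ (closedBall x (3 * s)).indicator (fun _ => M) z := by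
      intro z
      by_cases hz : z ∈ closedBall x (3 * s)
      · rw [hFd, indicator_of_mem hz, indicator_of_mem hz]
        exact hM z (hsub hz)
      · rw [hFd, indicator_of_notMem hz, indicator_of_notMem hz, abs_zero]
    calc ∫ z, |F z| ≤ ∫ z, (closedBall x (3 * s)).indicator (fun _ => M) z := by
          refine integral_mono hFi.abs ?_ h1
          exact (integrable_indicator_iff measurableSet_closedBall).2
            (integrableOn_const (isCompact_closedBall _ _).measure_lt_top.ne)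
      _ = M * ((3 * s) ^ d * V) := by
          rw [integral_indicator measurableSet_closedBall, setIntegral_const,
            Measure.addHaar_real_closedBall _ _ (by (clear * - hr; positivity)), finrank_euclideanSpace_fin,
            smul_eq_mul, mul_comm]
  -- the representation
  have hrep : ∀ y ∈ ball x (r / 2), f y = ∫ z, F z • ((I⁻¹ * (s ^ d)⁻¹) * mk (s⁻¹ • (y - z))) := by
    intro y hy
    rw [mem_ball] at hy
    have hsy : ball y (2 * s) ⊆ ball x r := by
      intro w hw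
      rw [mem_ball] at hw ⊢
      have := dist_triangle w y x
      rw [hs] at hw
      linarith only [hy, hw, this]
    have h1 : av f s y = f y :=
      Harm.av_eq (R := 2 * s) ⟨hf.1.mono hsy, fun w hw => hf.2 w (hsy hw)⟩ hs0.le (by linarith only [hs0])
    have h2 : ∫ w : E d, mk w * f (y + s • w) = ∫ w : E d, mk w * F (y + s • w) := by
      refine integral_congr_ae (Eventually.of_forall fun w => ?_)
      simp only
      by_cases hw : 1 ≤ ‖w‖
      · rw [mk_eq_zero hw, zero_mul, zero_mul]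
      · push Not at hw
        rw [hFd, indicator_of_mem]
        rw [mem_closedBall]
        have h3 : dist (y + s • w) y ≤ s := by
          rw [dist_eq_norm, add_sub_cancel_left, norm_smul, Real.norm_of_nonneg hs0.le]
          (clear * - hr hw hs; nlinarith [norm_nonneg w])
        have := dist_triangle (y + s • w) y x
        rw [hs] at *
        linarith only [hy, h3, this]
    have h3 : ∫ w : E d, mk w * F (y + s • w) = (s ^ d)⁻¹ * ∫ z : E d, mk (s⁻¹ • z) * F (y + z) := by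
      have h := Measure.integral_comp_smul (volume : Measure (E d))
        (fun z : E d => mk (s⁻¹ • z) * F (y + z)) s
      rw [finrank_euclideanSpace_fin, abs_of_pos (by (clear * - hr; positivity)), smul_eq_mul] at h
      rw [← h]
      refine integral_congr_ae (Eventually.of_forall fun w => ?_)
      simp only
      rw [smul_smul, inv_mul_cancel₀ hs0.ne', one_smul]
    have h4 : ∫ z : E d, mk (s⁻¹ • z) * F (y + z) = ∫ z : E d, mk (s⁻¹ • (z - y)) * F z := by
      rw [← integral_add_left_eq_self (fun z : E d => mk (s⁻¹ • (z - y)) * F z) y]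
      refine integral_congr_ae (Eventually.of_forall fun w => ?_)
      simp only
      rw [add_sub_cancel_left]
    rw [← h1, av, h2, h3, h4, ← hI, div_eq_inv_mul, ← mul_assoc, ← integral_const_mul]
    refine integral_congr_ae (Eventually.of_forall fun w => ?_)
    simp only [smul_eq_mul]
    rw [← neg_sub y w, smul_neg, rH4_mk_neg]
    ring
  have hloc : f =ᶠ[𝓝 y] fun y => ∫ z, F z • ((I⁻¹ * (s ^ d)⁻¹) * mk (s⁻¹ • (y - z))) := by
    filter_upwards [isOpen_ball.mem_nhds hy] with w hw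
    exact hrep w hw
  rw [(EventuallyEq.iteratedFDeriv ℝ hloc k).eq_of_nhds]
  have hc0 : 0 ≤ I⁻¹ * (s ^ d)⁻¹ := by (clear * - hI0 hr; positivity)
  have hκ : ContDiff ℝ ∞ fun v : E d => (I⁻¹ * (s ^ d)⁻¹) * mk (s⁻¹ • v) :=
    contDiff_const.mul (mk_contDiff.comp (contDiff_id.const_smul _))
  have hκs : HasCompactSupport fun v : E d => (I⁻¹ * (s ^ d)⁻¹) * mk (s⁻¹ • v) := by
    refine HasCompactSupport.intro (isCompact_closedBall (0 : E d) s) fun v hv => ?_
    rw [mem_closedBall_zero_iff, not_le] at hv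
    rw [mk_eq_zero, mul_zero]
    rw [norm_smul, norm_inv, Real.norm_of_nonneg hs0.le, le_inv_mul_iff₀ hs0, mul_one]
    exact hv.le
  have hmain := rH4_conv hFi k ℝ _ hκ hκs _ (rH4_scale hs0 hc0 hB) y
  refine hmain.trans ?_
  have hBk : 0 ≤ I⁻¹ * (s ^ d)⁻¹ * (B * s⁻¹ ^ k) := by (clear * - hI0 hr hB0; positivity)
  refine (mul_le_mul_of_nonneg_left hFM hBk).trans ?_
  have hcalc : I⁻¹ * (s ^ d)⁻¹ * (B * s⁻¹ ^ k) * (M * ((3 * s) ^ d * V)) =
      I⁻¹ * 3 ^ d * 4 ^ k * B * V * M / r ^ k := by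
    have hsd : s ^ d ≠ 0 := by positivity
    have h5 : s⁻¹ ^ k = 4 ^ k / r ^ k := by
      rw [hs, inv_div, div_pow]
    rw [h5, mul_pow]
    (clear * - hsd hr hI0; field_simp)
  rw [hcalc]
  have h6 : 0 < r ^ k := by (clear * - hr; positivity)
  rw [div_le_div_iff_of_pos_right h6, add_mul, one_mul]
  linarith only [hM0]

end Vale.Agent.P098
end

section

open MeasureTheory Set Metric Filter
open scoped ContDiff RealInnerProductSpace Topology NNReal

namespace Vale.Agent.P098

variable {d : ℕ}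

theorem rM7a_int {F : E d → ℝ} (hF : AEStronglyMeasurable F volume) {r C : ℝ}
    (h : ∀ x, ‖x‖ ≤ r → |F x| ≤ C) (h0 : ∀ x, r < ‖x‖ → F x = 0) : Integrable F := by
  refine mb_integrable hF (C := max C 0) (fun x => ?_) (isCompact_closedBall (0 : E d) r) ?_
  · rcases le_or_gt ‖x‖ r with hx | hx
    · exact (h x hx).trans (le_max_left _ _)
    · rw [h0 x hx, abs_zero]; exact le_max_right _ _
  · intro x hx
    apply h0
    simpa only [mem_closedBall, dist_zero_right, not_le] using hx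

theorem rM7a_meas_q (u : E d → ℝ) : Measurable fun x : E d => fderiv ℝ u x x := by
  have h : (fun x : E d => fderiv ℝ u x x) = fun x => ⟪gradient u x, x⟫ := by
    funext x; rw [mb_inner_gradient]
  rw [h]
  exact (mb_measurable_gradient u).inner measurable_id

theorem rM7a_meas_n (u : E d → ℝ) : Measurable fun x : E d => ‖fderiv ℝ u x‖ :=
  (measurable_fderiv ℝ u).norm

theorem rM7a_meas_chi {u : E d → ℝ} (hu : Continuous u) :
    Measurable ((pos u).indicator (fun _ => (1 : ℝ))) :=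
  measurable_const.indicator (isOpen_lt continuous_const hu).measurableSet

theorem rM7a_q_le {L : ℝ≥0} {u : E d → ℝ} (hu : LipschitzWith L u) (x : E d) :
    |fderiv ℝ u x x| ≤ L * ‖x‖ := by
  have h1 := (fderiv ℝ u x).le_opNorm x
  have h2 : ‖fderiv ℝ u x‖ ≤ L := norm_fderiv_le_of_lipschitz ℝ hu
  rw [Real.norm_eq_abs] at h1
  exact h1.trans (mul_le_mul_of_nonneg_right h2 (norm_nonneg _))

theorem rM7a_u_le {L : ℝ≥0} {u : E d → ℝ} (hu : LipschitzWith L u) (x : E d) :
    |u x| ≤ |u 0| + L * ‖x‖ := by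
  have h1 := hu.dist_le_mul x 0
  rw [Real.dist_eq, dist_zero_right] at h1
  have h2 : |u x| ≤ |u x - u 0| + |u 0| := by
    have := abs_add_le (u x - u 0) (u 0)
    simpa only [ge_iff_le, sub_add_cancel] using this
  linarith

theorem rM7a_chi_le (u : E d → ℝ) (x : E d) :
    |(pos u).indicator (fun _ => (1 : ℝ)) x| ≤ 1 := by
  by_cases h : x ∈ pos u
  · rw [indicator_of_mem h]; norm_num
  · rw [indicator_of_notMem h]; norm_num

/-- consequence of the inner variation formula -/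
theorem rM7a_iv {L : ℝ≥0} {u : E d → ℝ} (hu : MinL L u) {r : ℝ} (hr : 0 < r) :
    ∫ x : E d, (‖fderiv ℝ u x‖ ^ 2 + (pos u).indicator (fun _ => (1 : ℝ)) x) *
      (d * rM7a_k r x ^ 3 - 6 * rM7a_k r x ^ 2 * ‖x‖ ^ 2 / r ^ 2) =
    2 * ∫ x : E d, (rM7a_k r x ^ 3 * ‖fderiv ℝ u x‖ ^ 2 -
      6 * rM7a_k r x ^ 2 * fderiv ℝ u x x ^ 2 / r ^ 2) := by
  have h := inner_variation hu (rM7a_xi_contDiff (d := d) r) (rM7a_xi_compact hr)
  simp only [rM7a_divg, rM7a_quad] at h
  have mk : Measurable fun x : E d => rM7a_k r x := (rM7a_k_continuous r).measurable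
  have mn := rM7a_meas_n u
  have mq := rM7a_meas_q u
  have mc := rM7a_meas_chi hu.lip.continuous
  rw [integral_sub, integral_const_mul, sub_eq_zero] at h
  · exact h
  · refine rM7a_int (r := r) (C := ((L : ℝ) ^ 2 + 1) * (d + 6)) ?_ ?_ ?_
    · refine Measurable.aestronglyMeasurable ?_
      fun_prop
    · intro x hx
      rw [abs_mul]
      have e1 : ‖fderiv ℝ u x‖ ≤ L := norm_fderiv_le_of_lipschitz ℝ hu.lip
      have e2 : ‖fderiv ℝ u x‖ ^ 2 ≤ (L : ℝ) ^ 2 := by (clear * - e1; gcongr)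
      have e3 := rM7a_chi_le u x
      have k0 := rM7a_k_nonneg r x
      have k1 := rM7a_k_le r x
      have e4 : ‖x‖ ^ 2 / r ^ 2 ≤ 1 := by
        rw [div_le_one (by positivity)]; (clear * - hx; gcongr)
      have e5 : 0 ≤ ‖x‖ ^ 2 / r ^ 2 := by (clear * - hr; positivity)
      have k3 : rM7a_k r x ^ 3 ≤ 1 := pow_le_one₀ k0 k1
      have k2 : rM7a_k r x ^ 2 ≤ 1 := pow_le_one₀ k0 k1
      have k3' : 0 ≤ rM7a_k r x ^ 3 := by (clear * - k0; positivity)
      have k2' : 0 ≤ rM7a_k r x ^ 2 := by (clear * -; positivity)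
      have d0 : (0 : ℝ) ≤ d := by (clear * -; positivity)
      refine mul_le_mul ?_ ?_ (abs_nonneg _) (by (clear * -; positivity))
      · refine (abs_add_le _ _).trans (add_le_add ?_ e3)
        rw [abs_of_nonneg (by (clear * -; positivity))]; exact e2
      · refine (abs_sub _ _).trans (add_le_add ?_ ?_)
        · rw [abs_of_nonneg (by (clear * - k0; positivity))]
          nlinarith only [k3]
        · rw [abs_of_nonneg (by (clear * - hr; positivity))]
          have : 6 * rM7a_k r x ^ 2 * ‖x‖ ^ 2 / r ^ 2 = 6 * (rM7a_k r x ^ 2 * (‖x‖ ^ 2 / r ^ 2)) := by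
            ring
          rw [this]
          linarith only [mul_nonneg (sq_nonneg (1 * rM7a_k r x : ℝ)) (sub_nonneg.2 k2), mul_nonneg (sq_nonneg (1 * rM7a_k r x : ℝ)) (sub_nonneg.2 e4), mul_nonneg (sub_nonneg.2 k2) (sub_nonneg.2 k2)]
    · intro x hx
      rw [rM7a_k_zero hr hx.le]
      (clear * -; norm_num)
  · refine Integrable.const_mul ?_ 2
    refine rM7a_int (r := r) (C := (L : ℝ) ^ 2 + 6 * L ^ 2) ?_ ?_ ?_
    · refine Measurable.aestronglyMeasurable ?_
      (clear * - mk mq; fun_prop)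
    · intro x hx
      have e1 : ‖fderiv ℝ u x‖ ≤ L := norm_fderiv_le_of_lipschitz ℝ hu.lip
      have e2 : ‖fderiv ℝ u x‖ ^ 2 ≤ (L : ℝ) ^ 2 := by (clear * - e1; gcongr)
      have k0 := rM7a_k_nonneg r x
      have k1 := rM7a_k_le r x
      have k3 : rM7a_k r x ^ 3 ≤ 1 := pow_le_one₀ k0 k1
      have k2 : rM7a_k r x ^ 2 ≤ 1 := pow_le_one₀ k0 k1
      have k3' : 0 ≤ rM7a_k r x ^ 3 := by positivity
      have k2' : 0 ≤ rM7a_k r x ^ 2 := by (clear * -; positivity)
      have q1 : |fderiv ℝ u x x| ≤ L * r :=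
        (rM7a_q_le hu.lip x).trans (mul_le_mul_of_nonneg_left hx L.2)
      have q2 : fderiv ℝ u x x ^ 2 / r ^ 2 ≤ (L : ℝ) ^ 2 := by
        rw [div_le_iff₀ (by positivity), ← mul_pow, ← sq_abs]
        exact pow_le_pow_left₀ (abs_nonneg _) q1 2
      have q0 : 0 ≤ fderiv ℝ u x x ^ 2 / r ^ 2 := by (clear * - hr; positivity)
      refine (abs_sub _ _).trans (add_le_add ?_ ?_)
      · rw [abs_of_nonneg (by positivity)]
        linarith only [mul_nonneg (sq_nonneg (‖fderiv ℝ u x‖ : ℝ)) (sub_nonneg.2 k3), e2]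
      · rw [abs_of_nonneg (by (clear * - hr; positivity))]
        have : 6 * rM7a_k r x ^ 2 * fderiv ℝ u x x ^ 2 / r ^ 2 =
            6 * (rM7a_k r x ^ 2 * (fderiv ℝ u x x ^ 2 / r ^ 2)) := by ring
        rw [this]
        linarith only [mul_nonneg (sq_nonneg (1 * ↑L : ℝ)) (sub_nonneg.2 k2), mul_nonneg (sq_nonneg (1 * rM7a_k r x : ℝ)) (sub_nonneg.2 q2)]
    · intro x hx
      rw [rM7a_k_zero hr hx.le]
      (clear * -; norm_num)

/-- the cutoff function times `u` is Lipschitz -/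
theorem rM7a_lip {L : ℝ≥0} {u : E d → ℝ} (hu : LipschitzWith L u) {r : ℝ} (hr : 0 < r) :
    ∃ K : ℝ≥0, LipschitzWith K fun x => u x * rM7a_k r x ^ 3 := by
  have hc : ContDiff ℝ 1 fun x : E d => rM7a_k r x ^ 3 := by
    rw [contDiff_one_iff_hasFDerivAt]
    refine ⟨_, ?_, fun x => rM7a_k_hasFDeriv r x⟩
    have hk := rM7a_k_continuous (d := d) r
    have : Continuous fun x : E d => innerSL ℝ x := (innerSL ℝ).continuous
    fun_prop
  have hs : HasCompactSupport fun x : E d => rM7a_k r x ^ 3 := by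
    refine HasCompactSupport.of_support_subset_isCompact (isCompact_closedBall (0 : E d) r) ?_
    intro x hx
    by_contra h
    apply hx
    have : r ≤ ‖x‖ := by
      simp only [mem_closedBall, dist_zero_right, not_le] at h
      exact h.le
    simp only [rM7a_k_zero hr this, ne_eq, OfNat.ofNat_ne_zero, not_false_eq_true, zero_pow]
  obtain ⟨C, hC⟩ := hc.lipschitzWith_of_hasCompactSupport hs one_ne_zero
  refine ⟨L + (Real.toNNReal (|u 0| + L * r)) * C, LipschitzWith.of_dist_le_mul ?_⟩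
  have hM : 0 ≤ |u 0| + L * r := by (clear * - hr; positivity)
  -- one-sided statement
  have key : ∀ x y : E d, ‖y‖ ≤ r →
      |u x * rM7a_k r x ^ 3 - u y * rM7a_k r y ^ 3| ≤ (L + (|u 0| + L * r) * C) * dist x y := by
    intro x y hy
    have e0 : u x * rM7a_k r x ^ 3 - u y * rM7a_k r y ^ 3 =
        (u x - u y) * rM7a_k r x ^ 3 + u y * (rM7a_k r x ^ 3 - rM7a_k r y ^ 3) := by ring
    rw [e0]
    have e1 : |u x - u y| ≤ L * dist x y := by
      have := hu.dist_le_mul x y
      rwa [Real.dist_eq] at this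
    have e2 : |rM7a_k r x ^ 3 - rM7a_k r y ^ 3| ≤ C * dist x y := by
      have := hC.dist_le_mul x y
      rwa [Real.dist_eq] at this
    have e3 : |u y| ≤ |u 0| + L * r :=
      (rM7a_u_le hu y).trans (by (clear * - hy; gcongr))
    have k3 : |rM7a_k r x ^ 3| ≤ 1 := by
      rw [abs_of_nonneg (pow_nonneg (rM7a_k_nonneg r x) 3)]
      exact pow_le_one₀ (rM7a_k_nonneg r x) (rM7a_k_le r x)
    refine (abs_add_le _ _).trans ?_
    rw [abs_mul, abs_mul]
    have a1 : |u x - u y| * |rM7a_k r x ^ 3| ≤ L * dist x y * 1 :=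
      mul_le_mul e1 k3 (abs_nonneg _) (by (clear * -; positivity))
    have a2 : |u y| * |rM7a_k r x ^ 3 - rM7a_k r y ^ 3| ≤ (|u 0| + L * r) * (C * dist x y) :=
      mul_le_mul e3 e2 (abs_nonneg _) hM
    linarith
  intro x y
  rw [Real.dist_eq]
  have hcoe : ((L + (Real.toNNReal (|u 0| + L * r)) * C : ℝ≥0) : ℝ) =
      L + (|u 0| + L * r) * C := by
    push_cast
    rw [Real.coe_toNNReal _ hM]
  rw [hcoe]
  rcases le_or_gt ‖y‖ r with hy | hy
  · exact key x y hy
  rcases le_or_gt ‖x‖ r with hx | hx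
  · rw [abs_sub_comm, dist_comm]
    exact key y x hx
  · rw [rM7a_k_zero hr hx.le, rM7a_k_zero hr hy.le]
    simp only [ne_eq, OfNat.ofNat_ne_zero, not_false_eq_true, zero_pow, mul_zero, sub_self, abs_zero]
    (clear * - hr; positivity)

/-- consequence of the weak equation -/
theorem rM7a_weak {L : ℝ≥0} {u : E d → ℝ} (hu : MinL L u) {r : ℝ} (hr : 0 < r) :
    ∫ x : E d, rM7a_k r x ^ 3 * ‖fderiv ℝ u x‖ ^ 2 =
    ∫ x : E d, 6 * rM7a_k r x ^ 2 * (u x * fderiv ℝ u x x) / r ^ 2 := by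
  obtain ⟨K, hK⟩ := rM7a_lip hu.lip hr
  have hs : HasCompactSupport fun x : E d => u x * rM7a_k r x ^ 3 := by
    refine HasCompactSupport.of_support_subset_isCompact (isCompact_closedBall (0 : E d) r) ?_
    intro x hx
    by_contra h
    apply hx
    have : r ≤ ‖x‖ := by
      simp only [mem_closedBall, dist_zero_right, not_le] at h
      exact h.le
    simp [rM7a_k_zero hr this]
  have h := hu.weak hK hs (fun x hx => by simp only [hx, zero_mul])
  have h1 : ∫ x : E d, ⟪gradient u x, gradient (fun x => u x * rM7a_k r x ^ 3) x⟫ =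
      ∫ x : E d, (rM7a_k r x ^ 3 * ‖fderiv ℝ u x‖ ^ 2 -
        6 * rM7a_k r x ^ 2 * (u x * fderiv ℝ u x x) / r ^ 2) := by
    refine integral_congr_ae ?_
    filter_upwards [mb_ae_diff hu.lip] with x hx
    rw [real_inner_comm, mb_inner_gradient]
    have h2 : HasFDerivAt (fun x => u x * rM7a_k r x ^ 3) _ x :=
      hx.hasFDerivAt.mul (rM7a_k_hasFDeriv r x)
    rw [h2.fderiv]
    have h3 : fderiv ℝ u x (gradient u x) = ‖fderiv ℝ u x‖ ^ 2 := by
      rw [← mb_inner_gradient, real_inner_self_eq_norm_sq, mb_norm_gradient]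
    have h4 : ⟪x, gradient u x⟫ = fderiv ℝ u x x := by
      rw [real_inner_comm, mb_inner_gradient]
    simp only [add_apply, smul_apply, innerSL_apply_apply, smul_eq_mul, h3, h4]
    ring
  rw [h1, integral_sub, sub_eq_zero] at h
  · exact h
  · have mk : Measurable fun x : E d => rM7a_k r x := (rM7a_k_continuous r).measurable
    have mn := rM7a_meas_n u
    refine rM7a_int (r := r) (C := (L : ℝ) ^ 2) ?_ ?_ ?_
    · refine Measurable.aestronglyMeasurable ?_
      (clear * - mk; fun_prop)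
    · intro x hx
      have e1 : ‖fderiv ℝ u x‖ ≤ L := norm_fderiv_le_of_lipschitz ℝ hu.lip
      have e2 : ‖fderiv ℝ u x‖ ^ 2 ≤ (L : ℝ) ^ 2 := by gcongr
      have k0 := rM7a_k_nonneg r x
      have k1 := rM7a_k_le r x
      have k3 : rM7a_k r x ^ 3 ≤ 1 := pow_le_one₀ k0 k1
      have k3' : 0 ≤ rM7a_k r x ^ 3 := by (clear * - k0; positivity)
      rw [abs_of_nonneg (by (clear * - k0; positivity))]
      linarith only [mul_nonneg (sq_nonneg (‖fderiv ℝ u x‖ : ℝ)) (sub_nonneg.2 k3), e2]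
    · intro x hx
      rw [rM7a_k_zero hr hx.le]
      norm_num
  · have mk : Measurable fun x : E d => rM7a_k r x := (rM7a_k_continuous r).measurable
    have mq := rM7a_meas_q u
    have mu : Measurable u := hu.lip.continuous.measurable
    refine rM7a_int (r := r) (C := 6 * ((|u 0| + L * r) * (L * r)) / r ^ 2) ?_ ?_ ?_
    · refine Measurable.aestronglyMeasurable ?_
      fun_prop
    · intro x hx
      have k0 := rM7a_k_nonneg r x
      have k1 := rM7a_k_le r x
      have k2 : rM7a_k r x ^ 2 ≤ 1 := pow_le_one₀ k0 k1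
      have q1 : |fderiv ℝ u x x| ≤ L * r :=
        (rM7a_q_le hu.lip x).trans (mul_le_mul_of_nonneg_left hx L.2)
      have u1 : |u x| ≤ |u 0| + L * r :=
        (rM7a_u_le hu.lip x).trans (by (clear * - hx; gcongr))
      rw [abs_div, abs_mul, abs_mul, abs_mul, abs_of_pos (by positivity : 0 < r ^ 2),
        abs_of_nonneg (by (clear * -; positivity) : 0 ≤ rM7a_k r x ^ 2), abs_of_pos (by norm_num : (0 : ℝ) < 6)]
      refine div_le_div_of_nonneg_right ?_ (by positivity)
      have : 6 * rM7a_k r x ^ 2 ≤ 6 := by linarith only [k2]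
      exact mul_le_mul this (mul_le_mul u1 q1 (abs_nonneg _) (by (clear * - hr; positivity))) (by (clear * -; positivity))
        (by positivity)
    · intro x hx
      rw [rM7a_k_zero hr hx.le]
      norm_num

end Vale.Agent.P098
end

section

open MeasureTheory Set Metric Filter
open scoped ContDiff RealInnerProductSpace Topology NNReal

namespace Vale.Agent.P098

variable {d : ℕ}

/-- `κ³` as a function of the scale. -/
theorem rM7a_k_scale (x : E d) {ρ : ℝ} (hρ : 0 < ρ) :
    HasDerivAt (fun ρ => rM7a_k ρ x ^ 3) (6 * rM7a_k ρ x ^ 2 * ‖x‖ ^ 2 / ρ ^ 3) ρ := by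
  have h1 : HasDerivAt (fun ρ : ℝ => 1 - ‖x‖ ^ 2 / ρ ^ 2) (2 * ‖x‖ ^ 2 / ρ ^ 3) ρ := by
    have h0 : HasDerivAt (fun ρ : ℝ => ρ ^ 2) (2 * ρ) ρ := by simpa only [Nat.cast_ofNat, Nat.add_one_sub_one, pow_one] using hasDerivAt_pow 2 ρ
    have h2 := ((hasDerivAt_const ρ (‖x‖ ^ 2)).div h0 (by positivity)).const_sub 1
    refine (h2.congr_deriv ?_).congr_of_eventuallyEq (Eventually.of_forall fun y => rfl)
    field_simp
    ring
  have h2 := (rM7a_pow_deriv (1 - ‖x‖ ^ 2 / ρ ^ 2)).comp ρ h1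
  refine h2.congr_deriv ?_
  unfold rM7a_k
  ring

theorem rM7a_A_deriv {L : ℝ≥0} {u : E d → ℝ} (hu : MinL L u) {r : ℝ} (hr : 0 < r) :
    HasDerivAt (fun ρ => ∫ x : E d, (‖fderiv ℝ u x‖ ^ 2 +
        (pos u).indicator (fun _ => (1 : ℝ)) x) * rM7a_k ρ x ^ 3)
      (∫ x : E d, (‖fderiv ℝ u x‖ ^ 2 + (pos u).indicator (fun _ => (1 : ℝ)) x) *
        (6 * rM7a_k r x ^ 2 * ‖x‖ ^ 2 / r ^ 3)) r := by
  have mk : ∀ ρ, Measurable fun x : E d => rM7a_k ρ x := fun ρ => (rM7a_k_continuous ρ).measurable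
  have mn := rM7a_meas_n u
  have mc := rM7a_meas_chi hu.lip.continuous
  have hf : ∀ x, |‖fderiv ℝ u x‖ ^ 2 + (pos u).indicator (fun _ => (1 : ℝ)) x| ≤
      (L : ℝ) ^ 2 + 1 := by
    intro x
    have e1 : ‖fderiv ℝ u x‖ ≤ L := norm_fderiv_le_of_lipschitz ℝ hu.lip
    have e2 : ‖fderiv ℝ u x‖ ^ 2 ≤ (L : ℝ) ^ 2 := by gcongr
    refine (abs_add_le _ _).trans (add_le_add ?_ (rM7a_chi_le u x))
    rw [abs_of_nonneg (by positivity)]; exact e2
  refine (hasDerivAt_integral_of_dominated_loc_of_deriv_le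
    (bound := (closedBall (0 : E d) (2 * r)).indicator fun _ => ((L : ℝ) ^ 2 + 1) * (12 / r))
    (F := fun ρ x => (‖fderiv ℝ u x‖ ^ 2 + (pos u).indicator (fun _ => (1 : ℝ)) x) *
      rM7a_k ρ x ^ 3)
    (F' := fun ρ x => (‖fderiv ℝ u x‖ ^ 2 + (pos u).indicator (fun _ => (1 : ℝ)) x) *
      (6 * rM7a_k ρ x ^ 2 * ‖x‖ ^ 2 / ρ ^ 3))
    (Ioo_mem_nhds (by linarith only [hr] : r / 2 < r) (by linarith only [hr] : r < 2 * r)) ?_ ?_ ?_ ?_ ?_ ?_).2
  · refine Eventually.of_forall fun ρ => Measurable.aestronglyMeasurable ?_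
    have := mk ρ
    fun_prop
  · refine rM7a_int (r := r) (C := (L : ℝ) ^ 2 + 1) ?_ ?_ ?_
    · refine Measurable.aestronglyMeasurable ?_
      have := mk r
      fun_prop
    · intro x hx
      rw [abs_mul]
      have k0 := rM7a_k_nonneg r x
      have k1 := rM7a_k_le r x
      have k3 : rM7a_k r x ^ 3 ≤ 1 := pow_le_one₀ k0 k1
      rw [abs_of_nonneg (by (clear * - k0; positivity) : 0 ≤ rM7a_k r x ^ 3)]
      calc _ ≤ ((L : ℝ) ^ 2 + 1) * 1 := mul_le_mul (hf x) k3 (by (clear * - k0; positivity)) (by (clear * -; positivity))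
        _ = _ := mul_one _
    · intro x hx
      rw [rM7a_k_zero hr hx.le]
      norm_num
  · refine Measurable.aestronglyMeasurable ?_
    have := mk r
    fun_prop
  · refine Eventually.of_forall fun x ρ hρ => ?_
    have hρ0 : 0 < ρ := by have := hρ.1; linarith
    rcases le_or_gt ρ ‖x‖ with hx | hx
    · rw [rM7a_k_zero hρ0 hx]
      simp only [ne_eq, OfNat.ofNat_ne_zero, not_false_eq_true, zero_pow, mul_zero, zero_mul, zero_div, norm_zero]
      refine indicator_nonneg (fun _ _ => by (clear * - hr; positivity)) x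
    · have hxm : x ∈ closedBall (0 : E d) (2 * r) := by
        rw [mem_closedBall, dist_zero_right]
        linarith only [hx, hρ.2]
      rw [indicator_of_mem hxm, norm_mul, Real.norm_eq_abs, Real.norm_eq_abs]
      refine mul_le_mul (hf x) ?_ (abs_nonneg _) (by (clear * -; positivity))
      rw [abs_of_nonneg (by have := rM7a_k_nonneg ρ x; (clear * - hρ0; positivity))]
      have k0 := rM7a_k_nonneg ρ x
      have k1 := rM7a_k_le ρ x
      have k2 : rM7a_k ρ x ^ 2 ≤ 1 := pow_le_one₀ k0 k1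
      rw [div_le_div_iff₀ (by positivity) hr]
      have h1 : ‖x‖ ^ 2 ≤ ρ ^ 2 := by gcongr
      have h2 : r ≤ 2 * ρ := by linarith only [hρ.1]
      calc 6 * rM7a_k ρ x ^ 2 * ‖x‖ ^ 2 * r ≤ 6 * 1 * ρ ^ 2 * (2 * ρ) := by (clear * - k2 h1 h2 hr hρ0; gcongr)
        _ = 12 * ρ ^ 3 := by ring
  · rw [integrable_indicator_iff measurableSet_closedBall]
    exact integrableOn_const (measure_closedBall_lt_top.ne)
  · refine Eventually.of_forall fun x ρ hρ => ?_
    have hρ0 : 0 < ρ := by have := hρ.1; linarith only [hr, this]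
    exact (rM7a_k_scale x hρ0).const_mul _

/-- derivative of the first part of Weiss' energy -/
theorem rM7a_A {L : ℝ≥0} {u : E d → ℝ} (hu : MinL L u) {r : ℝ} (hr : 0 < r) :
    HasDerivAt (fun r => ∫ y : E d, (‖fderiv ℝ u (r • y)‖ ^ 2 +
        (pos u).indicator (fun _ => (1 : ℝ)) (r • y)) * max (1 - ‖y‖ ^ 2) 0 ^ 3)
      (2 / r ^ 3 * ∫ y : E d, 6 * max (1 - ‖y‖ ^ 2) 0 ^ 2 *
        (fderiv ℝ u (r • y) (r • y) ^ 2 - u (r • y) * fderiv ℝ u (r • y) (r • y))) r := by
  set f : E d → ℝ := fun x => ‖fderiv ℝ u x‖ ^ 2 + (pos u).indicator (fun _ => (1 : ℝ)) x with hfdef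
  set G : ℝ → ℝ := fun ρ => ∫ x : E d, f x * rM7a_k ρ x ^ 3 with hG
  have h1 : ∀ ρ : ℝ, 0 < ρ → ∫ y : E d, (‖fderiv ℝ u (ρ • y)‖ ^ 2 +
        (pos u).indicator (fun _ => (1 : ℝ)) (ρ • y)) * max (1 - ‖y‖ ^ 2) 0 ^ 3 =
      (ρ ^ d)⁻¹ * G ρ := by
    intro ρ hρ
    have := Measure.integral_comp_smul_of_nonneg (volume : Measure (E d))
      (fun x => f x * rM7a_k ρ x ^ 3) ρ (hR := hρ.le)
    simp only [rM7a_k_smul hρ, finrank_euclideanSpace, Fintype.card_fin, smul_eq_mul] at this
    exact this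
  have hGd : HasDerivAt G (∫ x : E d, f x * (6 * rM7a_k r x ^ 2 * ‖x‖ ^ 2 / r ^ 3)) r :=
    rM7a_A_deriv hu hr
  have hp : HasDerivAt (fun ρ : ℝ => (ρ ^ d)⁻¹) (-(d * (r ^ d)⁻¹ / r)) r := by
    have h0 := (hasDerivAt_pow d r).inv (by positivity)
    refine h0.congr_deriv ?_
    rcases Nat.eq_zero_or_pos d with hd | hd
    · subst hd; simp only [CharP.cast_eq_zero, zero_tsub, pow_zero, mul_one, neg_zero, one_pow, div_one, inv_one, zero_div]
    · obtain ⟨e, rfl⟩ : ∃ e, d = e + 1 := ⟨d - 1, by omega⟩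
      simp only [Nat.add_sub_cancel]
      field_simp
      ring
  have h2 := hp.mul hGd
  have h3 : HasDerivAt (fun r => ∫ y : E d, (‖fderiv ℝ u (r • y)‖ ^ 2 +
        (pos u).indicator (fun _ => (1 : ℝ)) (r • y)) * max (1 - ‖y‖ ^ 2) 0 ^ 3) _ r :=
    h2.congr_of_eventuallyEq (by
      filter_upwards [Ioi_mem_nhds hr] with ρ hρ
      rw [h1 ρ hρ]; rfl)
  refine h3.congr_deriv ?_
  have mk : Measurable fun x : E d => rM7a_k r x := (rM7a_k_continuous r).measurable
  have mn := rM7a_meas_n u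
  have mq := rM7a_meas_q u
  have mu : Measurable u := hu.lip.continuous.measurable
  have mc := rM7a_meas_chi hu.lip.continuous
  have mf : Measurable f := by rw [hfdef]; fun_prop
  have hf : ∀ x, |f x| ≤ (L : ℝ) ^ 2 + 1 := by
    intro x
    have e1 : ‖fderiv ℝ u x‖ ≤ L := norm_fderiv_le_of_lipschitz ℝ hu.lip
    have e2 : ‖fderiv ℝ u x‖ ^ 2 ≤ (L : ℝ) ^ 2 := by (clear * - e1; gcongr)
    refine (abs_add_le _ _).trans (add_le_add ?_ (rM7a_chi_le u x))
    rw [abs_of_nonneg (by positivity)]; exact e2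
  -- integrability
  have i1 : Integrable fun x : E d => f x * rM7a_k r x ^ 3 := by
    refine rM7a_int (r := r) (C := (L : ℝ) ^ 2 + 1) (by (clear * - mc mk; exact Measurable.aestronglyMeasurable (by fun_prop))) ?_ ?_
    · intro x hx
      rw [abs_mul]
      have k0 := rM7a_k_nonneg r x
      have k3 : rM7a_k r x ^ 3 ≤ 1 := pow_le_one₀ k0 (rM7a_k_le r x)
      rw [abs_of_nonneg (by (clear * - k0; positivity) : 0 ≤ rM7a_k r x ^ 3)]
      calc _ ≤ ((L : ℝ) ^ 2 + 1) * 1 := mul_le_mul (hf x) k3 (by (clear * - k0; positivity)) (by (clear * -; positivity))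
        _ = _ := mul_one _
    · intro x hx
      rw [rM7a_k_zero hr hx.le]
      norm_num
  have i2 : Integrable fun x : E d => f x * (6 * rM7a_k r x ^ 2 * ‖x‖ ^ 2 / r ^ 2) := by
    refine rM7a_int (r := r) (C := ((L : ℝ) ^ 2 + 1) * 6) (by exact Measurable.aestronglyMeasurable (by fun_prop)) ?_ ?_
    · intro x hx
      rw [abs_mul]
      have k0 := rM7a_k_nonneg r x
      have k2 : rM7a_k r x ^ 2 ≤ 1 := pow_le_one₀ k0 (rM7a_k_le r x)
      refine mul_le_mul (hf x) ?_ (abs_nonneg _) (by (clear * -; positivity))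
      rw [abs_of_nonneg (by (clear * - hr; positivity)), div_le_iff₀ (by positivity)]
      have h1 : ‖x‖ ^ 2 ≤ r ^ 2 := by (clear * - hx; gcongr)
      calc 6 * rM7a_k r x ^ 2 * ‖x‖ ^ 2 ≤ 6 * 1 * r ^ 2 := by (clear * - k2 h1; gcongr)
        _ = 6 * r ^ 2 := by ring
    · intro x hx
      rw [rM7a_k_zero hr hx.le]
      norm_num
  have i3 : Integrable fun x : E d => rM7a_k r x ^ 3 * ‖fderiv ℝ u x‖ ^ 2 := by
    refine rM7a_int (r := r) (C := (L : ℝ) ^ 2) (by exact Measurable.aestronglyMeasurable (by fun_prop)) ?_ ?_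
    · intro x hx
      have e1 : ‖fderiv ℝ u x‖ ≤ L := norm_fderiv_le_of_lipschitz ℝ hu.lip
      have e2 : ‖fderiv ℝ u x‖ ^ 2 ≤ (L : ℝ) ^ 2 := by (clear * - e1; gcongr)
      have k0 := rM7a_k_nonneg r x
      have k3 : rM7a_k r x ^ 3 ≤ 1 := pow_le_one₀ k0 (rM7a_k_le r x)
      rw [abs_of_nonneg (by (clear * - k0; positivity))]
      calc rM7a_k r x ^ 3 * ‖fderiv ℝ u x‖ ^ 2 ≤ 1 * (L : ℝ) ^ 2 := by (clear * - k3 e2; gcongr)
        _ = _ := one_mul _
    · intro x hx
      rw [rM7a_k_zero hr hx.le]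
      norm_num
  have i4 : Integrable fun x : E d => 6 * rM7a_k r x ^ 2 * fderiv ℝ u x x ^ 2 / r ^ 2 := by
    refine rM7a_int (r := r) (C := 6 * (L * r) ^ 2 / r ^ 2) (by exact Measurable.aestronglyMeasurable (by fun_prop)) ?_ ?_
    · intro x hx
      have k0 := rM7a_k_nonneg r x
      have k2 : rM7a_k r x ^ 2 ≤ 1 := pow_le_one₀ k0 (rM7a_k_le r x)
      have q1 : |fderiv ℝ u x x| ≤ L * r :=
        (rM7a_q_le hu.lip x).trans (mul_le_mul_of_nonneg_left hx L.2)
      rw [abs_of_nonneg (by (clear * - hr; positivity))]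
      refine div_le_div_of_nonneg_right ?_ (by positivity)
      rw [← sq_abs (fderiv ℝ u x x)]
      calc 6 * rM7a_k r x ^ 2 * |fderiv ℝ u x x| ^ 2 ≤ 6 * 1 * (L * r) ^ 2 := by (clear * - k2 q1; gcongr)
        _ = _ := by ring
    · intro x hx
      rw [rM7a_k_zero hr hx.le]
      norm_num
  have i5 : Integrable fun x : E d => 6 * rM7a_k r x ^ 2 * (u x * fderiv ℝ u x x) / r ^ 2 := by
    refine rM7a_int (r := r) (C := 6 * ((|u 0| + L * r) * (L * r)) / r ^ 2) (by exact Measurable.aestronglyMeasurable (by fun_prop)) ?_ ?_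
    · intro x hx
      have k0 := rM7a_k_nonneg r x
      have k2 : rM7a_k r x ^ 2 ≤ 1 := pow_le_one₀ k0 (rM7a_k_le r x)
      have q1 : |fderiv ℝ u x x| ≤ L * r :=
        (rM7a_q_le hu.lip x).trans (mul_le_mul_of_nonneg_left hx L.2)
      have u1 : |u x| ≤ |u 0| + L * r :=
        (rM7a_u_le hu.lip x).trans (by (clear * - hx; gcongr))
      rw [abs_div, abs_mul, abs_mul, abs_mul, abs_of_pos (by positivity : 0 < r ^ 2),
        abs_of_nonneg (by (clear * -; positivity) : 0 ≤ rM7a_k r x ^ 2), abs_of_pos (by norm_num : (0 : ℝ) < 6)]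
      refine div_le_div_of_nonneg_right ?_ (by positivity)
      have : 6 * rM7a_k r x ^ 2 ≤ 6 := by linarith only [k2]
      exact mul_le_mul this (mul_le_mul u1 q1 (abs_nonneg _) (by (clear * - hr; positivity))) (by (clear * -; positivity))
        (by positivity)
    · intro x hx
      rw [rM7a_k_zero hr hx.le]
      (clear * -; norm_num)
  -- names
  have hiv := rM7a_iv hu hr
  have hwk := rM7a_weak hu hr
  have e1 : ∫ x : E d, (‖fderiv ℝ u x‖ ^ 2 + (pos u).indicator (fun _ => (1 : ℝ)) x) *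
      (d * rM7a_k r x ^ 3 - 6 * rM7a_k r x ^ 2 * ‖x‖ ^ 2 / r ^ 2) =
      d * (∫ x : E d, f x * rM7a_k r x ^ 3) -
        ∫ x : E d, f x * (6 * rM7a_k r x ^ 2 * ‖x‖ ^ 2 / r ^ 2) := by
    rw [← integral_const_mul, ← integral_sub (i1.const_mul _) i2]
    refine integral_congr_ae (Eventually.of_forall fun x => ?_)
    simp only [hfdef]
    ring
  rw [e1, integral_sub i3 i4, hwk] at hiv
  -- change of variables on the right-hand side
  have h5 : ∫ y : E d, 6 * max (1 - ‖y‖ ^ 2) 0 ^ 2 *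
        (fderiv ℝ u (r • y) (r • y) ^ 2 - u (r • y) * fderiv ℝ u (r • y) (r • y)) =
      (r ^ d)⁻¹ * ∫ x : E d, 6 * rM7a_k r x ^ 2 *
        (fderiv ℝ u x x ^ 2 - u x * fderiv ℝ u x x) := by
    have := Measure.integral_comp_smul_of_nonneg (volume : Measure (E d))
      (fun x => 6 * rM7a_k r x ^ 2 * (fderiv ℝ u x x ^ 2 - u x * fderiv ℝ u x x)) r (hR := hr.le)
    simp only [rM7a_k_smul hr, finrank_euclideanSpace, Fintype.card_fin, smul_eq_mul] at this
    exact this
  have h6 : ∫ x : E d, 6 * rM7a_k r x ^ 2 * (fderiv ℝ u x x ^ 2 - u x * fderiv ℝ u x x) =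
      r ^ 2 * ((∫ x : E d, 6 * rM7a_k r x ^ 2 * fderiv ℝ u x x ^ 2 / r ^ 2) -
        ∫ x : E d, 6 * rM7a_k r x ^ 2 * (u x * fderiv ℝ u x x) / r ^ 2) := by
    rw [← integral_sub i4 i5, ← integral_const_mul]
    refine integral_congr_ae (Eventually.of_forall fun x => ?_)
    (clear * - hr; field_simp)
  have h7 : ∫ x : E d, f x * (6 * rM7a_k r x ^ 2 * ‖x‖ ^ 2 / r ^ 3) =
      r⁻¹ * ∫ x : E d, f x * (6 * rM7a_k r x ^ 2 * ‖x‖ ^ 2 / r ^ 2) := by
    rw [← integral_const_mul]
    refine integral_congr_ae (Eventually.of_forall fun x => ?_)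
    simp only
    (clear * - hr; field_simp)
  rw [h5, h6, h7]
  simp only [hG]
  have h8 : (∫ x : E d, f x * (6 * rM7a_k r x ^ 2 * ‖x‖ ^ 2 / r ^ 2)) =
      d * (∫ x : E d, f x * rM7a_k r x ^ 3) -
      2 * ((∫ x : E d, 6 * rM7a_k r x ^ 2 * (u x * fderiv ℝ u x x) / r ^ 2) -
        ∫ x : E d, 6 * rM7a_k r x ^ 2 * fderiv ℝ u x x ^ 2 / r ^ 2) := by linarith only [hiv]
  rw [h8]
  field_simp
  ring

end Vale.Agent.P098
end

section

/-! # PN: norm equivalences for polynomials of bounded degree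

The space of polynomials of degree `≤ K` in `d` variables is finite dimensional, and
`p ↦ sup_{ball z r} |p|` is a norm on it. For `z = 0`, `r = 1`: by equivalence of norms there is `C`
with `‖D^k p(x)‖ ≤ C sup_{ball 0 1} |p|` for `|x| ≤ 32`, `k ≤ K + 1`, and `cn p ≤ C sup`.
General case: apply this to the polynomial `y ↦ p(z + r y)` (again of degree `≤ K`).
A concrete way: one-dimensional Lagrange interpolation, or compactness of the unit sphere of the
finite dimensional coefficient space. -/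

open MeasureTheory Set Metric Filter
open scoped ContDiff RealInnerProductSpace Topology NNReal

namespace Vale.Agent.P098

variable {d : ℕ}

/-- A polynomial vanishing on a ball is zero. -/
theorem rPN_eq_zero {p : MvPolynomial (Fin d) ℝ}
    (h : ∀ y ∈ closedBall (0 : E d) (1 / 8), ev p y = 0) : p = 0 := by
  have hpos : (0 : ℝ) < 1 / (8 * (d + 1)) := by positivity
  refine MvPolynomial.funext_set (fun _ => Icc (0 : ℝ) (1 / (8 * (d + 1))))
    (fun _ => Icc_infinite hpos) fun x hx => ?_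
  rw [map_zero]
  have h1 : (WithLp.toLp 2 x : E d) ∈ closedBall (0 : E d) (1 / 8) := by
    rw [mem_closedBall_zero_iff, EuclideanSpace.norm_eq]
    refine Real.sqrt_le_iff.2 ⟨by norm_num, ?_⟩
    calc ∑ i, ‖(WithLp.toLp 2 x : E d) i‖ ^ 2 ≤ ∑ _i : Fin d, (1 / (8 * (d + 1)) : ℝ) ^ 2 := by
          refine Finset.sum_le_sum fun i _ => ?_
          have h2 := hx i (mem_univ i)
          refine pow_le_pow_left₀ (norm_nonneg _) ?_ 2
          change ‖x i‖ ≤ _
          rw [Real.norm_eq_abs, abs_of_nonneg h2.1]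
          exact h2.2
      _ = d * (1 / (8 * (d + 1)) : ℝ) ^ 2 := by simp only [one_div, mul_inv_rev, Finset.sum_const, Finset.card_univ, Fintype.card_fin, nsmul_eq_mul]
      _ ≤ (1 / 8) ^ 2 := by
          have h3 : (0 : ℝ) ≤ d := Nat.cast_nonneg d
          rw [div_pow, div_pow, ← mul_div_assoc, div_le_div_iff₀ (by positivity) (by norm_num)]
          (clear * -; nlinarith)
  exact h _ h1

/-- evaluation on the closed ball of radius `1/8` -/
noncomputable def rPN_T : MvPolynomial (Fin d) ℝ →ₗ[ℝ] C(closedBall (0 : E d) (1 / 8), ℝ) where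
  toFun p := ⟨fun y => ev p y.1, (contDiff_ev p).continuous.comp continuous_subtype_val⟩
  map_add' p q := by
    ext y
    exact ev_add p q y
  map_smul' c p := by
    ext y
    change ev (c • p) y.1 = c * ev p y.1
    simp [ev]

/-- the polynomial with given coefficients -/
noncomputable def rPN_mkP (s : Finset (Fin d →₀ ℕ)) : (s → ℝ) →ₗ[ℝ] MvPolynomial (Fin d) ℝ :=
  Fintype.linearCombination ℝ fun m : s => MvPolynomial.monomial m.1 1

theorem rPN_mkP_coeff (s : Finset (Fin d →₀ ℕ)) (a : s → ℝ) (m : s) :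
    (rPN_mkP s a).coeff m.1 = a m := by
  classical
  unfold rPN_mkP
  rw [Fintype.linearCombination_apply, MvPolynomial.coeff_sum]
  simp only [MvPolynomial.coeff_smul, MvPolynomial.coeff_monomial, smul_eq_mul, mul_ite, mul_one,
    mul_zero]
  rw [Finset.sum_eq_single m]
  · simp
  · intro b _ hb
    rw [if_neg fun h => hb (Subtype.ext h)]
  · intro h
    exact absurd (Finset.mem_univ m) h

theorem rPN_mkP_of (s : Finset (Fin d →₀ ℕ)) (p : MvPolynomial (Fin d) ℝ) (hp : p.support ⊆ s) :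
    rPN_mkP s (fun m => p.coeff m.1) = p := by
  classical
  unfold rPN_mkP
  rw [Fintype.linearCombination_apply]
  conv_rhs => rw [p.as_sum]
  rw [Finset.sum_subset hp fun m _ hm => by
    rw [MvPolynomial.notMem_support_iff.1 hm, MvPolynomial.monomial_zero]]
  rw [← Finset.sum_coe_sort s]
  refine Finset.sum_congr rfl fun m _ => ?_
  rw [MvPolynomial.smul_monomial, smul_eq_mul, mul_one]

theorem rPN_small (s : Finset (Fin d →₀ ℕ)) : ∃ C : ℝ, 0 < C ∧ ∀ p : MvPolynomial (Fin d) ℝ,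
    p.support ⊆ s → ∀ M : ℝ, (∀ y ∈ closedBall (0 : E d) (1 / 8), |ev p y| ≤ M) →
      cn p ≤ C * M := by
  have hker : LinearMap.ker ((rPN_T (d := d)) ∘ₗ rPN_mkP s) = ⊥ := by
    rw [LinearMap.ker_eq_bot']
    intro a ha
    have h1 : rPN_mkP s a = 0 := rPN_eq_zero fun y hy => by
      have := congrArg (fun f : C(closedBall (0 : E d) (1 / 8), ℝ) => f ⟨y, hy⟩) ha
      exact this
    funext m
    rw [← rPN_mkP_coeff s a m, h1]
    simp
  obtain ⟨C, hC, h⟩ := LinearMap.exists_antilipschitzWith _ hker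
  refine ⟨(s.card + 1) * C, by (clear * - hC; positivity), fun p hp M hM => ?_⟩
  have hM0 : 0 ≤ M := (abs_nonneg _).trans (hM 0 (by simp only [one_div, mem_closedBall, dist_self, inv_nonneg, Nat.ofNat_nonneg]))
  set a : s → ℝ := fun m => p.coeff m.1 with ha
  have h1 : ‖a‖ ≤ C * M := by
    have h2 := h.le_mul_dist a 0
    rw [map_zero, dist_zero_right, dist_zero_right] at h2
    refine h2.trans (mul_le_mul_of_nonneg_left ?_ C.2)
    rw [ContinuousMap.norm_le _ hM0]
    rintro ⟨y, hy⟩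
    have h3 : (rPN_T ∘ₗ rPN_mkP s) a = rPN_T p := by
      rw [LinearMap.comp_apply, rPN_mkP_of s p hp]
    rw [h3]
    exact hM y hy
  rw [rPB_cn_eq p hp]
  calc ∑ m ∈ s, |p.coeff m| ≤ ∑ _m ∈ s, C * M := by
        refine Finset.sum_le_sum fun m hm => ?_
        have h2 := norm_le_pi_norm a ⟨m, hm⟩
        exact h2.trans h1
    _ = s.card * (C * M) := by simp
    _ ≤ (s.card + 1) * C * M := by
        have : 0 ≤ (C : ℝ) * M := mul_nonneg C.2 hM0
        linarith

theorem rPN_support (K : ℕ) : ∃ s : Finset (Fin d →₀ ℕ), ∀ p : MvPolynomial (Fin d) ℝ,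
    p.totalDegree ≤ K → p.support ⊆ s := by
  refine ⟨Finset.Iic (Finsupp.equivFunOnFinite.symm fun _ => K), fun p hp m hm => ?_⟩
  rw [Finset.mem_Iic]
  intro i
  exact (Finsupp.le_degree i m).trans ((MvPolynomial.le_totalDegree hm).trans hp)

theorem cn_le_of_bound (d K : ℕ) : ∃ C : ℝ, 0 < C ∧ ∀ p : MvPolynomial (Fin d) ℝ,
    p.totalDegree ≤ K → ∀ M : ℝ, (∀ y ∈ ball (0 : E d) (1 / 4), |ev p y| ≤ M) → cn p ≤ C * M := by
  obtain ⟨s, hs⟩ := rPN_support (d := d) K
  obtain ⟨C, hC, h⟩ := rPN_small s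
  exact ⟨C, hC, fun p hp M hM => h p (hs p hp) M fun y hy =>
    hM y (closedBall_subset_ball (by norm_num) hy)⟩

/-- bounds for the derivatives by the coefficient norm -/
theorem rPN_deriv (s : Finset (Fin d →₀ ℕ)) (N : ℕ) : ∃ C : ℝ, 0 < C ∧
    ∀ p : MvPolynomial (Fin d) ℝ, p.support ⊆ s → ∀ y : E d, ‖y‖ ≤ 32 → ∀ k : ℕ, k ≤ N →
      ‖iteratedFDeriv ℝ k (ev p) y‖ ≤ C * cn p := by
  have h1 : ∀ (m : Fin d →₀ ℕ) (k : ℕ), ∃ C : ℝ, 0 ≤ C ∧ ∀ y ∈ closedBall (0 : E d) 32,
      ‖iteratedFDeriv ℝ k (ev (MvPolynomial.monomial m (1 : ℝ))) y‖ ≤ C := by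
    intro m k
    have hc : Continuous fun y : E d =>
        iteratedFDeriv ℝ k (ev (MvPolynomial.monomial m (1 : ℝ))) y :=
      (contDiff_ev _).continuous_iteratedFDeriv (by exact_mod_cast le_top)
    obtain ⟨C, hC⟩ := (isCompact_closedBall (0 : E d) 32).exists_bound_of_continuousOn
      hc.continuousOn
    exact ⟨C, (norm_nonneg _).trans (hC 0 (by simp only [mem_closedBall, dist_self, Nat.ofNat_nonneg])), hC⟩
  choose B hB0 hB using h1
  refine ⟨∑ m ∈ s, ∑ k ∈ Finset.range (N + 1), B m k + 1, ?_, fun p hp y hy k hk => ?_⟩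
  · have : 0 ≤ ∑ m ∈ s, ∑ k ∈ Finset.range (N + 1), B m k :=
      Finset.sum_nonneg fun m _ => Finset.sum_nonneg fun k _ => hB0 m k
    linarith
  have h2 : ev p = fun y => ∑ m ∈ s, p.coeff m • ev (MvPolynomial.monomial m (1 : ℝ)) y := by
    funext y
    conv_lhs => rw [p.as_sum]
    rw [rPB_ev_sum]
    rw [Finset.sum_subset hp fun m _ hm => by
      rw [MvPolynomial.notMem_support_iff.1 hm, MvPolynomial.monomial_zero]; simp [ev]]
    refine Finset.sum_congr rfl fun m _ => ?_
    simp only [ev, MvPolynomial.eval_monomial, Finsupp.prod_pow, one_mul, smul_eq_mul]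
  have hcd : ∀ m : Fin d →₀ ℕ, ContDiffAt ℝ k (ev (MvPolynomial.monomial m (1 : ℝ))) y :=
    fun m => ((contDiff_ev _).of_le (by exact_mod_cast le_top)).contDiffAt
  rw [h2, iteratedFDeriv_fun_sum_apply fun m _ => (hcd m).const_smul (p.coeff m)]
  refine (norm_sum_le _ _).trans ?_
  rw [rPB_cn_eq p hp, Finset.mul_sum]
  refine Finset.sum_le_sum fun m hm => ?_
  rw [iteratedFDeriv_const_smul_apply' (hcd m), norm_smul, Real.norm_eq_abs, mul_comm]
  refine mul_le_mul_of_nonneg_right ?_ (abs_nonneg _)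
  have h3 : B m k ≤ ∑ k ∈ Finset.range (N + 1), B m k :=
    Finset.single_le_sum (f := fun k => B m k) (fun k _ => hB0 m k)
      (Finset.mem_range.2 (by omega))
  have h4 : ∑ k ∈ Finset.range (N + 1), B m k ≤ ∑ m ∈ s, ∑ k ∈ Finset.range (N + 1), B m k :=
    Finset.single_le_sum (f := fun m => ∑ k ∈ Finset.range (N + 1), B m k)
      (fun m _ => Finset.sum_nonneg fun k _ => hB0 m k) hm
  have h5 := hB m k y (by rwa [mem_closedBall_zero_iff])
  linarith only [h3, h4, h5]

/-- The polynomial `y ↦ p (z + r y)`. -/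
theorem rPN_affine (p : MvPolynomial (Fin d) ℝ) (z : E d) (r : ℝ) :
    ∃ q : MvPolynomial (Fin d) ℝ, q.totalDegree ≤ p.totalDegree ∧
      ∀ y, ev q y = ev p (z + r • y) := by
  refine ⟨MvPolynomial.aeval (fun i => MvPolynomial.C (z i) +
    MvPolynomial.C r * MvPolynomial.X i : Fin d → MvPolynomial (Fin d) ℝ) p, ?_, fun y => ?_⟩
  · rw [MvPolynomial.aeval_def, MvPolynomial.eval₂_eq]
    refine MvPolynomial.totalDegree_finsetSum_le fun m hm => ?_
    refine (MvPolynomial.totalDegree_mul _ _).trans ?_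
    rw [MvPolynomial.algebraMap_eq, MvPolynomial.totalDegree_C, zero_add]
    refine (MvPolynomial.totalDegree_finsetProd _ _).trans ?_
    refine (Finset.sum_le_sum fun i _ => (MvPolynomial.totalDegree_pow _ _).trans
      (Nat.mul_le_mul_left (m i) (?_ : _ ≤ 1))).trans ?_
    · refine (MvPolynomial.totalDegree_add _ _).trans (max_le ?_ ?_)
      · rw [MvPolynomial.totalDegree_C]; exact Nat.zero_le _
      · refine (MvPolynomial.totalDegree_mul _ _).trans ?_
        rw [MvPolynomial.totalDegree_C, MvPolynomial.totalDegree_X]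
    · simp only [mul_one]
      exact MvPolynomial.le_totalDegree hm
  · unfold ev
    rw [MvPolynomial.aeval_def, MvPolynomial.eval₂_eq, map_sum, MvPolynomial.eval_eq]
    refine Finset.sum_congr rfl fun m _ => ?_
    simp

theorem poly_bounds (d K : ℕ) : ∃ C : ℝ, 0 < C ∧ ∀ p : MvPolynomial (Fin d) ℝ,
    p.totalDegree ≤ K → ∀ (z x : E d) (r M : ℝ), 0 < r → (∀ y ∈ ball z r, |ev p y| ≤ M) →
    dist x z ≤ 32 * r → ∀ k : ℕ, k ≤ K + 1 → ‖iteratedFDeriv ℝ k (ev p) x‖ ≤ C * M / r ^ k := by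
  obtain ⟨s, hs⟩ := rPN_support (d := d) K
  obtain ⟨C, hC, h⟩ := rPN_small s
  obtain ⟨D, hD, hd⟩ := rPN_deriv s (K + 1)
  refine ⟨D * C, by positivity, fun p hp z x r M hr hM hx k hk => ?_⟩
  obtain ⟨q, hq, hqe⟩ := rPN_affine p z r
  have hqs := hs q (hq.trans hp)
  have h1 : cn q ≤ C * M := h q hqs M fun y hy => by
    rw [hqe]
    apply hM
    rw [mem_ball, dist_eq_norm, add_sub_cancel_left, norm_smul, Real.norm_eq_abs, abs_of_pos hr]
    rw [mem_closedBall_zero_iff] at hy
    (clear * - hr hy; (by_contra nlg; linarith only [hr, mul_nonneg (mul_self_nonneg (1 : ℝ)) (sub_nonneg.2 (not_lt.1 nlg)), mul_nonneg (le_of_lt (sub_pos.2 hr)) (sub_nonneg.2 hy)]))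
  have h2 : ev p = fun w => (ev q ∘ (r⁻¹ • ContinuousLinearMap.id ℝ (E d))) (w - z) := by
    funext w
    change ev p w = ev q (r⁻¹ • (w - z))
    rw [hqe, smul_smul, mul_inv_cancel₀ hr.ne', one_smul, add_sub_cancel]
  have hcd : ContDiff ℝ k (ev q) := (contDiff_ev q).of_le (by exact_mod_cast le_top)
  have h3 : ‖iteratedFDeriv ℝ k (ev p) x‖ ≤
      ‖iteratedFDeriv ℝ k (ev q) (r⁻¹ • (x - z))‖ * (r⁻¹) ^ k := by
    rw [h2, iteratedFDeriv_comp_sub, ContinuousLinearMap.iteratedFDeriv_comp_right _ hcd _ le_rfl]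
    refine (ContinuousMultilinearMap.norm_compContinuousLinearMap_le _ _).trans ?_
    refine mul_le_mul_of_nonneg_left ?_ (norm_nonneg _)
    rw [Finset.prod_const, Finset.card_univ, Fintype.card_fin]
    refine pow_le_pow_left₀ (norm_nonneg _) ?_ k
    refine (norm_smul_le _ _).trans ?_
    rw [Real.norm_eq_abs, abs_of_pos (inv_pos.2 hr)]
    exact mul_le_of_le_one_right (inv_pos.2 hr).le ContinuousLinearMap.norm_id_le
  have h4 : ‖r⁻¹ • (x - z)‖ ≤ 32 := by
    rw [norm_smul, Real.norm_eq_abs, abs_of_pos (inv_pos.2 hr), ← dist_eq_norm,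
      inv_mul_le_iff₀ hr]
    linarith only [hx]
  have h5 := hd q hqs _ h4 k hk
  have h6 : ‖iteratedFDeriv ℝ k (ev q) (r⁻¹ • (x - z))‖ ≤ D * C * M := by
    refine h5.trans ?_
    rw [mul_assoc]
    exact mul_le_mul_of_nonneg_left h1 hD.le
  refine h3.trans ?_
  rw [div_eq_mul_inv, ← inv_pow]
  exact mul_le_mul_of_nonneg_right h6 (by (clear * - hr; positivity))

end Vale.Agent.P098
end

section

set_option linter.all false

/-! # E7: Taylor polynomials of harmonic polynomials

`q = ∑_{1 ≤ j ≤ K} homogeneousComponent j h`: degree `≤ K`, no constant term, harmonic (`lapP`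
maps the component of degree `j` to that of degree `j-2`), even. `t ↦ ev h (t x) = ∑_j h_j(x) t^j`,
so `ev h x - ev h 0 - ev q x` is the Taylor remainder of order `K` at `0` of this function of one
variable at `t = 1`; it is bounded by `sup_{ball 0 (1/4)} ‖D^{K+1} (ev h)‖ ‖x‖^{K+1}/(K+1)!`, and
`‖D^{K+1} (ev h)‖ ≤ C` on `ball 0 (1/4)` by `harm_deriv_bound` (`r = 1/2`, `M = 2`). Then
`|ev q| ≤ C'` on `ball 0 (1/4)`, so `cn q ≤ C''` by `cn_le_of_bound`. -/

open MeasureTheory Set Metric Filter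
open scoped ContDiff RealInnerProductSpace Topology NNReal

namespace Vale.Agent.P098

variable {d : ℕ}

/-- One integration step for polynomials on `[0,1]`. -/
theorem rE7_step (p : Polynomial ℝ) (M : ℝ) (h0 : p.coeff 0 = 0)
    (hd : ∀ t ∈ Icc (0 : ℝ) 1, |(Polynomial.derivative p).eval t| ≤ M) :
    ∀ t ∈ Icc (0 : ℝ) 1, |p.eval t| ≤ M := by
  intro t ht
  have hM : 0 ≤ M := le_trans (abs_nonneg _) (hd 0 ⟨le_refl _, zero_le_one⟩)
  have key := (convex_Icc (0 : ℝ) 1).norm_image_sub_le_of_norm_hasDerivWithin_le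
    (f := fun s => p.eval s) (f' := fun s => (Polynomial.derivative p).eval s) (C := M)
    (x := 0) (y := t)
    (fun s _ => (p.hasDerivAt s).hasDerivWithinAt)
    (fun s hs => by rw [Real.norm_eq_abs]; exact hd s hs) ⟨le_refl _, zero_le_one⟩ ht
  have h00 : p.eval 0 = 0 := by rw [← Polynomial.coeff_zero_eq_eval_zero]; exact h0
  simp only [h00, sub_zero, Real.norm_eq_abs] at key
  rw [abs_of_nonneg ht.1] at key
  calc |p.eval t| ≤ M * t := key
    _ ≤ M * 1 := mul_le_mul_of_nonneg_left ht.2 hM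
    _ = M := mul_one M

/-- Taylor remainder for polynomials with vanishing low order terms. -/
theorem rE7_rem (K : ℕ) : ∀ (p : Polynomial ℝ) (M : ℝ), (∀ j ≤ K, p.coeff j = 0) →
    (∀ t ∈ Icc (0 : ℝ) 1, |((Polynomial.derivative)^[K + 1] p).eval t| ≤ M) →
    ∀ t ∈ Icc (0 : ℝ) 1, |p.eval t| ≤ M := by
  induction K with
  | zero =>
    intro p M h0 hd
    exact rE7_step p M (h0 0 le_rfl) hd
  | succ K ih =>
    intro p M h0 hd
    apply rE7_step p M (h0 0 (Nat.zero_le _))
    apply ih (Polynomial.derivative p) M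
    · intro j hj
      rw [Polynomial.coeff_derivative, h0 (j + 1) (by omega), zero_mul]
    · intro t ht
      have := hd t ht
      rw [Function.iterate_succ_apply] at this
      exact this

theorem rE7_iter (p : Polynomial ℝ) (k : ℕ) :
    iteratedDeriv k (fun t => p.eval t) = fun t => ((Polynomial.derivative)^[k] p).eval t := by
  induction k with
  | zero => simp
  | succ k ih =>
    rw [iteratedDeriv_succ, ih, Function.iterate_succ_apply']
    funext t
    exact Polynomial.deriv _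

/-- Restriction of a polynomial to a ray. -/
noncomputable def rE7_ray (x : E d) (p : MvPolynomial (Fin d) ℝ) : Polynomial ℝ :=
  MvPolynomial.aeval (fun i => Polynomial.C (x i) * Polynomial.X) p

theorem rE7_ray_eval (x : E d) (p : MvPolynomial (Fin d) ℝ) (t : ℝ) :
    (rE7_ray x p).eval t = ev p (t • x) := by
  unfold rE7_ray ev
  induction p using MvPolynomial.induction_on with
  | C a => simp only [MvPolynomial.algHom_C, Polynomial.algebraMap_eq, Polynomial.eval_C, PiLp.smul_apply, smul_eq_mul, MvPolynomial.eval_C]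
  | add p q hp hq => simp only [map_add, Polynomial.eval_add, hp, hq]
  | mul_X p i hp =>
    simp only [map_mul, MvPolynomial.aeval_X, Polynomial.eval_mul, hp, Polynomial.eval_C, Polynomial.eval_X, MvPolynomial.eval_X]
    simp [mul_comm]

theorem rE7_ray_monomial (x : E d) (m : Fin d →₀ ℕ) (c : ℝ) :
    rE7_ray x (MvPolynomial.monomial m c)
      = Polynomial.C (c * m.prod fun i n => x i ^ n) * Polynomial.X ^ m.degree := by
  unfold rE7_ray
  rw [MvPolynomial.aeval_monomial, Polynomial.C_mul, mul_assoc]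
  congr 1
  rw [Finsupp.prod, Finsupp.prod, map_prod, Finsupp.degree_apply, ← Finset.prod_pow_eq_pow_sum,
    ← Finset.prod_mul_distrib]
  apply Finset.prod_congr rfl
  intro i _
  rw [mul_pow, Polynomial.C_pow]

theorem rE7_ray_low (x : E d) (K : ℕ) (p : MvPolynomial (Fin d) ℝ) (hp : LowZero K p) :
    ∀ j < K, (rE7_ray x p).coeff j = 0 := by
  intro j hj
  rw [p.as_sum]
  unfold rE7_ray
  rw [map_sum, Polynomial.finset_sum_coeff]
  apply Finset.sum_eq_zero
  intro m hm
  have hm' : K ≤ m.degree := by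
    by_contra hc
    push Not at hc
    exact (MvPolynomial.mem_support_iff.1 hm) (hp m hc)
  have := rE7_ray_monomial x m (p.coeff m)
  unfold rE7_ray at this
  rw [this, Polynomial.coeff_C_mul_X_pow, if_neg (by omega)]

theorem rE7_ray_deg (x : E d) (K : ℕ) (p : MvPolynomial (Fin d) ℝ) (hp : p.totalDegree ≤ K) :
    (Polynomial.derivative)^[K + 1] (rE7_ray x p) = 0 := by
  apply Polynomial.iterate_derivative_eq_zero
  rw [Nat.lt_succ_iff, p.as_sum]
  unfold rE7_ray
  rw [map_sum]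
  apply Polynomial.natDegree_sum_le_of_forall_le
  intro m hm
  have := rE7_ray_monomial x m (p.coeff m)
  unfold rE7_ray at this
  rw [this]
  refine le_trans (Polynomial.natDegree_C_mul_X_pow_le _ _) ?_
  refine le_trans ?_ hp
  have := MvPolynomial.le_totalDegree hm
  rwa [Finsupp.degree_apply]

theorem rE7_ray_bound (x : E d) (p : MvPolynomial (Fin d) ℝ) (k : ℕ) (t : ℝ) :
    |((Polynomial.derivative)^[k] (rE7_ray x p)).eval t|
      ≤ ‖iteratedFDeriv ℝ k (ev p) (t • x)‖ * ‖x‖ ^ k := by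
  have h1 : (fun t => (rE7_ray x p).eval t)
      = ev p ∘ ((ContinuousLinearMap.id ℝ ℝ).smulRight x) := by
    funext s
    simp only [rE7_ray_eval, Function.comp_apply, ContinuousLinearMap.smulRight_apply, ContinuousLinearMap.id_apply]
  have h2 : ((Polynomial.derivative)^[k] (rE7_ray x p)).eval t
      = iteratedDeriv k (fun t => (rE7_ray x p).eval t) t := by
    rw [rE7_iter]
  rw [h2, ← Real.norm_eq_abs, ← norm_iteratedFDeriv_eq_norm_iteratedDeriv, h1,
    ContinuousLinearMap.iteratedFDeriv_comp_right _ ((contDiff_ev p).of_le (m := k) (by exact_mod_cast le_top))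
      t le_rfl]
  refine le_trans (ContinuousMultilinearMap.norm_compContinuousLinearMap_le _ _) ?_
  have h3 : ‖(ContinuousLinearMap.id ℝ ℝ).smulRight x‖ = ‖x‖ := by
    rw [ContinuousLinearMap.norm_smulRight_apply]; simp only [ContinuousLinearMap.norm_id, one_mul]
  simp only [ContinuousLinearMap.smulRight_apply, ContinuousLinearMap.id_apply, h3, Finset.prod_const, Finset.card_univ, Fintype.card_fin, Std.le_refl]

/-- The part of `h` of degrees between `1` and `K`. -/
noncomputable def rE7_tr {d : ℕ} (K : ℕ) (h : MvPolynomial (Fin d) ℝ) : MvPolynomial (Fin d) ℝ :=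
  ∑ j ∈ Finset.Icc 1 K, MvPolynomial.homogeneousComponent j h

theorem rE7_coeff_tr (K : ℕ) (h : MvPolynomial (Fin d) ℝ) (m : Fin d →₀ ℕ) :
    (rE7_tr K h).coeff m = if 1 ≤ m.degree ∧ m.degree ≤ K then h.coeff m else 0 := by
  unfold rE7_tr
  rw [MvPolynomial.coeff_sum]
  simp only [MvPolynomial.coeff_homogeneousComponent]
  rw [Finset.sum_ite_eq]
  simp only [Finset.mem_Icc]

theorem rE7_coeff_lapP (p : MvPolynomial (Fin d) ℝ) (m : Fin d →₀ ℕ) :
    (lapP p).coeff m = ∑ i, p.coeff (m + Finsupp.single i 1 + Finsupp.single i 1)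
      * (((m + Finsupp.single i 1 : Fin d →₀ ℕ) i : ℝ) + 1) * ((m i : ℝ) + 1) := by
  unfold lapP
  rw [MvPolynomial.coeff_sum]
  apply Finset.sum_congr rfl
  intro i _
  rw [MvPolynomial.coeff_pderiv, MvPolynomial.coeff_pderiv]

theorem rE7_lapP_tr (K : ℕ) (h : MvPolynomial (Fin d) ℝ) (hh : lapP h = 0) :
    lapP (rE7_tr K h) = 0 := by
  ext m
  have hm := congrArg (MvPolynomial.coeff m) hh
  rw [rE7_coeff_lapP] at hm ⊢
  rw [MvPolynomial.coeff_zero] at hm ⊢
  have hdeg : ∀ i : Fin d, (m + Finsupp.single i 1 + Finsupp.single i 1).degree = m.degree + 2 := by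
    intro i
    rw [map_add, map_add, Finsupp.degree_single]
  by_cases hK : m.degree + 2 ≤ K
  · rw [← hm]
    apply Finset.sum_congr rfl
    intro i _
    rw [rE7_coeff_tr, hdeg, if_pos ⟨by omega, hK⟩]
  · apply Finset.sum_eq_zero
    intro i _
    rw [rE7_coeff_tr, hdeg, if_neg (fun hc => hK hc.2), zero_mul, zero_mul]

theorem rE7_ev_zero (p : MvPolynomial (Fin d) ℝ) : ev p 0 = p.coeff 0 := by
  unfold ev
  have : (fun i : Fin d => (0 : E d) i) = fun _ => (0 : ℝ) := by
    funext i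
    simp
  rw [this]
  have h2 := MvPolynomial.constantCoeff_eq (σ := Fin d) (R := ℝ)
  have h3 : MvPolynomial.eval (fun _ : Fin d => (0 : ℝ)) p = MvPolynomial.constantCoeff p := by
    have := MvPolynomial.eval_zero' (R := ℝ) (σ := Fin d)
    rw [this]
  rw [h3, h2]

theorem taylor_harm (n K : ℕ) : ∃ C : ℝ, 0 < C ∧ ∀ h : MvPolynomial (Fin (n + 1)) ℝ,
    lapP h = 0 → EvenP h → (∀ x ∈ closedBall (0 : E (n + 1)) (1 / 2), |ev h x| ≤ 2) →
    ∃ q : MvPolynomial (Fin (n + 1)) ℝ, q.totalDegree ≤ K ∧ lapP q = 0 ∧ EvenP q ∧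
      q.coeff 0 = 0 ∧ cn q ≤ C ∧
      ∀ x ∈ ball (0 : E (n + 1)) (1 / 4), |ev h x - ev h 0 - ev q x| ≤ C * ‖x‖ ^ (K + 1) := by
  obtain ⟨C₁, hC₁, H₁⟩ := harm_deriv_bound (n + 1) (K + 1)
  obtain ⟨C₂, hC₂, H₂⟩ := cn_le_of_bound (n + 1) K
  set B : ℝ := C₁ * 2 / (1 / 2) ^ (K + 1) with hB
  have hBpos : 0 < B := by positivity
  refine ⟨B + C₂ * (4 + B), by positivity, ?_⟩
  intro h hlap heven hbd
  set q := rE7_tr K h with hq
  have hrem : ∀ x ∈ ball (0 : E (n + 1)) (1 / 4),
      |ev h x - ev h 0 - ev q x| ≤ B * ‖x‖ ^ (K + 1) := by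
    intro x hx
    set r : MvPolynomial (Fin (n + 1)) ℝ := h - MvPolynomial.C (h.coeff 0) - q with hr
    have hlow : LowZero (K + 1) r := by
      intro m hm
      rw [hr, MvPolynomial.coeff_sub, MvPolynomial.coeff_sub, MvPolynomial.coeff_C, hq,
        rE7_coeff_tr]
      by_cases h0 : m = 0
      · subst h0
        simp only [↓reduceIte, sub_self, map_zero, nonpos_iff_eq_zero, one_ne_zero, zero_le, and_true]
      · have h1 : 1 ≤ m.degree := by
          rcases Nat.eq_zero_or_pos m.degree with hz | hp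
          · exact absurd ((Finsupp.degree_eq_zero_iff _).1 hz) h0
          · exact hp
        rw [if_neg (fun h => h0 h.symm), if_pos ⟨h1, by omega⟩]
        ring
    have hev : ev r x = ev h x - ev h 0 - ev q x := by
      rw [hr, ev_sub, ev_sub, rE7_ev_zero]
      congr 2
      simp only [ev, MvPolynomial.eval_C]
    rw [← hev]
    have hsub : rE7_ray x r = rE7_ray x h - rE7_ray x (MvPolynomial.C (h.coeff 0))
        - rE7_ray x q := by
      rw [hr]
      unfold rE7_ray
      rw [map_sub, map_sub]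
    have hqdeg : q.totalDegree ≤ K := by
      rw [MvPolynomial.totalDegree, Finset.sup_le_iff]
      intro m hm
      rw [MvPolynomial.mem_support_iff, hq, rE7_coeff_tr] at hm
      by_contra hc
      apply hm
      rw [if_neg]
      intro hcc
      apply hc
      exact hcc.2
    have hder : (Polynomial.derivative)^[K + 1] (rE7_ray x r)
        = (Polynomial.derivative)^[K + 1] (rE7_ray x h) := by
      rw [hsub, Polynomial.iterate_derivative_sub, Polynomial.iterate_derivative_sub,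
        rE7_ray_deg x K q hqdeg, rE7_ray_deg x K (MvPolynomial.C (h.coeff 0)) (by simp)]
      ring
    have hmain := rE7_rem K (rE7_ray x r) (B * ‖x‖ ^ (K + 1))
      (fun j hj => rE7_ray_low x (K + 1) r hlow j (by omega)) (by
        intro t ht
        rw [hder]
        refine le_trans (rE7_ray_bound x h (K + 1) t) ?_
        apply mul_le_mul_of_nonneg_right _ (by (clear * -; positivity))
        apply H₁ (ev h) 0 (1 / 2) 2 (by norm_num) (harm_ev hlap _)
        · intro y hy
          exact hbd y (ball_subset_closedBall hy)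
        · rw [mem_ball_zero_iff] at hx ⊢
          rw [norm_smul, Real.norm_eq_abs, abs_of_nonneg ht.1]
          calc t * ‖x‖ ≤ 1 * ‖x‖ := mul_le_mul_of_nonneg_right ht.2 (norm_nonneg _)
            _ = ‖x‖ := one_mul _
            _ < 1 / 4 := hx
            _ = 1 / 2 / 2 := by norm_num)
      1 ⟨zero_le_one, le_refl _⟩
    rw [rE7_ray_eval, one_smul] at hmain
    exact hmain
  have hqdeg : q.totalDegree ≤ K := by
    rw [MvPolynomial.totalDegree, Finset.sup_le_iff]
    intro m hm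
    rw [MvPolynomial.mem_support_iff, hq, rE7_coeff_tr] at hm
    by_contra hc
    apply hm
    rw [if_neg]
    intro hcc
    apply hc
    exact hcc.2
  refine ⟨q, hqdeg, rE7_lapP_tr K h hlap, ?_, ?_, ?_, ?_⟩
  · intro m hm
    apply heven m
    intro hc
    apply hm
    rw [hq, rE7_coeff_tr, hc, ite_self]
  · rw [hq, rE7_coeff_tr]
    simp only [map_zero, nonpos_iff_eq_zero, one_ne_zero, zero_le, and_true, ↓reduceIte]
  · have hb : cn q ≤ C₂ * (4 + B) := by
      apply H₂ q hqdeg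
      intro y hy
      have hy' : ‖y‖ < 1 / 4 := by rwa [mem_ball_zero_iff] at hy
      have h1 := hrem y hy
      have h2 : |ev h y| ≤ 2 := hbd y (by
        rw [mem_closedBall_zero_iff]; linarith only [hy'])
      have h3 : |ev h 0| ≤ 2 := hbd 0 (by simp only [one_div, mem_closedBall, dist_self, inv_nonneg, Nat.ofNat_nonneg])
      have h4 : B * ‖y‖ ^ (K + 1) ≤ B := by
        have : ‖y‖ ^ (K + 1) ≤ 1 := pow_le_one₀ (norm_nonneg _) (by linarith only [hy'])
        calc B * ‖y‖ ^ (K + 1) ≤ B * 1 := mul_le_mul_of_nonneg_left this hBpos.le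
          _ = B := mul_one B
      rw [abs_le] at *
      constructor <;> linarith only [h1, h2, h3, h4]
    linarith only [hBpos, hb]
  · intro x hx
    refine le_trans (hrem x hx) ?_
    apply mul_le_mul_of_nonneg_right _ (by (clear * -; positivity))
    have : 0 < C₂ * (4 + B) := by positivity
    linarith only [this]

end Vale.Agent.P098
end
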