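import Mathlib
import Vale.Agent.P098.Bdl.B2
import Vale.Agent.P098.Bdl.B13
import Vale.Agent.P098.Bdl.B7
attribute [-instance] ProperSMul.toContinuousSMul IsTopologicalTorsor.toContinuousSMul IdemSemiring.toCanonicallyOrderedAdd IdemSemiring.toMulLeftMono IdemSemiring.toMulRightMono AddQuantale.instAddLeftMono AddQuantale.instAddRightMono Quantale.instMulLeftMono Quantale.instMulRightMono FiniteDimensional.rclike_to_real IsScalarTower.complexToReal FiniteDimensional.complexToReal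

set_option linter.all false

section

/-! # S3: weakly harmonic replacement

In the Hilbert space `L²(ball x₀ r; E d)` let `𝒢` be the closure of
`{∇φ | φ ∈ C_c^∞(ball x₀ r)}` (a closed subspace) and `p` the orthogonal projection of `g` onto `𝒢`
(set to `0` off the ball). `p = lim ∇φ_k`. Poincaré: for test functions,
`d ∫φ² = -∫ (x-x₀)·∇(φ²) = -2∫ φ (x-x₀)·∇φ ≤ 2 r ‖φ‖₂‖∇φ‖₂`, so `‖φ‖₂ ≤ (2r/d)‖∇φ‖₂ ≤ 2r‖∇φ‖₂`. So
`φ_k` is Cauchy in `L²`, `φ_k → w`; `w` has weak gradient `p`, and `MemH10 (ball x₀ r) w p`. -/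

set_option linter.all false

open MeasureTheory Set Metric Filter
open scoped ContDiff RealInnerProductSpace Topology NNReal

namespace Vale.Agent.P098

variable {d : ℕ}

/-- Test functions. -/
def rS3_test (B : Set (E d)) (φ : E d → ℝ) : Prop :=
  ContDiff ℝ ∞ φ ∧ HasCompactSupport φ ∧ tsupport φ ⊆ B

theorem rS3_inner_gradient {φ : E d → ℝ} (h : ContDiff ℝ ∞ φ) (x e : E d) :
    ⟪gradient φ x, e⟫ = fderiv ℝ φ x e := by
  have hd : DifferentiableAt ℝ φ x := (h.differentiable (by simp)).differentiableAt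
  rw [gradient]
  exact InnerProductSpace.toDual_symm_apply

theorem rS3_gradient_continuous {φ : E d → ℝ} (h : ContDiff ℝ ∞ φ) : Continuous (gradient φ) := by
  have h1 : Continuous (fderiv ℝ φ) := h.continuous_fderiv (by simp)
  exact (InnerProductSpace.toDual ℝ (E d)).symm.continuous.comp h1

theorem rS3_gradient_compact {φ : E d → ℝ} (h : HasCompactSupport φ) :
    HasCompactSupport (gradient φ) := by
  have h1 : HasCompactSupport (fderiv ℝ φ) := h.fderiv (𝕜 := ℝ)
  refine h1.comp_left (g := (InnerProductSpace.toDual ℝ (E d)).symm) ?_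
  simp

theorem rS3_memLp {B : Set (E d)} {φ : E d → ℝ} (h : rS3_test B φ) :
    MemLp φ 2 (volume.restrict B) :=
  (h.1.continuous.memLp_of_hasCompactSupport h.2.1).restrict B

theorem rS3_memLp_grad {B : Set (E d)} {φ : E d → ℝ} (h : rS3_test B φ) :
    MemLp (gradient φ) 2 (volume.restrict B) :=
  ((rS3_gradient_continuous h.1).memLp_of_hasCompactSupport (rS3_gradient_compact h.2.1)).restrict B

theorem rS3_zero (B : Set (E d)) : rS3_test B (fun _ => (0 : ℝ)) := by
  refine ⟨contDiff_const, ?_, ?_⟩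
  · exact HasCompactSupport.zero
  · simp

theorem rS3_add {B : Set (E d)} {φ ψ : E d → ℝ} (h : rS3_test B φ) (h' : rS3_test B ψ) :
    rS3_test B (fun x => φ x + ψ x) := by
  refine ⟨h.1.add h'.1, h.2.1.add h'.2.1, ?_⟩
  exact (tsupport_add φ ψ).trans (union_subset h.2.2 h'.2.2)

theorem rS3_smul {B : Set (E d)} {φ : E d → ℝ} (c : ℝ) (h : rS3_test B φ) :
    rS3_test B (fun x => c * φ x) := by
  refine ⟨contDiff_const.mul h.1, h.2.1.mul_left, ?_⟩
  refine (closure_mono ?_).trans h.2.2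
  intro x hx
  simp only [Function.mem_support] at hx ⊢
  intro h0
  exact hx (by simp [h0])

theorem rS3_sub {B : Set (E d)} {φ ψ : E d → ℝ} (h : rS3_test B φ) (h' : rS3_test B ψ) :
    rS3_test B (fun x => φ x - ψ x) := by
  have := rS3_add h (rS3_smul (-1) h')
  have h2 : (fun x => φ x - ψ x) = fun x => φ x + -1 * ψ x := by
    funext x; ring
  rw [h2]; exact this

theorem rS3_grad_add {B : Set (E d)} {φ ψ : E d → ℝ} (h : rS3_test B φ) (h' : rS3_test B ψ)
    (x : E d) : gradient (fun x => φ x + ψ x) x = gradient φ x + gradient ψ x := by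
  have hd : DifferentiableAt ℝ φ x := (h.1.differentiable (by simp)).differentiableAt
  have hd' : DifferentiableAt ℝ ψ x := (h'.1.differentiable (by simp)).differentiableAt
  simp only [gradient]
  rw [fderiv_fun_add hd hd', map_add]

theorem rS3_grad_smul {B : Set (E d)} {φ : E d → ℝ} (c : ℝ) (h : rS3_test B φ)
    (x : E d) : gradient (fun x => c * φ x) x = c • gradient φ x := by
  have hd : DifferentiableAt ℝ φ x := (h.1.differentiable (by simp)).differentiableAt
  simp only [gradient]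
  rw [fderiv_const_mul hd]
  simp

theorem rS3_grad_sub {B : Set (E d)} {φ ψ : E d → ℝ} (h : rS3_test B φ) (h' : rS3_test B ψ)
    (x : E d) : gradient (fun x => φ x - ψ x) x = gradient φ x - gradient ψ x := by
  have hd : DifferentiableAt ℝ φ x := (h.1.differentiable (by simp)).differentiableAt
  have hd' : DifferentiableAt ℝ ψ x := (h'.1.differentiable (by simp)).differentiableAt
  simp only [gradient]
  rw [fderiv_fun_sub hd hd', map_sub]

/-- Integration over the ball of something supported in it. -/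
theorem rS3_setIntegral {B : Set (E d)} {φ : E d → ℝ} (h : rS3_test B φ) (F : E d → ℝ)
    (hF : ∀ x, φ x = 0 → F x = 0) : ∫ x in B, F x = ∫ x, F x := by
  apply setIntegral_eq_integral_of_forall_compl_eq_zero
  intro x hx
  apply hF
  by_contra h0
  exact hx (h.2.2 (subset_tsupport _ h0))

/-- Weak gradient identity for test functions. -/
theorem rS3_ibp {B : Set (E d)} {φ ψ : E d → ℝ} (h : rS3_test B φ) (h' : rS3_test B ψ) (e : E d) :
    ∫ x in B, φ x * fderiv ℝ ψ x e = - ∫ x in B, ⟪gradient φ x, e⟫ * ψ x := by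
  rw [rS3_setIntegral h (fun x => φ x * fderiv ℝ ψ x e) (fun x hx => by simp [hx]),
    rS3_setIntegral h' (fun x => ⟪gradient φ x, e⟫ * ψ x) (fun x hx => by simp [hx])]
  have hc1 : Continuous (fun x => fderiv ℝ φ x e) :=
    (h.1.continuous_fderiv (by simp)).clm_apply continuous_const
  have hc2 : Continuous (fun x => fderiv ℝ ψ x e) :=
    (h'.1.continuous_fderiv (by simp)).clm_apply continuous_const
  have h1 : Integrable (fun x => fderiv ℝ φ x e * ψ x) :=
    (hc1.mul h'.1.continuous).integrable_of_hasCompactSupport h'.2.1.mul_left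
  have h2 : Integrable (fun x => φ x * fderiv ℝ ψ x e) :=
    (h.1.continuous.mul hc2).integrable_of_hasCompactSupport h.2.1.mul_right
  have h3 : Integrable (fun x => φ x * ψ x) :=
    (h.1.continuous.mul h'.1.continuous).integrable_of_hasCompactSupport h'.2.1.mul_left
  rw [integral_mul_fderiv_eq_neg_fderiv_mul_of_integrable h1 h2 h3
    (fun x _ => (h.1.differentiable (by simp)) x) (fun x _ => (h'.1.differentiable (by simp)) x)]
  simp only [rS3_inner_gradient h.1]

/-- Poincaré, step 1: integration by parts. -/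
theorem rS3_poincare1 (x₀ : E d) {r : ℝ} (hr : 0 < r) {φ : E d → ℝ}
    (h : rS3_test (ball x₀ r) φ) (e : E d) (hne : ‖e‖ = 1) :
    ∫ x in ball x₀ r, φ x ^ 2 =
      ∫ x in ball x₀ r, -(2 * φ x * fderiv ℝ φ x e * ⟪x - x₀, e⟫) := by
  have hφd : Differentiable ℝ φ := h.1.differentiable (by simp)
  have hlin : ∀ x : E d, HasFDerivAt (fun x : E d => ⟪x - x₀, e⟫) (innerSL ℝ e) x := by
    intro x
    have h1 : HasFDerivAt (fun x : E d => (innerSL ℝ e) (x - x₀)) (innerSL ℝ e) x :=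
      (innerSL ℝ e).hasFDerivAt.comp x ((hasFDerivAt_id x).sub_const x₀)
    refine h1.congr_of_eventuallyEq ?_
    filter_upwards with y
    simp [real_inner_comm]
  have hsq : ∀ x : E d, HasFDerivAt (fun x : E d => φ x ^ 2) ((2 * φ x) • fderiv ℝ φ x) x := by
    intro x
    have := (hφd x).hasFDerivAt.pow 2
    simpa using this
  have hcf : Continuous (fun x => fderiv ℝ φ x e) :=
    (h.1.continuous_fderiv (by simp)).clm_apply continuous_const
  have hcφ := h.1.continuous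
  have hcl : Continuous (fun x : E d => ⟪x - x₀, e⟫) := by fun_prop
  -- integration by parts: ∫ φ^2 * ∂_e ⟪x-x0, e⟫ = - ∫ (2 φ ∂_e φ) ⟪x - x0, e⟫
  have hibp : ∫ x, φ x ^ 2 * fderiv ℝ (fun x : E d => ⟪x - x₀, e⟫) x e =
      - ∫ x, fderiv ℝ (fun x : E d => φ x ^ 2) x e * ⟪x - x₀, e⟫ := by
    apply integral_mul_fderiv_eq_neg_fderiv_mul_of_integrable
    · have h1 : (fun x => fderiv ℝ (fun x : E d => φ x ^ 2) x e * ⟪x - x₀, e⟫) =
          fun x => φ x * (2 * fderiv ℝ φ x e * ⟪x - x₀, e⟫) := by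
        funext x
        rw [(hsq x).fderiv]
        simp
        ring
      rw [h1]
      exact (hcφ.mul ((continuous_const.mul hcf).mul hcl)).integrable_of_hasCompactSupport
        h.2.1.mul_right
    · have h1 : (fun x => φ x ^ 2 * fderiv ℝ (fun x : E d => ⟪x - x₀, e⟫) x e) =
          fun x => φ x * (φ x * ⟪e, e⟫) := by
        funext x
        rw [(hlin x).fderiv]
        simp
        ring
      rw [h1]
      exact (hcφ.mul (hcφ.mul continuous_const)).integrable_of_hasCompactSupport h.2.1.mul_right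
    · have h1 : (fun x => φ x ^ 2 * ⟪x - x₀, e⟫) = fun x => φ x * (φ x * ⟪x - x₀, e⟫) := by
        funext x; ring
      rw [h1]
      exact (hcφ.mul (hcφ.mul hcl)).integrable_of_hasCompactSupport h.2.1.mul_right
    · intro x _; exact (hsq x).differentiableAt
    · intro x _; exact (hlin x).differentiableAt
  have hL : ∫ x, φ x ^ 2 * fderiv ℝ (fun x : E d => ⟪x - x₀, e⟫) x e =
      ∫ x in ball x₀ r, φ x ^ 2 := by
    rw [rS3_setIntegral h (fun x => φ x ^ 2) (fun x hx => by simp [hx])]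
    congr 1
    funext x
    rw [(hlin x).fderiv]
    simp [hne]
  have hR : - ∫ x, fderiv ℝ (fun x : E d => φ x ^ 2) x e * ⟪x - x₀, e⟫ =
      ∫ x in ball x₀ r, -(2 * φ x * fderiv ℝ φ x e * ⟪x - x₀, e⟫) := by
    rw [rS3_setIntegral h (fun x => -(2 * φ x * fderiv ℝ φ x e * ⟪x - x₀, e⟫))
      (fun x hx => by simp [hx]), integral_neg]
    congr 2
    funext x
    rw [(hsq x).fderiv]
    simp
  rw [← hL, hibp, hR]

theorem rS3_int1 {B : Set (E d)} {φ : E d → ℝ} (h : rS3_test B φ) :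
    Integrable (fun x => φ x ^ 2) (volume.restrict B) := (rS3_memLp h).integrable_sq

theorem rS3_int2 {B : Set (E d)} {φ : E d → ℝ} (h : rS3_test B φ) :
    Integrable (fun x => ‖gradient φ x‖ ^ 2) (volume.restrict B) :=
  (rS3_memLp_grad h).norm.integrable_sq

theorem rS3_pt (x₀ : E d) {r : ℝ} (hr : 0 < r) {φ : E d → ℝ}
    (h : rS3_test (ball x₀ r) φ) (e : E d) (hne : ‖e‖ = 1) (x : E d) (hx : x ∈ ball x₀ r) :
    -(2 * φ x * fderiv ℝ φ x e * ⟪x - x₀, e⟫) ≤
      (1 / 2) * φ x ^ 2 + 2 * r ^ 2 * ‖gradient φ x‖ ^ 2 := by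
  have ht : |⟪x - x₀, e⟫| ≤ r := by
    have h1 := abs_real_inner_le_norm (x - x₀) e
    rw [hne, mul_one] at h1
    have h2 : ‖x - x₀‖ < r := by simpa [dist_eq_norm] using hx
    linarith
  have hf : |fderiv ℝ φ x e| ≤ ‖gradient φ x‖ := by
    rw [← rS3_inner_gradient h.1]
    have h1 := abs_real_inner_le_norm (gradient φ x) e
    rwa [hne, mul_one] at h1
  set t := ⟪x - x₀, e⟫
  set f := fderiv ℝ φ x e
  set G := ‖gradient φ x‖
  set y := φ x
  have hG : 0 ≤ G := norm_nonneg _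
  have h1 : -(2 * y * f * t) ≤ 2 * |y| * G * r := by
    have h2 : -(2 * y * f * t) ≤ |2 * y * f * t| := neg_le_abs _
    have h3 : |2 * y * f * t| = 2 * |y| * |f| * |t| := by
      rw [abs_mul, abs_mul, abs_mul, abs_two]
    rw [h3] at h2
    refine h2.trans ?_
    gcongr
  have h4 : 2 * |y| * G * r ≤ (1 / 2) * y ^ 2 + 2 * r ^ 2 * G ^ 2 := by
    have := sq_nonneg (|y| - 2 * r * G)
    have h5 : |y| ^ 2 = y ^ 2 := sq_abs _
    linarith only [this, h5]
  linarith only [h4, h1]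

/-- Poincaré inequality for test functions. -/
theorem rS3_poincare (hd : 1 ≤ d) (x₀ : E d) {r : ℝ} (hr : 0 < r) {φ : E d → ℝ}
    (h : rS3_test (ball x₀ r) φ) :
    ∫ x in ball x₀ r, φ x ^ 2 ≤ (2 * r) ^ 2 * ∫ x in ball x₀ r, ‖gradient φ x‖ ^ 2 := by
  obtain ⟨i⟩ : Nonempty (Fin d) := ⟨⟨0, hd⟩⟩
  obtain ⟨e, hne⟩ : ∃ e : E d, ‖e‖ = 1 := ⟨EuclideanSpace.single i (1 : ℝ), by simp⟩
  have hi1 := rS3_int1 h
  have hi2 := rS3_int2 h
  have hle : ∫ x in ball x₀ r, -(2 * φ x * fderiv ℝ φ x e * ⟪x - x₀, e⟫) ≤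
      ∫ x in ball x₀ r, ((1 / 2) * φ x ^ 2 + 2 * r ^ 2 * ‖gradient φ x‖ ^ 2) := by
    apply setIntegral_mono_on
    · have hcf : Continuous (fun x => fderiv ℝ φ x e) :=
        (h.1.continuous_fderiv (by simp)).clm_apply continuous_const
      have hcl : Continuous (fun x : E d => ⟪x - x₀, e⟫) := by fun_prop
      have : Integrable (fun x => -(2 * φ x * fderiv ℝ φ x e * ⟪x - x₀, e⟫)) := by
        have h1 : (fun x => -(2 * φ x * fderiv ℝ φ x e * ⟪x - x₀, e⟫)) =
            fun x => φ x * (-(2 * fderiv ℝ φ x e * ⟪x - x₀, e⟫)) := by funext x; ring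
        rw [h1]
        exact (h.1.continuous.mul (((continuous_const.mul hcf).mul hcl).neg))
          |>.integrable_of_hasCompactSupport h.2.1.mul_right
      exact this.integrableOn
    · exact (hi1.const_mul _).add (hi2.const_mul _)
    · exact measurableSet_ball
    · intro x hx
      exact rS3_pt x₀ hr h e hne x hx
  rw [integral_add (hi1.const_mul _) (hi2.const_mul _), integral_const_mul, integral_const_mul,
    ← rS3_poincare1 x₀ hr h e hne] at hle
  linarith only [hle]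

theorem rS3_norm_sq {F : Type} [NormedAddCommGroup F] [InnerProductSpace ℝ F]
    {μ : Measure (E d)} (f : Lp F 2 μ) : ‖f‖ ^ 2 = ∫ x, ‖f x‖ ^ 2 ∂μ := by
  rw [← real_inner_self_eq_norm_sq, L2.inner_def]
  simp only [real_inner_self_eq_norm_sq]

theorem rS3_norm_sub_sq {F : Type} [NormedAddCommGroup F] [InnerProductSpace ℝ F]
    {μ : Measure (E d)} (f g : Lp F 2 μ) {f' g' : E d → F} (hf : f =ᵐ[μ] f') (hg : g =ᵐ[μ] g') :
    ‖f - g‖ ^ 2 = ∫ x, ‖f' x - g' x‖ ^ 2 ∂μ := by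
  rw [rS3_norm_sq]
  apply integral_congr_ae
  filter_upwards [Lp.coeFn_sub f g, hf, hg] with x h1 h2 h3
  rw [h1, Pi.sub_apply, h2, h3]

theorem rS3_inner_eq {F : Type} [NormedAddCommGroup F] [InnerProductSpace ℝ F]
    {μ : Measure (E d)} (f g : Lp F 2 μ) {f' g' : E d → F} (hf : f =ᵐ[μ] f') (hg : g =ᵐ[μ] g') :
    ⟪f, g⟫ = ∫ x, ⟪f' x, g' x⟫ ∂μ := by
  rw [L2.inner_def]
  apply integral_congr_ae
  filter_upwards [hf, hg] with x h2 h3
  rw [h2, h3]

/-- The gradients of test functions. -/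
def rS3_G (B : Set (E d)) : Submodule ℝ (Lp (E d) 2 (volume.restrict B)) where
  carrier := {f | ∃ φ : E d → ℝ, rS3_test B φ ∧ f =ᵐ[volume.restrict B] gradient φ}
  add_mem' := by
    rintro f g ⟨φ, hφ, hf⟩ ⟨ψ, hψ, hg⟩
    refine ⟨fun x => φ x + ψ x, rS3_add hφ hψ, ?_⟩
    filter_upwards [Lp.coeFn_add f g, hf, hg] with x h1 h2 h3
    rw [h1, Pi.add_apply, h2, h3, rS3_grad_add hφ hψ]
  zero_mem' := by
    refine ⟨fun _ => 0, rS3_zero B, ?_⟩
    filter_upwards [Lp.coeFn_zero (E d) 2 (volume.restrict B)] with x h1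
    rw [h1]
    simp [gradient]
  smul_mem' := by
    rintro c f ⟨φ, hφ, hf⟩
    refine ⟨fun x => c * φ x, rS3_smul c hφ, ?_⟩
    filter_upwards [Lp.coeFn_smul c f, hf] with x h1 h2
    rw [h1, Pi.smul_apply, h2, rS3_grad_smul c hφ]

theorem exists_replacement (hd : 1 ≤ d) (x₀ : E d) {r : ℝ} (hr : 0 < r) {g : E d → E d}
    (hg : MemLp g 2 (volume.restrict (ball x₀ r))) :
    ∃ (w : E d → ℝ) (p : E d → E d), MemH10 (ball x₀ r) w p ∧
      (∀ x, x ∉ ball x₀ r → w x = 0 ∧ p x = 0) ∧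
      (∀ φ : E d → ℝ, ContDiff ℝ ∞ φ → HasCompactSupport φ → tsupport φ ⊆ ball x₀ r →
        ∫ x in ball x₀ r, ⟪g x - p x, gradient φ x⟫ = 0) ∧
      ∫ x in ball x₀ r, ⟪g x - p x, p x⟫ = 0 ∧
      ∫ x in ball x₀ r, w x ^ 2 ≤ (2 * r) ^ 2 * ∫ x in ball x₀ r, ‖p x‖ ^ 2 := by
  set B := ball x₀ r with hB
  set μ := (volume : Measure (E d)).restrict B with hμ
  let K : Submodule ℝ (Lp (E d) 2 μ) := (rS3_G B).topologicalClosure
  let Gg : Lp (E d) 2 μ := hg.toLp g
  have hGg : Gg =ᵐ[μ] g := hg.coeFn_toLp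
  let P : Lp (E d) 2 μ := K.starProjection Gg
  have hPK : P ∈ K := K.starProjection_apply_mem Gg
  have hPcl : P ∈ closure ((rS3_G B : Submodule ℝ (Lp (E d) 2 μ)) : Set (Lp (E d) 2 μ)) := by
    rw [← Submodule.topologicalClosure_coe]; exact hPK
  obtain ⟨F, hFm, hFP⟩ := mem_closure_iff_seq_limit.1 hPcl
  choose φ hφ hφF using hFm
  -- the approximating functions in L²
  let Φ : ℕ → Lp ℝ 2 μ := fun k => (rS3_memLp (hφ k)).toLp (φ k)
  have hΦ : ∀ k, Φ k =ᵐ[μ] φ k := fun k => (rS3_memLp (hφ k)).coeFn_toLp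
  have hcauchy1 : CauchySeq F := hFP.cauchySeq
  have hpoinc : ∀ k l, ‖Φ k - Φ l‖ ≤ (2 * r) * ‖F k - F l‖ := by
    intro k l
    have h1 := rS3_poincare hd x₀ hr (rS3_sub (hφ k) (hφ l))
    have h2 := rS3_norm_sub_sq (Φ k) (Φ l) (hΦ k) (hΦ l)
    have h3 := rS3_norm_sub_sq (F k) (F l) (hφF k) (hφF l)
    have h4 : ‖Φ k - Φ l‖ ^ 2 ≤ ((2 * r) * ‖F k - F l‖) ^ 2 := by
      rw [mul_pow, h2, h3]
      simp only [Real.norm_eq_abs, sq_abs]
      simp only [rS3_grad_sub (hφ k) (hφ l)] at h1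
      exact h1
    exact (pow_le_pow_iff_left₀ (norm_nonneg _) (by positivity) two_ne_zero).1 h4
  have hcauchy2 : CauchySeq Φ := by
    rw [Metric.cauchySeq_iff'] at hcauchy1 ⊢
    intro ε hε
    obtain ⟨N, hN⟩ := hcauchy1 (ε / (2 * r)) (by positivity)
    refine ⟨N, fun n hn => ?_⟩
    have h1 := hN n hn
    rw [dist_eq_norm] at h1 ⊢
    calc ‖Φ n - Φ N‖ ≤ (2 * r) * ‖F n - F N‖ := hpoinc n N
      _ < (2 * r) * (ε / (2 * r)) := by gcongr
      _ = ε := by field_simp
  obtain ⟨W, hW⟩ := cauchySeq_tendsto_of_complete hcauchy2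
  -- the representatives
  let w : E d → ℝ := B.indicator W
  let p : E d → E d := B.indicator P
  have hBm : MeasurableSet B := measurableSet_ball
  have hwW : W =ᵐ[μ] w := (indicator_ae_eq_restrict hBm).symm
  have hpP : P =ᵐ[μ] p := (indicator_ae_eq_restrict hBm).symm
  have hnorm : ‖W‖ ≤ (2 * r) * ‖P‖ := by
    have h1 : Tendsto (fun k => ‖Φ k‖) atTop (𝓝 ‖W‖) := hW.norm
    have h2 : Tendsto (fun k => (2 * r) * ‖F k‖) atTop (𝓝 ((2 * r) * ‖P‖)) :=
      hFP.norm.const_mul _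
    refine le_of_tendsto_of_tendsto' h1 h2 fun k => ?_
    have h1 := rS3_poincare hd x₀ hr (hφ k)
    have h2 := rS3_norm_sq (Φ k)
    have h3 := rS3_norm_sq (F k)
    have h4 : ‖Φ k‖ ^ 2 ≤ ((2 * r) * ‖F k‖) ^ 2 := by
      rw [mul_pow, h2, h3]
      have h5 : ∫ x, ‖(Φ k) x‖ ^ 2 ∂μ = ∫ x in B, φ k x ^ 2 := by
        apply integral_congr_ae
        filter_upwards [hΦ k] with x hx
        rw [hx]; simp
      have h6 : ∫ x, ‖(F k) x‖ ^ 2 ∂μ = ∫ x in B, ‖gradient (φ k) x‖ ^ 2 := by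
        apply integral_congr_ae
        filter_upwards [hφF k] with x hx
        rw [hx]
      rw [h5, h6]
      exact h1
    exact (pow_le_pow_iff_left₀ (norm_nonneg _) (by positivity) two_ne_zero).1 h4
  have hwmem : MemLp w 2 μ := (Lp.memLp W).ae_eq hwW
  have hpmem : MemLp p 2 μ := (Lp.memLp P).ae_eq hpP
  refine ⟨w, p, ⟨⟨hwmem, hpmem, ?_⟩, ?_⟩, ?_, ?_, ?_, ?_⟩
  · -- weak gradient
    intro ψ h1 h2 h3 e
    have hψ : rS3_test B ψ := ⟨h1, h2, h3⟩
    have hm1 : MemLp (fun x => fderiv ℝ ψ x e) 2 μ := by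
      have hc : Continuous (fun x => fderiv ℝ ψ x e) :=
        (h1.continuous_fderiv (by simp)).clm_apply continuous_const
      have hs : HasCompactSupport (fun x => fderiv ℝ ψ x e) := by
        have h5 : HasCompactSupport (fderiv ℝ ψ) := h2.fderiv (𝕜 := ℝ)
        exact h5.comp_left (g := fun L : E d →L[ℝ] ℝ => L e) (by simp)
      exact (hc.memLp_of_hasCompactSupport hs).restrict B
    have hm2 : MemLp (fun x => ψ x • e) 2 μ := by
      have hc : Continuous (fun x => ψ x • e) := h1.continuous.smul continuous_const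
      exact (hc.memLp_of_hasCompactSupport (h2.smul_right)).restrict B
    let A1 : Lp ℝ 2 μ := hm1.toLp _
    let A2 : Lp (E d) 2 μ := hm2.toLp _
    have hA1 : A1 =ᵐ[μ] fun x => fderiv ℝ ψ x e := hm1.coeFn_toLp
    have hA2 : A2 =ᵐ[μ] fun x => ψ x • e := hm2.coeFn_toLp
    have hk : ∀ k, ⟪A1, Φ k⟫ = - ⟪A2, F k⟫ := by
      intro k
      rw [rS3_inner_eq A1 (Φ k) hA1 (hΦ k), rS3_inner_eq A2 (F k) hA2 (hφF k)]
      have h5 := rS3_ibp (hφ k) hψ e
      calc ∫ x, ⟪fderiv ℝ ψ x e, φ k x⟫ ∂μ = ∫ x in B, φ k x * fderiv ℝ ψ x e := by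
            apply integral_congr_ae
            filter_upwards with x
            simp
        _ = - ∫ x in B, ⟪gradient (φ k) x, e⟫ * ψ x := h5
        _ = - ∫ x, ⟪ψ x • e, gradient (φ k) x⟫ ∂μ := by
            congr 1
            apply integral_congr_ae
            filter_upwards with x
            rw [real_inner_smul_left, real_inner_comm]
            ring
    have hlim : ⟪A1, W⟫ = - ⟪A2, P⟫ := by
      have t1 : Tendsto (fun k => ⟪A1, Φ k⟫) atTop (𝓝 ⟪A1, W⟫) :=
        tendsto_const_nhds.inner hW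
      have t2 : Tendsto (fun k => - ⟪A2, F k⟫) atTop (𝓝 (- ⟪A2, P⟫)) :=
        (tendsto_const_nhds.inner hFP).neg
      simp only [hk] at t1
      exact tendsto_nhds_unique t1 t2
    rw [rS3_inner_eq A1 W hA1 hwW, rS3_inner_eq A2 P hA2 hpP] at hlim
    calc ∫ x in B, w x * fderiv ℝ ψ x e = ∫ x, ⟪fderiv ℝ ψ x e, w x⟫ ∂μ := by
          apply integral_congr_ae
          filter_upwards with x
          simp
      _ = - ∫ x, ⟪ψ x • e, p x⟫ ∂μ := hlim
      _ = - ∫ x in B, ⟪p x, e⟫ * ψ x := by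
          congr 1
          apply integral_congr_ae
          filter_upwards with x
          rw [real_inner_smul_left, real_inner_comm]
          ring
  · -- approximation
    intro ε hε
    have t1 : Tendsto (fun k => ‖W - Φ k‖ ^ 2 + ‖P - F k‖ ^ 2) atTop (𝓝 0) := by
      have h1 : Tendsto (fun k => W - Φ k) atTop (𝓝 (W - W)) := tendsto_const_nhds.sub hW
      have h2 : Tendsto (fun k => P - F k) atTop (𝓝 (P - P)) := tendsto_const_nhds.sub hFP
      have h3 := (h1.norm.pow 2).add (h2.norm.pow 2)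
      simpa using h3
    obtain ⟨k, hk⟩ := (t1.eventually (gt_mem_nhds hε)).exists
    refine ⟨φ k, (hφ k).1, (hφ k).2.1, (hφ k).2.2, ?_⟩
    rw [rS3_norm_sub_sq W (Φ k) hwW (hΦ k), rS3_norm_sub_sq P (F k) hpP (hφF k)] at hk
    simpa using hk
  · intro x hx
    exact ⟨indicator_of_notMem hx _, indicator_of_notMem hx _⟩
  · intro ψ h1 h2 h3
    have hψ : rS3_test B ψ := ⟨h1, h2, h3⟩
    let A : Lp (E d) 2 μ := (rS3_memLp_grad hψ).toLp _
    have hA : A =ᵐ[μ] gradient ψ := (rS3_memLp_grad hψ).coeFn_toLp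
    have hAK : A ∈ K := (rS3_G B).le_topologicalClosure ⟨ψ, hψ, hA⟩
    have h5 := K.starProjection_inner_eq_zero Gg A hAK
    have hsub : (Gg - P : Lp (E d) 2 μ) =ᵐ[μ] fun x => g x - p x := by
      filter_upwards [Lp.coeFn_sub Gg P, hGg, hpP] with x a1 a2 a3
      rw [a1, Pi.sub_apply, a2, a3]
    rw [← rS3_inner_eq (Gg - P) A hsub hA]
    exact h5
  · have h5 := K.starProjection_inner_eq_zero Gg P hPK
    have hsub : (Gg - P : Lp (E d) 2 μ) =ᵐ[μ] fun x => g x - p x := by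
      filter_upwards [Lp.coeFn_sub Gg P, hGg, hpP] with x a1 a2 a3
      rw [a1, Pi.sub_apply, a2, a3]
    rw [← rS3_inner_eq (Gg - P) P hsub hpP]
    exact h5
  · have h1 : ‖W‖ ^ 2 = ∫ x in B, w x ^ 2 := by
      rw [rS3_norm_sq]
      apply integral_congr_ae
      filter_upwards [hwW] with x hx
      rw [hx]; simp
    have h2 : ‖P‖ ^ 2 = ∫ x in B, ‖p x‖ ^ 2 := by
      rw [rS3_norm_sq]
      apply integral_congr_ae
      filter_upwards [hpP] with x hx
      rw [hx]
    rw [← h1, ← h2, ← mul_pow]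
    exact pow_le_pow_left₀ (norm_nonneg _) hnorm 2

end Vale.Agent.P098
end

section

/-! # M10: slices of translation invariant minimizers are minimizers

Choose a linear isometry `ι : E n → E (n+1)` with range the orthogonal complement of `e`
(`‖e‖ = 1`), so that `(y, t) ↦ ι y + t e` is a measure preserving isometry
`E n × ℝ → E (n+1)` (volumes). `w = v ∘ ι` is `L`-Lipschitz, `≥ 0`, and `v(ι y + t e) = w y`.
Let `z` be a Lipschitz competitor of `w` with `z - w` supported in `closedBall 0 R`. For `T > 0` let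
`λ_T(t) = 1` for `|t| ≤ T`, `0` for `|t| ≥ T+1`, linear in between, and
`V(ι y + t e) = (1 - λ_T(t)) w y + λ_T(t) z y ≥ 0`, Lipschitz, `V - v` compactly supported. By
Fubini
`0 ≤ ∫ (|∇V|² - |∇v|²) + (χ_V - χ_v) ≤ 2T · J + C`, where
`J = ∫_{E n} (|∇z|² - |∇w|²) + (χ_{z>0} - χ_{w>0})` (for `|t| < T` the integrand is that of `J`) and
`C` (the contribution of `T < |t| < T + 1`) does not depend on `T`. Hence `J ≥ 0`. -/

open MeasureTheory Set Metric Filter
open scoped ContDiff RealInnerProductSpace Topology NNReal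

namespace Vale.Agent.P098

variable {d : ℕ}

/-- Bounded measurable functions with compact support are integrable. -/
theorem rM10_int {f : E d → ℝ} (hf : Measurable f) (C : ℝ) (hC : ∀ x, |f x| ≤ C)
    {K : Set (E d)} (hK : IsCompact K) (hz : ∀ x, x ∉ K → f x = 0) : Integrable f := by
  have h1 : IntegrableOn f K := by
    refine Measure.integrableOn_of_bounded (M := C) hK.measure_ne_top hf.aestronglyMeasurable ?_
    exact Filter.Eventually.of_forall fun x => by rw [Real.norm_eq_abs]; exact hC x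
  refine (integrableOn_iff_integrable_of_support_subset ?_).1 h1
  intro x hx
  by_contra h
  exact hx (hz x h)

section iso

variable {n : ℕ} {e : E (n + 1)}

theorem rM10_exists (he : ‖e‖ = 1) : ∃ ι : E n →ₗᵢ[ℝ] E (n + 1), (∀ y, ⟪ι y, e⟫ = 0) ∧
    (∀ x, ∃ y, x = ι y + ⟪x, e⟫ • e) := by
  have hne : e ≠ 0 := by
    intro h
    rw [h, norm_zero] at he
    exact zero_ne_one he
  have : Fact (Module.finrank ℝ (E (n + 1)) = n + 1) := ⟨by simp⟩
  set b := OrthonormalBasis.fromOrthogonalSpanSingleton (𝕜 := ℝ) n hne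
  refine ⟨(Submodule.subtypeₗᵢ _).comp b.repr.symm.toLinearIsometry, fun y => ?_, fun x => ?_⟩
  · have h := (b.repr.symm y).2
    rw [Submodule.mem_orthogonal_singleton_iff_inner_left] at h
    exact h
  · have h : x - ⟪x, e⟫ • e ∈ (ℝ ∙ e)ᗮ := by
      rw [Submodule.mem_orthogonal_singleton_iff_inner_left, inner_sub_left, inner_smul_left,
        real_inner_self_eq_norm_sq, he]
      simp
    refine ⟨b.repr ⟨_, h⟩, ?_⟩
    simp

variable (ι : E n →ₗᵢ[ℝ] E (n + 1))

/-- The measure preserving coordinates `(y, t) ↦ ι y + t e`. -/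
theorem rM10_mp (he : ‖e‖ = 1) (h0 : ∀ y, ⟪ι y, e⟫ = 0) :
    MeasurePreserving (fun p : E n × ℝ => ι p.1 + p.2 • e) (volume.prod volume) volume := by
  let A : WithLp 2 (E n × ℝ) →ₗᵢ[ℝ] E (n + 1) :=
    { toFun := fun p => ι p.fst + p.snd • e
      map_add' := by
        intro p q
        simp only [WithLp.add_fst, WithLp.add_snd, map_add, add_smul]
        abel
      map_smul' := by
        intro c p
        simp only [WithLp.smul_fst, WithLp.smul_snd, map_smul, smul_add, RingHom.id_apply,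
          smul_smul, smul_eq_mul]
      norm_map' := by
        intro p
        change ‖ι p.fst + p.snd • e‖ = ‖p‖
        rw [← sq_eq_sq₀ (norm_nonneg _) (norm_nonneg _), WithLp.prod_norm_sq_eq_of_L2,
          ← real_inner_self_eq_norm_sq, inner_add_left, inner_add_right, inner_add_right,
          inner_smul_right, inner_smul_left, real_inner_comm (ι p.fst) e, h0, inner_smul_left,
          inner_smul_right, real_inner_self_eq_norm_sq, real_inner_self_eq_norm_sq, he,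
          ι.norm_map]
        simp
        ring }
  have hfin : Module.finrank ℝ (WithLp 2 (E n × ℝ)) = Module.finrank ℝ (E (n + 1)) := by
    rw [(WithLp.linearEquiv 2 ℝ (E n × ℝ)).finrank_eq, Module.finrank_prod]
    simp
  have h1 := (A.toLinearIsometryEquiv hfin).measurePreserving
  exact h1.comp (WithLp.volume_preserving_toLp (E n) ℝ)

/-- The projection onto `E n`. -/
noncomputable def rM10_pr : E (n + 1) →L[ℝ] E n :=
  ContinuousLinearMap.adjoint ι.toContinuousLinearMap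

theorem rM10_pr_inner (x : E (n + 1)) (y : E n) : ⟪rM10_pr ι x, y⟫ = ⟪x, ι y⟫ :=
  ContinuousLinearMap.adjoint_inner_left _ _ _

theorem rM10_pr_apply (h0 : ∀ y, ⟪ι y, e⟫ = 0) (y : E n) (t : ℝ) :
    rM10_pr ι (ι y + t • e) = y := by
  refine ext_inner_right ℝ fun y' => ?_
  rw [rM10_pr_inner, inner_add_left, inner_smul_left, real_inner_comm (ι y') e, h0,
    ι.inner_map_map]
  simp

theorem rM10_inner (he : ‖e‖ = 1) (h0 : ∀ y, ⟪ι y, e⟫ = 0) (y : E n) (t : ℝ) :
    ⟪ι y + t • e, e⟫ = t := by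
  rw [inner_add_left, inner_smul_left, h0, real_inner_self_eq_norm_sq, he]
  simp

theorem rM10_decomp (h0 : ∀ y, ⟪ι y, e⟫ = 0)
    (h1 : ∀ x, ∃ y, x = ι y + ⟪x, e⟫ • e) (x : E (n + 1)) :
    ι (rM10_pr ι x) + ⟪x, e⟫ • e = x := by
  obtain ⟨y, hy⟩ := h1 x
  have h2 : rM10_pr ι x = y := by
    rw [hy]
    exact rM10_pr_apply ι h0 y _
  rw [h2]
  exact hy.symm

theorem rM10_pr_norm (x : E (n + 1)) : ‖rM10_pr ι x‖ ≤ ‖x‖ := by
  have h := rM10_pr_inner ι x (rM10_pr ι x)
  rw [real_inner_self_eq_norm_sq] at h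
  have h2 := real_inner_le_norm x (ι (rM10_pr ι x))
  rw [ι.norm_map, ← h] at h2
  by_contra h3
  push Not at h3
  linarith only [mul_nonneg (le_of_lt (sub_pos.2 h3)) (sub_nonneg.2 (norm_nonneg x)), mul_pos (sub_pos.2 h3) (sub_pos.2 h3), h2]

theorem rM10_pr_opnorm (h0 : ∀ y, ⟪ι y, e⟫ = 0) (A : E n →L[ℝ] ℝ) :
    ‖A.comp (rM10_pr ι)‖ = ‖A‖ := by
  apply le_antisymm
  · refine ContinuousLinearMap.opNorm_le_bound _ (norm_nonneg _) fun x => ?_
    rw [ContinuousLinearMap.comp_apply]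
    exact (A.le_opNorm _).trans (mul_le_mul_of_nonneg_left (rM10_pr_norm ι x) (norm_nonneg _))
  · refine ContinuousLinearMap.opNorm_le_bound _ (norm_nonneg _) fun y => ?_
    have h := (A.comp (rM10_pr ι)).le_opNorm (ι y)
    have h2 : rM10_pr ι (ι y) = y := by
      have := rM10_pr_apply ι h0 y 0
      rwa [zero_smul, add_zero] at this
    rw [ContinuousLinearMap.comp_apply, h2, ι.norm_map] at h
    exact h

/-- Gradients of functions depending only on the projection. -/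
theorem rM10_fderiv (h0 : ∀ y, ⟪ι y, e⟫ = 0) (f : E n → ℝ) (y : E n) (t : ℝ) :
    ‖fderiv ℝ (fun x => f (rM10_pr ι x)) (ι y + t • e)‖ = ‖fderiv ℝ f y‖ := by
  have hp := rM10_pr_apply ι h0 y t
  by_cases hd : DifferentiableAt ℝ f y
  · have h1 : HasFDerivAt f (fderiv ℝ f y) (rM10_pr ι (ι y + t • e)) := by
      rw [hp]
      exact hd.hasFDerivAt
    have h2 := h1.comp (ι y + t • e) (rM10_pr ι).hasFDerivAt
    have h3 : fderiv ℝ (fun x => f (rM10_pr ι x)) (ι y + t • e) =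
        (fderiv ℝ f y).comp (rM10_pr ι) := h2.fderiv
    rw [h3, rM10_pr_opnorm ι h0]
  · have h2 : ¬ DifferentiableAt ℝ (fun x => f (rM10_pr ι x)) (ι y + t • e) := by
      intro h
      apply hd
      have h3 : DifferentiableAt ℝ (fun y' : E n => ι y' + t • e) y :=
        (ι.toContinuousLinearMap.differentiableAt).add_const _
      have h4 : DifferentiableAt ℝ ((fun x => f (rM10_pr ι x)) ∘ fun y' : E n => ι y' + t • e) y :=
        DifferentiableAt.comp y h h3
      have h5 : ((fun x => f (rM10_pr ι x)) ∘ fun y' : E n => ι y' + t • e) = f := by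
        funext y'
        simp only [Function.comp_apply, rM10_pr_apply ι h0]
      rwa [h5] at h4
    rw [fderiv_zero_of_not_differentiableAt hd, fderiv_zero_of_not_differentiableAt h2]
    simp

end iso

/-- The cutoff. -/
noncomputable def rM10_lam (T t : ℝ) : ℝ := max 0 (min 1 (T + 1 - |t|))

theorem rM10_lam_nonneg (T t : ℝ) : 0 ≤ rM10_lam T t := le_max_left _ _

theorem rM10_lam_le (T t : ℝ) : rM10_lam T t ≤ 1 :=
  max_le zero_le_one (min_le_left _ _)

theorem rM10_lam_one {T t : ℝ} (h : |t| ≤ T) : rM10_lam T t = 1 := by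
  unfold rM10_lam
  rw [min_eq_left (by linarith), max_eq_right zero_le_one]

theorem rM10_lam_zero {T t : ℝ} (h : T + 1 ≤ |t|) : rM10_lam T t = 0 := by
  unfold rM10_lam
  rw [max_eq_left]
  exact (min_le_right _ _).trans (by linarith)

theorem rM10_lam_lip (T s t : ℝ) : |rM10_lam T s - rM10_lam T t| ≤ |s - t| := by
  unfold rM10_lam
  refine (abs_max_sub_max_le_max _ _ _ _).trans ?_
  refine max_le (by simp) ?_
  refine (abs_min_sub_min_le_max _ _ _ _).trans ?_
  refine max_le (by simp) ?_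
  have : T + 1 - |s| - (T + 1 - |t|) = |t| - |s| := by ring
  rw [this, abs_sub_comm s t]
  exact abs_abs_sub_abs_le_abs_sub t s

/-- The energy difference density. -/
noncomputable def rM10_dens {k : ℕ} (V v : E k → ℝ) (x : E k) : ℝ :=
  (‖fderiv ℝ V x‖ ^ 2 - ‖fderiv ℝ v x‖ ^ 2) +
    ({y | 0 < V y}.indicator (fun _ => (1 : ℝ)) x - {y | 0 < v y}.indicator (fun _ => (1 : ℝ)) x)

theorem rM10_dens_meas {k : ℕ} {V v : E k → ℝ} (hV : Continuous V) (hv : Continuous v) :
    Measurable (rM10_dens V v) := by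
  unfold rM10_dens
  have h1 : Measurable fun x : E k => ‖fderiv ℝ V x‖ ^ 2 :=
    ((measurable_fderiv ℝ V).norm).pow_const 2
  have h2 : Measurable fun x : E k => ‖fderiv ℝ v x‖ ^ 2 :=
    ((measurable_fderiv ℝ v).norm).pow_const 2
  have h3 : Measurable ({y | 0 < V y}.indicator (fun _ : E k => (1 : ℝ))) :=
    measurable_const.indicator (isOpen_lt continuous_const hV).measurableSet
  have h4 : Measurable ({y | 0 < v y}.indicator (fun _ : E k => (1 : ℝ))) :=
    measurable_const.indicator (isOpen_lt continuous_const hv).measurableSet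
  exact (h1.sub h2).add (h3.sub h4)

theorem rM10_ind_bd {k : ℕ} (V v : E k → ℝ) (x : E k) :
    |{y | 0 < V y}.indicator (fun _ => (1 : ℝ)) x - {y | 0 < v y}.indicator (fun _ => (1 : ℝ)) x|
      ≤ 1 := by
  classical
  simp only [Set.indicator_apply]
  split_ifs <;> simp

theorem rM10_dens_bd {k : ℕ} {V v : E k → ℝ} {KV K : ℝ≥0} (hV : LipschitzWith KV V)
    (hv : LipschitzWith K v) (x : E k) : |rM10_dens V v x| ≤ (KV : ℝ) ^ 2 + (K : ℝ) ^ 2 + 1 := by
  have h1 : ‖fderiv ℝ V x‖ ≤ KV := norm_fderiv_le_of_lipschitz ℝ hV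
  have h2 : ‖fderiv ℝ v x‖ ≤ K := norm_fderiv_le_of_lipschitz ℝ hv
  have h3 : ‖fderiv ℝ V x‖ ^ 2 ≤ (KV : ℝ) ^ 2 := pow_le_pow_left₀ (norm_nonneg _) h1 2
  have h4 : ‖fderiv ℝ v x‖ ^ 2 ≤ (K : ℝ) ^ 2 := pow_le_pow_left₀ (norm_nonneg _) h2 2
  have h5 := rM10_ind_bd V v x
  have h6 : 0 ≤ ‖fderiv ℝ V x‖ ^ 2 := by positivity
  have h7 : 0 ≤ ‖fderiv ℝ v x‖ ^ 2 := by positivity
  unfold rM10_dens
  rw [abs_le] at h5 ⊢
  constructor <;> linarith [h5.1, h5.2]

theorem rM10_dens_zero {k : ℕ} {V v : E k → ℝ} {x : E k} (h : V =ᶠ[𝓝 x] v) :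
    rM10_dens V v x = 0 := by
  classical
  unfold rM10_dens
  rw [h.fderiv_eq, sub_self, zero_add]
  simp only [Set.indicator_apply, Set.mem_ofPred_eq, h.eq_of_nhds, sub_self]

section main

variable {n : ℕ} {L Kz : ℝ≥0} {v : E (n + 1) → ℝ} {e : E (n + 1)} (ι : E n →ₗᵢ[ℝ] E (n + 1))
  {z : E n → ℝ}

/-- The competitor. -/
noncomputable def rM10_V (v : E (n + 1) → ℝ) (z : E n → ℝ) (e : E (n + 1)) (T : ℝ)
    (x : E (n + 1)) : ℝ :=
  v x + rM10_lam T ⟪x, e⟫ * (z (rM10_pr ι x) - v (ι (rM10_pr ι x)))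

theorem rM10_main (hv : MinL L v) (he : ‖e‖ = 1) (hinv : ∀ x (t : ℝ), v (x + t • e) = v x)
    (h0 : ∀ y, ⟪ι y, e⟫ = 0) (h1 : ∀ x, ∃ y, x = ι y + ⟪x, e⟫ • e)
    (hz : LipschitzWith Kz z) (hz0 : ∀ y, 0 ≤ z y)
    (hzc : HasCompactSupport (fun y => z y - v (ι y))) :
    0 ≤ ∫ y, rM10_dens z (fun y => v (ι y)) y := by
  set φ : E n → ℝ := fun y => z y - v (ι y) with hφ
  set w : E n → ℝ := fun y => v (ι y) with hw
  have hwL : LipschitzWith L w := by
    have := hv.lip.comp ι.lipschitz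
    rwa [mul_one] at this
  have hφL : LipschitzWith (Kz + L) φ := hz.sub hwL
  obtain ⟨M, hM⟩ := hzc.exists_bound_of_continuous hφL.continuous
  have hM0 : 0 ≤ M := (norm_nonneg _).trans (hM 0)
  obtain ⟨R, hR⟩ : ∃ R : ℝ, ∀ y, φ y ≠ 0 → ‖y‖ ≤ R := by
    obtain ⟨R, hR⟩ := (hzc.isCompact.isBounded).exists_norm_le
    exact ⟨R, fun y hy => hR y (subset_tsupport _ hy)⟩
  have hvι : ∀ x, v (ι (rM10_pr ι x)) = v x := by
    intro x
    conv_rhs => rw [← rM10_decomp ι h0 h1 x]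
    rw [hinv]
  set KV : ℝ≥0 := L + (M.toNNReal + (Kz + L)) with hKV
  set C : ℝ := (KV : ℝ) ^ 2 + (L : ℝ) ^ 2 + 1 with hC
  have hC0 : 0 ≤ C := by (clear * -; positivity)
  set C' : ℝ := C * (volume (tsupport φ)).toReal with hC'
  set J : ℝ := ∫ y, rM10_dens z w y with hJ
  have key : ∀ T : ℝ, 0 < T → 0 ≤ 2 * T * J + 2 * C' := by
    intro T hT
    set V := rM10_V ι v z e T with hV
    have hVx : ∀ x, V x = v x + rM10_lam T ⟪x, e⟫ * φ (rM10_pr ι x) := fun x => rfl
    -- Lipschitz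
    have hVL : LipschitzWith KV V := by
      refine LipschitzWith.of_dist_le_mul fun x x' => ?_
      rw [Real.dist_eq, hVx, hVx, hKV]
      have a1 : |v x - v x'| ≤ L * ‖x - x'‖ := by
        have := hv.lip.dist_le_mul x x'
        rwa [Real.dist_eq, dist_eq_norm] at this
      have a2 : |rM10_lam T ⟪x, e⟫ - rM10_lam T ⟪x', e⟫| ≤ ‖x - x'‖ := by
        refine (rM10_lam_lip T _ _).trans ?_
        rw [← inner_sub_left]
        have := abs_real_inner_le_norm (x - x') e
        rwa [he, mul_one] at this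
      have a3 : |φ (rM10_pr ι x) - φ (rM10_pr ι x')| ≤ (Kz + L) * ‖x - x'‖ := by
        have := hφL.dist_le_mul (rM10_pr ι x) (rM10_pr ι x')
        rw [Real.dist_eq, dist_eq_norm, ← map_sub] at this
        refine this.trans ?_
        push_cast
        exact mul_le_mul_of_nonneg_left (rM10_pr_norm ι _) (by (clear * -; positivity))
      have a4 : |φ (rM10_pr ι x)| ≤ M := hM _
      have a5 : |rM10_lam T ⟪x', e⟫| ≤ 1 := by
        rw [abs_of_nonneg (rM10_lam_nonneg _ _)]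
        exact rM10_lam_le _ _
      have e1 : v x + rM10_lam T ⟪x, e⟫ * φ (rM10_pr ι x) -
          (v x' + rM10_lam T ⟪x', e⟫ * φ (rM10_pr ι x')) =
          (v x - v x') + ((rM10_lam T ⟪x, e⟫ - rM10_lam T ⟪x', e⟫) * φ (rM10_pr ι x) +
            rM10_lam T ⟪x', e⟫ * (φ (rM10_pr ι x) - φ (rM10_pr ι x'))) := by ring
      rw [e1, dist_eq_norm]
      refine (abs_add_le _ _).trans ?_
      have a6 : |(rM10_lam T ⟪x, e⟫ - rM10_lam T ⟪x', e⟫) * φ (rM10_pr ι x) +
            rM10_lam T ⟪x', e⟫ * (φ (rM10_pr ι x) - φ (rM10_pr ι x'))| ≤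
          ‖x - x'‖ * M + 1 * ((Kz + L) * ‖x - x'‖) := by
        refine (abs_add_le _ _).trans ?_
        rw [abs_mul, abs_mul]
        exact add_le_add (mul_le_mul a2 a4 (abs_nonneg _) (norm_nonneg _))
          (mul_le_mul a5 a3 (abs_nonneg _) zero_le_one)
      push_cast
      rw [Real.coe_toNNReal M hM0]
      linarith only [a6, a1]
    -- nonnegativity
    have hV0 : ∀ x, 0 ≤ V x := by
      intro x
      rw [hVx]
      have b1 := rM10_lam_nonneg T ⟪x, e⟫
      have b2 := rM10_lam_le T ⟪x, e⟫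
      have b3 := hv.nonneg x
      have b4 := hz0 (rM10_pr ι x)
      have b5 : φ (rM10_pr ι x) = z (rM10_pr ι x) - v x := by rw [hφ]; simp only [hvι]
      rw [b5]
      linarith only [mul_nonneg (sub_nonneg.2 b2) (sub_nonneg.2 b3), mul_nonneg (sub_nonneg.2 b1) (sub_nonneg.2 b4)]
    -- compact support
    have hball : ∀ x, R + (T + 1) < ‖x‖ → V x = v x := by
      intro x hx
      rw [hVx]
      by_cases c1 : φ (rM10_pr ι x) = 0
      · rw [c1]; ring
      · have c2 := hR _ c1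
        have c3 : T + 1 ≤ |⟪x, e⟫| := by
          by_contra hcon
          push Not at hcon
          have c4 : ‖x‖ ≤ ‖rM10_pr ι x‖ + |⟪x, e⟫| := by
            conv_lhs => rw [← rM10_decomp ι h0 h1 x]
            refine (norm_add_le _ _).trans ?_
            rw [ι.norm_map, norm_smul, he, mul_one, Real.norm_eq_abs]
          linarith
        rw [rM10_lam_zero c3]
        ring
    have hcs : HasCompactSupport (fun x => V x - v x) := by
      refine HasCompactSupport.intro (isCompact_closedBall (0 : E (n + 1)) (R + (T + 1)))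
        fun x hx => ?_
      rw [mem_closedBall, dist_zero_right, not_le] at hx
      rw [hball x hx, sub_self]
    have hmin := hv.min V ⟨KV, hVL⟩ hV0 hcs
    change 0 ≤ ∫ x, rM10_dens V v x at hmin
    -- integrability
    have hGm := rM10_dens_meas hVL.continuous hv.lip.continuous
    have hGb : ∀ x, |rM10_dens V v x| ≤ C := fun x => rM10_dens_bd hVL hv.lip x
    have hGi : Integrable (rM10_dens V v) := by
      refine rM10_int hGm C hGb (isCompact_closedBall (0 : E (n + 1)) (R + (T + 1))) ?_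
      intro x hx
      apply rM10_dens_zero
      filter_upwards [(isClosed_closedBall).isOpen_compl.mem_nhds hx] with x' hx'
      rw [mem_compl_iff, mem_closedBall, dist_zero_right, not_le] at hx'
      exact hball x' hx'
    have hmp := rM10_mp ι he h0
    have hmeas : Measurable (fun p : E n × ℝ => ι p.1 + p.2 • e) := hmp.measurable
    have hGi' : Integrable (fun p : E n × ℝ => rM10_dens V v (ι p.1 + p.2 • e))
        (volume.prod volume) := hmp.integrable_comp_of_integrable hGi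
    have hint : ∫ x, rM10_dens V v x = ∫ t : ℝ, ∫ y : E n, rM10_dens V v (ι y + t • e) := by
      rw [← integral_prod_symm (fun p : E n × ℝ => rM10_dens V v (ι p.1 + p.2 • e)) hGi']
      rw [← hmp.map_eq, integral_map hmeas.aemeasurable hGm.aestronglyMeasurable]
    rw [hint] at hmin
    -- sections
    have hsec1 : ∀ t : ℝ, |t| < T → ∀ y : E n, rM10_dens V v (ι y + t • e) = rM10_dens z w y := by
      intro t ht y
      have c1 : V =ᶠ[𝓝 (ι y + t • e)] fun x => z (rM10_pr ι x) := by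
        have hopen : IsOpen {x : E (n + 1) | |⟪x, e⟫| < T} :=
          isOpen_lt (by fun_prop) continuous_const
        have hmem : ι y + t • e ∈ {x : E (n + 1) | |⟪x, e⟫| < T} := by
          rw [mem_ofPred_eq, rM10_inner ι he h0]
          exact ht
        filter_upwards [hopen.mem_nhds hmem] with x hx
        rw [hVx, rM10_lam_one (le_of_lt hx), one_mul, hφ]
        simp only [hvι]
        ring
      have c2 : v = fun x => w (rM10_pr ι x) := by
        funext x
        exact (hvι x).symm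
      have c3 : fderiv ℝ V (ι y + t • e) =
          fderiv ℝ (fun x => z (rM10_pr ι x)) (ι y + t • e) := c1.fderiv_eq
      have c4 : ‖fderiv ℝ v (ι y + t • e)‖ = ‖fderiv ℝ w y‖ := by
        conv_lhs => rw [c2]
        exact rM10_fderiv ι h0 w y t
      have c5 : V (ι y + t • e) = z y := by
        rw [c1.eq_of_nhds]
        simp only [rM10_pr_apply ι h0]
      have c6 : v (ι y + t • e) = w y := hinv _ _
      classical
      unfold rM10_dens
      rw [c3, rM10_fderiv ι h0 z y t, c4]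
      simp only [Set.indicator_apply, Set.mem_ofPred_eq, c5, c6]
    have hsec2 : ∀ t : ℝ, T + 1 < |t| → ∀ y : E n, rM10_dens V v (ι y + t • e) = 0 := by
      intro t ht y
      apply rM10_dens_zero
      have hopen : IsOpen {x : E (n + 1) | T + 1 < |⟪x, e⟫|} :=
        isOpen_lt continuous_const (by fun_prop)
      have hmem : ι y + t • e ∈ {x : E (n + 1) | T + 1 < |⟪x, e⟫|} := by
        rw [mem_ofPred_eq, rM10_inner ι he h0]
        exact ht
      filter_upwards [hopen.mem_nhds hmem] with x hx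
      rw [hVx, rM10_lam_zero (le_of_lt hx), zero_mul, add_zero]
    have hsec3 : ∀ t : ℝ, ∀ y : E n, |rM10_dens V v (ι y + t • e)| ≤
        (tsupport φ).indicator (fun _ => C) y := by
      intro t y
      by_cases hy : y ∈ tsupport φ
      · rw [indicator_of_mem hy]
        exact hGb _
      · rw [indicator_of_notMem hy]
        have c1 : rM10_dens V v (ι y + t • e) = 0 := by
          apply rM10_dens_zero
          have c2 : φ =ᶠ[𝓝 (rM10_pr ι (ι y + t • e))] 0 := by
            rw [rM10_pr_apply ι h0]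
            exact notMem_tsupport_iff_eventuallyEq.1 hy
          have c3 := (rM10_pr ι).continuous.continuousAt.eventually c2
          filter_upwards [c3] with x hx
          rw [hVx, hx]
          simp
        rw [c1, abs_zero]
    have hsuppc : IsCompact (tsupport φ) := hzc.isCompact
    have hfin : volume (tsupport φ) ≠ ⊤ := hsuppc.measure_ne_top
    have hindI : Integrable ((tsupport φ).indicator (fun _ : E n => C)) := by
      rw [integrable_indicator_iff (isClosed_tsupport φ).measurableSet]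
      exact integrableOn_const hfin
    have hindv : ∫ y, (tsupport φ).indicator (fun _ : E n => C) y = C' := by
      rw [integral_indicator_const _ (isClosed_tsupport φ).measurableSet, hC', smul_eq_mul,
        mul_comm]
      rfl
    set h : ℝ → ℝ := fun t => ∫ y : E n, rM10_dens V v (ι y + t • e) with hh
    have hC'0 : 0 ≤ C' := mul_nonneg hC0 ENNReal.toReal_nonneg
    have hhb : ∀ t, |h t| ≤ C' := by
      intro t
      rw [← hindv, ← Real.norm_eq_abs]
      refine (norm_integral_le_integral_norm _).trans ?_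
      refine integral_mono_of_nonneg (Eventually.of_forall fun y => norm_nonneg _) hindI
        (Eventually.of_forall fun y => ?_)
      exact hsec3 t y
    have hh1 : ∀ t, |t| < T → h t = J := by
      intro t ht
      rw [hh, hJ]
      exact integral_congr_ae (Eventually.of_forall fun y => hsec1 t ht y)
    have hh2 : ∀ t, T + 1 < |t| → h t = 0 := by
      intro t ht
      rw [hh]
      simp only [hsec2 t ht, integral_zero]
    have hhI : Integrable h := hGi'.integral_prod_right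
    have hB1 : Integrable ((Ioo (-T) T).indicator (fun _ : ℝ => J - C')) := by
      rw [integrable_indicator_iff measurableSet_Ioo]
      exact integrableOn_const measure_Ioo_lt_top.ne
    have hB2 : Integrable ((Icc (-(T + 1)) (T + 1)).indicator (fun _ : ℝ => C')) := by
      rw [integrable_indicator_iff measurableSet_Icc]
      exact integrableOn_const measure_Icc_lt_top.ne
    have hle : ∀ t, h t ≤ (Ioo (-T) T).indicator (fun _ : ℝ => J - C') t +
        (Icc (-(T + 1)) (T + 1)).indicator (fun _ : ℝ => C') t := by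
      intro t
      by_cases c1 : |t| < T
      · have c2 : t ∈ Ioo (-T) T := abs_lt.1 c1
        have c3 : t ∈ Icc (-(T + 1)) (T + 1) := ⟨by linarith [c2.1], by linarith [c2.2]⟩
        rw [indicator_of_mem c2, indicator_of_mem c3, hh1 t c1]
        linarith
      · have c2 : t ∉ Ioo (-T) T := fun hc => c1 (abs_lt.2 hc)
        rw [indicator_of_notMem c2, zero_add]
        by_cases c3 : |t| ≤ T + 1
        · have c4 : t ∈ Icc (-(T + 1)) (T + 1) := abs_le.1 c3
          rw [indicator_of_mem c4]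
          exact (le_abs_self _).trans (hhb t)
        · have c4 : t ∉ Icc (-(T + 1)) (T + 1) := fun hc => c3 (abs_le.2 hc)
          rw [indicator_of_notMem c4, hh2 t (not_le.1 c3)]
    have hfinal : ∫ t, h t ≤ 2 * T * J + 2 * C' := by
      refine (integral_mono hhI (hB1.add hB2) hle).trans (le_of_eq ?_)
      rw [integral_add' hB1 hB2, integral_indicator_const _ measurableSet_Ioo,
        integral_indicator_const _ measurableSet_Icc, Real.volume_real_Ioo_of_le (by linarith),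
        Real.volume_real_Icc_of_le (by linarith), smul_eq_mul, smul_eq_mul]
      ring
    exact hmin.trans hfinal
  by_contra hneg
  push Not at hneg
  change J < 0 at hneg
  have hC'0 : 0 ≤ C' := mul_nonneg hC0 ENNReal.toReal_nonneg
  have h2 := key ((C' + 1) / (-J)) (by
    apply div_pos
    · linarith
    · linarith)
  have hJne : J ≠ 0 := hneg.ne
  have h3 : 2 * ((C' + 1) / (-J)) * J = -2 * (C' + 1) := by
    rw [div_neg]
    field_simp
  linarith only [h3, h2]

end main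

theorem slice {n : ℕ} {L : ℝ≥0} {v : E (n + 1) → ℝ} (hv : MinL L v) {e : E (n + 1)}
    (he : ‖e‖ = 1) (hinv : ∀ x (t : ℝ), v (x + t • e) = v x) :
    ∃ ι : E n →ₗᵢ[ℝ] E (n + 1), (∀ y, ⟪ι y, e⟫ = 0) ∧
      (∀ x, ∃ y, x = ι y + ⟪x, e⟫ • e) ∧ MinL L (fun y => v (ι y)) := by
  obtain ⟨ι, h0, h1⟩ := rM10_exists he
  refine ⟨ι, h0, h1, ?_, fun y => hv.nonneg _, ?_⟩
  · have := hv.lip.comp ι.lipschitz
    rwa [mul_one] at this
  · rintro z ⟨Kz, hz⟩ hz0 hzc
    exact rM10_main ι hv he hinv h0 h1 hz hz0 hzc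

end Vale.Agent.P098
end

section

open MeasureTheory Set Metric Filter
open scoped ContDiff RealInnerProductSpace Topology

namespace Vale.Agent.P098

variable {d : ℕ}

namespace M5

/-- The estimate for one annulus and one `δ`. -/
theorem step {u : E d → ℝ} (hu : Continuous u) (hstab : StabWZ u) (h00 : u 0 = 0)
    {N₀ : Set (E d)} {U : E d → ℝ} (hU : LocalExt u N₀ U)
    {α γ : ℝ} (hα : 1 / 2 ≤ α) (hγ : γ = ((d : ℝ) - 2) / 2 - α)
    {ε B : ℝ} (hε : 0 < ε) (hB : 0 ≤ B) {D : ℝ}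
    (hD : ∀ y, |deriv Real.smoothTransition y| ≤ D)
    (k : ℕ) {C δ : ℝ} (hC : 0 ≤ C) (hδ : 0 < δ)
    {N : Set (E d)} {W : E d → ℝ} {Z : E d → E d} (hN : IsOpen N) (hNN : N ⊆ N₀)
    (hcl : ∀ x ∈ closure {y | 0 < u y}, 1 / 2 ≤ ‖x‖ → ‖x‖ ≤ 2 ^ (k + 1) → x ∈ N)
    (hW : ContDiffOn ℝ ∞ W N) (hZ : ContDiffOn ℝ ∞ Z N) (hW0 : ∀ x ∈ N, 0 < W x)
    (hb : ∀ x ∈ N, x ∈ frontier {y | 0 < u y} → 0 ≤ ⟪Z x, gradient U x⟫ + curv U x * W x)
    (hi : ∀ x ∈ N, 0 < u x → ε * sq2 U x ^ α / ‖x‖ ^ 2 - C * δ ^ (1 / 2 : ℝ) ≤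
            divg Z x - ‖gradient W x‖ ^ 2 / (4 * W x)
            + 2 * γ / ‖x‖ ^ 2 * ⟪(1 / 2 : ℝ) • gradient W x - Z x, x⟫
            - γ ^ 2 * W x / ‖x‖ ^ 2)
    (hWb : ∀ x ∈ N, 0 < u x → W x ≤ B * (1 / ‖x‖ ^ 2 + δ) ^ α)
    (hVb : ∀ x ∈ N, 0 < u x → ‖(1 / 2 : ℝ) • gradient W x - Z x‖
      ≤ B * (1 / ‖x‖ ^ 2 + δ) ^ (α + 1 / 2) + C * δ)
    {θ M : ℝ} (hθ : θ = (1 + δ * (2 ^ (k + 1)) ^ 2) ^ (α + 1 / 2))
    (hM : M = (1 / 4 : ℝ) ^ (-γ - 1 / 2) + (((2 : ℝ) ^ (k + 1)) ^ 2) ^ (-γ - 1 / 2)) :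
    ∫ x in {y | 0 < u y} ∩ {x | 1 ≤ ‖x‖ ∧ ‖x‖ ≤ 2 ^ k}, qq ε α γ U x
      ≤ (cst B C γ θ M D δ (2 ^ d) + cst B C γ θ M D δ (((2 ^ k) ^ d)⁻¹) * (2 ^ (k + 1)) ^ d)
          * volume.real (closedBall (0 : E d) 1)
        + C * δ ^ (1 / 2 : ℝ) * ∫ x in {y | 0 < u y}, eta γ k x ^ 2 := by
  set Ω : Set (E d) := {y | 0 < u y} with hΩdef
  have hΩ : IsOpen Ω := isOpen_lt continuous_const hu
  have hΩm : MeasurableSet Ω := hΩ.measurableSet
  have hne : ∀ x ∈ Ω, x ≠ 0 := by
    rintro x hx rfl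
    have : 0 < u 0 := hx
    rw [h00] at this; exact lt_irrefl _ this
  have hD0 : 0 ≤ D := (abs_nonneg _).trans (hD 0)
  set η : E d → ℝ := eta γ k with hη
  have hηs : ContDiff ℝ ∞ η := eta_smooth γ k
  have hηc : HasCompactSupport η := eta_hasCompactSupport γ k
  have hη0 : ∀ x, 0 ≤ η x := eta_nonneg γ k
  set N' : Set (E d) := N \ {0} with hN'
  have hN'o : IsOpen N' := hN.sdiff isClosed_singleton
  have hsupp : closure Ω ∩ tsupport η ⊆ N' := by
    rintro x ⟨hx1, hx2⟩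
    have h := eta_tsupport γ k hx2
    refine ⟨hcl x hx1 h.1 h.2, ?_⟩
    rintro rfl
    have := h.1
    rw [norm_zero] at this
    norm_num at this
  have hsuppN : closure Ω ∩ tsupport η ⊆ N := hsupp.trans sdiff_subset
  have hz : ∀ x, x ∉ tsupport η → η x = 0 := fun x hx => image_eq_zero_of_notMem_tsupport hx
  have hgz : ∀ x, x ∉ tsupport η → gradient η x = 0 := by
    intro x hx
    unfold gradient
    rw [fderiv_of_notMem_tsupport ℝ hx]
    simp
  set V : E d → E d := fun x => (1 / 2 : ℝ) • gradient W x - Z x with hV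
  -- continuity
  have cη : ContinuousOn η N' := hηs.continuous.continuousOn
  have cgη : ContinuousOn (gradient η) N' :=
    (continuousOn_gradient isOpen_univ hηs.contDiffOn).mono (subset_univ _)
  have cW : ContinuousOn W N' := hW.continuousOn.mono sdiff_subset
  have cgW : ContinuousOn (gradient W) N' := (continuousOn_gradient hN hW).mono sdiff_subset
  have cZ : ContinuousOn Z N' := hZ.continuousOn.mono sdiff_subset
  have cdZ : ContinuousOn (divg Z) N' := (continuousOn_divg hN hZ).mono sdiff_subset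
  have cV : ContinuousOn V N' := (cgW.const_smul (1 / 2 : ℝ)).sub cZ
  have cn : ContinuousOn (fun x : E d => ‖x‖ ^ 2) N' := (continuous_norm.pow 2).continuousOn
  have hn0 : ∀ x ∈ N', ‖x‖ ^ 2 ≠ 0 := fun x hx => by
    have : x ≠ 0 := hx.2
    positivity
  have hW4 : ∀ x ∈ N', 4 * W x ≠ 0 := fun x hx => by
    have := hW0 x hx.1
    positivity
  have csq : ContinuousOn (fun x => sq2 U x ^ α) N' :=
    ((continuousOn_sq2 hU.isOpen hU.smooth).mono (sdiff_subset.trans hNN)).rpow_const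
      fun x _ => Or.inr (by linarith only [hα])
  -- the functions
  have stab := hstab N U ⟨hN, hU.smooth.mono hNN, fun x hx => hU.eq x (hNN hx),
    fun x hx => hU.grad x (hNN hx)⟩ W hW hW0 Z hZ hb η hηs hη0 hηc hsuppN
  set A : E d → ℝ := fun x => η x ^ 2 * (divg Z x - ‖gradient W x‖ ^ 2 / (4 * W x)) with hA
  set Bq : E d → ℝ := fun x => W x * ‖gradient η x‖ ^ 2 + 2 * η x * ⟪gradient η x, V x⟫ with hBq
  set Dd : E d → ℝ := fun x => η x ^ 2 * (2 * γ / ‖x‖ ^ 2 * ⟪V x, x⟫ - γ ^ 2 * W x / ‖x‖ ^ 2)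
    with hDd
  set G : E d → ℝ := fun x => η x ^ 2 * (ε * sq2 U x ^ α / ‖x‖ ^ 2) with hG
  set Hh : E d → ℝ := fun x => C * δ ^ (1 / 2 : ℝ) * η x ^ 2 with hHh
  have iA : IntegrableOn A Ω := intOn_aux hΩm hηc hsupp
    ((cη.pow 2).mul (cdZ.sub ((cgW.norm.pow 2).div (cW.const_smul (4 : ℝ)) hW4)))
    fun x hx => by simp [hA, hz x hx]
  have iB : IntegrableOn Bq Ω := intOn_aux hΩm hηc hsupp
    ((cW.mul (cgη.norm.pow 2)).add ((continuousOn_const.mul cη).mul (cgη.inner cV)))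
    fun x hx => by simp [hBq, hz x hx, hgz x hx]
  have iD : IntegrableOn Dd Ω := intOn_aux hΩm hηc hsupp
    ((cη.pow 2).mul (((continuousOn_const.div cn hn0).mul (cV.inner continuousOn_id)).sub
      ((continuousOn_const.mul cW).div cn hn0)))
    fun x hx => by simp [hDd, hz x hx]
  have iG : IntegrableOn G Ω := intOn_aux hΩm hηc hsupp
    ((cη.pow 2).mul ((continuousOn_const.mul csq).div cn hn0))
    fun x hx => by simp [hG, hz x hx]
  have iH : IntegrableOn Hh Ω := intOn_aux hΩm hηc hsupp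
    (continuousOn_const.mul (cη.pow 2))
    fun x hx => by simp [hHh, hz x hx]
  -- combine
  have h1 : ∫ x in Ω, (G x - Hh x) ≤ ∫ x in Ω, (A x + Dd x) := by
    refine setIntegral_mono_on (iG.sub iH) (iA.add iD) hΩm fun x hx => ?_
    by_cases hη2 : η x = 0
    · simp [hG, hHh, hA, hDd, hη2]
    · have hxN : x ∈ N := hsuppN ⟨subset_closure hx, subset_tsupport _ hη2⟩
      have := mul_le_mul_of_nonneg_left (hi x hxN hx) (sq_nonneg (η x))
      simp only [hG, hHh, hA, hDd, hV]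
      calc _ = η x ^ 2 * (ε * sq2 U x ^ α / ‖x‖ ^ 2 - C * δ ^ (1 / 2 : ℝ)) := by ring
        _ ≤ _ := this
        _ = _ := by ring
  have h2 : ∫ x in Ω, (A x + Dd x) = (∫ x in Ω, A x) + ∫ x in Ω, Dd x := integral_add iA iD
  have h4 : ∫ x in Ω, (G x - Hh x) = (∫ x in Ω, G x) - ∫ x in Ω, Hh x := integral_sub iG iH
  have hJ : ∀ x ∈ Ω, Bq x + Dd x = JJ γ k W V x := fun x hx => JJ_eq γ k W V (hne x hx)
  have iJ : IntegrableOn (JJ γ k W V) Ω := (iB.add iD).congr_fun hJ hΩm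
  have h3 : ∫ x in Ω, JJ γ k W V x = (∫ x in Ω, Bq x) + ∫ x in Ω, Dd x := by
    rw [← integral_add iB iD]
    exact (setIntegral_congr_fun hΩm hJ).symm
  have h5 : ∫ x in Ω, G x ≤ (∫ x in Ω, JJ γ k W V x) + ∫ x in Ω, Hh x := by
    have stab' : ∫ x in Ω, A x ≤ ∫ x in Ω, Bq x := stab
    linarith only [stab', h3, h4, h2, h1]
  have hθ0 : 0 ≤ θ := by rw [hθ]; positivity
  have hM0 : 0 ≤ M := by rw [hM]; positivity
  have h6 := integral_JJ_le hΩm iJ
    (cst_nonneg (t := 2 ^ d) hB hC hθ0 hM0 hD0 hδ.le (by positivity))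
    (cst_nonneg (t := ((2 ^ k) ^ d)⁻¹) hB hC hθ0 hM0 hD0 hδ.le (by positivity))
    (R := 2 ^ (k + 1)) (by positivity)
    (fun x hx => JJ_le_indicators h00 hα hγ hB hD k hC hδ hcl hW0 hWb hVb hθ hM hx)
  have h7 : ∫ x in Ω, Hh x = C * δ ^ (1 / 2 : ℝ) * ∫ x in Ω, η x ^ 2 := by
    simp only [hHh]
    rw [integral_const_mul]
  -- the annulus
  have hSm : MeasurableSet (Ω ∩ {x : E d | 1 ≤ ‖x‖ ∧ ‖x‖ ≤ 2 ^ k}) :=
    hΩm.inter ((measurableSet_le measurable_const measurable_norm).inter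
      (measurableSet_le measurable_norm measurable_const))
  have h8 : ∫ x in Ω ∩ {x | 1 ≤ ‖x‖ ∧ ‖x‖ ≤ 2 ^ k}, qq ε α γ U x
      = ∫ x in Ω ∩ {x | 1 ≤ ‖x‖ ∧ ‖x‖ ≤ 2 ^ k}, G x := by
    refine setIntegral_congr_fun hSm fun x hx => ?_
    obtain ⟨hx1, hx2, hx3⟩ := hx
    have hn : 0 < ‖x‖ := by linarith only [hx2]
    have hs : 0 < ‖x‖ ^ 2 := by positivity
    have h4 : (4 : ℝ) ^ k = (2 ^ k) ^ 2 := by
      rw [← pow_mul, mul_comm, pow_mul]; norm_num
    have hchi : chi k (‖x‖ ^ 2) = 1 := by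
      apply chi_eq_one
      · (by_contra nlg; linarith only [nlg, mul_nonneg (sub_nonneg.2 hx2) (le_of_lt (sub_pos.2 hs)), mul_nonneg (sub_nonneg.2 hx2) (le_of_lt (sub_pos.2 hn)), mul_pos (sub_pos.2 (not_le.1 nlg)) (sub_pos.2 hn)])
      · rw [h4]; exact pow_le_pow_left₀ hn.le hx3 2
    simp only [hG, hη, eta, prof, qq, hchi, mul_one]
    rw [Real.rpow_sub_one hs.ne', rho_sq hs]
    ring
  have hG0 : ∀ x, 0 ≤ G x := fun x => by
    simp only [hG]
    have := Real.rpow_nonneg (sq2_nonneg U x) α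
    (clear * - hε this; positivity)
  have h9 : ∫ x in Ω ∩ {x | 1 ≤ ‖x‖ ∧ ‖x‖ ≤ 2 ^ k}, G x ≤ ∫ x in Ω, G x := by
    refine setIntegral_mono_set iG ?_ ?_
    · exact Eventually.of_forall hG0
    · exact (inter_subset_left).eventuallyLE
  rw [h8]
  calc _ ≤ _ := h9
    _ ≤ _ := h5
    _ ≤ _ := by rw [h7]; linarith only [h6]

end M5

end Vale.Agent.P098
end

section

open MeasureTheory Set Metric Filter
open scoped ContDiff RealInnerProductSpace Topology

namespace Vale.Agent.P098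

variable {d : ℕ}

namespace M5

/-- The assembly theorem with the stability inequality as a hypothesis. -/
theorem assembly_aux {u : E d → ℝ} (hu : Continuous u) (hstab : StabWZ u)
    (hhom : ∀ r : ℝ, 0 < r → ∀ x, u (r • x) = r * u x)
    {N₀ : Set (E d)} {U : E d → ℝ} (hU : LocalExt u N₀ U)
    (hN₀ : closure {y | 0 < u y} \ {0} ⊆ N₀)
    {α γ : ℝ} (hα : 1 / 2 ≤ α) (hγ : γ = ((d : ℝ) - 2) / 2 - α)
    {ε B : ℝ} (hε : 0 < ε) (hB : 0 ≤ B)
    (H : ∀ R : ℝ, 1 < R → ∃ C : ℝ, 0 ≤ C ∧ ∀ δ : ℝ, 0 < δ → δ ≤ 1 →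
      ∃ (N : Set (E d)) (W : E d → ℝ) (Z : E d → E d), IsOpen N ∧ N ⊆ N₀ ∧
        (∀ x ∈ closure {y | 0 < u y}, 1 / R ≤ ‖x‖ → ‖x‖ ≤ R → x ∈ N) ∧
        ContDiffOn ℝ ∞ W N ∧ ContDiffOn ℝ ∞ Z N ∧ (∀ x ∈ N, 0 < W x) ∧
        (∀ x ∈ N, x ∈ frontier {y | 0 < u y} → 0 ≤ ⟪Z x, gradient U x⟫ + curv U x * W x) ∧
        (∀ x ∈ N, 0 < u x →
          ε * (∑ i, ∑ j, P2 U i j x ^ 2) ^ α / ‖x‖ ^ 2 - C * δ ^ (1 / 2 : ℝ) ≤
            divg Z x - ‖gradient W x‖ ^ 2 / (4 * W x)
            + 2 * γ / ‖x‖ ^ 2 * ⟪(1 / 2 : ℝ) • gradient W x - Z x, x⟫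
            - γ ^ 2 * W x / ‖x‖ ^ 2) ∧
        (∀ x ∈ N, 0 < u x → W x ≤ B * (1 / ‖x‖ ^ 2 + δ) ^ α) ∧
        (∀ x ∈ N, 0 < u x → ‖(1 / 2 : ℝ) • gradient W x - Z x‖
          ≤ B * (1 / ‖x‖ ^ 2 + δ) ^ (α + 1 / 2) + C * δ)) :
    ∀ x, 0 < u x → ∑ i, ∑ j, P2 U i j x ^ 2 = 0 := by
  have hΩ : IsOpen {y | 0 < u y} := isOpen_lt continuous_const hu
  have h00 : u 0 = 0 := by
    have := hhom 2 (by norm_num) 0
    rw [smul_zero] at this
    linarith
  have h0Ω : (0 : E d) ∉ {y | 0 < u y} := by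
    intro h
    have : 0 < u 0 := h
    rw [h00] at this; exact lt_irrefl _ this
  have hΩN : {y | 0 < u y} ⊆ N₀ := fun x hx => hN₀ ⟨subset_closure hx, by
    rintro rfl; exact h0Ω hx⟩
  have hcone : ∀ r : ℝ, 0 < r → ∀ x ∈ {y | 0 < u y}, r • x ∈ {y | 0 < u y} := by
    intro r hr x hx
    show 0 < u (r • x)
    rw [hhom r hr x]
    exact mul_pos hr hx
  -- continuity of the density away from `0`
  have hqc : ContinuousOn (qq ε α γ U) (N₀ \ {0}) := by
    have c1 : ContinuousOn (fun x : E d => (‖x‖ ^ 2) ^ (-γ - 1)) (N₀ \ {0}) := by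
      refine ((continuous_norm.pow 2).continuousOn).rpow_const fun x hx => Or.inl ?_
      exact pow_ne_zero 2 (norm_ne_zero_iff.2 hx.2)
    have c2 : ContinuousOn (fun x => sq2 U x ^ α) (N₀ \ {0}) :=
      ((continuousOn_sq2 hU.isOpen hU.smooth).mono sdiff_subset).rpow_const
        fun x _ => Or.inr (by linarith)
    exact c1.mul (continuousOn_const.mul c2)
  have hq0 : ∀ x ∈ {y | 0 < u y}, 0 ≤ qq ε α γ U x := by
    intro x _
    unfold qq
    have := Real.rpow_nonneg (sq2_nonneg U x) α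
    (clear * - hε this; positivity)
  have hint : IntegrableOn (qq ε α γ U) ({y | 0 < u y} ∩ {x | 1 ≤ ‖x‖ ∧ ‖x‖ ≤ 2}) := by
    have hK : IsCompact (closure {y | 0 < u y} ∩ {x : E d | 1 ≤ ‖x‖ ∧ ‖x‖ ≤ 2}) := by
      have hcl : IsClosed {x : E d | 1 ≤ ‖x‖ ∧ ‖x‖ ≤ 2} :=
        (isClosed_le continuous_const continuous_norm).inter
          (isClosed_le continuous_norm continuous_const)
      refine (isCompact_closedBall (0 : E d) 2).of_isClosed_subset (isClosed_closure.inter hcl) ?_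
      rintro x ⟨-, -, hx⟩
      simpa using hx
    refine ((hqc.mono ?_).integrableOn_compact hK).mono_set
      (inter_subset_inter_left _ subset_closure)
    rintro x ⟨hx1, hx2, -⟩
    have hx0 : x ≠ 0 := by
      rintro rfl
      rw [norm_zero] at hx2
      linarith
    exact ⟨hN₀ ⟨hx1, hx0⟩, hx0⟩
  obtain ⟨D, hD0, hD⟩ := st_deriv_bdd
  set v₁ : ℝ := volume.real (closedBall (0 : E d) 1) with hv₁
  have hv₁0 : 0 ≤ v₁ := measureReal_nonneg
  have main : ∀ k : ℕ, ∫ x in {y | 0 < u y} ∩ {x | 1 ≤ ‖x‖ ∧ ‖x‖ ≤ 2 ^ k}, qq ε α γ U x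
      ≤ 12 * D * (3 * D + |γ| + 1) * (2 * B) * (2 ^ d + 2 ^ d) * v₁ := by
    intro k
    have hR : (1 : ℝ) < 2 ^ (k + 1) := one_lt_pow₀ (by norm_num) (by omega)
    have hR2 : (2 : ℝ) ≤ 2 ^ (k + 1) := by
      have : (1 : ℝ) ≤ 2 ^ k := one_le_pow₀ (by norm_num)
      rw [pow_succ]; linarith only [this]
    obtain ⟨C, hC, HC⟩ := H _ hR
    set M : ℝ := (1 / 4 : ℝ) ^ (-γ - 1 / 2) + (((2 : ℝ) ^ (k + 1)) ^ 2) ^ (-γ - 1 / 2) with hM
    set I : ℝ := ∫ x in {y | 0 < u y}, (eta γ k x : ℝ) ^ 2 with hI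
    set Φ : ℝ → ℝ := fun δ =>
      (cst B C γ ((1 + δ * (2 ^ (k + 1)) ^ 2) ^ (α + 1 / 2)) M D δ (2 ^ d)
        + cst B C γ ((1 + δ * (2 ^ (k + 1)) ^ 2) ^ (α + 1 / 2)) M D δ (((2 ^ k) ^ d)⁻¹)
          * (2 ^ (k + 1)) ^ d) * v₁ + C * δ ^ (1 / 2 : ℝ) * I with hΦ
    have hle : ∀ δ : ℝ, 0 < δ → δ ≤ 1 →
        ∫ x in {y | 0 < u y} ∩ {x | 1 ≤ ‖x‖ ∧ ‖x‖ ≤ 2 ^ k}, qq ε α γ U x ≤ Φ δ := by
      intro δ hδ hδ1
      obtain ⟨N, W, Z, hN, hNN, hcl, hW, hZ, hW0, hb, hi, hWb, hVb⟩ := HC δ hδ hδ1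
      refine step hu hstab h00 hU hα hγ hε hB hD k hC hδ hN hNN ?_ hW hZ hW0 hb hi hWb hVb rfl rfl
      intro x hx hx1 hx2
      refine hcl x hx (le_trans ?_ hx1) hx2
      rw [one_div, one_div]
      exact inv_anti₀ (by norm_num) hR2
    have hcont : ContinuousAt Φ 0 := by
      have c0 : ContinuousAt (fun δ : ℝ => (1 + δ * (2 ^ (k + 1)) ^ 2 : ℝ) ^ (α + 1 / 2)) 0 := by
        refine ContinuousAt.rpow_const (by fun_prop) (Or.inl ?_)
        simp
      have c1 : ContinuousAt (fun δ : ℝ => δ ^ (1 / 2 : ℝ)) 0 :=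
        Real.continuousAt_rpow_const _ _ (Or.inr (by norm_num))
      simp only [hΦ, cst]
      fun_prop
    have hΦ0 : Φ 0 = 12 * D * (3 * D + |γ| + 1) * (2 * B) * (2 ^ d + 2 ^ d) * v₁ := by
      have e1 : (2 : ℝ) ^ (k + 1) = 2 * 2 ^ k := by ring
      have e2 : ((2 ^ k : ℝ) ^ d)⁻¹ * (2 ^ (k + 1)) ^ d = 2 ^ d := by
        rw [e1, mul_pow]
        have : ((2 : ℝ) ^ k) ^ d ≠ 0 := by positivity
        field_simp
      simp only [hΦ, cst]
      rw [Real.zero_rpow (by norm_num)]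
      simp only [zero_mul, add_zero, Real.one_rpow, mul_zero, mul_one]
      have : (12 * D * (3 * D + |γ| + 1) * (2 * B * 2 ^ d)
          + 12 * D * (3 * D + |γ| + 1) * (2 * B * ((2 ^ k : ℝ) ^ d)⁻¹) * (2 ^ (k + 1)) ^ d) * v₁
          = 12 * D * (3 * D + |γ| + 1) * (2 * B)
            * (2 ^ d + ((2 ^ k : ℝ) ^ d)⁻¹ * (2 ^ (k + 1)) ^ d) * v₁ := by ring
      rw [this, e2]
    have ht : Tendsto Φ (𝓝[>] 0) (𝓝 (Φ 0)) := hcont.tendsto.mono_left nhdsWithin_le_nhds
    rw [← hΦ0]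
    refine ge_of_tendsto ht ?_
    filter_upwards [Ioo_mem_nhdsGT (zero_lt_one : (0 : ℝ) < 1)] with δ hδ
    exact hle δ hδ.1 hδ.2.le
  have hzero := eq_zero_of_log_growth hΩ h0Ω hcone (hqc.mono fun x hx => ⟨hΩN hx, by
    rintro rfl; exact h0Ω hx⟩) hq0
    (fun r hr x hx => qq_hom hu hhom hU hΩN hγ hr hx) hint main
  intro x hx
  have h1 := hzero x hx
  have hx0 : x ≠ 0 := by rintro rfl; exact h0Ω hx
  have hs : 0 < (‖x‖ ^ 2) ^ (-γ - 1) := Real.rpow_pos_of_pos (by positivity) _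
  unfold qq at h1
  have h2 : sq2 U x ^ α = 0 := by
    rcases mul_eq_zero.1 h1 with h | h
    · exact absurd h hs.ne'
    · rcases mul_eq_zero.1 h with h | h
      · exact absurd h hε.ne'
      · exact h
  exact (Real.rpow_eq_zero (sq2_nonneg U x) (by linarith)).1 h2

end M5

end Vale.Agent.P098
end
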