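import Mathlib
import Vale.Agent.P098.Bdl.B10
import Vale.Agent.P098.Bdl.B2
import Vale.Agent.P098.Bdl.B7
import Vale.Agent.P098.Bdl.B12

set_option linter.all false

section

/-! # S2: `H¹₀` and compact support; extension by zero

`memH10_of_support`: mollify. `w, h` (extended by `0` off the ball) and their mollifications
`w_ε = w * k_ε ∈ C_c^∞(ball x₀ R)` for `ε < R - r`, `∇w_ε = h * k_ε` (as `w` has weak gradient `h` on
all of `E d`: test with `η φ`, `η` a cutoff), and `w_ε → w`, `h_ε → h` in `L²` (density of continuous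
compactly supported functions, `‖f * k_ε‖₂ ≤ ‖f‖₂`).
`memH10_extend`: the approximating test functions of `w` are also test functions in the bigger
ball; the weak gradient identity passes to the `L²` limit. -/

open MeasureTheory Set Metric Filter
open scoped ContDiff RealInnerProductSpace Topology NNReal ENNReal

namespace Vale.Agent.P098

variable {d : ℕ}

theorem rS2_norm_sub_gradient (a : E d) (ψ : E d → ℝ) (x : E d) :
    ‖a - gradient ψ x‖ = ‖fderiv ℝ ψ x - InnerProductSpace.toDual ℝ (E d) a‖ := by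
  rw [← LinearIsometryEquiv.norm_map (InnerProductSpace.toDual ℝ (E d)) (a - gradient ψ x),
    map_sub, gradient, LinearIsometryEquiv.apply_symm_apply, norm_sub_rev]

theorem rS2_inner_gradient (ψ : E d → ℝ) (x e : E d) :
    ⟪gradient ψ x, e⟫ = fderiv ℝ ψ x e := by
  rw [gradient, InnerProductSpace.toDual_symm_apply]

theorem rS2_moll_zero {G : Type*} [NormedAddCommGroup G] [NormedSpace ℝ G] [CompleteSpace G]
    {W : E d → G} {x : E d} {ε : ℝ} (hε : 0 < ε) (h : ∀ y ∈ ball x ε, W y = 0) :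
    P073.moll volume ε W x = 0 := by
  rw [P073.moll_congr volume hε (w := fun _ => 0) h]
  simp only [P073.moll, smul_zero, integral_zero]

theorem memH10_of_support {x₀ : E d} {r R : ℝ} (hr : r < R) {w : E d → ℝ} {h : E d → E d}
    (hw : MemH1 (ball x₀ R) w h) (h0 : ∀ x ∈ ball x₀ R, x ∉ closedBall x₀ r → w x = 0 ∧ h x = 0) :
    MemH10 (ball x₀ R) w h := by
  refine ⟨hw, fun η hη => ?_⟩
  set r₂ := (r + R) / 2 with hr₂
  have hKc : IsCompact (closedBall x₀ r₂) := isCompact_closedBall _ _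
  have hKB : closedBall x₀ r₂ ⊆ ball x₀ R := closedBall_subset_ball (by linarith)
  set τ := √(η / 4) with hτ
  have hτ0 : 0 < τ := Real.sqrt_pos.2 (by linarith only [hη])
  have hτ2 : τ ^ 2 = η / 4 := Real.sq_sqrt (by linarith only [hη])
  obtain ⟨ε₀, hε₀, hm⟩ := rS1_moll hw hKc hKB (τ := ENNReal.ofReal τ) (by simpa only [ne_eq, ENNReal.ofReal_eq_zero, not_le] using hτ0)
  set ε := min (ε₀ / 2) ((R - r) / 8) with hε
  have hεpos : 0 < ε := lt_min (by linarith only [hε₀]) (by linarith only [hr])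
  have hε8 : ε ≤ (R - r) / 8 := min_le_right _ _
  obtain ⟨h1, h2, h3, h4, h5⟩ := hm ε hεpos ((min_le_left _ _).trans_lt (by linarith only [hε₀]))
  set K := closedBall x₀ r₂ with hK
  set ψ := P073.moll volume ε (K.indicator w) with hψ
  -- vanishing
  have hW : ∀ y, y ∉ closedBall x₀ r → K.indicator w y = 0 ∧
      K.indicator (fun x => InnerProductSpace.toDual ℝ (E d) (h x)) y = 0 := by
    intro y hy
    by_cases hyK : y ∈ K
    · obtain ⟨a, b⟩ := h0 y (hKB hyK) hy
      rw [indicator_of_mem hyK, indicator_of_mem hyK, a, b, map_zero]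
      exact ⟨rfl, rfl⟩
    · rw [indicator_of_notMem hyK, indicator_of_notMem hyK]
      exact ⟨rfl, rfl⟩
  have hfar : ∀ x, x ∉ closedBall x₀ (r + ε) → ∀ y ∈ ball x ε, y ∉ closedBall x₀ r := by
    intro x hx y hy hy2
    apply hx
    rw [mem_closedBall] at hy2 ⊢
    rw [mem_ball] at hy
    calc dist x x₀ ≤ dist x y + dist y x₀ := dist_triangle _ _ _
      _ ≤ ε + r := by rw [dist_comm x y]; exact add_le_add hy.le hy2
      _ = r + ε := add_comm _ _
  have hψ0 : ∀ x, x ∉ closedBall x₀ (r + ε) → ψ x = 0 := fun x hx =>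
    rS2_moll_zero hεpos fun y hy => (hW y (hfar x hx y hy)).1
  have hU0 : ∀ x, x ∉ closedBall x₀ (r + ε) → P073.moll volume ε
      (K.indicator fun x => InnerProductSpace.toDual ℝ (E d) (h x)) x = 0 := fun x hx =>
    rS2_moll_zero hεpos fun y hy => (hW y (hfar x hx y hy)).2
  have hts : tsupport ψ ⊆ closedBall x₀ (r + ε) := by
    refine closure_minimal (fun x hx => ?_) isClosed_closedBall
    by_contra hxc
    exact hx (hψ0 x hxc)
  have hder : ∀ x, fderiv ℝ ψ x = P073.moll volume ε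
      (K.indicator fun x => InnerProductSpace.toDual ℝ (E d) (h x)) x := by
    intro x
    by_cases hx : closedBall x ε ⊆ K
    · exact h5 x hx
    · have hx2 : x ∉ closedBall x₀ (r + ε) := by
        intro hx3
        apply hx
        rw [mem_closedBall] at hx3
        refine closedBall_subset_closedBall' ?_
        linarith only [hr₂, hεpos, hε8, hx3]
      rw [hU0 x hx2, fderiv_of_notMem_tsupport ℝ (fun hh => hx2 (hts hh))]
  refine ⟨ψ, h3, ?_, ?_, ?_⟩
  · exact HasCompactSupport.of_support_subset_isCompact (isCompact_closedBall x₀ (r + ε))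
      ((subset_tsupport _).trans hts)
  · exact hts.trans (closedBall_subset_ball (by linarith only [hεpos, hε8]))
  · have hwW : ∀ x ∈ ball x₀ R, w x = K.indicator w x ∧ InnerProductSpace.toDual ℝ (E d) (h x) =
        K.indicator (fun x => InnerProductSpace.toDual ℝ (E d) (h x)) x := by
      intro x hx
      by_cases hxK : x ∈ K
      · rw [indicator_of_mem hxK, indicator_of_mem hxK]
        exact ⟨rfl, rfl⟩
      · have hxr : x ∉ closedBall x₀ r := fun hh =>
          hxK (closedBall_subset_closedBall (by linarith only [hr₂, hεpos, hε8]) hh)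
        obtain ⟨a, b⟩ := h0 x hx hxr
        obtain ⟨a', b'⟩ := hW x hxr
        rw [a', b', a, b, map_zero]
        exact ⟨rfl, rfl⟩
    have e1 : eLpNorm (fun x => ψ x - w x) 2 (volume.restrict (ball x₀ R)) ≤
        ENNReal.ofReal τ := by
      refine le_trans (le_of_eq ?_)
        ((eLpNorm_mono_measure _ (Measure.restrict_le_self (s := ball x₀ R))).trans h1)
      refine eLpNorm_congr_ae ?_
      filter_upwards [ae_restrict_mem measurableSet_ball] with x hx
      rw [Pi.sub_apply, ← (hwW x hx).1]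
    have e2 : eLpNorm (fun x => fderiv ℝ ψ x - InnerProductSpace.toDual ℝ (E d) (h x)) 2
        (volume.restrict (ball x₀ R)) ≤ ENNReal.ofReal τ := by
      refine le_trans (le_of_eq ?_)
        ((eLpNorm_mono_measure _ (Measure.restrict_le_self (s := ball x₀ R))).trans h2)
      refine eLpNorm_congr_ae ?_
      filter_upwards [ae_restrict_mem measurableSet_ball] with x hx
      rw [Pi.sub_apply, ← (hwW x hx).2, hder x]
    have m1 : AEStronglyMeasurable (fun x => ψ x - w x) (volume.restrict (ball x₀ R)) :=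
      h3.continuous.aestronglyMeasurable.sub hw.1.1
    have m2 : AEStronglyMeasurable
        (fun x => fderiv ℝ ψ x - InnerProductSpace.toDual ℝ (E d) (h x))
        (volume.restrict (ball x₀ R)) :=
      (h3.continuous_fderiv (by norm_num)).aestronglyMeasurable.sub
        ((InnerProductSpace.toDual ℝ (E d)).continuous.comp_aestronglyMeasurable hw.2.1.1)
    obtain ⟨-, a2⟩ := rS1_int_le m1 hτ0.le e1
    obtain ⟨-, b2⟩ := rS1_int_le m2 hτ0.le e2
    have a3 : ∫ x in ball x₀ R, (w x - ψ x) ^ 2 ≤ η / 4 := by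
      rw [← hτ2]
      refine le_trans (le_of_eq ?_) a2
      congr 1
      ext x
      rw [Real.norm_eq_abs, sq_abs]
      ring
    have b3 : ∫ x in ball x₀ R, ‖h x - gradient ψ x‖ ^ 2 ≤ η / 4 := by
      rw [← hτ2]
      refine le_trans (le_of_eq ?_) b2
      congr 1
      ext x
      rw [rS2_norm_sub_gradient]
    linarith only [hη, a3, b3]

theorem memH10_extend {x₀ : E d} {r R : ℝ} (hr : r ≤ R) {w : E d → ℝ} {h : E d → E d}
    (hw : MemH10 (ball x₀ r) w h) (h0 : ∀ x, x ∉ ball x₀ r → w x = 0 ∧ h x = 0) :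
    MemH10 (ball x₀ R) w h := by
  have hsub : ball x₀ r ⊆ ball x₀ R := ball_subset_ball hr
  have hLp : ∀ {G : Type} [NormedAddCommGroup G] (f : E d → G), (∀ x, x ∉ ball x₀ r → f x = 0) →
      MemLp f 2 (volume.restrict (ball x₀ r)) → MemLp f 2 (volume.restrict (ball x₀ R)) := by
    intro G _ f hf0 hf
    have h1 : f = (ball x₀ r).indicator f := by
      ext x
      by_cases hx : x ∈ ball x₀ r
      · rw [indicator_of_mem hx]
      · rw [indicator_of_notMem hx, hf0 x hx]
    rw [h1, memLp_indicator_iff_restrict measurableSet_ball,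
      Measure.restrict_restrict measurableSet_ball, inter_eq_left.2 hsub]
    exact hf
  have hI : ∀ f : E d → ℝ, (∀ x, x ∉ ball x₀ r → f x = 0) →
      ∫ x in ball x₀ R, f x = ∫ x in ball x₀ r, f x := by
    intro f hf0
    exact setIntegral_eq_of_subset_of_forall_sdiff_eq_zero measurableSet_ball hsub
      fun x hx => hf0 x hx.2
  refine ⟨⟨hLp w (fun x hx => (h0 x hx).1) hw.1.1, hLp h (fun x hx => (h0 x hx).2) hw.1.2.1, ?_⟩,
    ?_⟩
  · intro φ hφ hc hs e
    rw [hI _ (fun x hx => by rw [(h0 x hx).1, zero_mul]),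
      hI _ (fun x hx => by rw [(h0 x hx).2, inner_zero_left, zero_mul])]
    have hdφc : Continuous (fun x => fderiv ℝ φ x e) :=
      (hφ.continuous_fderiv (by norm_num)).clm_apply continuous_const
    have hdφs : HasCompactSupport (fun x => fderiv ℝ φ x e) := hc.fderiv_apply ℝ e
    have hdφ : MemLp (fun x => fderiv ℝ φ x e) 2 (volume.restrict (ball x₀ r)) :=
      (hdφc.memLp_of_hasCompactSupport hdφs).restrict _
    have hφL : MemLp φ 2 (volume.restrict (ball x₀ r)) :=
      (hφ.continuous.memLp_of_hasCompactSupport hc).restrict _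
    have heφ : MemLp (fun x => ‖e‖ * φ x) 2 (volume.restrict (ball x₀ r)) := hφL.const_mul _
    have hge : MemLp (fun x => ⟪h x, e⟫) 2 (volume.restrict (ball x₀ r)) := by
      refine (hw.1.2.1.norm.mul_const ‖e‖).of_le ?_ (Eventually.of_forall fun x => ?_)
      · exact hw.1.2.1.1.inner aestronglyMeasurable_const
      · rw [Real.norm_eq_abs, norm_mul, norm_norm, norm_norm]
        exact abs_real_inner_le_norm _ _
    have hI1 : Integrable (fun x => w x * fderiv ℝ φ x e) (volume.restrict (ball x₀ r)) :=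
      rS1_integrable_mul hw.1.1 hdφ
    have hI2 : Integrable (fun x => ⟪h x, e⟫ * φ x) (volume.restrict (ball x₀ r)) :=
      rS1_integrable_mul hge hφL
    set C1 := √(∫ x in ball x₀ r, (fderiv ℝ φ x e) ^ 2) with hC1
    set C3 := √(∫ x in ball x₀ r, (‖e‖ * φ x) ^ 2) with hC3
    have key : ∀ τ : ℝ, 0 < τ → |(∫ x in ball x₀ r, w x * fderiv ℝ φ x e)
        + ∫ x in ball x₀ r, ⟪h x, e⟫ * φ x| ≤ (C1 + C3) * τ := by
      intro τ hτ
      obtain ⟨ψ, hψ, hψc, hψs, hψ5⟩ := hw.2 (τ ^ 2) (by (clear * - hτ; positivity))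
      have hψd : Differentiable ℝ ψ := hψ.differentiable (by norm_num)
      have hψL : MemLp ψ 2 (volume.restrict (ball x₀ r)) :=
        (hψ.continuous.memLp_of_hasCompactSupport hψc).restrict _
      have hfdL : MemLp (fun x => fderiv ℝ ψ x) 2 (volume.restrict (ball x₀ r)) :=
        ((hψ.continuous_fderiv (by norm_num)).memLp_of_hasCompactSupport
          (hψc.fderiv ℝ)).restrict _
      have hhL : MemLp (fun x => InnerProductSpace.toDual ℝ (E d) (h x)) 2
          (volume.restrict (ball x₀ r)) := by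
        refine hw.1.2.1.of_le ?_ (Eventually.of_forall fun x => ?_)
        · exact (InnerProductSpace.toDual ℝ (E d)).continuous.comp_aestronglyMeasurable
            hw.1.2.1.1
        · rw [LinearIsometryEquiv.norm_map]
      have hψ1 : MemLp (fun x => ψ x - w x) 2 (volume.restrict (ball x₀ r)) := hψL.sub hw.1.1
      have hn : MemLp (fun x => ‖fderiv ℝ ψ x - InnerProductSpace.toDual ℝ (E d) (h x)‖) 2
        (volume.restrict (ball x₀ r)) := (hfdL.sub hhL).norm
      have p1 : 0 ≤ ∫ x in ball x₀ r, (w x - ψ x) ^ 2 := integral_nonneg fun x => by (clear * -; positivity)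
      have p2 : 0 ≤ ∫ x in ball x₀ r, ‖h x - gradient ψ x‖ ^ 2 :=
        integral_nonneg fun x => by (clear * -; positivity)
      have q1 : ∫ x in ball x₀ r, (ψ x - w x) ^ 2 ≤ τ ^ 2 := by
        have : ∫ x in ball x₀ r, (ψ x - w x) ^ 2 = ∫ x in ball x₀ r, (w x - ψ x) ^ 2 := by
          congr 1; ext x; ring
        linarith only [hψ5, p2, this]
      have q2 : ∫ x in ball x₀ r, ‖fderiv ℝ ψ x - InnerProductSpace.toDual ℝ (E d) (h x)‖ ^ 2
          ≤ τ ^ 2 := by
        have : ∫ x in ball x₀ r, ‖fderiv ℝ ψ x - InnerProductSpace.toDual ℝ (E d) (h x)‖ ^ 2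
            = ∫ x in ball x₀ r, ‖h x - gradient ψ x‖ ^ 2 := by
          congr 1; ext x; rw [rS2_norm_sub_gradient]
        linarith only [hψ5, p1, this]
      have b1 : ∫ x in ball x₀ r, |ψ x - w x| * |fderiv ℝ φ x e| ≤ τ * C1 := by
        refine (rS1_cs hψ1 hdφ).trans ?_
        gcongr
        calc √(∫ x in ball x₀ r, (ψ x - w x) ^ 2) ≤ √(τ ^ 2) := Real.sqrt_le_sqrt q1
          _ = τ := Real.sqrt_sq hτ.le
      have b3 : ∫ x in ball x₀ r, |‖fderiv ℝ ψ x - InnerProductSpace.toDual ℝ (E d) (h x)‖| *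
          |‖e‖ * φ x| ≤ τ * C3 := by
        refine (rS1_cs hn heφ).trans ?_
        gcongr
        calc √(∫ x in ball x₀ r, ‖fderiv ℝ ψ x - InnerProductSpace.toDual ℝ (E d) (h x)‖ ^ 2)
            ≤ √(τ ^ 2) := Real.sqrt_le_sqrt q2
          _ = τ := Real.sqrt_sq hτ.le
      have hdψc : Continuous (fun x => fderiv ℝ ψ x e) :=
        (hψ.continuous_fderiv (by norm_num)).clm_apply continuous_const
      have hJ1 : Integrable (fun x => ψ x * fderiv ℝ φ x e) :=
        (hψ.continuous.mul hdφc).integrable_of_hasCompactSupport hdφs.mul_left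
      have hJ2 : Integrable (fun x => fderiv ℝ ψ x e * φ x) :=
        (hdψc.mul hφ.continuous).integrable_of_hasCompactSupport hc.mul_left
      have hJ3 : Integrable (fun x => ψ x * φ x) :=
        (hψ.continuous.mul hφ.continuous).integrable_of_hasCompactSupport hc.mul_left
      have hibp := integral_mul_fderiv_eq_neg_fderiv_mul_of_integrable
        (μ := (volume : Measure (E d))) (f := ψ) (g := φ) (v := e) hJ2 hJ1 hJ3
        (fun x _ => hψd x) (fun x _ => hφ.differentiable (by norm_num) x)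
      have hibp1 : ∫ x in ball x₀ r, ψ x * fderiv ℝ φ x e = ∫ x, ψ x * fderiv ℝ φ x e := by
        refine setIntegral_eq_integral_of_forall_compl_eq_zero fun x hx => ?_
        rw [image_eq_zero_of_notMem_tsupport (fun hh => hx (hψs hh)), zero_mul]
      have hibp2 : ∫ x in ball x₀ r, fderiv ℝ ψ x e * φ x = ∫ x, fderiv ℝ ψ x e * φ x := by
        refine setIntegral_eq_integral_of_forall_compl_eq_zero fun x hx => ?_
        rw [fderiv_of_notMem_tsupport ℝ (fun hh => hx (hψs hh))]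
        simp
      have hz : (∫ x in ball x₀ r, ψ x * fderiv ℝ φ x e)
          + ∫ x in ball x₀ r, fderiv ℝ ψ x e * φ x = 0 := by
        rw [hibp1, hibp2, hibp]; ring
      have hI12 : Integrable (fun x => w x * fderiv ℝ φ x e + ⟪h x, e⟫ * φ x)
        (volume.restrict (ball x₀ r)) := hI1.add hI2
      have hJ12 : Integrable (fun x => ψ x * fderiv ℝ φ x e + fderiv ℝ ψ x e * φ x)
        (volume.restrict (ball x₀ r)) :=
        (hJ1.integrableOn (s := ball x₀ r)).add (hJ2.integrableOn (s := ball x₀ r))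
      have hD : (∫ x in ball x₀ r, w x * fderiv ℝ φ x e) + ∫ x in ball x₀ r, ⟪h x, e⟫ * φ x
          = ∫ x in ball x₀ r, ((w x * fderiv ℝ φ x e + ⟪h x, e⟫ * φ x)
            - (ψ x * fderiv ℝ φ x e + fderiv ℝ ψ x e * φ x)) := by
        rw [integral_sub hI12 hJ12, integral_add hI1 hI2,
          integral_add hJ1.integrableOn hJ2.integrableOn, hz, sub_zero]
      have i1 : Integrable (fun x => |ψ x - w x| * |fderiv ℝ φ x e|)
        (volume.restrict (ball x₀ r)) := rS1_integrable_mul hψ1.abs hdφ.abs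
      have i3 : Integrable (fun x => |‖fderiv ℝ ψ x - InnerProductSpace.toDual ℝ (E d) (h x)‖| *
        |‖e‖ * φ x|) (volume.restrict (ball x₀ r)) := rS1_integrable_mul hn.abs heφ.abs
      rw [hD]
      have hbound := norm_integral_le_of_norm_le (i1.add i3)
        (f := fun x => (w x * fderiv ℝ φ x e + ⟪h x, e⟫ * φ x)
          - (ψ x * fderiv ℝ φ x e + fderiv ℝ ψ x e * φ x))
        (Eventually.of_forall fun x => ?_)
      · rw [Real.norm_eq_abs] at hbound
        refine hbound.trans ?_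
        simp only [Pi.add_apply]
        rw [integral_add i1 i3]
        linarith only [b1, b3]
      · simp only [Pi.add_apply]
        have e1 : w x * fderiv ℝ φ x e + ⟪h x, e⟫ * φ x
            - (ψ x * fderiv ℝ φ x e + fderiv ℝ ψ x e * φ x)
            = (w x - ψ x) * fderiv ℝ φ x e + (⟪h x, e⟫ - fderiv ℝ ψ x e) * φ x := by ring
        have e2 : |⟪h x, e⟫ - fderiv ℝ ψ x e| ≤
            ‖fderiv ℝ ψ x - InnerProductSpace.toDual ℝ (E d) (h x)‖ * ‖e‖ := by
          have := (fderiv ℝ ψ x - InnerProductSpace.toDual ℝ (E d) (h x)).le_opNorm e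
          rw [sub_apply, InnerProductSpace.toDual_apply_apply,
            Real.norm_eq_abs, abs_sub_comm] at this
          exact this
        rw [e1, Real.norm_eq_abs]
        refine (abs_add_le _ _).trans (add_le_add ?_ ?_)
        · rw [abs_mul, abs_sub_comm]
        · rw [abs_mul, abs_norm, abs_mul, abs_norm, ← mul_assoc]
          exact mul_le_mul_of_nonneg_right e2 (abs_nonneg _)
    have hzero : (∫ x in ball x₀ r, w x * fderiv ℝ φ x e)
        + ∫ x in ball x₀ r, ⟪h x, e⟫ * φ x = 0 := by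
      by_contra hne
      have hpos := abs_pos.2 hne
      have hC0 : 0 ≤ C1 + C3 := by (clear * -; positivity)
      have := key (|(∫ x in ball x₀ r, w x * fderiv ℝ φ x e)
        + ∫ x in ball x₀ r, ⟪h x, e⟫ * φ x| / (C1 + C3 + 1)) (by (clear * - hne; positivity))
      have h2 : (C1 + C3) * (|(∫ x in ball x₀ r, w x * fderiv ℝ φ x e)
        + ∫ x in ball x₀ r, ⟪h x, e⟫ * φ x| / (C1 + C3 + 1)) < |(∫ x in ball x₀ r, w x *
          fderiv ℝ φ x e) + ∫ x in ball x₀ r, ⟪h x, e⟫ * φ x| := by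
        rw [← mul_div_assoc, div_lt_iff₀ (by (clear * -; positivity))]
        linarith only [hpos]
      linarith
    linarith only [hzero]
  · intro η hη
    obtain ⟨ψ, hψ, hψc, hψs, hψ5⟩ := hw.2 η hη
    refine ⟨ψ, hψ, hψc, hψs.trans hsub, ?_⟩
    rw [hI _ (fun x hx => ?_), hI _ (fun x hx => ?_)]
    · exact hψ5
    · have h1 : fderiv ℝ ψ x = 0 := fderiv_of_notMem_tsupport ℝ (fun hh => hx (hψs hh))
      rw [(h0 x hx).2, gradient, h1, map_zero]
      simp
    · rw [(h0 x hx).1, image_eq_zero_of_notMem_tsupport (fun hh => hx (hψs hh))]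
      simp

end Vale.Agent.P098
end

section

/-! # E8: correction of approximate solutions (Newton iteration in coefficient space)

`P₀ = P + εq`, `Q₀ = Q + εQ_q`, then repeatedly subtract the right inverse of the truncated
remainder; the coefficientwise limits exist and satisfy all claims. -/

open MeasureTheory Set Metric Filter
open scoped ContDiff RealInnerProductSpace Topology NNReal

namespace Vale.Agent.P098

variable {d : ℕ}

/-! ## Truncation -/

open MvPolynomial in
/-- Truncation to degree `< K`. -/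
noncomputable def trn (K : ℕ) (p : MvPolynomial (Fin d) ℝ) : MvPolynomial (Fin d) ℝ :=
  ∑ m ∈ p.support.filter (fun m => m.degree < K), monomial m (p.coeff m)

theorem coeff_trn (K : ℕ) (p : MvPolynomial (Fin d) ℝ) (m : Fin d →₀ ℕ) :
    (trn K p).coeff m = if m.degree < K then p.coeff m else 0 := by
  classical
  simp only [trn, MvPolynomial.coeff_sum, MvPolynomial.coeff_monomial]
  rw [Finset.sum_ite_eq']
  by_cases h : m.degree < K
  · by_cases h2 : m ∈ p.support
    · simp only [Finset.mem_filter, h2, h, and_self, ↓reduceIte]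
    · have : p.coeff m = 0 := by simpa using h2
      simp [this]
  · simp only [Finset.mem_filter, MvPolynomial.mem_support_iff, ne_eq, h, and_false, ↓reduceIte]

theorem trn_eq_zero {K : ℕ} {p : MvPolynomial (Fin d) ℝ} (h : LowZero K p) : trn K p = 0 := by
  ext m
  rw [coeff_trn, MvPolynomial.coeff_zero]
  split_ifs with h1
  · exact h m h1
  · rfl

theorem trn_sub (K : ℕ) (p q : MvPolynomial (Fin d) ℝ) : trn K (p - q) = trn K p - trn K q := by
  ext m
  simp only [coeff_trn, MvPolynomial.coeff_sub]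
  split_ifs <;> simp

theorem trn_add (K : ℕ) (p q : MvPolynomial (Fin d) ℝ) : trn K (p + q) = trn K p + trn K q := by
  ext m
  simp only [coeff_trn, MvPolynomial.coeff_add]
  split_ifs <;> simp

theorem trn_neg (K : ℕ) (p : MvPolynomial (Fin d) ℝ) : trn K (-p) = -trn K p := by
  ext m
  simp only [coeff_trn, MvPolynomial.coeff_neg]
  split_ifs <;> simp

theorem trn_trn (K : ℕ) (p : MvPolynomial (Fin d) ℝ) : trn K (trn K p) = trn K p := by
  ext m
  simp only [coeff_trn]
  split_ifs <;> simp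

theorem totalDegree_le_of_coeff {K : ℕ} {p : MvPolynomial (Fin d) ℝ}
    (h : ∀ m : Fin d →₀ ℕ, K < m.degree → p.coeff m = 0) : p.totalDegree ≤ K := by
  rw [MvPolynomial.totalDegree]
  refine Finset.sup_le fun m hm => ?_
  by_contra hlt
  refine MvPolynomial.mem_support_iff.1 hm (h m ?_)
  have : (m.sum fun _ e => e) = m.degree := by
    rw [Finsupp.sum, Finsupp.degree]
    rfl
  omega

theorem coeff_of_totalDegree {K : ℕ} {p : MvPolynomial (Fin d) ℝ} (h : p.totalDegree ≤ K)
    (m : Fin d →₀ ℕ) (hm : K < m.degree) : p.coeff m = 0 := by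
  by_contra hne
  have h1 := MvPolynomial.le_totalDegree (MvPolynomial.mem_support_iff.2 hne)
  have : (m.sum fun _ e => e) = m.degree := by
    rw [Finsupp.sum, Finsupp.degree]
    rfl
  omega

theorem totalDegree_trn (K : ℕ) (hK : 1 ≤ K) (p : MvPolynomial (Fin d) ℝ) :
    (trn K p).totalDegree ≤ K - 1 := by
  apply totalDegree_le_of_coeff
  intro m hm
  rw [coeff_trn, if_neg (by omega)]

theorem sum_coeff_le_cn (p : MvPolynomial (Fin d) ℝ) (J : Finset (Fin d →₀ ℕ)) :
    ∑ m ∈ J, |p.coeff m| ≤ cn p := by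
  classical
  rw [cn, ← Finset.sum_filter_add_sum_filter_not J (fun m => m ∈ p.support)]
  have h1 : ∑ m ∈ J.filter (fun m => ¬ m ∈ p.support), |p.coeff m| = 0 := by
    apply Finset.sum_eq_zero
    intro m hm
    have := (Finset.mem_filter.1 hm).2
    rw [MvPolynomial.notMem_support_iff.1 this, abs_zero]
  rw [h1, add_zero]
  apply Finset.sum_le_sum_of_subset_of_nonneg
  · intro m hm
    exact (Finset.mem_filter.1 hm).2
  · intros
    exact abs_nonneg _

theorem cn_trn_le (K : ℕ) (p : MvPolynomial (Fin d) ℝ) : cn (trn K p) ≤ cn p := by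
  refine le_trans ?_ (sum_coeff_le_cn p (trn K p).support)
  rw [cn]
  apply Finset.sum_le_sum
  intro m _
  rw [coeff_trn]
  split_ifs
  · exact le_rfl
  · simp only [abs_zero, abs_nonneg]

theorem cn_sum_le {ι : Type*} (s : Finset ι) (f : ι → MvPolynomial (Fin d) ℝ) :
    cn (∑ i ∈ s, f i) ≤ ∑ i ∈ s, cn (f i) := by
  classical
  induction s using Finset.induction_on with
  | empty => simp [cn_zero]
  | insert a s ha ih =>
    rw [Finset.sum_insert ha, Finset.sum_insert ha]
    exact le_trans (cn_add_le _ _) (by linarith only [ih])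

/-! ## Algebra of the remainder -/

open MvPolynomial in
theorem remP_sub {n : ℕ} (P Q s t : MvPolynomial (Fin (n + 1)) ℝ) :
    remP (P - s) (Q - t) - remP P Q = -(2 * pderiv 0 s - X 0 * t) +
      ((-((∑ i, pderiv i (P - X 0) * pderiv i s) + ∑ i, pderiv i (P - X 0) * pderiv i s) +
        (P - X 0) * t + s * Q) + ((∑ i, pderiv i s * pderiv i s) - s * t)) := by
  have h0 : ∑ i, pderiv i (X 0 : MvPolynomial (Fin (n + 1)) ℝ) * pderiv i s = pderiv 0 s := by
    rw [Finset.sum_eq_single (0 : Fin (n + 1))]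
    · simp
    · intro b _ hb
      rw [pderiv_X_of_ne (Ne.symm hb), zero_mul]
    · simp only [Finset.mem_univ, not_true_eq_false, pderiv_X, Pi.single_eq_same, one_mul, IsEmpty.forall_iff]
  have h1 : ∑ i, pderiv i (P - X 0) * pderiv i s = (∑ i, pderiv i P * pderiv i s) - pderiv 0 s := by
    rw [← h0, ← Finset.sum_sub_distrib]
    refine Finset.sum_congr rfl fun i _ => ?_
    rw [map_sub, sub_mul]
  have h2 : ∑ i, pderiv i (P - s) ^ 2 = (∑ i, pderiv i P ^ 2) - 2 * (∑ i, pderiv i P * pderiv i s)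
      + ∑ i, pderiv i s * pderiv i s := by
    rw [Finset.mul_sum, ← Finset.sum_sub_distrib, ← Finset.sum_add_distrib]
    refine Finset.sum_congr rfl fun i _ => ?_
    rw [map_sub]
    ring
  rw [h1, remP, remP, h2]
  ring

open MvPolynomial in
theorem cn_pd_mul_le {n K : ℕ} {p s : MvPolynomial (Fin (n + 1)) ℝ} (hp : p.totalDegree ≤ K)
    (hs : s.totalDegree ≤ K) :
    cn (∑ i, pderiv i p * pderiv i s) ≤ ((n + 1 : ℕ) * (K : ℝ) ^ 2) * (cn p * cn s) := by
  refine le_trans (cn_sum_le _ _) ?_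
  have h : ∀ i ∈ (Finset.univ : Finset (Fin (n + 1))), cn (pderiv i p * pderiv i s) ≤
      (K : ℝ) ^ 2 * (cn p * cn s) := by
    intro i _
    refine le_trans (cn_mul_le _ _) ?_
    have h1 : cn (pderiv i p) ≤ K * cn p := le_trans (cn_pderiv_le p i)
      (mul_le_mul_of_nonneg_right (by exact_mod_cast hp) (cn_nonneg p))
    have h2 : cn (pderiv i s) ≤ K * cn s := le_trans (cn_pderiv_le s i)
      (mul_le_mul_of_nonneg_right (by exact_mod_cast hs) (cn_nonneg s))
    calc cn (pderiv i p) * cn (pderiv i s) ≤ (K * cn p) * (K * cn s) :=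
          mul_le_mul h1 h2 (cn_nonneg _) (mul_nonneg (Nat.cast_nonneg _) (cn_nonneg _))
      _ = _ := by ring
  refine le_trans (Finset.sum_le_sum h) ?_
  rw [Finset.sum_const, Finset.card_univ, Fintype.card_fin, nsmul_eq_mul]
  exact le_of_eq (by ring)

open MvPolynomial in
theorem cn_quad_le {n K : ℕ} {p s t Q : MvPolynomial (Fin (n + 1)) ℝ} (hp : p.totalDegree ≤ K)
    (hs : s.totalDegree ≤ K) :
    cn ((-((∑ i, pderiv i p * pderiv i s) + ∑ i, pderiv i p * pderiv i s) +
        p * t + s * Q) + ((∑ i, pderiv i s * pderiv i s) - s * t)) ≤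
      2 * ((n + 1 : ℕ) * (K : ℝ) ^ 2) * (cn p * cn s) + cn p * cn t + cn s * cn Q +
        ((n + 1 : ℕ) * (K : ℝ) ^ 2) * (cn s * cn s) + cn s * cn t := by
  have h1 := cn_pd_mul_le hp hs
  have h2 := cn_pd_mul_le hs hs
  have h3 := cn_mul_le p t
  have h4 := cn_mul_le s Q
  have h5 := cn_mul_le s t
  have e1 := cn_add_le ((-((∑ i, pderiv i p * pderiv i s) + ∑ i, pderiv i p * pderiv i s) +
        p * t + s * Q)) ((∑ i, pderiv i s * pderiv i s) - s * t)
  have e2 := cn_add_le (-((∑ i, pderiv i p * pderiv i s) + ∑ i, pderiv i p * pderiv i s) +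
        p * t) (s * Q)
  have e3 := cn_add_le (-((∑ i, pderiv i p * pderiv i s) + ∑ i, pderiv i p * pderiv i s)) (p * t)
  have e4 := cn_neg ((∑ i, pderiv i p * pderiv i s) + ∑ i, pderiv i p * pderiv i s)
  have e5 := cn_add_le (∑ i, pderiv i p * pderiv i s) (∑ i, pderiv i p * pderiv i s)
  have e6 := cn_sub_le (∑ i, pderiv i s * pderiv i s) (s * t)
  linarith only [e6, e5, e4, e3, e2, e1, h5, h4, h3, h2, h1]

/-! ## Coefficientwise limits -/

/-- Coefficientwise convergence. -/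
def CTend (p : ℕ → MvPolynomial (Fin d) ℝ) (q : MvPolynomial (Fin d) ℝ) : Prop :=
  ∀ m, Tendsto (fun j => (p j).coeff m) atTop (𝓝 (q.coeff m))

namespace CTend

variable {p p' : ℕ → MvPolynomial (Fin d) ℝ} {q q' : MvPolynomial (Fin d) ℝ}

theorem const (q : MvPolynomial (Fin d) ℝ) : CTend (fun _ => q) q := fun _ => tendsto_const_nhds

theorem add (h : CTend p q) (h' : CTend p' q') : CTend (fun j => p j + p' j) (q + q') := by
  intro m
  simp only [MvPolynomial.coeff_add]
  exact (h m).add (h' m)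

theorem sub (h : CTend p q) (h' : CTend p' q') : CTend (fun j => p j - p' j) (q - q') := by
  intro m
  simp only [MvPolynomial.coeff_sub]
  exact (h m).sub (h' m)

theorem mul (h : CTend p q) (h' : CTend p' q') : CTend (fun j => p j * p' j) (q * q') := by
  classical
  intro m
  simp only [MvPolynomial.coeff_mul]
  exact tendsto_finsetSum _ fun x _ => (h x.1).mul (h' x.2)

theorem pow_two (h : CTend p q) : CTend (fun j => p j ^ 2) (q ^ 2) := by
  have := h.mul h
  simpa only [sq] using this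

theorem sum {ι : Type*} (s : Finset ι) {f : ι → ℕ → MvPolynomial (Fin d) ℝ}
    {g : ι → MvPolynomial (Fin d) ℝ} (h : ∀ i ∈ s, CTend (f i) (g i)) :
    CTend (fun j => ∑ i ∈ s, f i j) (∑ i ∈ s, g i) := by
  intro m
  simp only [MvPolynomial.coeff_sum]
  exact tendsto_finsetSum _ fun i hi => h i hi m

theorem pderiv (h : CTend p q) (i : Fin d) :
    CTend (fun j => MvPolynomial.pderiv i (p j)) (MvPolynomial.pderiv i q) := by
  intro m
  simp only [MvPolynomial.coeff_pderiv]
  exact (h _).mul_const _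

theorem lapP (h : CTend p q) : CTend (fun j => Vale.Agent.P098.lapP (p j)) (Vale.Agent.P098.lapP q) :=
  sum _ fun i _ => (h.pderiv i).pderiv i

theorem remP (h : CTend p q) (h' : CTend p' q') :
    CTend (fun j => Vale.Agent.P098.remP (p j) (p' j)) (Vale.Agent.P098.remP q q') :=
  ((sum _ fun i _ => (h.pderiv i).pow_two).sub (const 1)).sub (h.mul h')

theorem cn_le (h : CTend p q) {c : ℝ} (hc : ∀ j, cn (p j) ≤ c) : cn q ≤ c := by
  rw [cn]
  have : Tendsto (fun j => ∑ m ∈ q.support, |(p j).coeff m|) atTop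
      (𝓝 (∑ m ∈ q.support, |q.coeff m|)) := tendsto_finsetSum _ fun m _ => (h m).abs
  exact le_of_tendsto this (Eventually.of_forall fun j => le_trans (sum_coeff_le_cn _ _) (hc j))

theorem eq_zero (h : CTend p q) (h0 : ∀ j, p j = 0) : q = 0 := by
  ext m
  have := h m
  simp only [h0, MvPolynomial.coeff_zero] at this
  rw [MvPolynomial.coeff_zero]
  exact tendsto_nhds_unique this tendsto_const_nhds

end CTend

theorem exists_ctend {K : ℕ} {c : ℝ} {p : ℕ → MvPolynomial (Fin d) ℝ}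
    (hd : ∀ j, (p j).totalDegree ≤ K) (h : ∀ j, cn (p (j + 1) - p j) ≤ c / 2 ^ j) :
    ∃ q, q.totalDegree ≤ K ∧ CTend p q := by
  classical
  have hc : ∀ m, CauchySeq fun j => (p j).coeff m := by
    intro m
    refine cauchySeq_of_le_geometric_two (C := 2 * c) fun j => ?_
    rw [Real.dist_eq, abs_sub_comm, ← MvPolynomial.coeff_sub]
    refine le_trans (abs_coeff_le_cn _ _) (le_trans (h j) (le_of_eq ?_))
    ring
  choose L hL using fun m => cauchySeq_tendsto_of_complete (hc m)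
  let I : Finset (Fin d →₀ ℕ) := (Finsupp.finite_of_degree_le (σ := Fin d) K).toFinset
  have hI : ∀ m, m ∈ I ↔ m.degree ≤ K := fun m => by simp only [Finite.mem_toFinset, mem_ofPred_eq, I]
  let q : MvPolynomial (Fin d) ℝ := ∑ m ∈ I, MvPolynomial.monomial m (L m)
  have hq : ∀ m, q.coeff m = L m := by
    intro m
    simp only [q, MvPolynomial.coeff_sum, MvPolynomial.coeff_monomial]
    rw [Finset.sum_ite_eq']
    split_ifs with hm
    · rfl
    · have h1 : ∀ j, (p j).coeff m = 0 := fun j => coeff_of_totalDegree (hd j) m (by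
        rw [hI] at hm; omega)
      have h2 := hL m
      simp only [h1] at h2
      exact tendsto_nhds_unique tendsto_const_nhds h2
  refine ⟨q, totalDegree_le_of_coeff fun m hm => ?_, fun m => ?_⟩
  · have h1 : ∀ j, (p j).coeff m = 0 := fun j => coeff_of_totalDegree (hd j) m hm
    have h2 := hL m
    simp only [h1] at h2
    rw [hq]
    exact (tendsto_nhds_unique tendsto_const_nhds h2).symm
  · rw [hq]
    exact hL m

/-! ## The iteration -/

open MvPolynomial in
/-- The constant of the Newton step. -/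
noncomputable def nM (n K : ℕ) (C₁ : ℝ) : ℝ :=
  C₁ * (2 * ((n + 1 : ℕ) * (K : ℝ) ^ 2) + 1) + C₁ + C₁ ^ 2 * ((n + 1 : ℕ) * (K : ℝ) ^ 2 + 1)

open MvPolynomial in
theorem newton_step {n K : ℕ} {C₁ : ℝ} (hC₁ : 0 < C₁) {P Q s t : MvPolynomial (Fin (n + 1)) ℝ}
    (hP : (P - X 0).totalDegree ≤ K) (hs : s.totalDegree ≤ K)
    (hst : 2 * pderiv 0 s - X 0 * t = trn K (remP P Q))
    (hcs : cn s ≤ C₁ * cn (trn K (remP P Q))) (hct : cn t ≤ C₁ * cn (trn K (remP P Q))) :
    cn (trn K (remP (P - s) (Q - t))) ≤ nM n K C₁ * cn (trn K (remP P Q)) *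
      (cn (P - X 0) + cn Q + cn (trn K (remP P Q))) ∧
    cn (remP (P - s) (Q - t) - remP P Q) ≤ cn (trn K (remP P Q)) +
      nM n K C₁ * cn (trn K (remP P Q)) * (cn (P - X 0) + cn Q + cn (trn K (remP P Q))) := by
  set ζ := trn K (remP P Q) with hζ
  have hsub := remP_sub P Q s t
  rw [hst] at hsub
  set E := ((-((∑ i, pderiv i (P - X 0) * pderiv i s) + ∑ i, pderiv i (P - X 0) * pderiv i s) +
        (P - X 0) * t + s * Q) + ((∑ i, pderiv i s * pderiv i s) - s * t)) with hE
  have hEb : cn E ≤ nM n K C₁ * cn ζ * (cn (P - X 0) + cn Q + cn ζ) := by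
    refine le_trans (cn_quad_le hP hs) ?_
    have z0 := cn_nonneg ζ
    have a0 := cn_nonneg (P - X 0)
    have b0 := cn_nonneg Q
    have s0 := cn_nonneg s
    have t0 := cn_nonneg t
    have D0 : (0 : ℝ) ≤ (n + 1 : ℕ) * (K : ℝ) ^ 2 := by (clear * -; positivity)
    generalize hD : ((n + 1 : ℕ) * (K : ℝ) ^ 2 : ℝ) = D at D0 ⊢
    have hCz : 0 ≤ C₁ * cn ζ := mul_nonneg hC₁.le z0
    have i1 : cn (P - X 0) * cn s ≤ cn (P - X 0) * (C₁ * cn ζ) := mul_le_mul_of_nonneg_left hcs a0
    have i2 : cn (P - X 0) * cn t ≤ cn (P - X 0) * (C₁ * cn ζ) := mul_le_mul_of_nonneg_left hct a0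
    have i3 : cn s * cn Q ≤ (C₁ * cn ζ) * cn Q := mul_le_mul_of_nonneg_right hcs b0
    have i4 : cn s * cn s ≤ (C₁ * cn ζ) * (C₁ * cn ζ) := mul_le_mul hcs hcs s0 hCz
    have i5 : cn s * cn t ≤ (C₁ * cn ζ) * (C₁ * cn ζ) := mul_le_mul hcs hct t0 hCz
    have j1 := mul_le_mul_of_nonneg_left i1 (by linarith only [D0] : (0 : ℝ) ≤ 2 * D)
    have j4 := mul_le_mul_of_nonneg_left i4 D0
    have k : nM n K C₁ = C₁ * (2 * D + 1) + C₁ + C₁ ^ 2 * (D + 1) := by rw [nM, hD]
    rw [k]
    have l1 : 0 ≤ C₁ * cn ζ * (cn (P - X 0)) := mul_nonneg hCz a0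
    have l2 : 0 ≤ C₁ * cn ζ * cn Q := mul_nonneg hCz b0
    have l3 : 0 ≤ C₁ * cn ζ * cn ζ := mul_nonneg hCz z0
    have l4 : 0 ≤ C₁ * (C₁ * cn ζ * (cn (P - X 0))) := mul_nonneg hC₁.le l1
    have l5 : 0 ≤ C₁ * (C₁ * cn ζ * cn Q) := mul_nonneg hC₁.le l2
    have m2 := mul_nonneg D0 l2
    have m3 := mul_nonneg D0 l3
    have m4 := mul_nonneg D0 l4
    have m5 := mul_nonneg D0 l5
    have key : (C₁ * (2 * D + 1) + C₁ + C₁ ^ 2 * (D + 1)) * cn ζ * (cn (P - X 0) + cn Q + cn ζ) =
        (2 * D * (cn (P - X 0) * (C₁ * cn ζ)) + cn (P - X 0) * (C₁ * cn ζ) + C₁ * cn ζ * cn Q +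
          D * (C₁ * cn ζ * (C₁ * cn ζ)) + C₁ * cn ζ * (C₁ * cn ζ)) +
        (C₁ * cn ζ * cn (P - X 0) + 2 * (D * (C₁ * cn ζ * cn Q)) + C₁ * cn ζ * cn Q +
          2 * (D * (C₁ * cn ζ * cn ζ)) + 2 * (C₁ * cn ζ * cn ζ) +
          D * (C₁ * (C₁ * cn ζ * (cn (P - X 0)))) + C₁ * (C₁ * cn ζ * (cn (P - X 0))) +
          D * (C₁ * (C₁ * cn ζ * cn Q)) + C₁ * (C₁ * cn ζ * cn Q)) := by ring
    rw [key]
    linarith only [m5, m4, m3, m2, l5, l4, l3, l2, l1, j4, j1, i5, i3, i2]
  have hrem : remP (P - s) (Q - t) = remP P Q + (-ζ + E) := by rw [← hsub]; ring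
  constructor
  · have : trn K (remP (P - s) (Q - t)) = trn K E := by
      rw [hrem, trn_add, trn_add, trn_neg, hζ, trn_trn]
      ring
    rw [this]
    exact le_trans (cn_trn_le _ _) hEb
  · rw [hsub]
    have := cn_add_le (-ζ) E
    rw [cn_neg] at this
    linarith only [hEb, this]


theorem lapP_sub (P s : MvPolynomial (Fin d) ℝ) : lapP (P - s) = lapP P - lapP s := by
  simp only [lapP, map_sub, Finset.sum_sub_distrib]

theorem lapP_smul (c : ℝ) (P : MvPolynomial (Fin d) ℝ) : lapP (c • P) = c • lapP P := by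
  simp only [lapP, Derivation.map_smul, Finset.smul_sum]

theorem lapP_neg (P : MvPolynomial (Fin d) ℝ) : lapP (-P) = -lapP P := by
  simp only [lapP, map_neg, Finset.sum_neg_distrib]

theorem totalDegree_sub_le' {K : ℕ} {p q : MvPolynomial (Fin d) ℝ} (hp : p.totalDegree ≤ K)
    (hq : q.totalDegree ≤ K) : (p - q).totalDegree ≤ K :=
  le_trans (MvPolynomial.totalDegree_sub _ _) (max_le hp hq)

open MvPolynomial in
/-- Newton iteration from a good starting point. -/
theorem newton_limit {n K : ℕ} (hK : 1 ≤ K) {C₁ : ℝ} (hC₁ : 0 < C₁)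
    (hR : ∀ r : MvPolynomial (Fin (n + 1)) ℝ,
      r.totalDegree ≤ K - 1 → ∃ s t : MvPolynomial (Fin (n + 1)) ℝ, s.totalDegree ≤ K - 1 + 1 ∧
      t.totalDegree ≤ K - 1 ∧ lapP s = 0 ∧ s.coeff 0 = 0 ∧
      2 * MvPolynomial.pderiv 0 s - MvPolynomial.X 0 * t = r ∧ cn s ≤ C₁ * cn r ∧
      cn t ≤ C₁ * cn r) {P₀ Q₀ : MvPolynomial (Fin (n + 1)) ℝ} (hP : P₀.totalDegree ≤ K)
    (hQ : Q₀.totalDegree ≤ K) (hl : lapP P₀ = 0) (h0 : P₀.coeff 0 = 0) {z : ℝ}
    (hz : cn (trn K (remP P₀ Q₀)) ≤ z)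
    (hM : nM n K C₁ * (cn (P₀ - X 0) + cn Q₀ + (4 * C₁ + 1) * z) ≤ 1 / 2) :
    ∃ P' Q' : MvPolynomial (Fin (n + 1)) ℝ, AdmS K P' Q' ∧ cn (P' - P₀) ≤ 2 * C₁ * z ∧
      cn (Q' - Q₀) ≤ 2 * C₁ * z ∧ cn (remP P' Q' - remP P₀ Q₀) ≤ 4 * z := by
  choose! σ τ hστ using hR
  have z0 : 0 ≤ z := le_trans (cn_nonneg _) hz
  have M0 : 0 ≤ nM n K C₁ := by rw [nM]; positivity
  have hfac : ∀ (c : ℝ), 0 ≤ c → ∀ j : ℕ, c * (1 - 1 / 2 ^ j) ≤ c := by
    intro c hc j
    have : (0 : ℝ) < 1 / 2 ^ j := by positivity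
    have := mul_nonneg hc this.le
    linarith only [this]
  let F : MvPolynomial (Fin (n + 1)) ℝ × MvPolynomial (Fin (n + 1)) ℝ →
      MvPolynomial (Fin (n + 1)) ℝ × MvPolynomial (Fin (n + 1)) ℝ := fun x =>
    (x.1 - σ (trn K (remP x.1 x.2)), x.2 - τ (trn K (remP x.1 x.2)))
  let S : ℕ → MvPolynomial (Fin (n + 1)) ℝ × MvPolynomial (Fin (n + 1)) ℝ := fun j => F^[j] (P₀, Q₀)
  have hS0 : S 0 = (P₀, Q₀) := rfl
  have hS1 : ∀ j, S (j + 1) = F (S j) := fun j => Function.iterate_succ_apply' F j (P₀, Q₀)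
  have inv : ∀ j, ((S j).1.totalDegree ≤ K ∧ (S j).2.totalDegree ≤ K ∧ lapP (S j).1 = 0 ∧
      (S j).1.coeff 0 = 0) ∧ cn (trn K (remP (S j).1 (S j).2)) ≤ z / 2 ^ j ∧
      cn ((S j).1 - P₀) ≤ 2 * C₁ * z * (1 - 1 / 2 ^ j) ∧
      cn ((S j).2 - Q₀) ≤ 2 * C₁ * z * (1 - 1 / 2 ^ j) ∧
      cn (remP (S j).1 (S j).2 - remP P₀ Q₀) ≤ 4 * z * (1 - 1 / 2 ^ j) := by
    intro j
    induction j with
    | zero =>
      rw [hS0]
      refine ⟨⟨hP, hQ, hl, h0⟩, by simpa only [pow_zero, div_one] using hz, ?_, ?_, ?_⟩ <;> simp [cn_zero]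
    | succ j ih =>
      obtain ⟨⟨i1, i2, i3, i4⟩, i5, i6, i7, i8⟩ := ih
      rw [hS1]
      set P := (S j).1 with hPj
      set Q := (S j).2 with hQj
      set ζ := trn K (remP P Q) with hζ
      obtain ⟨s1, s2, s3, s4, s5, s6, s7⟩ := hστ ζ (totalDegree_trn K hK _)
      have s1' : (σ ζ).totalDegree ≤ K := by (clear * - hK s1; omega)
      have s2' : (τ ζ).totalDegree ≤ K := by omega
      have hX : (X 0 : MvPolynomial (Fin (n + 1)) ℝ).totalDegree ≤ K := by
        rw [totalDegree_X]; exact hK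
      obtain ⟨n1, n2⟩ := newton_step (K := K) hC₁ (totalDegree_sub_le' i1 hX) s1' s5 s6 s7
      change (((P - σ ζ).totalDegree ≤ K ∧ (Q - τ ζ).totalDegree ≤ K ∧ lapP (P - σ ζ) = 0 ∧
        (P - σ ζ).coeff 0 = 0) ∧ cn (trn K (remP (P - σ ζ) (Q - τ ζ))) ≤ z / 2 ^ (j + 1) ∧
        cn ((P - σ ζ) - P₀) ≤ 2 * C₁ * z * (1 - 1 / 2 ^ (j + 1)) ∧
        cn ((Q - τ ζ) - Q₀) ≤ 2 * C₁ * z * (1 - 1 / 2 ^ (j + 1)) ∧
        cn (remP (P - σ ζ) (Q - τ ζ) - remP P₀ Q₀) ≤ 4 * z * (1 - 1 / 2 ^ (j + 1)))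
      rw [← hζ] at n1 n2
      have ζ0 := cn_nonneg ζ
      have p0 : (0 : ℝ) < 2 ^ j := by positivity
      have q0 : (0 : ℝ) < 1 / 2 ^ j := by positivity
      have q1 : (1 : ℝ) / 2 ^ j ≤ 1 := by
        rw [div_le_one p0]
        exact one_le_pow₀ (by norm_num)
      have q2 : (1 : ℝ) / 2 ^ (j + 1) = (1 / 2 ^ j) / 2 := by rw [pow_succ]; field_simp
      have q3 : z / 2 ^ j = z * (1 / 2 ^ j) := by ring
      have q4 : z / 2 ^ (j + 1) = z * ((1 / 2 ^ j) / 2) := by rw [← q2]; ring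
      rw [q3] at i5
      have hz' : cn ζ ≤ z := le_trans i5 (mul_le_of_le_one_right z0 q1)
      have hCz : 0 ≤ 2 * C₁ * z := by (clear * - hC₁ z0; positivity)
      have hPX : cn (P - X 0) ≤ cn (P₀ - X 0) + 2 * C₁ * z := by
        have e : P - X 0 = (P - P₀) + (P₀ - X 0) := by ring
        have := cn_add_le (P - P₀) (P₀ - X 0)
        rw [← e] at this
        linarith only [i6, this, hfac _ hCz j]
      have hQX : cn Q ≤ cn Q₀ + 2 * C₁ * z := by
        have e : Q = (Q - Q₀) + Q₀ := by ring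
        have := cn_add_le (Q - Q₀) Q₀
        rw [← e] at this
        linarith only [i7, this, hfac _ hCz j]
      have hhalf : nM n K C₁ * (cn (P - X 0) + cn Q + cn ζ) ≤ 1 / 2 := by
        refine le_trans (mul_le_mul_of_nonneg_left ?_ M0) hM
        have key : (4 * C₁ + 1) * z = 2 * (2 * C₁ * z) + z := by ring
        rw [key]
        linarith only [hz', hPX, hQX]
      have hstep : nM n K C₁ * cn ζ * (cn (P - X 0) + cn Q + cn ζ) ≤ cn ζ * (1 / 2) := by
        have := mul_le_mul_of_nonneg_left hhalf ζ0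
        linarith only [this]
      have hCi : C₁ * cn ζ ≤ C₁ * (z * (1 / 2 ^ j)) := mul_le_mul_of_nonneg_left i5 hC₁.le
      refine ⟨⟨totalDegree_sub_le' i1 s1', totalDegree_sub_le' i2 s2', ?_, ?_⟩, ?_, ?_, ?_, ?_⟩
      · rw [lapP_sub, i3, s3, sub_zero]
      · rw [coeff_sub, i4, s4, sub_zero]
      · rw [q4]; linarith only [i5, n1, hstep]
      · have e : (P - σ ζ) - P₀ = (P - P₀) - σ ζ := by ring
        have := cn_sub_le (P - P₀) (σ ζ)
        rw [← e] at this
        rw [q2]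
        linarith only [i6, s6, hCi, this]
      · have e : (Q - τ ζ) - Q₀ = (Q - Q₀) - τ ζ := by ring
        have := cn_sub_le (Q - Q₀) (τ ζ)
        rw [← e] at this
        rw [q2]
        linarith only [i7, s7, hCi, this]
      · have e : remP (P - σ ζ) (Q - τ ζ) - remP P₀ Q₀ =
            (remP (P - σ ζ) (Q - τ ζ) - remP P Q) + (remP P Q - remP P₀ Q₀) := by ring
        have := cn_add_le (remP (P - σ ζ) (Q - τ ζ) - remP P Q) (remP P Q - remP P₀ Q₀)
        rw [← e] at this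
        rw [q2]
        linarith only [i8, i5, n2, ζ0, hstep, this]
  have dP : ∀ j, cn ((S (j + 1)).1 - (S j).1) ≤ (C₁ * z) / 2 ^ j := by
    intro j
    obtain ⟨-, i5, -⟩ := inv j
    have e : (S (j + 1)).1 - (S j).1 = -σ (trn K (remP (S j).1 (S j).2)) := by
      rw [hS1]; change ((S j).1 - _) - (S j).1 = _; ring
    rw [e, cn_neg]
    have := (hστ _ (totalDegree_trn K hK (remP (S j).1 (S j).2))).2.2.2.2.2.1
    refine le_trans this ?_
    rw [mul_div_assoc]
    exact mul_le_mul_of_nonneg_left i5 hC₁.le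
  have dQ : ∀ j, cn ((S (j + 1)).2 - (S j).2) ≤ (C₁ * z) / 2 ^ j := by
    intro j
    obtain ⟨-, i5, -⟩ := inv j
    have e : (S (j + 1)).2 - (S j).2 = -τ (trn K (remP (S j).1 (S j).2)) := by
      rw [hS1]; change ((S j).2 - _) - (S j).2 = _; ring
    rw [e, cn_neg]
    have := (hστ _ (totalDegree_trn K hK (remP (S j).1 (S j).2))).2.2.2.2.2.2
    refine le_trans this ?_
    rw [mul_div_assoc]
    exact mul_le_mul_of_nonneg_left i5 hC₁.le
  obtain ⟨P', hP'd, hP'⟩ := exists_ctend (fun j => (inv j).1.1) dP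
  obtain ⟨Q', hQ'd, hQ'⟩ := exists_ctend (fun j => (inv j).1.2.1) dQ
  refine ⟨P', Q', ⟨hP'd, hQ'd, ?_, ?_, ?_⟩, ?_, ?_, ?_⟩
  · exact hP'.lapP.eq_zero fun j => (inv j).1.2.2.1
  · have h1 := hP' 0
    simp only [fun j => (inv j).1.2.2.2] at h1
    exact (tendsto_nhds_unique tendsto_const_nhds h1).symm
  · intro m hm
    have h1 := (hP'.remP hQ') m
    have h2 : Tendsto (fun j => (remP (S j).1 (S j).2).coeff m) atTop (𝓝 0) := by
      rw [tendsto_zero_iff_abs_tendsto_zero]
      refine squeeze_zero (fun j => abs_nonneg _) (fun j => ?_)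
        (g := fun j : ℕ => z * (1 / 2) ^ j) ?_
      · have h3 := abs_coeff_le_cn (trn K (remP (S j).1 (S j).2)) m
        rw [coeff_trn, if_pos hm] at h3
        refine le_trans h3 (le_trans (inv j).2.1 (le_of_eq ?_))
        rw [one_div, inv_pow]
        rfl
      · have := (tendsto_pow_atTop_nhds_zero_of_lt_one (by norm_num : (0 : ℝ) ≤ 1 / 2)
          (by norm_num)).const_mul z
        simpa only [one_div, inv_pow, mul_zero] using this
    exact tendsto_nhds_unique h1 h2
  · exact (hP'.sub (CTend.const P₀)).cn_le fun j =>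
      le_trans (inv j).2.2.1 (hfac _ (by (clear * - hC₁ z0; positivity)) j)
  · exact (hQ'.sub (CTend.const Q₀)).cn_le fun j =>
      le_trans (inv j).2.2.2.1 (hfac _ (by (clear * - hC₁ z0; positivity)) j)
  · exact ((hP'.remP hQ').sub (CTend.const _)).cn_le fun j =>
      le_trans (inv j).2.2.2.2 (hfac _ (by (clear * - z0; positivity)) j)


theorem correction (n K : ℕ) (hK : 1 ≤ K) (B : ℝ) : ∃ C δ₀ : ℝ, 0 < C ∧ 0 < δ₀ ∧
    ∀ (P Q q : MvPolynomial (Fin (n + 1)) ℝ) (ε δ : ℝ), 0 ≤ ε → ε ≤ δ₀ → 0 ≤ δ → δ ≤ δ₀ →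
    AdmS K P Q → cn (P - MvPolynomial.X 0) ≤ δ → cn Q ≤ δ → q.totalDegree ≤ K → lapP q = 0 →
    EvenP q → q.coeff 0 = 0 → cn q ≤ B →
    ∃ P' Q' : MvPolynomial (Fin (n + 1)) ℝ, AdmS K P' Q' ∧
      cn (P' - P - ε • q) ≤ C * ε * (δ + ε) ∧ cn (Q' - Q) ≤ C * ε ∧
      cn (remP P' Q' - remP P Q) ≤ C * ε * (δ + ε) := by
  obtain ⟨C₁, hC₁, hR⟩ := right_inverse n (K - 1)
  -- constants
  obtain ⟨b, hb0, hBb⟩ : ∃ b : ℝ, 0 ≤ b ∧ B ≤ b := ⟨max B 0, le_max_right _ _, le_max_left _ _⟩
  obtain ⟨k, hk0, hk⟩ : ∃ k : ℝ, 0 ≤ k ∧ k = (K : ℝ) := ⟨K, Nat.cast_nonneg _, rfl⟩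
  obtain ⟨D, hD0, hD⟩ : ∃ D : ℝ, 0 ≤ D ∧ D = ((n + 1 : ℕ) * (K : ℝ) ^ 2) :=
    ⟨_, by positivity, rfl⟩
  obtain ⟨C₂, hC₂0, hC₂⟩ : ∃ C₂ : ℝ, 0 ≤ C₂ ∧
      C₂ = (2 * D * b + 2 * k * b + b) + (D * b ^ 2 + 2 * k * b ^ 2) :=
    ⟨_, by (clear * - hD0 hb0 hk0; positivity), rfl⟩
  obtain ⟨T, hT0, hT⟩ : ∃ T : ℝ, 0 ≤ T ∧ T = 2 + b + 2 * k * b + (4 * C₁ + 1) * (2 * C₂) :=
    ⟨_, by (clear * - hb0 hk0 hC₁ hC₂0; positivity), rfl⟩
  obtain ⟨M, hM0, hM⟩ : ∃ M : ℝ, 0 ≤ M ∧ M = nM n K C₁ :=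
    ⟨_, by rw [nM]; (clear * - hC₁ hK; positivity), rfl⟩
  have hMT : 0 ≤ M * T := mul_nonneg hM0 hT0
  have hden : 0 < 1 + 2 * (M * T) := by (clear * - hMT; linarith)
  refine ⟨2 * C₁ * C₂ + (4 * C₁ * C₂ + 2 * k * b) + 5 * C₂ + 1, 1 / (1 + 2 * (M * T)),
    by (clear * - hC₁ hC₂0 hk0 hb0; positivity), by (clear * - hM0 hT0; positivity), ?_⟩
  intro P Q q ε δ hε hε1 hδ hδ1 hPQ hPX hQ hq hql hqe hq0 hqB
  have hd1 : 1 / (1 + 2 * (M * T)) ≤ 1 := by
    rw [div_le_one hden]; linarith only [hMT]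
  have hMd : M * T * (1 / (1 + 2 * (M * T))) ≤ 1 / 2 := by
    rw [mul_one_div, div_le_div_iff₀ hden (by norm_num)]
    linarith only []
  generalize 1 / (1 + 2 * (M * T)) = d₀ at hε1 hδ1 hd1 hMd
  have hd00 : 0 ≤ d₀ := le_trans hε hε1
  obtain ⟨Qz, hQz, hQzd, hQzc⟩ := even_quotient n q hqe
  have cq0 := cn_nonneg q
  have hcq : cn q ≤ b := le_trans hqB hBb
  have hcQ : cn Qz ≤ 2 * k * b := by
    refine le_trans hQzc ?_
    have h1 : (q.totalDegree : ℝ) ≤ k := by rw [hk]; exact_mod_cast hq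
    have h2 : (0 : ℝ) ≤ q.totalDegree := Nat.cast_nonneg _
    calc 2 * (q.totalDegree : ℝ) * cn q ≤ 2 * k * cn q :=
          mul_le_mul_of_nonneg_right (by linarith only [h1]) cq0
      _ ≤ 2 * k * b := mul_le_mul_of_nonneg_left hcq (by linarith only [hk0])
  have hX : (MvPolynomial.X 0 : MvPolynomial (Fin (n + 1)) ℝ).totalDegree ≤ K := by
    rw [MvPolynomial.totalDegree_X]; exact hK
  -- the first step
  have hsd : (-(ε • q)).totalDegree ≤ K := by
    rw [MvPolynomial.totalDegree_neg]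
    exact le_trans (MvPolynomial.totalDegree_smul_le _ _) hq
  have htd : (-(ε • Qz)).totalDegree ≤ K := by
    rw [MvPolynomial.totalDegree_neg]
    exact le_trans (MvPolynomial.totalDegree_smul_le _ _) (le_trans hQzd hq)
  have hcs : cn (-(ε • q)) = ε * cn q := by rw [cn_neg, cn_smul, abs_of_nonneg hε]
  have hct : cn (-(ε • Qz)) = ε * cn Qz := by rw [cn_neg, cn_smul, abs_of_nonneg hε]
  have hlin : (2 * MvPolynomial.pderiv 0 (-(ε • q)) - MvPolynomial.X 0 * (-(ε • Qz)) :
      MvPolynomial (Fin (n + 1)) ℝ) = 0 := by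
    have h1 : (2 * MvPolynomial.pderiv 0 (-(ε • q)) : MvPolynomial (Fin (n + 1)) ℝ) =
        -(ε • (2 * MvPolynomial.pderiv 0 q)) := by
      rw [map_neg, Derivation.map_smul, mul_neg, mul_smul_comm]
    rw [h1, hQz, mul_neg, mul_smul_comm]
    ring
  have hrem0 := remP_sub P Q (-(ε • q)) (-(ε • Qz))
  rw [hlin, neg_zero, zero_add] at hrem0
  have hb1 : cn (remP (P - -(ε • q)) (Q - -(ε • Qz)) - remP P Q) ≤ C₂ * (ε * (δ + ε)) := by
    rw [hrem0]
    refine le_trans (cn_quad_le (totalDegree_sub_le' hPQ.degP hX) hsd) ?_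
    rw [hcs, hct, ← hD, hC₂]
    have a0 := cn_nonneg (P - MvPolynomial.X 0)
    have b0 := cn_nonneg Q
    have c0 := cn_nonneg Qz
    have kb : 0 ≤ 2 * k * b := by (clear * - hk0 hb0; positivity)
    have u1 : cn (P - MvPolynomial.X 0) * (ε * cn q) ≤ δ * (ε * b) :=
      mul_le_mul hPX (mul_le_mul_of_nonneg_left hcq hε) (mul_nonneg hε cq0) hδ
    have u2 : cn (P - MvPolynomial.X 0) * (ε * cn Qz) ≤ δ * (ε * (2 * k * b)) :=
      mul_le_mul hPX (mul_le_mul_of_nonneg_left hcQ hε) (mul_nonneg hε c0) hδ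
    have u3 : ε * cn q * cn Q ≤ (ε * b) * δ :=
      mul_le_mul (mul_le_mul_of_nonneg_left hcq hε) hQ b0 (mul_nonneg hε hb0)
    have u4 : ε * cn q * (ε * cn q) ≤ (ε * b) * (ε * b) :=
      mul_le_mul (mul_le_mul_of_nonneg_left hcq hε) (mul_le_mul_of_nonneg_left hcq hε)
        (mul_nonneg hε cq0) (mul_nonneg hε hb0)
    have u5 : ε * cn q * (ε * cn Qz) ≤ (ε * b) * (ε * (2 * k * b)) :=
      mul_le_mul (mul_le_mul_of_nonneg_left hcq hε) (mul_le_mul_of_nonneg_left hcQ hε)
        (mul_nonneg hε c0) (mul_nonneg hε hb0)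
    have v1 := mul_le_mul_of_nonneg_left u1 (by linarith only [hD0] : (0 : ℝ) ≤ 2 * D)
    have v4 := mul_le_mul_of_nonneg_left u4 hD0
    have w1 : 0 ≤ ε * ε * (2 * D * b + 2 * k * b + b) := by (clear * - hε hD0 hb0 hk0; positivity)
    have w2 : 0 ≤ ε * δ * (D * b ^ 2 + 2 * k * b ^ 2) := by (clear * - hε hδ hD0 hk0; positivity)
    have key : 2 * D * (δ * (ε * b)) + δ * (ε * (2 * k * b)) + ε * b * δ + D * (ε * b * (ε * b)) +
        ε * b * (ε * (2 * k * b)) + ε * ε * (2 * D * b + 2 * k * b + b) +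
        ε * δ * (D * b ^ 2 + 2 * k * b ^ 2) =
        (2 * D * b + 2 * k * b + b + (D * b ^ 2 + 2 * k * b ^ 2)) * (ε * (δ + ε)) := by ring
    linarith only [u2, u3, u5, v1, v4, w1, w2]
  have hz : cn (trn K (remP (P - -(ε • q)) (Q - -(ε • Qz)))) ≤ C₂ * (ε * (δ + ε)) := by
    have e : trn K (remP (P - -(ε • q)) (Q - -(ε • Qz))) =
        trn K (remP (P - -(ε • q)) (Q - -(ε • Qz)) - remP P Q) := by
      rw [trn_sub, trn_eq_zero hPQ.low, sub_zero]
    rw [e]
    exact le_trans (cn_trn_le _ _) hb1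
  have hP0X : cn (P - -(ε • q) - MvPolynomial.X 0) ≤ δ + ε * b := by
    have e : P - -(ε • q) - MvPolynomial.X 0 = (P - MvPolynomial.X 0) - -(ε • q) := by ring
    have := cn_sub_le (P - MvPolynomial.X 0) (-(ε • q))
    rw [← e, hcs] at this
    have := mul_le_mul_of_nonneg_left hcq hε
    (clear K hK C₁ hC₁ hR hb0 k hk0 hk D hD0 hD C₂ hC₂0 hC₂ T hT0 hT M hM0 hM hMT hden Q hδ hPQ hQ hq hql hqe hq0 d₀ hε1 hδ1 hd1 hMd hd00 Qz hQz hQzd hQzc cq0 hcQ hX hsd htd hcs hct hlin hrem0 hb1 hz e; linarith)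
  have hQ0 : cn (Q - -(ε • Qz)) ≤ δ + ε * (2 * k * b) := by
    have := cn_sub_le Q (-(ε • Qz))
    rw [hct] at this
    have := mul_le_mul_of_nonneg_left hcQ hε
    (clear hK C₁ hC₁ hR hb0 D hD0 hD C₂ hC₂0 hC₂ T hT0 hT M hM0 hM hMT hden P hδ hPQ hPX hql hqe hq0 d₀ hε1 hδ1 hd1 hMd hd00 hQz hQzd hX hsd htd hcs hct hlin hrem0 hb1 hz hP0X; linarith)
  have hde : δ + ε ≤ 2 := by linarith only [hε1, hδ1, hd1]
  have hz0 : 0 ≤ C₂ * (ε * (δ + ε)) := by (clear * - hC₂0 hε hδ; positivity)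
  have hz1 : C₂ * (ε * (δ + ε)) ≤ d₀ * (2 * C₂) := by
    have h1 : ε * (δ + ε) ≤ d₀ * 2 := mul_le_mul hε1 hde (by (clear * - hδ hε; positivity)) hd00
    have := mul_le_mul_of_nonneg_left h1 hC₂0
    linarith only [this]
  have hMcond : nM n K C₁ * (cn (P - -(ε • q) - MvPolynomial.X 0) + cn (Q - -(ε • Qz)) +
      (4 * C₁ + 1) * (C₂ * (ε * (δ + ε)))) ≤ 1 / 2 := by
    rw [← hM]
    have h1 : cn (P - -(ε • q) - MvPolynomial.X 0) + cn (Q - -(ε • Qz)) +
        (4 * C₁ + 1) * (C₂ * (ε * (δ + ε))) ≤ T * d₀ := by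
      have h2 := mul_le_mul_of_nonneg_left hz1 (by positivity : (0 : ℝ) ≤ 4 * C₁ + 1)
      have h3 := mul_le_mul_of_nonneg_right hε1 hb0
      have h4 := mul_le_mul_of_nonneg_right hε1 (by (clear * - hk0 hb0; positivity) : (0 : ℝ) ≤ 2 * k * b)
      have key : T * d₀ = 2 * d₀ + d₀ * b + d₀ * (2 * k * b) + (4 * C₁ + 1) * (d₀ * (2 * C₂)) := by
        rw [hT]; ring
      rw [key]
      linarith only [hδ1, hP0X, hQ0, h2, h3, h4]
    calc _ ≤ M * (T * d₀) := mul_le_mul_of_nonneg_left h1 hM0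
      _ = M * T * d₀ := by ring
      _ ≤ 1 / 2 := hMd
  have hl0 : lapP (P - -(ε • q)) = 0 := by
    rw [lapP_sub, lapP_neg, lapP_smul, hPQ.harm, hql]; simp
  have hc0 : (P - -(ε • q)).coeff 0 = 0 := by
    rw [MvPolynomial.coeff_sub, MvPolynomial.coeff_neg, MvPolynomial.coeff_smul, hPQ.zero, hq0]
    simp
  obtain ⟨P', Q', hA, h1, h2, h3⟩ := newton_limit hK hC₁ hR (totalDegree_sub_le' hPQ.degP hsd)
    (totalDegree_sub_le' hPQ.degQ htd) hl0 hc0 hz hMcond
  have r1 : 0 ≤ ε * (δ + ε) := by (clear * - hε hδ; positivity)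
  have r2 : 0 ≤ C₁ * C₂ := mul_nonneg hC₁.le hC₂0
  have r3 : 0 ≤ C₁ * C₂ * (ε * (δ + ε)) := mul_nonneg r2 r1
  have r4 : 0 ≤ k * b := mul_nonneg hk0 hb0
  have r5 : 0 ≤ k * b * (ε * (δ + ε)) := mul_nonneg r4 r1
  have r6 : 0 ≤ C₂ * (ε * (δ + ε)) := mul_nonneg hC₂0 r1
  refine ⟨P', Q', hA, ?_, ?_, ?_⟩
  · have e : P' - P - ε • q = P' - (P - -(ε • q)) := by ring
    rw [e]
    refine le_trans h1 ?_
    have key : (2 * C₁ * C₂ + (4 * C₁ * C₂ + 2 * k * b) + 5 * C₂ + 1) * ε * (δ + ε) =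
        6 * (C₁ * C₂ * (ε * (δ + ε))) + 2 * (k * b * (ε * (δ + ε))) +
          5 * (C₂ * (ε * (δ + ε))) + ε * (δ + ε) := by ring
    have key2 : 2 * C₁ * (C₂ * (ε * (δ + ε))) = 2 * (C₁ * C₂ * (ε * (δ + ε))) := by ring
    rw [key, key2]
    linarith only [hz0, r1, r3, r5]
  · have e : Q' - Q = (Q' - (Q - -(ε • Qz))) - -(ε • Qz) := by ring
    rw [e]
    refine le_trans (cn_sub_le _ _) ?_
    rw [hct]
    have g1 := mul_le_mul_of_nonneg_left hcQ hε
    have g2 : C₁ * C₂ * (ε * (δ + ε)) ≤ C₁ * C₂ * (ε * 2) :=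
      mul_le_mul_of_nonneg_left (mul_le_mul_of_nonneg_left hde hε) r2
    have key : (2 * C₁ * C₂ + (4 * C₁ * C₂ + 2 * k * b) + 5 * C₂ + 1) * ε =
        3 * (C₁ * C₂ * (ε * 2)) + ε * (2 * k * b) + 5 * (C₂ * ε) + ε := by ring
    have key2 : 2 * C₁ * (C₂ * (ε * (δ + ε))) = 2 * (C₁ * C₂ * (ε * (δ + ε))) := by ring
    have g3 : 0 ≤ C₂ * ε := mul_nonneg hC₂0 hε
    have g4 : 0 ≤ C₁ * C₂ * (ε * 2) := by (clear * - hC₁ hC₂0 hε; positivity)
    rw [key]
    rw [key2] at h2
    linarith only [hε, h2, r3, g1, g2, g3]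
  · have e : remP P' Q' - remP P Q = (remP P' Q' - remP (P - -(ε • q)) (Q - -(ε • Qz))) +
        (remP (P - -(ε • q)) (Q - -(ε • Qz)) - remP P Q) := by ring
    rw [e]
    refine le_trans (cn_add_le _ _) ?_
    have key : (2 * C₁ * C₂ + (4 * C₁ * C₂ + 2 * k * b) + 5 * C₂ + 1) * ε * (δ + ε) =
        6 * (C₁ * C₂ * (ε * (δ + ε))) + 2 * (k * b * (ε * (δ + ε))) +
          5 * (C₂ * (ε * (δ + ε))) + ε * (δ + ε) := by ring
    rw [key]
    linarith only [hb1, h3, r1, r3, r5]

end Vale.Agent.P098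
end

section

open MeasureTheory Set Metric Filter
open scoped ContDiff RealInnerProductSpace Topology

namespace Vale.Agent.P098

variable {d m : ℕ}

/-! ### Module M2: frame data -/

theorem m2_inner_eq (a b : E d) : ⟪a, b⟫ = ∑ i, a i * b i := by
  rw [PiLp.inner_apply]
  refine Finset.sum_congr rfl fun i _ => ?_
  simp [mul_comm]

/-- An orthogonal matrix whose first row is `x/|x|` and whose rows are eigenvectors of `M`. -/
theorem m2_exists_orth (M : Matrix (Fin (m + 1)) (Fin (m + 1)) ℝ) (hM : ∀ i j, M i j = M j i)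
    (x : E (m + 1)) (hx : x ≠ 0) (hMx : ∀ i, ∑ j, M i j * x j = 0) :
    ∃ (O : Matrix (Fin (m + 1)) (Fin (m + 1)) ℝ) (μ : Fin (m + 1) → ℝ),
      O * O.transpose = 1 ∧ μ 0 = 0 ∧ (∀ i, O 0 i = x i / ‖x‖) ∧
      (∀ a i, ∑ j, M i j * O a j = μ a * O a i) := by
  classical
  have hnx : ‖x‖ ≠ 0 := norm_ne_zero_iff.2 hx
  have hH : M.IsHermitian := by
    ext i j
    simp [Matrix.conjTranspose_apply, hM i j]
  set L : E (m + 1) →ₗ[ℝ] E (m + 1) := Matrix.toEuclideanLin M with hL
  have hLs : L.IsSymmetric := Matrix.isSymmetric_toEuclideanLin_iff.mpr hH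
  have hLx : L x = 0 := by
    ext i
    simp only [hL, Matrix.toLpLin_apply, PiLp.zero_apply]
    exact hMx i
  set V : Submodule ℝ (E (m + 1)) := (Submodule.span ℝ {x})ᗮ with hV
  have hVm : ∀ v, v ∈ V ↔ ⟪x, v⟫ = 0 := fun v =>
    Submodule.mem_orthogonal_singleton_iff_inner_right
  have hVinv : ∀ v ∈ V, L v ∈ V := by
    intro v hv
    rw [hVm] at hv ⊢
    rw [← hLs x v, hLx, inner_zero_left]
  have hLV := hLs.restrict_invariant hVinv
  have : Fact (Module.finrank ℝ (E (m + 1)) = m + 1) := ⟨by simp only [finrank_euclideanSpace, Fintype.card_fin, Nat.add_left_cancel_iff]⟩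
  have hfin : Module.finrank ℝ V = m := Submodule.finrank_orthogonal_span_singleton hx
  let e : OrthonormalBasis (Fin m) ℝ V := hLV.eigenvectorBasis hfin
  let b : Fin (m + 1) → E (m + 1) := Fin.cons ((1 / ‖x‖) • x) (fun k => (e k : E (m + 1)))
  let μ : Fin (m + 1) → ℝ := Fin.cons 0 (fun k => hLV.eigenvalues hfin k)
  have hb0 : b 0 = (1 / ‖x‖) • x := rfl
  have hbs : ∀ k : Fin m, b k.succ = (e k : E (m + 1)) := fun k => rfl
  have hxe : ∀ k : Fin m, ⟪x, (e k : E (m + 1))⟫ = 0 := fun k => (hVm _).1 (e k).2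
  have heig : ∀ a, L (b a) = μ a • b a := by
    intro a
    refine Fin.cases ?_ (fun k => ?_) a
    · rw [hb0, map_smul, hLx]; simp only [one_div, smul_zero, Fin.cons_zero, zero_smul, μ]
    · rw [hbs]
      have h1 := hLV.apply_eigenvectorBasis hfin k
      have h2 := congrArg (Subtype.val) h1
      simp only [LinearMap.coe_restrict_apply] at h2
      simpa [μ] using h2
  have horth : ∀ a c, ⟪b a, b c⟫ = if a = c then (1 : ℝ) else 0 := by
    intro a c
    refine Fin.cases ?_ (fun k => ?_) a <;> refine Fin.cases ?_ (fun l => ?_) c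
    · rw [hb0, inner_smul_left, inner_smul_right, real_inner_self_eq_norm_sq]
      simp only [one_div, map_inv₀, Real.ringHom_apply, ↓reduceIte]
      field_simp
    · rw [hb0, hbs, inner_smul_left, hxe, if_neg (Fin.succ_ne_zero l).symm]
      simp
    · rw [hb0, hbs, inner_smul_right, real_inner_comm, hxe, if_neg (Fin.succ_ne_zero k)]
      simp
    · rw [hbs, hbs]
      have h := orthonormal_iff_ite.1 e.orthonormal k l
      rw [Submodule.coe_inner] at h
      rw [h]
      simp [Fin.succ_inj]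
  refine ⟨Matrix.of fun a i => b a i, μ, ?_, rfl, ?_, ?_⟩
  · ext a c
    rw [Matrix.mul_apply, Matrix.one_apply, ← horth a c, m2_inner_eq]
    rfl
  · intro i
    change b 0 i = _
    rw [hb0]
    simp only [div_eq_inv_mul, mul_one, PiLp.smul_apply, smul_eq_mul]
  · intro a i
    have h := congrArg (fun v : E (m + 1) => v i) (heig a)
    simp only [hL, Matrix.toLpLin_apply] at h
    exact h

section rot

variable {n : ℕ} {O M : Matrix (Fin n) (Fin n) ℝ} {μ : Fin n → ℝ}

/-- The rotated vector. -/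
noncomputable def m2R (O : Matrix (Fin n) (Fin n) ℝ) (A : Fin n → ℝ) (a : Fin n) : ℝ :=
  ∑ i, O a i * A i

/-- The slice of a 3-tensor, rotated. -/
noncomputable def m2S (O : Matrix (Fin n) (Fin n) ℝ) (T : Fin n → Fin n → Fin n → ℝ) (k : Fin n) :
    Matrix (Fin n) (Fin n) ℝ := O * Matrix.of (fun i l => T i l k) * O.transpose

/-- The rotated 3-tensor. -/
noncomputable def m2T (O : Matrix (Fin n) (Fin n) ℝ) (T : Fin n → Fin n → Fin n → ℝ)
    (a b c : Fin n) : ℝ := ∑ k, O c k * m2S O T k a b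

theorem m2_dot (hO : O.transpose * O = 1) (A B : Fin n → ℝ) :
    ∑ k, A k * B k = ∑ a, m2R O A a * m2R O B a := by
  have h : ∀ i j, ∑ a, O a i * O a j = if i = j then (1 : ℝ) else 0 := by
    intro i j
    have := congrFun (congrFun hO i) j
    rwa [Matrix.mul_apply, Matrix.one_apply] at this
  calc ∑ k, A k * B k = ∑ i, ∑ j, (if i = j then (1 : ℝ) else 0) * (A i * B j) := by simp only [ite_mul, one_mul, zero_mul, Finset.sum_ite_eq, Finset.mem_univ, ↓reduceIte]
    _ = ∑ i, ∑ j, ∑ a, (O a i * A i) * (O a j * B j) := by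
        refine Finset.sum_congr rfl fun i _ => Finset.sum_congr rfl fun j _ => ?_
        rw [← h, Finset.sum_mul]
        exact Finset.sum_congr rfl fun a _ => by ring
    _ = ∑ i, ∑ a, ∑ j, (O a i * A i) * (O a j * B j) :=
        Finset.sum_congr rfl fun i _ => Finset.sum_comm
    _ = ∑ a, ∑ i, ∑ j, (O a i * A i) * (O a j * B j) := Finset.sum_comm
    _ = ∑ a, m2R O A a * m2R O B a := by
        refine Finset.sum_congr rfl fun a _ => ?_
        rw [m2R, m2R, Finset.sum_mul_sum]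

theorem m2_M (hO : O.transpose * O = 1) (heig : ∀ a i, ∑ j, M i j * O a j = μ a * O a i) :
    M = O.transpose * Matrix.diagonal μ * O := by
  have h : M * O.transpose = O.transpose * Matrix.diagonal μ := by
    ext i a
    rw [Matrix.mul_apply, Matrix.mul_diagonal]
    simp only [Matrix.transpose_apply]
    rw [heig a i, mul_comm]
  rw [← h, Matrix.mul_assoc, hO, Matrix.mul_one]

theorem m2_pow (hO : O.transpose * O = 1) (hO' : O * O.transpose = 1)
    (heig : ∀ a i, ∑ j, M i j * O a j = μ a * O a i) (q : ℕ) :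
    M ^ q = O.transpose * Matrix.diagonal (fun a => μ a ^ q) * O := by
  induction q with
  | zero =>
    simp [hO]
  | succ q ih =>
    rw [pow_succ, ih, m2_M hO heig]
    calc O.transpose * Matrix.diagonal (fun a => μ a ^ q) * O
          * (O.transpose * Matrix.diagonal μ * O)
        = O.transpose * Matrix.diagonal (fun a => μ a ^ q) * (O * O.transpose)
          * Matrix.diagonal μ * O := by simp only [Matrix.mul_assoc]
      _ = O.transpose * (Matrix.diagonal (fun a => μ a ^ q) * Matrix.diagonal μ) * O := by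
          rw [hO']; simp only [Matrix.mul_assoc, Matrix.one_mul]
      _ = _ := by
          rw [Matrix.diagonal_mul_diagonal]
          simp only [pow_succ]

theorem m2_tr (hO : O.transpose * O = 1) (hO' : O * O.transpose = 1)
    (heig : ∀ a i, ∑ j, M i j * O a j = μ a * O a i) (q : ℕ) :
    Matrix.trace (M ^ q) = ∑ a, μ a ^ q := by
  rw [m2_pow hO hO' heig, Matrix.mul_assoc, Matrix.trace_mul_comm, Matrix.mul_assoc, hO',
    Matrix.mul_one, Matrix.trace_diagonal]

theorem m2_G (hO : O.transpose * O = 1) (hO' : O * O.transpose = 1)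
    (heig : ∀ a i, ∑ j, M i j * O a j = μ a * O a i)
    (T : Fin n → Fin n → Fin n → ℝ) (q : ℕ) (c : Fin n) :
    m2R O (fun k => ∑ i, ∑ l, (M ^ q) i l * T i l k) c = ∑ a, μ a ^ q * m2T O T a a c := by
  have h : ∀ k, ∑ i, ∑ l, (M ^ q) i l * T i l k = ∑ a, μ a ^ q * m2S O T k a a := by
    intro k
    have h1 : ∑ i, ∑ l, (M ^ q) i l * T i l k
        = Matrix.trace (M ^ q * (Matrix.of (fun i l => T i l k)).transpose) := by
      simp only [Matrix.trace, Matrix.diag_apply, Matrix.mul_apply, Matrix.transpose_apply,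
        Matrix.of_apply]
    rw [h1, m2_pow hO hO' heig, Matrix.mul_assoc, Matrix.mul_assoc, Matrix.trace_mul_comm]
    have h2 : Matrix.diagonal (fun a => μ a ^ q)
        * (O * (Matrix.of (fun i l => T i l k)).transpose) * O.transpose
        = Matrix.diagonal (fun a => μ a ^ q) * (m2S O T k).transpose := by
      rw [m2S, Matrix.transpose_mul, Matrix.transpose_mul, Matrix.transpose_transpose]
      simp only [Matrix.mul_assoc]
    rw [h2, Matrix.trace]
    refine Finset.sum_congr rfl fun a _ => ?_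
    rw [Matrix.diag_apply, Matrix.diagonal_mul, Matrix.transpose_apply]
  unfold m2R m2T
  simp only [h, Finset.mul_sum]
  rw [Finset.sum_comm]
  exact Finset.sum_congr rfl fun a _ => Finset.sum_congr rfl fun k _ => by ring

theorem m2_Q (hO : O.transpose * O = 1) (hO' : O * O.transpose = 1)
    (heig : ∀ a i, ∑ j, M i j * O a j = μ a * O a i)
    (p : Fin n → ℝ) (q : ℕ) (c : Fin n) :
    m2R O (fun k => ∑ i, (M ^ q) k i * p i) c = μ c ^ q * m2R O p c := by
  have h1 : m2R O (fun k => ∑ i, (M ^ q) k i * p i) c = (O * M ^ q).mulVec p c := by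
    rw [← Matrix.mulVec_mulVec]
    rfl
  rw [h1, m2_pow hO hO' heig, Matrix.mul_assoc, ← Matrix.mul_assoc, hO', Matrix.one_mul,
    ← Matrix.mulVec_mulVec, Matrix.mulVec_diagonal]
  rfl

theorem m2_T_comm12 {T : Fin n → Fin n → Fin n → ℝ} (h12 : ∀ i j k, T i j k = T j i k)
    (a b c : Fin n) : m2T O T a b c = m2T O T b a c := by
  unfold m2T
  refine Finset.sum_congr rfl fun k _ => ?_
  congr 1
  have : (m2S O T k).transpose = m2S O T k := by
    rw [m2S, Matrix.transpose_mul, Matrix.transpose_mul, Matrix.transpose_transpose]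
    have h : (Matrix.of (fun i l => T i l k)).transpose = Matrix.of (fun i l => T i l k) := by
      ext i l
      simp [h12 l i k]
    rw [h, Matrix.mul_assoc]
  rw [← this, Matrix.transpose_apply, this]

theorem m2_S_apply (T : Fin n → Fin n → Fin n → ℝ) (k a b : Fin n) :
    m2S O T k a b = ∑ i, ∑ l, O a i * O b l * T i l k := by
  rw [m2S, Matrix.mul_apply]
  simp only [Matrix.mul_apply, Matrix.transpose_apply, Matrix.of_apply, Finset.sum_mul]
  rw [Finset.sum_comm]
  exact Finset.sum_congr rfl fun i _ => Finset.sum_congr rfl fun l _ => by ring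

theorem m2_T_comm23 {T : Fin n → Fin n → Fin n → ℝ} (h23 : ∀ i j k, T i j k = T i k j)
    (a b c : Fin n) : m2T O T a b c = m2T O T a c b := by
  unfold m2T
  simp only [m2_S_apply, Finset.mul_sum]
  rw [Finset.sum_comm]
  rw [Finset.sum_comm (f := fun k i => ∑ l, O b k * (O a i * O c l * T i l k))]
  refine Finset.sum_congr rfl fun i _ => ?_
  rw [Finset.sum_comm]
  refine Finset.sum_congr rfl fun k _ => Finset.sum_congr rfl fun l _ => ?_
  rw [h23 i k l]
  ring

theorem m2_D (hO : O.transpose * O = 1) (hO' : O * O.transpose = 1)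
    (heig : ∀ a i, ∑ j, M i j * O a j = μ a * O a i)
    {T : Fin n → Fin n → Fin n → ℝ} (h12 : ∀ i j k, T i j k = T j i k) (p q : ℕ) :
    ∑ k, ∑ i, ∑ l, ∑ r, ∑ s, (M ^ p) i l * T l r k * (M ^ q) r s * T s i k
      = ∑ a, ∑ b, ∑ c, μ a ^ p * μ b ^ q * m2T O T a b c ^ 2 := by
  have h : ∀ k, ∑ i, ∑ l, ∑ r, ∑ s, (M ^ p) i l * T l r k * (M ^ q) r s * T s i k
      = ∑ a, ∑ b, μ a ^ p * μ b ^ q * (m2S O T k a b * m2S O T k b a) := by
    intro k
    set K : Matrix (Fin n) (Fin n) ℝ := Matrix.of (fun i l => T i l k) with hK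
    have h1 : ∑ i, ∑ l, ∑ r, ∑ s, (M ^ p) i l * T l r k * (M ^ q) r s * T s i k
        = Matrix.trace (M ^ p * (K * (M ^ q * K))) := by
      simp only [mul_assoc, Matrix.trace, hK, Matrix.diag_apply, Matrix.mul_apply, Matrix.of_apply, Finset.mul_sum]
    rw [h1, m2_pow hO hO' heig, m2_pow hO hO' heig]
    have h2 : O.transpose * Matrix.diagonal (fun a => μ a ^ p) * O * (K * (O.transpose *
        Matrix.diagonal (fun a => μ a ^ q) * O * K))
        = O.transpose * (Matrix.diagonal (fun a => μ a ^ p) * (O * K * O.transpose)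
          * Matrix.diagonal (fun a => μ a ^ q) * O * K) := by
      simp only [Matrix.mul_assoc]
    have h3 : Matrix.diagonal (fun a => μ a ^ p) * (O * K * O.transpose)
          * Matrix.diagonal (fun a => μ a ^ q) * O * K * O.transpose
        = (Matrix.diagonal (fun a => μ a ^ p) * m2S O T k)
          * (Matrix.diagonal (fun a => μ a ^ q) * m2S O T k) := by
      rw [m2S, ← hK]
      simp only [Matrix.mul_assoc]
    rw [h2, Matrix.trace_mul_comm, h3, Matrix.trace]
    refine Finset.sum_congr rfl fun a _ => ?_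
    rw [Matrix.diag_apply, Matrix.mul_apply]
    refine Finset.sum_congr rfl fun b _ => ?_
    rw [Matrix.diagonal_mul, Matrix.diagonal_mul]
    ring
  simp only [h]
  rw [Finset.sum_comm]
  refine Finset.sum_congr rfl fun a _ => ?_
  rw [Finset.sum_comm]
  refine Finset.sum_congr rfl fun b _ => ?_
  rw [← Finset.mul_sum, ← Finset.mul_sum]
  congr 1
  rw [m2_dot hO]
  refine Finset.sum_congr rfl fun c _ => ?_
  have e1 : m2R O (fun k => m2S O T k a b) c = m2T O T a b c := rfl
  have e2 : m2R O (fun k => m2S O T k b a) c = m2T O T b a c := rfl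
  rw [e1, e2, m2_T_comm12 h12 b a c]
  ring

theorem m2_DT (hO : O.transpose * O = 1) (hO' : O * O.transpose = 1)
    (heig : ∀ a i, ∑ j, M i j * O a j = μ a * O a i)
    {T : Fin n → Fin n → Fin n → ℝ} (p q e : ℕ) :
    ∑ k, ∑ l, ∑ i, ∑ r, ∑ s, ∑ t, (M ^ e) k l * ((M ^ p) i s * T s t k * (M ^ q) t r) * T i r l
      = ∑ a, ∑ b, ∑ c, μ a ^ p * μ b ^ q * μ c ^ e * m2T O T a b c ^ 2 := by
  have h : ∀ k l, ∑ i, ∑ r, ∑ s, ∑ t,
      (M ^ e) k l * ((M ^ p) i s * T s t k * (M ^ q) t r) * T i r l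
      = ∑ a, ∑ b, μ a ^ p * μ b ^ q * (m2S O T k a b * ((M ^ e) k l * m2S O T l a b)) := by
    intro k l
    set K : Fin n → Matrix (Fin n) (Fin n) ℝ := fun k => Matrix.of (fun i l => T i l k) with hK
    have h1 : ∑ i, ∑ r, ∑ s, ∑ t,
        (M ^ e) k l * ((M ^ p) i s * T s t k * (M ^ q) t r) * T i r l
        = (M ^ e) k l * Matrix.trace (M ^ p * (K k * M ^ q) * (K l).transpose) := by
      simp only [Matrix.trace, hK, Matrix.diag_apply, Matrix.mul_apply, Matrix.of_apply, Finset.mul_sum, Matrix.transpose_apply, Finset.sum_mul]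
      refine Finset.sum_congr rfl fun i _ => Finset.sum_congr rfl fun r _ =>
        Finset.sum_congr rfl fun s _ => Finset.sum_congr rfl fun t _ => ?_
      ring
    have h2 : M ^ p * (K k * M ^ q) * (K l).transpose
        = O.transpose * (Matrix.diagonal (fun a => μ a ^ p) * (O * K k * O.transpose)
          * Matrix.diagonal (fun a => μ a ^ q) * O * (K l).transpose) := by
      rw [m2_pow hO hO' heig, m2_pow hO hO' heig]
      simp only [Matrix.mul_assoc]
    have h3 : Matrix.diagonal (fun a => μ a ^ p) * (O * K k * O.transpose)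
          * Matrix.diagonal (fun a => μ a ^ q) * O * (K l).transpose * O.transpose
        = (Matrix.diagonal (fun a => μ a ^ p) * m2S O T k)
          * (Matrix.diagonal (fun a => μ a ^ q) * (m2S O T l).transpose) := by
      have h4 : (m2S O T l).transpose = O * ((K l).transpose * O.transpose) := by
        rw [m2S, Matrix.transpose_mul, Matrix.transpose_mul, Matrix.transpose_transpose]
      rw [h4, m2S]
      simp only [Matrix.mul_assoc, hK]
    rw [h1, h2, Matrix.trace_mul_comm, h3, Matrix.trace, Finset.mul_sum]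
    refine Finset.sum_congr rfl fun a _ => ?_
    rw [Matrix.diag_apply, Matrix.mul_apply, Finset.mul_sum]
    refine Finset.sum_congr rfl fun b _ => ?_
    rw [Matrix.diagonal_mul, Matrix.diagonal_mul, Matrix.transpose_apply]
    ring
  simp only [h]
  have h5 : ∀ a b, ∑ k, ∑ l, m2S O T k a b * ((M ^ e) k l * m2S O T l a b)
      = ∑ c, μ c ^ e * m2T O T a b c ^ 2 := by
    intro a b
    simp only [← Finset.mul_sum]
    rw [m2_dot hO]
    refine Finset.sum_congr rfl fun c _ => ?_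
    rw [m2_Q hO hO' heig (fun l => m2S O T l a b) e c]
    have e1 : m2R O (fun k => m2S O T k a b) c = m2T O T a b c := rfl
    rw [e1]
    ring
  calc ∑ k, ∑ l, ∑ a, ∑ b, μ a ^ p * μ b ^ q * (m2S O T k a b * ((M ^ e) k l * m2S O T l a b))
      = ∑ a, ∑ b, ∑ k, ∑ l, μ a ^ p * μ b ^ q * (m2S O T k a b * ((M ^ e) k l * m2S O T l a b)) := by
        have s1 : ∀ k, ∑ l, ∑ a, ∑ b,
            μ a ^ p * μ b ^ q * (m2S O T k a b * ((M ^ e) k l * m2S O T l a b))
            = ∑ a, ∑ b, ∑ l,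
            μ a ^ p * μ b ^ q * (m2S O T k a b * ((M ^ e) k l * m2S O T l a b)) := by
          intro k
          rw [Finset.sum_comm]
          refine Finset.sum_congr rfl fun a _ => ?_
          rw [Finset.sum_comm]
        simp only [s1]
        rw [Finset.sum_comm]
        refine Finset.sum_congr rfl fun a _ => ?_
        rw [Finset.sum_comm]
    _ = _ := by
        refine Finset.sum_congr rfl fun a _ => Finset.sum_congr rfl fun b _ => ?_
        simp only [← Finset.mul_sum]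
        simp only [← Finset.mul_sum] at h5
        rw [h5 a b, Finset.mul_sum]
        exact Finset.sum_congr rfl fun c _ => by ring

end rot

theorem m2_hh_zero_left {j : ℕ} (hj : 1 ≤ j) (b : ℝ) : hh j 0 b = b ^ (j - 1) := by
  unfold hh
  rw [Finset.sum_eq_single 0]
  · simp only [pow_zero, tsub_zero, one_mul]
  · intro i _ hi
    rw [zero_pow hi, zero_mul]
  · intro h
    exact absurd (Finset.mem_range.2 (by omega)) h

theorem m2_hh_zero_right {j : ℕ} (hj : 1 ≤ j) (a : ℝ) : hh j a 0 = a ^ (j - 1) := by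
  unfold hh
  rw [Finset.sum_eq_single (j - 1)]
  · simp only [tsub_self, pow_zero, mul_one]
  · intro i hi hne
    have : j - 1 - i ≠ 0 := by
      have := Finset.mem_range.1 hi
      omega
    rw [zero_pow this, mul_zero]
  · intro h
    exact absurd (Finset.mem_range.2 (by omega)) h

theorem m2_hh_self {j : ℕ} (a : ℝ) : hh j a a = j * a ^ (j - 1) := by
  unfold hh
  rw [Finset.sum_congr rfl (g := fun _ => a ^ (j - 1))]
  · simp only [Finset.sum_const, Finset.card_range, nsmul_eq_mul]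
  · intro i hi
    have := Finset.mem_range.1 hi
    rw [← pow_add]
    congr 1
    omega

theorem m2_hh_smul {j : ℕ} (c a b : ℝ) : hh j (c * a) (c * b) = c ^ (j - 1) * hh j a b := by
  unfold hh
  rw [Finset.mul_sum]
  refine Finset.sum_congr rfl fun i hi => ?_
  have := Finset.mem_range.1 hi
  have h : j - 1 = i + (j - 1 - i) := by omega
  rw [mul_pow, mul_pow]
  nth_rw 3 [h]
  rw [pow_add]
  ring

theorem exists_frame {u U : E (m + 1) → ℝ}
    (hhom : ∀ r : ℝ, 0 < r → ∀ x, u (r • x) = r * u x) (hc : Continuous u)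
    {N : Set (E (m + 1))} (hU : LocalExt u N U)
    (hlap : ∀ x ∈ N, 0 < u x → lap U x = 0) {x : E (m + 1)} (hx : x ∈ N) (hux : 0 < u x)
    {δ : ℝ} (hδ : 0 < δ) :
    ∃ (lam ξ : Fin m → ℝ) (T : Fin m → Fin m → Fin m → ℝ), FrameData δ U x lam ξ T := by
  classical
  have hx0 : x ≠ 0 := by
    rintro rfl
    have h1 := hhom 2 (by norm_num) 0
    rw [smul_zero] at h1
    linarith only [hux, h1]
  set r : ℝ := ‖x‖ with hr
  have hr0 : r ≠ 0 := norm_ne_zero_iff.2 hx0
  have hopen : IsOpen ({y | 0 < u y} ∩ N) := (isOpen_lt continuous_const hc).inter hU.isOpen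
  have hxO : x ∈ {y | 0 < u y} ∩ N := ⟨hux, hx⟩
  have hsm : ContDiffOn ℝ ∞ U ({y | 0 < u y} ∩ N) := hU.smooth.mono inter_subset_right
  have hMsym : ∀ i j, MM U x i j = MM U x j i := fun i j => P2_symm hU.isOpen hU.smooth hx i j
  have hMx : ∀ i, ∑ j, MM U x i j * x j = 0 := fun i => euler2 hhom hU hc hx hux i
  obtain ⟨O, μ, hO', hμ0, hO0, heig⟩ := m2_exists_orth (MM U x) hMsym x hx0 hMx
  have hO : O.transpose * O = 1 := mul_eq_one_comm.1 hO'
  set p : Fin (m + 1) → ℝ := fun i => P1 U i x with hp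
  set T : Fin (m + 1) → Fin (m + 1) → Fin (m + 1) → ℝ := fun i j k => P3 U i j k x with hT
  have h12 : ∀ i j k, T i j k = T j i k := fun i j k => P3_symm12 hU.isOpen hU.smooth hx i j k
  have h23 : ∀ i j k, T i j k = T i k j := fun i j k => P3_symm23 hU.isOpen hU.smooth hx i j k
  have hTtr : ∀ k, ∑ i, T i i k = 0 := fun k =>
    P3_trace hopen hsm (fun y hy => hlap y hy.2 hy.1) hxO k
  have horth : ∀ a b, ∑ i, O a i * O b i = if a = b then (1 : ℝ) else 0 := by
    intro a b
    have := congrFun (congrFun hO' a) b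
    rwa [Matrix.mul_apply, Matrix.one_apply] at this
  -- `S = |M|² + δ > 0`
  have hSS : SS δ U x = (∑ a, μ a ^ 2) + δ := by
    rw [SS, ← m2_tr hO hO' heig 2]
    congr 1
    rw [Matrix.trace]
    refine Finset.sum_congr rfl fun i _ => ?_
    rw [Matrix.diag_apply, pow_two, Matrix.mul_apply]
    refine Finset.sum_congr rfl fun j _ => ?_
    rw [hMsym j i, ← pow_two]
    rfl
  have hSSpos : 0 < SS δ U x := by
    rw [hSS]
    have : 0 ≤ ∑ a, μ a ^ 2 := Finset.sum_nonneg fun a _ => sq_nonneg _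
    linarith only [hδ, this]
  set F : ℝ := FF δ U x with hF
  have hFpos : 0 < F := Real.sqrt_pos.2 hSSpos
  have hF0 : F ≠ 0 := hFpos.ne'
  have hF2 : SS δ U x = F ^ 2 := (Real.sq_sqrt hSSpos.le).symm
  -- components along `x`
  have hp0 : m2R O p 0 = U x / r := by
    unfold m2R
    simp only [hO0]
    rw [← euler1 hhom hU hc hx hux, Finset.sum_div]
    exact Finset.sum_congr rfl fun i _ => by ring
  have hT0 : ∀ a b, m2T O T a b 0 = -(1 / r) * (if a = b then μ b else 0) := by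
    intro a b
    have e1 : m2T O T a b 0 = (1 / r) * ∑ i, ∑ l, O a i * O b l * ∑ k, T i l k * x k := by
      unfold m2T
      simp only [m2_S_apply, hO0, Finset.mul_sum]
      rw [Finset.sum_comm]
      refine Finset.sum_congr rfl fun i _ => ?_
      rw [Finset.sum_comm]
      refine Finset.sum_congr rfl fun l _ => Finset.sum_congr rfl fun k _ => ?_
      ring
    have e2 : ∀ i, ∑ l, O a i * O b l * ∑ k, T i l k * x k = -(μ b) * (O a i * O b i) := by
      intro i
      have e3 : ∀ l, O a i * O b l * ∑ k, T i l k * x k = -(O a i) * (MM U x i l * O b l) := by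
        intro l
        have e4 : ∑ k, T i l k * x k = - MM U x i l := euler3 hhom hU hc hx hux i l
        rw [e4]
        ring
      simp only [e3]
      rw [← Finset.mul_sum, heig b i]
      ring
    rw [e1]
    simp only [e2]
    rw [← Finset.mul_sum, horth]
    split_ifs <;> ring
  have hT3 : ∀ a b c, m2T O T a b c = m2T O T a c b := fun a b c => m2_T_comm23 h23 a b c
  have hT2 : ∀ a b c, m2T O T a b c = m2T O T b a c := fun a b c => m2_T_comm12 h12 a b c
  have hT00 : ∀ c, m2T O T 0 0 c = 0 := by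
    intro c
    rw [hT3 0 0 c, hT2 0 c 0, hT3 c 0 0, hT0]
    split_ifs <;> simp [hμ0]
  -- normalised data
  set lam : Fin m → ℝ := fun k => μ k.succ / F with hlam
  set ξ : Fin m → ℝ := fun k => m2R O p k.succ with hξ
  set Tn : Fin m → Fin m → Fin m → ℝ := fun i j k => m2T O T i.succ j.succ k.succ / F ^ 2 with hTn
  have hμ : ∀ k : Fin m, μ k.succ = F * lam k := by
    intro k
    simp only [hlam]
    (clear * - hF0; field_simp)
  have hTT : ∀ i j k : Fin m, m2T O T i.succ j.succ k.succ = F ^ 2 * Tn i j k := by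
    intro i j k
    simp only [hTn]
    (clear * - hF0; field_simp)
  have hsum : ∀ (q : ℕ) (_ : 1 ≤ q) (f : Fin (m + 1) → ℝ),
      ∑ a, μ a ^ q * f a = F ^ q * ∑ k : Fin m, lam k ^ q * f k.succ := by
    intro q hq f
    rw [Fin.sum_univ_succ, hμ0, zero_pow (by omega), zero_mul, zero_add, Finset.mul_sum]
    refine Finset.sum_congr rfl fun k _ => ?_
    rw [hμ, mul_pow]
    ring
  have hpw : ∀ q : ℕ, 1 ≤ q → ∑ a, μ a ^ q = F ^ q * pw lam q := by
    intro q hq
    have := hsum q hq (fun _ => 1)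
    simpa only [pw, mul_one] using this
  have hG : ∀ q c, m2R O (fun k => GG U q k x) c = ∑ a, μ a ^ q * m2T O T a a c :=
    fun q c => m2_G hO hO' heig T q c
  have hQ : ∀ q c, m2R O (fun k => QQ U q k x) c = μ c ^ q * m2R O p c :=
    fun q c => m2_Q hO hO' heig p q c
  have hG0 : ∀ q, 1 ≤ q → m2R O (fun k => GG U q k x) 0
      = -(1 / r) * (F ^ (q + 1) * pw lam (q + 1)) := by
    intro q hq
    rw [hG, ← hpw (q + 1) (by omega), Finset.mul_sum]
    refine Finset.sum_congr rfl fun a _ => ?_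
    rw [hT0, if_pos rfl, pow_succ]
    ring
  have hGs : ∀ q, 1 ≤ q → ∀ k : Fin m, m2R O (fun k => GG U q k x) k.succ
      = F ^ (q + 2) * XX lam (fun l => Tn l l k) q := by
    intro q hq k
    rw [hG, hsum q hq, XX, Finset.mul_sum, Finset.mul_sum]
    refine Finset.sum_congr rfl fun a _ => ?_
    rw [hTT]
    ring
  have hQ0 : ∀ q, 1 ≤ q → m2R O (fun k => QQ U q k x) 0 = 0 := by
    intro q hq
    rw [hQ, hμ0, zero_pow (by omega), zero_mul]
  have hQs : ∀ q (k : Fin m), m2R O (fun k => QQ U q k x) k.succ = F ^ q * lam k ^ q * ξ k := by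
    intro q k
    rw [hQ, hμ, mul_pow]
  have hxR0 : m2R O (fun k => x k) 0 = r := by
    have : r * r = ∑ i, x i * x i := by
      rw [← m2_inner_eq x x, real_inner_self_eq_norm_mul_norm]
    unfold m2R
    simp only [hO0]
    have h1 : ∀ i, x i / ‖x‖ * x i = (x i * x i) / r := by
      intro i
      rw [hr]
      ring
    simp only [h1]
    rw [← Finset.sum_div, ← this]
    (clear * - hr0; field_simp)
  have hxRs : ∀ k : Fin m, m2R O (fun k => x k) k.succ = 0 := by
    intro k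
    have h1 : m2R O (fun k => x k) k.succ = r * ∑ i, O 0 i * O k.succ i := by
      unfold m2R
      simp only [hO0]
      rw [Finset.mul_sum]
      refine Finset.sum_congr rfl fun i _ => ?_
      rw [← hr]
      (clear * - hr0; field_simp)
    rw [h1, horth, if_neg (Fin.succ_ne_zero k).symm, mul_zero]
  refine ⟨lam, ξ, Tn, ?_⟩
  -- the components
  have c1 : ∀ b : Fin m, m2T O T 0 b.succ 0 = 0 := by
    intro b
    rw [hT0, if_neg (Fin.succ_ne_zero b).symm, mul_zero]
  have c2 : ∀ b c : Fin m, m2T O T b.succ c.succ 0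
      = if b = c then -(1 / r) * (F * lam c) else 0 := by
    intro b c
    rw [hT0]
    by_cases h : b = c
    · rw [if_pos h, if_pos (congrArg Fin.succ h), hμ]
    · rw [if_neg h, if_neg (fun h' => h (Fin.succ_injective _ h')), mul_zero]
  have c3 : ∀ b c : Fin m, m2T O T 0 b.succ c.succ
      = if b = c then -(1 / r) * (F * lam c) else 0 := by
    intro b c
    rw [hT2, hT3, c2]
  have c4 : ∀ b c : Fin m, m2T O T b.succ 0 c.succ
      = if b = c then -(1 / r) * (F * lam c) else 0 := by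
    intro b c
    rw [hT3, c2]
  have c5 : ∀ b : Fin m, m2T O T b.succ 0 0 = 0 := by
    intro b
    rw [hT0, if_neg (Fin.succ_ne_zero b), mul_zero]
  -- the fields `(D²U)^a (...)`
  have hM : ∀ a j c, m2R O (fun k => MG U a j k x) c
      = μ c ^ a * m2R O (fun k => GG U j k x) c :=
    fun a j c => m2_Q hO hO' heig (fun l => GG U j l x) a c
  have hM0 : ∀ a j, 1 ≤ a → m2R O (fun k => MG U a j k x) 0 = 0 := by
    intro a j ha
    rw [hM, hμ0, zero_pow (by omega), zero_mul]
  have hMs : ∀ a j, 1 ≤ j → ∀ k : Fin m, m2R O (fun k => MG U a j k x) k.succ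
      = F ^ (a + j + 2) * (lam k ^ a * XX lam (fun l => Tn l l k) j) := by
    intro a j hj k
    rw [hM, hGs j hj, hμ, mul_pow]
    ring
  refine ⟨?_, ?_, ?_, ?_, ?_, ?_, ?_, ?_, ?_, ?_, ?_, ?_, ?_, ?_, ?_, ?_, ?_, ?_, ?_, ?_⟩
  · intro i j k
    simp only [hTn]
    rw [hT2]
  · intro i j k
    simp only [hTn]
    rw [hT3]
  · -- Ttr
    intro k
    have h1 := m2_G hO hO' heig T 0 k.succ
    have h2 : m2R O (fun k => ∑ i, ∑ l, (MM U x ^ 0) i l * T i l k) k.succ = 0 := by
      have h3 : ∀ k, ∑ i, ∑ l, (MM U x ^ 0) i l * T i l k = 0 := by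
        intro k
        simp only [pow_zero, Matrix.one_apply, ite_mul, one_mul, zero_mul, Finset.sum_ite_eq,
          Finset.mem_univ, if_true]
        exact hTtr k
      simp only [h3, m2R, mul_zero, Finset.sum_const_zero]
    rw [h2, Fin.sum_univ_succ, hT00, mul_zero, zero_add] at h1
    simp only [pow_zero, one_mul, hTT] at h1
    rw [← Finset.mul_sum] at h1
    have : F ^ 2 ≠ 0 := pow_ne_zero 2 hF0
    exact (mul_eq_zero.1 h1.symm).resolve_left this
  · -- lam1
    have h1 := m2_tr hO hO' heig 1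
    rw [hpw 1 le_rfl, pow_one, pow_one] at h1
    have h2 : Matrix.trace (MM U x) = 0 := hlap x hx hux
    rw [h2] at h1
    exact (mul_eq_zero.1 h1.symm).resolve_left hF0
  · -- lam2
    rw [hpw 2 (by norm_num)] at hSS
    rw [hSS] at hF2 ⊢
    have h3 : F ^ 2 ≠ 0 := pow_ne_zero 2 hF0
    rw [hF2, eq_sub_iff_add_eq]
    field_simp
    linarith only [hF2]
  · -- ht
    intro j hj
    rw [tt, m2_tr hO hO' heig, hpw j hj]
  · -- hv
    have h1 : vv U x = ∑ i, p i * p i := by
      unfold vv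
      exact Finset.sum_congr rfl fun i _ => pow_two _
    rw [h1, m2_dot hO, Fin.sum_univ_succ, hp0, add_comm]
    congr 1
    · exact Finset.sum_congr rfl fun k _ => (pow_two _).symm
    · ring
  · -- hGG
    intro i j hi hj
    rw [m2_dot hO, Fin.sum_univ_succ, hG0 i hi, hG0 j hj, hF2]
    simp only [hGs i hi, hGs j hj]
    rw [mul_add, Finset.mul_sum, add_comm]
    congr 1
    · refine Finset.sum_congr rfl fun k _ => ?_
      ring
    · field_simp
      ring
  · -- hGp
    intro j hj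
    rw [m2_dot hO, Fin.sum_univ_succ, hG0 j hj, hF2]
    simp only [hGs j hj]
    have e : m2R O (fun k => P1 U k x) 0 = U x / r := hp0
    rw [e, mul_sub, Finset.mul_sum, sub_eq_add_neg, add_comm]
    congr 1
    · refine Finset.sum_congr rfl fun k _ => ?_
      change _ * ξ k = _
      ring
    · field_simp
      ring
  · -- hGQ
    intro i j hi hj
    rw [m2_dot hO, Fin.sum_univ_succ, hQ0 j hj, mul_zero, zero_add]
    simp only [hGs i hi, hQs]
    rw [Finset.mul_sum]
    refine Finset.sum_congr rfl fun k _ => ?_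
    ring
  · -- hpQ
    intro j hj
    rw [m2_dot hO, Fin.sum_univ_succ, hQ0 j hj, mul_zero, zero_add]
    simp only [hQs]
    rw [Finset.mul_sum]
    refine Finset.sum_congr rfl fun k _ => ?_
    change ξ k * _ = _
    ring
  · -- hQQ
    intro i j hi hj
    rw [m2_dot hO, Fin.sum_univ_succ, hQ0 j hj, mul_zero, zero_add]
    simp only [hQs]
    rw [Finset.mul_sum]
    refine Finset.sum_congr rfl fun k _ => ?_
    ring
  · -- hDG
    intro j hj
    have hD : DG U j x = ∑ a, ∑ b, ∑ c, hh j (μ a) (μ b) * m2T O T a b c ^ 2 := by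
      have h1 : ∀ q, ∑ k, ∑ i, ∑ l, ∑ r, ∑ s,
          (MM U x ^ q) i l * P3 U l r k x * (MM U x ^ (j - 1 - q)) r s * P3 U s i k x
          = ∑ a, ∑ b, ∑ c, μ a ^ q * μ b ^ (j - 1 - q) * m2T O T a b c ^ 2 :=
        fun q => m2_D hO hO' heig h12 q (j - 1 - q)
      unfold DG
      simp only [h1]
      rw [Finset.sum_comm]
      refine Finset.sum_congr rfl fun a _ => ?_
      rw [Finset.sum_comm]
      refine Finset.sum_congr rfl fun b _ => ?_
      rw [Finset.sum_comm]
      refine Finset.sum_congr rfl fun c _ => ?_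
      rw [hh, Finset.sum_mul]
    rw [hD]
    simp only [Fin.sum_univ_succ, hT00, c1, c2, c3, c4, c5, hμ0, hμ, hTT]
    simp only [ne_eq, OfNat.ofNat_ne_zero, not_false_eq_true, zero_pow, mul_zero, Finset.sum_const_zero, add_zero, ite_pow, mul_ite, Finset.sum_ite_eq, Finset.mem_univ, if_true, zero_add, Finset.sum_add_distrib]
    simp only [m2_hh_zero_left hj, m2_hh_zero_right hj, m2_hh_self, m2_hh_smul]
    obtain ⟨q, rfl⟩ : ∃ q, j = q + 1 := ⟨j - 1, by omega⟩
    simp only [Nat.add_sub_cancel]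
    have s1 : ∑ y : Fin m, (F * lam y) ^ q * (-(1 / r) * (F * lam y)) ^ 2
        = 1 / r ^ 2 * F ^ (q + 2) * pw lam (q + 2) := by
      rw [pw, Finset.mul_sum]
      refine Finset.sum_congr rfl fun y _ => ?_
      rw [mul_pow, mul_pow, mul_pow, neg_pow, pow_add, pow_add]
      ring
    have s2 : ∑ y : Fin m, ((q + 1 : ℕ) : ℝ) * (F * lam y) ^ q * (-(1 / r) * (F * lam y)) ^ 2
        = ((q + 1 : ℕ) : ℝ) * (1 / r ^ 2 * F ^ (q + 2) * pw lam (q + 2)) := by
      rw [← s1, Finset.mul_sum]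
      exact Finset.sum_congr rfl fun y _ => by ring
    have s3 : ∑ i, ∑ l, ∑ k, F ^ q * hh (q + 1) (lam i) (lam l) * (F ^ 2 * Tn i l k) ^ 2
        = F ^ (q + 4) * ∑ i, ∑ l, ∑ k, hh (q + 1) (lam i) (lam l) * Tn i l k ^ 2 := by
      simp only [Finset.mul_sum]
      refine Finset.sum_congr rfl fun i _ => Finset.sum_congr rfl fun l _ =>
        Finset.sum_congr rfl fun k _ => ?_
      ring
    rw [s1, s2, s3, ← hF, ← hr, hF2]
    field_simp
    push_cast
    ring
  · -- hGM
    intro i a j hi ha hj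
    rw [m2_dot hO, Fin.sum_univ_succ, hM0 a j ha, mul_zero, zero_add]
    simp only [hGs i hi, hMs a j hj]
    rw [Finset.mul_sum]
    refine Finset.sum_congr rfl fun k _ => ?_
    ring
  · -- hQM
    intro i a j ha hj
    rw [m2_dot hO, Fin.sum_univ_succ, hM0 a j ha, mul_zero, zero_add]
    simp only [hQs, hMs a j hj]
    rw [Finset.mul_sum]
    refine Finset.sum_congr rfl fun k _ => ?_
    ring
  · -- hDT
    intro e j he hj
    have hD : DT U e j x = ∑ a, ∑ b, ∑ c, hh j (μ a) (μ b) * (μ c ^ e * m2T O T a b c ^ 2) := by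
      have h1 : ∀ q, ∑ k, ∑ l, ∑ i, ∑ r, ∑ s, ∑ t,
          (MM U x ^ e) k l * ((MM U x ^ q) i s * P3 U s t k x * (MM U x ^ (j - 1 - q)) t r)
            * P3 U i r l x
          = ∑ a, ∑ b, ∑ c, μ a ^ q * μ b ^ (j - 1 - q) * μ c ^ e * m2T O T a b c ^ 2 :=
        fun q => m2_DT hO hO' heig (T := T) q (j - 1 - q) e
      unfold DT
      simp only [h1]
      rw [Finset.sum_comm]
      refine Finset.sum_congr rfl fun a _ => ?_
      rw [Finset.sum_comm]
      refine Finset.sum_congr rfl fun b _ => ?_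
      rw [Finset.sum_comm]
      refine Finset.sum_congr rfl fun c _ => ?_
      rw [hh, Finset.sum_mul]
      exact Finset.sum_congr rfl fun q _ => by ring
    rw [hD]
    simp only [Fin.sum_univ_succ, hT00, c1, c2, c3, c4, c5, hμ0, hμ, hTT]
    simp only [zero_pow (show e ≠ 0 by omega), ne_eq, OfNat.ofNat_ne_zero, not_false_eq_true, zero_pow, mul_zero, Finset.sum_const_zero, add_zero, ite_pow, mul_ite, Finset.sum_ite_eq, Finset.mem_univ, if_true, zero_add, zero_mul, Finset.sum_add_distrib]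
    simp only [m2_hh_zero_left hj, m2_hh_zero_right hj, m2_hh_smul]
    obtain ⟨q, rfl⟩ : ∃ q, j = q + 1 := ⟨j - 1, by omega⟩
    simp only [Nat.add_sub_cancel]
    have s1 : ∑ y : Fin m, (F * lam y) ^ q * ((F * lam y) ^ e * (-(1 / r) * (F * lam y)) ^ 2)
        = 1 / r ^ 2 * F ^ (e + q + 2) * pw lam (e + q + 2) := by
      rw [pw, Finset.mul_sum]
      refine Finset.sum_congr rfl fun y _ => ?_
      have : (-(1 / r) * (F * lam y)) ^ 2 = 1 / r ^ 2 * (F * lam y) ^ 2 := by
        (clear * - hF0 hr0; field_simp)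
      rw [this]
      have : (F * lam y) ^ q * ((F * lam y) ^ e * (1 / r ^ 2 * (F * lam y) ^ 2))
          = 1 / r ^ 2 * (F * lam y) ^ (e + q + 2) := by
        rw [pow_add, pow_add]; ring
      rw [this, mul_pow]
      ring
    have s3 : ∑ i, ∑ l, ∑ k, F ^ q * hh (q + 1) (lam i) (lam l)
          * ((F * lam k) ^ e * (F ^ 2 * Tn i l k) ^ 2)
        = F ^ (e + q + 4) * ∑ i, ∑ l, ∑ k, lam k ^ e * hh (q + 1) (lam i) (lam l)
          * Tn i l k ^ 2 := by
      simp only [Finset.mul_sum]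
      refine Finset.sum_congr rfl fun i _ => Finset.sum_congr rfl fun l _ =>
        Finset.sum_congr rfl fun k _ => ?_
      rw [mul_pow, mul_pow, pow_add, pow_add]
      ring
    have e1 : e + (q + 1) + 3 = e + q + 4 := by ring
    have e2 : e + (q + 1) + 1 = e + q + 2 := by ring
    rw [s1, s3, ← hF, ← hr, hF2, e1, e2]
    field_simp
    ring
  · -- hxM
    intro a j ha hj
    rw [m2_dot hO, Fin.sum_univ_succ, hM0 a j ha, zero_mul, zero_add]
    simp only [hxRs, mul_zero, Finset.sum_const_zero]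
  · -- hxG
    intro j hj
    rw [m2_dot hO, Fin.sum_univ_succ, hG0 j hj, hxR0]
    simp only [hxRs, mul_zero, Finset.sum_const_zero, add_zero]
    rw [tt, m2_tr hO hO' heig, hpw (j + 1) (by omega)]
    (clear * - hr0 hFpos; field_simp)
  · -- hxQ
    intro j hj
    rw [m2_dot hO, Fin.sum_univ_succ, hQ0 j hj, zero_mul, zero_add]
    simp only [hxRs, mul_zero, Finset.sum_const_zero]
  · -- hxp
    rw [← euler1 hhom hU hc hx hux]
    exact Finset.sum_congr rfl fun i _ => mul_comm _ _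

end Vale.Agent.P098
end

section

/-!
Module M5a, part 1: stability inequality in terms of `W` and `Z`.
-/

open MeasureTheory Set Metric Filter
open scoped ContDiff RealInnerProductSpace Topology

namespace Vale.Agent.P098

variable {d : ℕ}

namespace M5a

lemma contDiffOn_gradient {U : E d → ℝ} {N : Set (E d)} (hN : IsOpen N)
    (hU : ContDiffOn ℝ ∞ U N) : ContDiffOn ℝ ∞ (gradient U) N := by
  have h := hU.fderiv_of_isOpen (m := ∞) hN (by norm_num)
  exact (InnerProductSpace.toDual ℝ (E d)).symm.contDiff.comp_contDiffOn h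

lemma divg_gradient {c : E d → ℝ} {x : E d} (h1 : DifferentiableAt ℝ (gradient c) x) :
    divg (gradient c) x = lap c x := by
  rw [divg, lap]
  refine Finset.sum_congr rfl fun i _ => ?_
  have h2 : P1 c i = fun y => (EuclideanSpace.proj i : E d →L[ℝ] ℝ) (gradient c y) := by
    funext y
    simp only [P1, PiLp.proj_apply, C2.gradient_apply]
  rw [P2, h2]
  have h3 := ((EuclideanSpace.proj i : E d →L[ℝ] ℝ).hasFDerivAt.comp x h1.hasFDerivAt).fderiv
  have h4 : ((EuclideanSpace.proj i : E d →L[ℝ] ℝ) ∘ gradient c) =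
      fun y => (EuclideanSpace.proj i : E d →L[ℝ] ℝ) (gradient c y) := rfl
  rw [← h4, h3]
  simp

lemma divg_congr {V V' : E d → E d} {x : E d} (h : V =ᶠ[𝓝 x] V') : divg V x = divg V' x := by
  unfold divg
  rw [h.fderiv_eq]

end M5a

theorem stability_WZ {u : E d → ℝ} {K : NNReal} (hK : LipschitzWith K u)
    (h0 : ∀ x, 0 ≤ u x) (hmin : LipMin u) {N : Set (E d)} {U : E d → ℝ} (hU : LocalExt u N U)
    {W : E d → ℝ} (hW : ContDiffOn ℝ ∞ W N) (hW0 : ∀ x ∈ N, 0 < W x)
    {Z : E d → E d} (hZ : ContDiffOn ℝ ∞ Z N)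
    (hb : ∀ x ∈ N, x ∈ frontier {y | 0 < u y} →
      0 ≤ ⟪Z x, gradient U x⟫ + curv U x * W x)
    {η : E d → ℝ} (hη : ContDiff ℝ ∞ η) (hη0 : ∀ x, 0 ≤ η x) (hηc : HasCompactSupport η)
    (hηN : closure {y | 0 < u y} ∩ tsupport η ⊆ N) :
    ∫ x in {y | 0 < u y}, η x ^ 2 * (divg Z x - ‖gradient W x‖ ^ 2 / (4 * W x)) ≤
      ∫ x in {y | 0 < u y}, (W x * ‖gradient η x‖ ^ 2
        + 2 * η x * ⟪gradient η x, (1 / 2 : ℝ) • gradient W x - Z x⟫) := by
  have hN := hU.isOpen
  obtain ⟨c, hcdef⟩ : ∃ c : E d → ℝ, c = fun x => √(W x) := ⟨_, rfl⟩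
  have hc : ContDiffOn ℝ ∞ c N := by
    rw [hcdef]
    intro x hx
    exact ((hW.contDiffAt (hN.mem_nhds hx)).sqrt (hW0 x hx).ne').contDiffWithinAt
  have hc0 : ∀ x ∈ N, 0 ≤ c x := fun x _ => by rw [hcdef]; exact Real.sqrt_nonneg _
  have hcpos : ∀ x ∈ N, 0 < c x := fun x hx => by rw [hcdef]; exact Real.sqrt_pos.2 (hW0 x hx)
  have hcW : ∀ x ∈ N, c x ^ 2 = W x := fun x hx => by rw [hcdef]; exact Real.sq_sqrt (hW0 x hx).le
  have hcd : ∀ x ∈ N, DifferentiableAt ℝ c x := fun x hx =>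
    (hc.contDiffAt (hN.mem_nhds hx)).differentiableAt (by norm_num)
  have hgc := M5a.contDiffOn_gradient hN hc
  have hgcd : ∀ x ∈ N, DifferentiableAt ℝ (gradient c) x := fun x hx =>
    (hgc.contDiffAt (hN.mem_nhds hx)).differentiableAt (by norm_num)
  have hZd : ∀ x ∈ N, DifferentiableAt ℝ Z x := fun x hx =>
    (hZ.contDiffAt (hN.mem_nhds hx)).differentiableAt (by norm_num)
  have hgW : ∀ x ∈ N, gradient W x = (2 * c x) • gradient c x := by
    intro x hx
    have h1 : W =ᶠ[𝓝 x] fun y => c y ^ 2 := by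
      filter_upwards [hN.mem_nhds hx] with y hy
      exact (hcW y hy).symm
    rw [h1.gradient_eq, C2.gradient_sq (hcd x hx)]
  have hV : ContDiffOn ℝ ∞ (fun x => (1 / 2 : ℝ) • gradient W x - Z x) N :=
    ((M5a.contDiffOn_gradient hN hW).const_smul (1 / 2 : ℝ)).sub hZ
  have key := stability_fields hK h0 hmin hU hc hc0 hV (by
    intro x hx hxf
    have h1 := hb x hx hxf
    rw [hgW x hx, inner_sub_left, smul_smul, real_inner_smul_left]
    have h2 := hcW x hx
    rw [← h2] at h1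
    linarith only [h1]) hη hη0 hηc hηN
  have hopen : IsOpen {y | 0 < u y} := isOpen_lt continuous_const hK.continuous
  have hoff : ∀ x, x ∈ {y | 0 < u y} → x ∉ N → η x = 0 ∧ gradient η x = 0 := by
    intro x hx hxN
    have h1 : x ∉ tsupport η := fun h => hxN (hηN ⟨subset_closure hx, h⟩)
    exact ⟨image_eq_zero_of_notMem_tsupport h1, C2.gradient_eq_zero_off h1⟩
  have e1 : ∫ x in {y | 0 < u y}, η x ^ 2 * (divg Z x - ‖gradient W x‖ ^ 2 / (4 * W x)) =
      ∫ x in {y | 0 < u y}, η x ^ 2 *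
        (c x * lap c x - divg (fun x => (1 / 2 : ℝ) • gradient W x - Z x) x) := by
    refine setIntegral_congr_fun hopen.measurableSet fun x hx => ?_
    by_cases hxN : x ∈ N
    · have h1 : (fun x => (1 / 2 : ℝ) • gradient W x - Z x) =ᶠ[𝓝 x]
          fun y => c y • gradient c y - Z y := by
        filter_upwards [hN.mem_nhds hxN] with y hy
        rw [hgW y hy, smul_smul]
        congr 2
        ring
      have h2 : divg (fun x => (1 / 2 : ℝ) • gradient W x - Z x) x =
          c x * lap c x + ‖gradient c x‖ ^ 2 - divg Z x := by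
        have h5 : DifferentiableAt ℝ (fun y => c y • gradient c y) x :=
          (hcd x hxN).smul (hgcd x hxN)
        rw [M5a.divg_congr h1, C2.divg_sub h5 (hZd x hxN),
          C2.divg_smul (hcd x hxN) (hgcd x hxN), M5a.divg_gradient (hgcd x hxN),
          real_inner_self_eq_norm_sq]
      have h3 : ‖gradient W x‖ ^ 2 / (4 * W x) = ‖gradient c x‖ ^ 2 := by
        rw [hgW x hxN, norm_smul, ← hcW x hxN, mul_pow, Real.norm_eq_abs, sq_abs]
        have := hcpos x hxN
        field_simp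
        ring
      show η x ^ 2 * (divg Z x - ‖gradient W x‖ ^ 2 / (4 * W x)) = η x ^ 2 *
        (c x * lap c x - divg (fun x => (1 / 2 : ℝ) • gradient W x - Z x) x)
      rw [h2, h3]
      ring
    · have h1 := (hoff x hx hxN).1
      show η x ^ 2 * _ = η x ^ 2 * _
      rw [h1]
      ring
  have e2 : ∫ x in {y | 0 < u y}, (W x * ‖gradient η x‖ ^ 2
        + 2 * η x * ⟪gradient η x, (1 / 2 : ℝ) • gradient W x - Z x⟫) =
      ∫ x in {y | 0 < u y}, (c x ^ 2 * ‖gradient η x‖ ^ 2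
        + 2 * η x * ⟪gradient η x, (1 / 2 : ℝ) • gradient W x - Z x⟫) := by
    refine setIntegral_congr_fun hopen.measurableSet fun x hx => ?_
    by_cases hxN : x ∈ N
    · show W x * _ + _ = c x ^ 2 * _ + _
      rw [hcW x hxN]
    · have h1 := hoff x hx hxN
      show W x * ‖gradient η x‖ ^ 2 + 2 * η x * _ = c x ^ 2 * ‖gradient η x‖ ^ 2 + 2 * η x * _
      rw [h1.1, h1.2]
      simp
  rw [e1, e2]
  exact key

end Vale.Agent.P098
end
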