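import Mathlib
import Vale.Agent.P098.Bdl.B2

set_option linter.all false

section

open MeasureTheory Set Metric Filter
open scoped ContDiff RealInnerProductSpace Topology Convolution

namespace Vale.Agent.P098

variable {d : ℕ}

namespace ModA

lemma norm_gradient (f : E d → ℝ) (x : E d) : ‖gradient f x‖ = ‖fderiv ℝ f x‖ := by
  unfold gradient
  exact LinearIsometryEquiv.norm_map _ _

lemma inner_gradient (f : E d → ℝ) (x e : E d) : ⟪gradient f x, e⟫ = fderiv ℝ f x e := by
  exact inner_gradient_left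

lemma measurable_gradient (f : E d → ℝ) : Measurable (gradient f) := by
  have h := measurable_fderiv ℝ f
  exact (InnerProductSpace.toDual ℝ (E d)).symm.continuous.measurable.comp h

lemma isWeakGrad_of_lipschitz {f : E d → ℝ} {K : NNReal} (hf : LipschitzWith K f)
    (B : Set (E d)) : IsWeakGrad B f (gradient f) := by
  intro φ hφ hφc hφB e
  obtain ⟨C, hC⟩ := (hφ.lipschitzWith_of_hasCompactSupport hφc (by simp))
  have hz : ∀ x, x ∉ B → x ∉ tsupport φ := fun x hx h => hx (hφB h)
  have h1 : ∫ x in B, f x * fderiv ℝ φ x e = ∫ x, f x * fderiv ℝ φ x e := by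
    apply setIntegral_eq_integral_of_forall_compl_eq_zero
    intro x hx
    have : fderiv ℝ φ x = 0 := by
      have h := hz x hx
      exact image_eq_zero_of_notMem_tsupport (fun h' => h (tsupport_fderiv_subset ℝ h'))
    simp only [this, zero_apply, mul_zero]
  have h2 : ∫ x in B, ⟪gradient f x, e⟫ * φ x = ∫ x, ⟪gradient f x, e⟫ * φ x := by
    apply setIntegral_eq_integral_of_forall_compl_eq_zero
    intro x hx
    have : φ x = 0 := image_eq_zero_of_notMem_tsupport (hz x hx)
    simp [this]
  rw [h1, h2]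
  have h3 := hf.integral_lineDeriv_mul_eq hC hφc e (μ := volume)
  have h4 : ∫ x, ⟪gradient f x, e⟫ * φ x = ∫ x, lineDeriv ℝ f x e * φ x := by
    apply integral_congr_ae
    filter_upwards [hf.ae_differentiableAt (μ := volume)] with x hx
    rw [inner_gradient, hx.lineDeriv_eq_fderiv]
  rw [h4, h3, ← integral_neg]
  congr 1
  ext x
  have hd : DifferentiableAt ℝ φ x := (hφ.differentiable (by simp)) x
  rw [hd.lineDeriv_eq_fderiv]
  simp [mul_comm]

lemma memLp_of_continuous {f : E d → ℝ} (hf : Continuous f) (x₀ : E d) (r : ℝ) :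
    MemLp f 2 (volume.restrict (ball x₀ r)) := by
  obtain ⟨C, hC⟩ := (isCompact_closedBall x₀ r).exists_bound_of_continuousOn hf.continuousOn
  have : IsFiniteMeasure (volume.restrict (ball x₀ r)) := ⟨by simpa only [MeasurableSet.univ, Measure.restrict_apply, univ_inter] using measure_ball_lt_top⟩
  refine MemLp.of_bound hf.aestronglyMeasurable C ?_
  filter_upwards [ae_restrict_mem measurableSet_ball] with x hx
  exact hC x (ball_subset_closedBall hx)

lemma memLp_gradient {f : E d → ℝ} {K : NNReal} (hf : LipschitzWith K f) (x₀ : E d) (r : ℝ) :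
    MemLp (gradient f) 2 (volume.restrict (ball x₀ r)) := by
  have : IsFiniteMeasure (volume.restrict (ball x₀ r)) := ⟨by simpa only [MeasurableSet.univ, Measure.restrict_apply, univ_inter] using measure_ball_lt_top⟩
  refine MemLp.of_bound (measurable_gradient f).aestronglyMeasurable K ?_
  filter_upwards with x
  rw [norm_gradient]
  exact norm_fderiv_le_of_lipschitz ℝ hf

lemma memH1_of_lipschitz {f : E d → ℝ} {K : NNReal} (hf : LipschitzWith K f) (x₀ : E d) (r : ℝ) :
    MemH1 (ball x₀ r) f (gradient f) :=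
  ⟨memLp_of_continuous hf.continuous x₀ r, memLp_gradient hf x₀ r, isWeakGrad_of_lipschitz hf _⟩

/-- Uniqueness of weak gradients. -/
lemma weakGrad_unique {x₀ : E d} {r : ℝ} {u : E d → ℝ} {g₁ g₂ : E d → E d}
    (h₁ : MemH1 (ball x₀ r) u g₁) (h₂ : MemH1 (ball x₀ r) u g₂) :
    ∀ᵐ x ∂(volume.restrict (ball x₀ r)), g₁ x = g₂ x := by
  have hfin : IsFiniteMeasure (volume.restrict (ball x₀ r)) := ⟨by simpa only [MeasurableSet.univ, Measure.restrict_apply, univ_inter] using measure_ball_lt_top⟩
  have key : ∀ i : Fin d, ∀ᵐ x ∂(volume.restrict (ball x₀ r)), g₁ x i = g₂ x i := by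
    intro i
    have hin : ∀ (g : E d → E d) (x : E d), ⟪g x, EuclideanSpace.single i (1:ℝ)⟫ = g x i := by
      intro g x
      simp [EuclideanSpace.inner_single_right]
    have m₁ : MemLp (fun x => g₁ x i) 2 (volume.restrict (ball x₀ r)) := by
      have := h₁.2.1.inner_const (𝕜 := ℝ) (EuclideanSpace.single i (1:ℝ))
      simpa only [hin] using this
    have m₂ : MemLp (fun x => g₂ x i) 2 (volume.restrict (ball x₀ r)) := by
      have := h₂.2.1.inner_const (𝕜 := ℝ) (EuclideanSpace.single i (1:ℝ))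
      simpa only [hin] using this
    have i₁ : IntegrableOn (fun x => g₁ x i) (ball x₀ r) := m₁.integrable (by norm_num)
    have i₂ : IntegrableOn (fun x => g₂ x i) (ball x₀ r) := m₂.integrable (by norm_num)
    have hloc : LocallyIntegrableOn (fun x => g₁ x i - g₂ x i) (ball x₀ r) :=
      (i₁.sub i₂).locallyIntegrableOn
    have hz := isOpen_ball.ae_eq_zero_of_integral_contDiff_smul_eq_zero (μ := volume) hloc ?_
    · rw [ae_restrict_iff' measurableSet_ball]
      filter_upwards [hz] with x hx hxB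
      exact sub_eq_zero.mp (hx hxB)
    · intro φ hφ hφc hφB
      have e₁ := h₁.2.2 φ hφ hφc hφB (EuclideanSpace.single i (1:ℝ))
      have e₂ := h₂.2.2 φ hφ hφc hφB (EuclideanSpace.single i (1:ℝ))
      simp only [hin] at e₁ e₂
      have e₃ : ∫ x in ball x₀ r, g₁ x i * φ x = ∫ x in ball x₀ r, g₂ x i * φ x := by
        linarith only [e₁, e₂]
      have hset : ∫ x, φ x • (g₁ x i - g₂ x i) = ∫ x in ball x₀ r, φ x • (g₁ x i - g₂ x i) := by
        symm
        apply setIntegral_eq_integral_of_forall_compl_eq_zero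
        intro x hx
        have : φ x = 0 := image_eq_zero_of_notMem_tsupport (fun h => hx (hφB h))
        simp [this]
      rw [hset]
      obtain ⟨C, hC⟩ := hφc.exists_bound_of_continuous hφ.continuous
      have j₁ : Integrable (fun x => g₁ x i * φ x) (volume.restrict (ball x₀ r)) :=
        i₁.mul_bdd hφ.continuous.aestronglyMeasurable (by filter_upwards with x using hC x)
      have j₂ : Integrable (fun x => g₂ x i * φ x) (volume.restrict (ball x₀ r)) :=
        i₂.mul_bdd hφ.continuous.aestronglyMeasurable (by filter_upwards with x using hC x)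
      have : ∀ x, φ x • (g₁ x i - g₂ x i) = g₁ x i * φ x - g₂ x i * φ x := by
        intro x; simp only [smul_eq_mul]; ring
      simp_rw [this]
      rw [integral_sub j₁ j₂, e₃, sub_self]
  have := ae_all_iff.mpr key
  filter_upwards [this] with x hx
  ext i
  exact hx i


section Moll

variable {w ψ : E d → ℝ} {K : NNReal}

lemma moll_eq (ψ w : E d → ℝ) (x : E d) :
    (ψ ⋆[ContinuousLinearMap.lsmul ℝ ℝ, volume] w) x = ∫ y, ψ (x - y) * w y := by
  rw [convolution_eq_swap]
  simp only [ContinuousLinearMap.lsmul_apply, smul_eq_mul]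

lemma moll_eq' (ψ w : E d → ℝ) (x : E d) :
    (ψ ⋆[ContinuousLinearMap.lsmul ℝ ℝ, volume] w) x = ∫ y, ψ y * w (x - y) := by
  rw [convolution_def]
  simp only [ContinuousLinearMap.lsmul_apply, smul_eq_mul]

/-- The derivative of a mollification is the mollification of the derivative. -/
lemma fderiv_moll (hw : LipschitzWith K w) (hψ : ContDiff ℝ ∞ ψ) (hψc : HasCompactSupport ψ)
    (x e : E d) :
    fderiv ℝ (ψ ⋆[ContinuousLinearMap.lsmul ℝ ℝ, volume] w) x e =
      (ψ ⋆[ContinuousLinearMap.lsmul ℝ ℝ, volume] (fun y => lineDeriv ℝ w y e)) x := by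
  set W := (ψ ⋆[ContinuousLinearMap.lsmul ℝ ℝ, volume] w) with hW
  have hWs : ContDiff ℝ ∞ W := hψc.contDiff_convolution_left _ hψ hw.continuous.locallyIntegrable
  have hWd : DifferentiableAt ℝ W x := hWs.differentiable (by simp) x
  have hcs : HasCompactSupport (fun y => ψ (x - y)) := by
    have := hψc.comp_homeomorph (Homeomorph.subLeft x)
    simpa only [Homeomorph.coe_subLeft, Function.comp_def] using this
  have hint : Integrable (fun y => ψ (x - y)) volume :=
    (hψ.continuous.comp (continuous_const.sub continuous_id)).integrable_of_hasCompactSupport hcs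
  have h1 := hw.integral_inv_smul_sub_mul_tendsto_integral_lineDeriv_mul hint e
  have h2 : ∀ t : ℝ, ∫ y, (t⁻¹ • (w (y + t • e) - w y)) * ψ (x - y) = t⁻¹ • (W (x + t • e) - W x) := by
    intro t
    have i1 : Integrable (fun y => ψ (x - y) * w (y + t • e)) volume := by
      apply Continuous.integrable_of_hasCompactSupport
      · exact (hψ.continuous.comp (continuous_const.sub continuous_id)).mul
          (hw.continuous.comp (continuous_id.add continuous_const))
      · exact hcs.mul_right
    have i2 : Integrable (fun y => ψ (x - y) * w y) volume := by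
      apply Continuous.integrable_of_hasCompactSupport
      · exact (hψ.continuous.comp (continuous_const.sub continuous_id)).mul hw.continuous
      · exact hcs.mul_right
    have e1 : W (x + t • e) = ∫ y, ψ (x - y) * w (y + t • e) := by
      rw [hW, moll_eq, ← integral_add_right_eq_self _ (t • e)]
      congr 1
      ext y
      congr 2
      abel
    rw [e1, hW, moll_eq, ← integral_sub i1 i2, smul_eq_mul, ← integral_const_mul]
    congr 1
    ext y
    simp only [smul_eq_mul]
    ring
  have h3 : Tendsto (fun t : ℝ => t⁻¹ • (W (x + t • e) - W x)) (𝓝[>] 0) (𝓝 (fderiv ℝ W x e)) := by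
    have := (hWd.hasFDerivAt.hasLineDerivAt e).tendsto_slope_zero
    exact this.mono_left (nhdsWithin_mono _ (fun t ht => ne_of_gt ht))
  have h4 := tendsto_nhds_unique (h1.congr h2) h3
  rw [← h4, moll_eq]
  congr 1
  ext y
  ring

lemma lipschitz_moll (hw : LipschitzWith K w) (hψ : ContDiff ℝ ∞ ψ) (hψc : HasCompactSupport ψ)
    (hψ0 : ∀ x, 0 ≤ ψ x) (hψ1 : ∫ x, ψ x = 1) :
    LipschitzWith K (ψ ⋆[ContinuousLinearMap.lsmul ℝ ℝ, volume] w) := by
  apply LipschitzWith.of_dist_le_mul
  intro x y
  have hi : ∀ z : E d, Integrable (fun t => ψ t * w (z - t)) volume := by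
    intro z
    apply Continuous.integrable_of_hasCompactSupport
    · exact hψ.continuous.mul (hw.continuous.comp (continuous_const.sub continuous_id))
    · exact hψc.mul_right
  rw [moll_eq', moll_eq', dist_eq_norm, ← integral_sub (hi x) (hi y)]
  have hb : ∀ t, ‖ψ t * w (x - t) - ψ t * w (y - t)‖ ≤ ψ t * (K * dist x y) := by
    intro t
    rw [← mul_sub, norm_mul, Real.norm_of_nonneg (hψ0 t)]
    apply mul_le_mul_of_nonneg_left _ (hψ0 t)
    have := hw.dist_le_mul (x - t) (y - t)
    rwa [dist_sub_right, dist_eq_norm] at this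
  have hψi : Integrable ψ volume := hψ.continuous.integrable_of_hasCompactSupport hψc
  calc ‖∫ t, (ψ t * w (x - t) - ψ t * w (y - t))‖
      ≤ ∫ t, ψ t * (K * dist x y) :=
        norm_integral_le_of_norm_le (hψi.mul_const _) (Eventually.of_forall hb)
    _ = K * dist x y := by rw [integral_mul_const, hψ1, one_mul]

end Moll

/-- The mollifiers. -/
noncomputable def bump (n : ℕ) : ContDiffBump (0 : E d) where
  rIn := 1 / (2 * ((n : ℝ) + 1))
  rOut := 1 / ((n : ℝ) + 1)
  rIn_pos := by positivity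
  rIn_lt_rOut := by
    apply one_div_lt_one_div_of_lt (by positivity)
    have : (0 : ℝ) ≤ n := Nat.cast_nonneg n
    linarith

noncomputable def molN (w : E d → ℝ) (n : ℕ) : E d → ℝ :=
  ((bump n : ContDiffBump (0 : E d)).normed volume) ⋆[ContinuousLinearMap.lsmul ℝ ℝ, volume] w

lemma rOut_bump (n : ℕ) : (bump n : ContDiffBump (0 : E d)).rOut = 1 / ((n : ℝ) + 1) := rfl

lemma tendsto_rOut : Tendsto (fun n => (bump n : ContDiffBump (0 : E d)).rOut) atTop (𝓝 0) := by
  simp only [rOut_bump]
  exact tendsto_one_div_add_atTop_nhds_zero_nat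

lemma rOut_le (n : ℕ) : (bump n : ContDiffBump (0 : E d)).rOut ≤
    2 * (bump n : ContDiffBump (0 : E d)).rIn := by
  show 1 / ((n : ℝ) + 1) ≤ 2 * (1 / (2 * ((n : ℝ) + 1)))
  apply le_of_eq
  field_simp

lemma rOut_le_one (n : ℕ) : (bump n : ContDiffBump (0 : E d)).rOut ≤ 1 := by
  rw [rOut_bump, div_le_one (by positivity)]
  have : (0 : ℝ) ≤ n := Nat.cast_nonneg n
  linarith only []

lemma contDiff_molN {w : E d → ℝ} {K : NNReal} (hw : LipschitzWith K w) (n : ℕ) :
    ContDiff ℝ ∞ (molN w n) :=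
  (bump n : ContDiffBump (0 : E d)).hasCompactSupport_normed.contDiff_convolution_left _
    ((bump n : ContDiffBump (0 : E d)).contDiff_normed) hw.continuous.locallyIntegrable

lemma lipschitz_molN {w : E d → ℝ} {K : NNReal} (hw : LipschitzWith K w) (n : ℕ) :
    LipschitzWith K (molN w n) :=
  lipschitz_moll hw ((bump n : ContDiffBump (0 : E d)).contDiff_normed)
    ((bump n : ContDiffBump (0 : E d)).hasCompactSupport_normed)
    ((bump n : ContDiffBump (0 : E d)).nonneg_normed)
    ((bump n : ContDiffBump (0 : E d)).integral_normed)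

lemma fderiv_molN {w : E d → ℝ} {K : NNReal} (hw : LipschitzWith K w) (n : ℕ) (x e : E d) :
    fderiv ℝ (molN w n) x e = (((bump n : ContDiffBump (0 : E d)).normed volume)
      ⋆[ContinuousLinearMap.lsmul ℝ ℝ, volume] (fun y => lineDeriv ℝ w y e)) x :=
  fderiv_moll hw ((bump n : ContDiffBump (0 : E d)).contDiff_normed)
    ((bump n : ContDiffBump (0 : E d)).hasCompactSupport_normed) x e

lemma locallyIntegrable_lineDeriv {w : E d → ℝ} {K : NNReal} (hw : LipschitzWith K w) (e : E d) :
    LocallyIntegrable (fun y => lineDeriv ℝ w y e) volume := by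
  have hm : AEStronglyMeasurable (fun y => lineDeriv ℝ w y e) volume :=
    aestronglyMeasurable_lineDeriv hw.continuous _
  have hb : ∀ y, ‖lineDeriv ℝ w y e‖ ≤ K * ‖e‖ := fun y => norm_lineDeriv_le_of_lipschitz ℝ hw
  have hL : MemLp (fun y => lineDeriv ℝ w y e) ⊤ volume := memLp_top_of_bound hm _ (Eventually.of_forall hb)
  exact hL.locallyIntegrable le_top

lemma ae_tendsto_fderiv_molN {w : E d → ℝ} {K : NNReal} (hw : LipschitzWith K w) (e : E d) :
    ∀ᵐ x : E d, Tendsto (fun n => fderiv ℝ (molN w n) x e) atTop (𝓝 (fderiv ℝ w x e)) := by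
  have h := ContDiffBump.ae_convolution_tendsto_right_of_locallyIntegrable (μ := volume)
    (φ := fun n => (bump n : ContDiffBump (0 : E d))) (l := atTop) (K := 2) tendsto_rOut
    (Eventually.of_forall rOut_le) (locallyIntegrable_lineDeriv hw e)
  filter_upwards [h, hw.ae_differentiableAt (μ := volume)] with x hx hd
  rw [← hd.lineDeriv_eq_fderiv]
  simp only [fderiv_molN hw]
  exact hx

lemma gradient_coord (f : E d → ℝ) (x : E d) (i : Fin d) :
    gradient f x i = fderiv ℝ f x (EuclideanSpace.single i 1) := by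
  rw [← inner_gradient, EuclideanSpace.inner_single_right]
  simp

lemma ae_tendsto_gradient_molN {w : E d → ℝ} {K : NNReal} (hw : LipschitzWith K w) :
    ∀ᵐ x : E d, Tendsto (fun n => ‖gradient w x - gradient (molN w n) x‖ ^ 2) atTop (𝓝 0) := by
  have h := ae_all_iff.mpr (fun i : Fin d => ae_tendsto_fderiv_molN hw (EuclideanSpace.single i 1))
  filter_upwards [h] with x hx
  have h1 : ∀ n, ‖gradient w x - gradient (molN w n) x‖ ^ 2 =
      ∑ i, (fderiv ℝ w x (EuclideanSpace.single i 1) -
        fderiv ℝ (molN w n) x (EuclideanSpace.single i 1)) ^ 2 := by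
    intro n
    rw [EuclideanSpace.real_norm_sq_eq]
    simp only [PiLp.sub_apply, gradient_coord]
  simp_rw [h1]
  have h2 : (0 : ℝ) = ∑ i : Fin d, (fderiv ℝ w x (EuclideanSpace.single i 1) -
      fderiv ℝ w x (EuclideanSpace.single i 1)) ^ 2 := by simp only [sub_self, ne_eq, OfNat.ofNat_ne_zero, not_false_eq_true, zero_pow, Finset.sum_const_zero]
  rw [h2]
  apply tendsto_finsetSum
  intro i _
  exact (tendsto_const_nhds.sub (hx i)).pow 2

lemma dist_molN {w : E d → ℝ} {K : NNReal} (hw : LipschitzWith K w) (n : ℕ) (x : E d) :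
    dist (molN w n x) (w x) ≤ K * (1 / ((n : ℝ) + 1)) := by
  apply ContDiffBump.dist_normed_convolution_le hw.continuous.aestronglyMeasurable
  intro y hy
  rw [rOut_bump] at hy
  have := hw.dist_le_mul y x
  refine this.trans ?_
  apply mul_le_mul_of_nonneg_left _ K.coe_nonneg
  exact (mem_ball.mp hy).le

lemma tendsto_molN {w : E d → ℝ} {K : NNReal} (hw : LipschitzWith K w) (x : E d) :
    Tendsto (fun n => (w x - molN w n x) ^ 2) atTop (𝓝 0) := by
  have h := ContDiffBump.convolution_tendsto_right_of_continuous (μ := volume)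
    (φ := fun n => (bump n : ContDiffBump (0 : E d))) (l := atTop) tendsto_rOut hw.continuous x
  have h2 : Tendsto (fun n => (w x - molN w n x) ^ 2) atTop (𝓝 ((w x - w x) ^ 2)) :=
    (tendsto_const_nhds.sub h).pow 2
  simpa only [sub_self, ne_eq, OfNat.ofNat_ne_zero, not_false_eq_true, zero_pow] using h2

lemma tsupport_molN {w : E d → ℝ} {B : Set (E d)} (hB : IsOpen B) (hwc : HasCompactSupport w)
    (hwB : tsupport w ⊆ B) : ∀ᶠ n in atTop, tsupport (molN w n) ⊆ B := by
  obtain ⟨δ, hδ, hδB⟩ := hwc.isCompact.exists_cthickening_subset_open hB hwB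
  have h1 : ∀ᶠ n in atTop, (bump n : ContDiffBump (0 : E d)).rOut < δ :=
    tendsto_rOut.eventually (gt_mem_nhds hδ)
  filter_upwards [h1] with n hn
  refine subset_trans ?_ hδB
  apply closure_minimal _ isClosed_cthickening
  intro x hx
  have h2 := support_convolution_subset (L := ContinuousLinearMap.lsmul ℝ ℝ) (μ := volume) hx
  rw [ContDiffBump.support_normed_eq] at h2
  obtain ⟨a, ha, b, hb, rfl⟩ := Set.mem_add.mp h2
  refine mem_cthickening_of_dist_le (a + b) b δ _ (subset_tsupport _ hb) ?_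
  rw [dist_eq_norm]
  have : ‖a‖ < (bump n : ContDiffBump (0 : E d)).rOut := by simpa using ha
  simpa only [add_sub_cancel_right, ge_iff_le] using (this.trans hn).le

/-- A Lipschitz function with compact support in a ball is in `H¹₀`. -/
lemma memH10_of_lipschitz {w : E d → ℝ} {K : NNReal} (hw : LipschitzWith K w)
    (hwc : HasCompactSupport w) (x₀ : E d) (r : ℝ) (hwB : tsupport w ⊆ ball x₀ r) :
    MemH10 (ball x₀ r) w (gradient w) := by
  have hfin : IsFiniteMeasure (volume.restrict (ball x₀ r)) := ⟨by simpa only [MeasurableSet.univ, Measure.restrict_apply, univ_inter] using measure_ball_lt_top⟩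
  refine ⟨memH1_of_lipschitz hw x₀ r, ?_⟩
  intro ε hε
  have t1 : Tendsto (fun n => ∫ x in ball x₀ r, (w x - molN w n x) ^ 2) atTop (𝓝 0) := by
    have : (0 : ℝ) = ∫ x in ball x₀ r, (0 : ℝ) := by simp
    rw [this]
    apply tendsto_integral_of_dominated_convergence (fun _ => (K : ℝ) ^ 2)
    · intro n
      exact ((hw.continuous.sub (contDiff_molN hw n).continuous).pow 2).aestronglyMeasurable
    · exact integrable_const _
    · intro n
      filter_upwards with x
      have h1 := dist_molN hw n x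
      have h2 : (K : ℝ) * (1 / ((n : ℝ) + 1)) ≤ K := by
        have := rOut_le_one (d := d) n
        rw [rOut_bump] at this
        calc (K : ℝ) * (1 / ((n : ℝ) + 1)) ≤ K * 1 := mul_le_mul_of_nonneg_left this K.coe_nonneg
          _ = K := mul_one _
      rw [Real.dist_eq, abs_sub_comm] at h1
      rw [norm_pow, Real.norm_eq_abs]
      exact pow_le_pow_left₀ (abs_nonneg _) (h1.trans h2) 2
    · filter_upwards with x
      exact tendsto_molN hw x
  have t2 : Tendsto (fun n => ∫ x in ball x₀ r, ‖gradient w x - gradient (molN w n) x‖ ^ 2)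
      atTop (𝓝 0) := by
    have : (0 : ℝ) = ∫ x in ball x₀ r, (0 : ℝ) := by simp
    rw [this]
    apply tendsto_integral_of_dominated_convergence (fun _ => (2 * K : ℝ) ^ 2)
    · intro n
      exact (((measurable_gradient w).sub (measurable_gradient (molN w n))).norm.pow_const 2).aestronglyMeasurable
    · exact integrable_const _
    · intro n
      filter_upwards with x
      rw [norm_pow, norm_norm]
      apply pow_le_pow_left₀ (norm_nonneg _)
      refine (norm_sub_le _ _).trans ?_
      rw [norm_gradient, norm_gradient]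
      have h1 : ‖fderiv ℝ w x‖ ≤ K := norm_fderiv_le_of_lipschitz ℝ hw
      have h2 : ‖fderiv ℝ (molN w n) x‖ ≤ K := norm_fderiv_le_of_lipschitz ℝ (lipschitz_molN hw n)
      linarith
    · exact ae_restrict_of_ae (ae_tendsto_gradient_molN hw)
  have t3 := t1.add t2
  rw [add_zero] at t3
  obtain ⟨n, hn1, hn2⟩ := ((t3.eventually (gt_mem_nhds hε)).and
    (tsupport_molN isOpen_ball hwc hwB)).exists
  refine ⟨molN w n, contDiff_molN hw n, ?_, hn2, hn1⟩
  exact ((bump n : ContDiffBump (0 : E d)).hasCompactSupport_normed).convolution _ hwc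


/-- Change the weak gradients on a null set. -/
lemma memH1_congr {B : Set (E d)} {w : E d → ℝ} {h h' : E d → E d}
    (hh : ∀ᵐ x ∂(volume.restrict B), h x = h' x) (H : MemH1 B w h) : MemH1 B w h' := by
  refine ⟨H.1, (memLp_congr_ae hh).mp H.2.1, ?_⟩
  intro φ hφ hφc hφB e
  rw [H.2.2 φ hφ hφc hφB e]
  congr 1
  apply integral_congr_ae
  filter_upwards [hh] with x hx
  rw [hx]

lemma memH10_congr {B : Set (E d)} {w : E d → ℝ} {h h' : E d → E d}
    (hh : ∀ᵐ x ∂(volume.restrict B), h x = h' x) (H : MemH10 B w h) : MemH10 B w h' := by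
  refine ⟨memH1_congr hh H.1, ?_⟩
  intro ε hε
  obtain ⟨φ, h1, h2, h3, h4⟩ := H.2 ε hε
  refine ⟨φ, h1, h2, h3, ?_⟩
  have : ∫ x in B, ‖h' x - gradient φ x‖ ^ 2 = ∫ x in B, ‖h x - gradient φ x‖ ^ 2 := by
    apply integral_congr_ae
    filter_upwards [hh] with x hx
    rw [hx]
  rw [this]
  exact h4

lemma energy_eq_lip (B : Set (E d)) (v : E d → ℝ) {g : E d → E d}
    (hg : ∀ᵐ x ∂(volume.restrict B), g x = gradient v x) :
    energy B v g = ∫ x in B, (‖fderiv ℝ v x‖ ^ 2 + {y | 0 < v y}.indicator (fun _ => (1 : ℝ)) x) := by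
  unfold energy
  apply integral_congr_ae
  filter_upwards [hg] with x hx
  rw [hx, norm_gradient]

lemma integrable_energy {v : E d → ℝ} {K : NNReal} (hv : LipschitzWith K v) (x₀ : E d) (r : ℝ) :
    Integrable (fun x => ‖fderiv ℝ v x‖ ^ 2 + {y | 0 < v y}.indicator (fun _ => (1 : ℝ)) x)
      (volume.restrict (ball x₀ r)) := by
  have hfin : IsFiniteMeasure (volume.restrict (ball x₀ r)) := ⟨by simpa only [MeasurableSet.univ, Measure.restrict_apply, univ_inter] using measure_ball_lt_top⟩
  have hpos : MeasurableSet {y | 0 < v y} := measurableSet_lt measurable_const hv.continuous.measurable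
  have hm : Measurable (fun x => ‖fderiv ℝ v x‖ ^ 2 + {y | 0 < v y}.indicator (fun _ => (1 : ℝ)) x) :=
    ((measurable_fderiv ℝ v).norm.pow_const 2).add (measurable_const.indicator hpos)
  refine Integrable.of_bound hm.aestronglyMeasurable ((K : ℝ) ^ 2 + 1) ?_
  filter_upwards with x
  have h1 : ‖fderiv ℝ v x‖ ≤ K := norm_fderiv_le_of_lipschitz ℝ hv
  have h2 : ‖fderiv ℝ v x‖ ^ 2 ≤ (K : ℝ) ^ 2 := pow_le_pow_left₀ (norm_nonneg _) h1 2
  have h3 : {y | 0 < v y}.indicator (fun _ => (1 : ℝ)) x ≤ 1 :=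
    indicator_le_self' (fun _ _ => zero_le_one) x
  have h4 : 0 ≤ {y | 0 < v y}.indicator (fun _ => (1 : ℝ)) x :=
    indicator_nonneg (fun _ _ => zero_le_one) x
  rw [Real.norm_of_nonneg (by (clear * - h4; positivity))]
  linarith only [h2, h3]

end ModA

open ModA in
/-- Module A: a Lipschitz global minimizer is a minimizer against compactly supported Lipschitz
perturbations, with pointwise gradients. -/
theorem lipMin_of_isGlobalMinimizer {u : E d → ℝ} {K : NNReal} (hK : LipschitzWith K u)
    (hu : IsGlobalMinimizer u) : LipMin u := by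
  intro v hv hv0 hc
  obtain ⟨L, hL⟩ := hv
  obtain ⟨hu0, g, hg⟩ := hu
  obtain ⟨r, hr0, hr⟩ : ∃ r : ℝ, 0 < r ∧ tsupport (fun x => v x - u x) ⊆ ball 0 r := by
    obtain ⟨r, hr⟩ := hc.isCompact.isBounded.subset_ball (0 : E d)
    exact ⟨max r 1, lt_max_of_lt_right one_pos, hr.trans (ball_subset_ball (le_max_left _ _))⟩
  obtain ⟨hgu, hmin⟩ := hg 0 r hr0
  have hgu' : ∀ᵐ x ∂(volume.restrict (ball (0 : E d) r)), g x = gradient u x :=
    weakGrad_unique hgu (memH1_of_lipschitz hK 0 r)
  have hdL : LipschitzWith (L + K) (fun x => v x - u x) := hL.sub hK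
  have hH10 : MemH10 (ball (0 : E d) r) (fun x => v x - u x) (fun x => gradient v x - g x) := by
    refine memH10_congr ?_ (memH10_of_lipschitz hdL hc 0 r hr)
    filter_upwards [hgu', ae_restrict_of_ae (hL.ae_differentiableAt (μ := volume)),
      ae_restrict_of_ae (hK.ae_differentiableAt (μ := volume))] with x hx hvx hux
    rw [hx]
    have : HasGradientAt (fun x => v x - u x) (gradient v x - gradient u x) x := by
      rw [hasGradientAt_iff_hasFDerivAt]
      rw [map_sub]
      exact (hvx.hasGradientAt.hasFDerivAt).sub (hux.hasGradientAt.hasFDerivAt)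
    exact this.gradient
  have key := hmin v (gradient v) hv0 (memH1_of_lipschitz hL 0 r) hH10
  rw [energy_eq_lip _ _ hgu', energy_eq_lip _ v (Eventually.of_forall fun _ => rfl)] at key
  have hz : ∀ x, x ∉ ball (0 : E d) r → ((‖fderiv ℝ v x‖ ^ 2 - ‖fderiv ℝ u x‖ ^ 2) +
      ({y | 0 < v y}.indicator (fun _ => (1 : ℝ)) x -
        {y | 0 < u y}.indicator (fun _ => (1 : ℝ)) x)) = 0 := by
    intro x hx
    have hx' : x ∉ tsupport (fun x => v x - u x) := fun h => hx (hr h)
    have hev : v =ᶠ[𝓝 x] u := by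
      have : (fun x => v x - u x) =ᶠ[𝓝 x] 0 := notMem_tsupport_iff_eventuallyEq.mp hx'
      filter_upwards [this] with y hy
      exact sub_eq_zero.mp hy
    rw [hev.fderiv_eq]
    have hvu : v x = u x := hev.eq_of_nhds
    have : {y | 0 < v y}.indicator (fun _ => (1 : ℝ)) x =
        {y | 0 < u y}.indicator (fun _ => (1 : ℝ)) x := by
      simp only [indicator_apply, mem_ofPred_eq, hvu]
    rw [this]
    ring
  rw [← setIntegral_eq_integral_of_forall_compl_eq_zero hz]
  have e : ∫ x in ball (0 : E d) r, ((‖fderiv ℝ v x‖ ^ 2 - ‖fderiv ℝ u x‖ ^ 2) +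
      ({y | 0 < v y}.indicator (fun _ => (1 : ℝ)) x -
        {y | 0 < u y}.indicator (fun _ => (1 : ℝ)) x)) =
      (∫ x in ball (0 : E d) r, (‖fderiv ℝ v x‖ ^ 2 + {y | 0 < v y}.indicator (fun _ => (1 : ℝ)) x)) -
      ∫ x in ball (0 : E d) r, (‖fderiv ℝ u x‖ ^ 2 + {y | 0 < u y}.indicator (fun _ => (1 : ℝ)) x) := by
    rw [← integral_sub (integrable_energy hL 0 r) (integrable_energy hK 0 r)]
    congr 1
    ext x
    ring
  rw [e]
  linarith only [key]

end Vale.Agent.P098
end

section

/-!
# P098, module C, part 1: tools (cutoffs, Lipschitz lemmas, compactness near the free boundary)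
-/

open MeasureTheory Set Metric Filter
open scoped ContDiff RealInnerProductSpace Topology

namespace Vale.Agent.P098

variable {d : ℕ}

namespace MC

/-- A smooth cutoff. -/
theorem exists_cutoff {K N : Set (E d)} (hK : IsCompact K) (hN : IsOpen N) (hKN : K ⊆ N) :
    ∃ χ : E d → ℝ, ContDiff ℝ ∞ χ ∧ HasCompactSupport χ ∧ tsupport χ ⊆ N ∧ (∀ x, 0 ≤ χ x) ∧
      (∀ x, χ x ≤ 1) ∧ ∃ O : Set (E d), IsOpen O ∧ K ⊆ O ∧ ∀ x ∈ O, χ x = 1 := by
  obtain ⟨L, hL, hKL, hLN⟩ := exists_compact_between hK hN hKN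
  obtain ⟨f, h1, h0, hf⟩ := exists_contMDiffMap_one_nhds_of_subset_interior
    (modelWithCornersSelf ℝ (E d)) (n := ⊤) hK.isClosed hKL
  have hsupp : tsupport (f : E d → ℝ) ⊆ L := by
    refine closure_minimal (fun x hx => ?_) hL.isClosed
    by_contra hxL
    exact hx (h0 x hxL)
  obtain ⟨O, hO, hKO, hO1⟩ := (eventually_nhdsSet_iff_exists).1 h1
  refine ⟨f, f.contMDiff.contDiff, HasCompactSupport.intro hL h0, hsupp.trans hLN,
    fun x => (hf x).1, fun x => (hf x).2, O, hO, hKO, hO1⟩

/-- Near the free boundary, a continuous function nonnegative on the free boundary is almost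
nonnegative. -/
theorem near_bdry {u : E d → ℝ} (hu : Continuous u) (h0 : ∀ x, 0 ≤ u x) {K : Set (E d)}
    (hK : IsCompact K) {f : E d → ℝ} (hf : ContinuousOn f K)
    (hb : ∀ x ∈ K, x ∈ frontier {y | 0 < u y} → 0 ≤ f x) {δ : ℝ} (hδ : 0 < δ) :
    ∃ ε₀ : ℝ, 0 < ε₀ ∧ ∀ x ∈ K, 0 < u x → u x < ε₀ → -δ < f x := by
  have hΩ : IsOpen {y | 0 < u y} := isOpen_lt continuous_const hu
  set A : Set (E d) := (K ∩ f ⁻¹' Iic (-δ)) ∩ closure {y | 0 < u y} with hA
  have hAc : IsCompact A := by
    refine (hK.of_isClosed_subset (hf.preimage_isClosed_of_isClosed hK.isClosed isClosed_Iic)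
      inter_subset_left).inter_right isClosed_closure
  rcases A.eq_empty_or_nonempty with hAe | hAn
  · refine ⟨1, one_pos, fun x hx hux _ => ?_⟩
    by_contra hfx
    have : x ∈ A := ⟨⟨hx, not_lt.1 hfx⟩, subset_closure hux⟩
    rw [hAe] at this
    exact this
  · obtain ⟨x₀, hx₀, hmin⟩ := hAc.exists_isMinOn hAn hu.continuousOn
    have hpos : 0 < u x₀ := by
      rcases (h0 x₀).lt_or_eq with h | h
      · exact h
      · exfalso
        have hfr : x₀ ∈ frontier {y | 0 < u y} := by
          rw [hΩ.frontier_eq]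
          exact ⟨hx₀.2, fun hlt => by rw [mem_ofPred_eq] at hlt; linarith only [h, hlt]⟩
        have h1 := hb x₀ hx₀.1.1 hfr
        have h2 : f x₀ ≤ -δ := hx₀.1.2
        linarith only [hδ, h1, h2]
    refine ⟨u x₀, hpos, fun x hx hux hlt => ?_⟩
    by_contra hfx
    have : x ∈ A := ⟨⟨hx, not_lt.1 hfx⟩, subset_closure hux⟩
    exact absurd (hmin this) (not_le.2 hlt)

/-- Product of bounded Lipschitz functions. -/
theorem lip_mul {f g : E d → ℝ} {K K' : NNReal} (hf : LipschitzWith K f)
    (hg : LipschitzWith K' g) {M M' : ℝ} (hM : ∀ x, |f x| ≤ M) (hM' : ∀ x, |g x| ≤ M') :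
    ∃ K'' : NNReal, LipschitzWith K'' (fun x => f x * g x) := by
  have hM0 : 0 ≤ M := (abs_nonneg _).trans (hM 0)
  have hM0' : 0 ≤ M' := (abs_nonneg _).trans (hM' 0)
  refine ⟨⟨M * K' + M' * K, by (clear * - hM0 hM0'; positivity)⟩, LipschitzWith.of_dist_le_mul fun x y => ?_⟩
  rw [Real.dist_eq]
  have h1 : f x * g x - f y * g y = f x * (g x - g y) + g y * (f x - f y) := by ring
  have h2 := hf.dist_le_mul x y
  have h3 := hg.dist_le_mul x y
  rw [Real.dist_eq] at h2 h3
  rw [h1]
  refine (abs_add_le _ _).trans ?_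
  rw [abs_mul, abs_mul]
  change _ ≤ (M * K' + M' * K) * dist x y
  have h4 : |f x| * |g x - g y| ≤ M * (K' * dist x y) :=
    mul_le_mul (hM x) h3 (abs_nonneg _) hM0
  have h5 : |g y| * |f x - f y| ≤ M' * (K * dist x y) :=
    mul_le_mul (hM' y) h2 (abs_nonneg _) hM0'
  linarith only [h4, h5]

/-- A Lipschitz function vanishing on the frontier, extended by zero, is Lipschitz. -/
theorem lip_indicator {Ω : Set (E d)} {h : E d → ℝ} {K : NNReal} (hh : LipschitzWith K h)
    (hfr : ∀ x ∈ frontier Ω, h x = 0) : LipschitzWith K (Ω.indicator h) := by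
  have key : ∀ x ∈ Ω, ∀ y ∉ Ω, |h x| ≤ K * dist x y := by
    intro x hx y hy
    obtain ⟨z, hz, hzf⟩ : ∃ z ∈ segment ℝ x y, z ∈ frontier Ω := by
      by_contra hcon
      push Not at hcon
      have hsub : segment ℝ x y ⊆ interior Ω ∪ interior Ωᶜ := by
        intro z hz
        rw [← compl_frontier_eq_union_interior]
        exact hcon z hz
      have h1 : (segment ℝ x y ∩ interior Ω).Nonempty := by
        refine ⟨x, left_mem_segment ℝ x y, ?_⟩
        rcases hsub (left_mem_segment ℝ x y) with h | h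
        · exact h
        · exact absurd hx (interior_subset h)
      have h2 : (segment ℝ x y ∩ interior Ωᶜ).Nonempty := by
        refine ⟨y, right_mem_segment ℝ x y, ?_⟩
        rcases hsub (right_mem_segment ℝ x y) with h | h
        · exact absurd (interior_subset h) hy
        · exact h
      obtain ⟨z, -, hz1, hz2⟩ := (convex_segment x y).isPreconnected _ _ isOpen_interior
        isOpen_interior hsub h1 h2
      exact interior_subset hz2 (interior_subset hz1)
    have h1 := hh.dist_le_mul x z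
    rw [hfr z hzf, Real.dist_eq, sub_zero] at h1
    refine h1.trans ?_
    gcongr
    have := dist_add_dist_of_mem_segment hz
    have h2 : 0 ≤ dist z y := dist_nonneg
    linarith only [this, h2]
  refine LipschitzWith.of_dist_le_mul fun x y => ?_
  rw [Real.dist_eq]
  by_cases hx : x ∈ Ω
  · by_cases hy : y ∈ Ω
    · rw [indicator_of_mem hx, indicator_of_mem hy, ← Real.dist_eq]
      exact hh.dist_le_mul x y
    · rw [indicator_of_mem hx, indicator_of_notMem hy, sub_zero]
      exact key x hx y hy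
  · by_cases hy : y ∈ Ω
    · rw [indicator_of_notMem hx, indicator_of_mem hy, zero_sub, abs_neg, dist_comm]
      exact key y hy x hx
    · rw [indicator_of_notMem hx, indicator_of_notMem hy, sub_zero, abs_zero]
      (clear * -; positivity)

/-- `arctan` is `1`-Lipschitz. -/
theorem lip_arctan : LipschitzWith 1 Real.arctan := by
  refine lipschitzWith_of_nnnorm_deriv_le Real.differentiable_arctan fun x => ?_
  rw [Real.deriv_arctan, ← NNReal.coe_le_coe, coe_nnnorm, Real.norm_eq_abs, NNReal.coe_one,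
    abs_of_pos (by positivity), div_le_one (by positivity)]
  (by_contra nlg; linarith [mul_pos (sub_pos.2 (not_le.1 nlg)) (sub_pos.2 (not_le.1 nlg)), mul_nonneg (sq_nonneg (x : ℝ)) (le_of_lt (sub_pos.2 (not_le.1 nlg)))])

theorem abs_arctan_le (x : ℝ) : |Real.arctan x| ≤ 2 := by
  rw [abs_le]
  constructor
  · linarith only [Real.neg_pi_div_two_lt_arctan x, Real.pi_lt_four]
  · linarith [Real.arctan_lt_pi_div_two x, Real.pi_lt_four]

/-- Gradients of a nonnegative function vanish where the function vanishes. -/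
theorem gradient_eq_zero_of_eq_zero {u : E d → ℝ} (h0 : ∀ x, 0 ≤ u x) {x : E d}
    (hx : u x = 0) : gradient u x = 0 := by
  have h1 : fderiv ℝ u x = 0 := by
    refine IsLocalMin.fderiv_eq_zero (Eventually.of_forall fun y => ?_)
    rw [hx]
    exact h0 y
  rw [gradient, h1, map_zero]

theorem norm_gradient_le {u : E d → ℝ} {K : NNReal} (hK : LipschitzWith K u) (x : E d) :
    ‖gradient u x‖ ≤ K := by
  rw [gradient, LinearIsometryEquiv.norm_map]
  exact norm_fderiv_le_of_lipschitz ℝ hK

theorem measurable_gradient (u : E d → ℝ) : Measurable (gradient u) := by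
  have h1 : Measurable (fderiv ℝ u) := measurable_fderiv ℝ u
  exact (LinearIsometryEquiv.continuous _).measurable.comp h1

theorem _root_.Vale.Agent.P098.LocalExt.mc_eventuallyEq {u : E d → ℝ} (hu : Continuous u) {N : Set (E d)} {U : E d → ℝ}
    (hU : LocalExt u N U) {x : E d} (hx : x ∈ N) (hux : 0 < u x) : u =ᶠ[𝓝 x] U := by
  have h1 : ∀ᶠ y in 𝓝 x, y ∈ N := hU.isOpen.mem_nhds hx
  have h2 : ∀ᶠ y in 𝓝 x, 0 < u y := hu.continuousAt.eventually (lt_mem_nhds hux)
  filter_upwards [h1, h2] with y hy1 hy2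
  exact (hU.eq y hy1 hy2).symm

end MC

end Vale.Agent.P098
end

section

/-!
# P098, module C, part 2: boundary layer estimates, one-sided divergence theorem
-/

open MeasureTheory Set Metric Filter
open scoped ContDiff RealInnerProductSpace Topology

namespace Vale.Agent.P098

variable {d : ℕ}

namespace MC

theorem integrable_of_bdd {f : E d → ℝ} {S : Set (E d)} (hf : Measurable f)
    (hS : IsCompact S) (h0 : ∀ x, x ∉ S → f x = 0) {C : ℝ} (hC : ∀ x ∈ S, |f x| ≤ C) :
    Integrable f := by
  have h1 : IntegrableOn f S := by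
    refine Measure.integrableOn_of_bounded (M := C) hS.measure_ne_top hf.aestronglyMeasurable ?_
    exact (ae_restrict_iff' hS.measurableSet).2 (Eventually.of_forall hC)
  exact (integrableOn_iff_integrable_of_support_subset fun x hx => by
    by_contra hxS
    exact hx (h0 x hxS)).1 h1

/-- `∫ χ |∇u|² / (1 + (u/ε)²) ≤ C ε`. -/
theorem layer_bound {u : E d → ℝ} {K : NNReal} (hK : LipschitzWith K u) (h0 : ∀ x, 0 ≤ u x)
    (hmin : LipMin u) {χ : E d → ℝ} (hχ : ContDiff ℝ ∞ χ) (hχc : HasCompactSupport χ) :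
    ∃ C : ℝ, 0 ≤ C ∧ ∀ ε : ℝ, 0 < ε →
      ∫ x, χ x * (‖gradient u x‖ ^ 2 / (1 + (u x / ε) ^ 2)) ≤ C * ε := by
  obtain ⟨K', hK'⟩ := ContDiff.lipschitzWith_of_hasCompactSupport hχc hχ (by simp)
  obtain ⟨M, hM⟩ := hχc.exists_bound_of_continuous hχ.continuous
  have hmu : Measurable u := hK.continuous.measurable
  have hmg : Measurable (gradient u) := measurable_gradient u
  have hmχ : Measurable (gradient χ) := measurable_gradient χ
  refine ⟨2 * ∫ x, |⟪gradient u x, gradient χ x⟫|, by (clear * -; positivity), fun ε hε => ?_⟩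
  have hχ0 : ∀ x, x ∉ tsupport χ → gradient χ x = 0 := by
    intro x hx
    have : fderiv ℝ χ x = 0 := by
      by_contra hne
      exact hx (support_fderiv_subset ℝ hne)
    rw [gradient, this, map_zero]
  -- Lipschitz functions
  have hε' : LipschitzWith (Real.toNNReal ε⁻¹ * K) fun x => u x / ε := by
    refine LipschitzWith.of_dist_le_mul fun x y => ?_
    have := hK.dist_le_mul x y
    rw [Real.dist_eq] at this ⊢
    rw [← sub_div, abs_div, abs_of_pos hε, NNReal.coe_mul, Real.coe_toNNReal _ (by positivity),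
      div_eq_inv_mul, mul_assoc]
    gcongr
  have ha : LipschitzWith (1 * (Real.toNNReal ε⁻¹ * K)) fun x => Real.arctan (u x / ε) :=
    lip_arctan.comp hε'
  obtain ⟨K'', hζ⟩ := lip_mul ha hK' (fun x => abs_arctan_le _) hM
  have hζc : HasCompactSupport fun x => Real.arctan (u x / ε) * χ x := hχc.mul_left
  have hζ0 : ∀ x, u x = 0 → Real.arctan (u x / ε) * χ x = 0 := by
    intro x hx
    simp [hx]
  have hfv := firstVar hK h0 hmin hζ hζc hζ0
  -- pointwise formula
  have hpt : ∀ᵐ x : E d, ⟪gradient u x, gradient (fun x => Real.arctan (u x / ε) * χ x) x⟫ =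
      ε⁻¹ * (χ x * (‖gradient u x‖ ^ 2 / (1 + (u x / ε) ^ 2))) +
        Real.arctan (u x / ε) * ⟪gradient u x, gradient χ x⟫ := by
    filter_upwards [hK.ae_differentiableAt] with x hx
    have h1 : HasFDerivAt (fun y => u y / ε) (ε⁻¹ • fderiv ℝ u x) x := by
      have := hx.hasFDerivAt.const_smul ε⁻¹
      refine this.congr_of_eventuallyEq (Eventually.of_forall fun y => ?_)
      simp only [div_eq_inv_mul, Pi.smul_apply, smul_eq_mul]
    have h2 := h1.arctan
    have h3 : HasFDerivAt χ (fderiv ℝ χ x) x :=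
      (hχ.differentiable (by simp)).differentiableAt.hasFDerivAt
    have h4 := h2.mul h3
    rw [real_inner_comm, inner_gradient_left, real_inner_comm, inner_gradient_left]
    have h5 : fderiv ℝ (fun x => Real.arctan (u x / ε) * χ x) x = _ := h4.fderiv
    rw [h5]
    simp only [add_apply, smul_apply, smul_eq_mul]
    rw [← inner_gradient_left (f := u), real_inner_self_eq_norm_sq]
    ring
  rw [integral_congr_ae hpt] at hfv
  have hS : IsCompact (tsupport χ) := hχc
  have hi1 : Integrable fun x =>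
      ε⁻¹ * (χ x * (‖gradient u x‖ ^ 2 / (1 + (u x / ε) ^ 2))) := by
    refine (integrable_of_bdd (S := tsupport χ) (C := M * (K : ℝ) ^ 2) ?_ hS ?_ ?_).const_mul _
    · exact hχ.continuous.measurable.mul ((hmg.norm.pow_const 2).div
        (((hmu.div_const ε).pow_const 2).const_add 1))
    · intro x hx
      rw [image_eq_zero_of_notMem_tsupport hx, zero_mul]
    · intro x _
      have h1 : ‖gradient u x‖ ^ 2 ≤ (K : ℝ) ^ 2 :=
        pow_le_pow_left₀ (norm_nonneg _) (norm_gradient_le hK x) 2
      have h2 : (1 : ℝ) ≤ 1 + (u x / ε) ^ 2 := by (clear * -; linarith [sq_nonneg (u x / ε)])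
      rw [abs_mul]
      refine mul_le_mul (hM x) ?_ (abs_nonneg _) ((norm_nonneg _).trans (hM x))
      rw [abs_of_nonneg (by (clear * -; positivity))]
      exact (div_le_self (by (clear * -; positivity)) h2).trans h1
  have hi0 : Integrable fun x => ⟪gradient u x, gradient χ x⟫ := by
    refine integrable_of_bdd (S := tsupport χ) (C := (K : ℝ) * K') ?_ hS ?_ ?_
    · exact hmg.inner hmχ
    · intro x hx
      rw [hχ0 x hx, inner_zero_right]
    · intro x _
      exact (abs_real_inner_le_norm _ _).trans (mul_le_mul (norm_gradient_le hK x)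
        (norm_gradient_le hK' x) (norm_nonneg _) K.2)
  have hi2 : Integrable fun x => Real.arctan (u x / ε) * ⟪gradient u x, gradient χ x⟫ := by
    refine integrable_of_bdd (S := tsupport χ) (C := 2 * ((K : ℝ) * K')) ?_ hS ?_ ?_
    · exact (Real.measurable_arctan.comp (hmu.div_const ε)).mul (hmg.inner hmχ)
    · intro x hx
      rw [hχ0 x hx, inner_zero_right, mul_zero]
    · intro x _
      rw [abs_mul]
      refine mul_le_mul (abs_arctan_le _) ?_ (abs_nonneg _) (by norm_num)
      exact (abs_real_inner_le_norm _ _).trans (mul_le_mul (norm_gradient_le hK x)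
        (norm_gradient_le hK' x) (norm_nonneg _) K.2)
  rw [integral_add hi1 hi2, integral_const_mul] at hfv
  have h6 : -(∫ x, Real.arctan (u x / ε) * ⟪gradient u x, gradient χ x⟫) ≤
      2 * ∫ x, |⟪gradient u x, gradient χ x⟫| := by
    rw [← integral_neg, ← integral_const_mul]
    refine integral_mono hi2.neg (hi0.abs.const_mul 2) fun x => ?_
    refine (neg_le_abs _).trans ?_
    rw [abs_mul]
    exact mul_le_mul_of_nonneg_right (abs_arctan_le _) (abs_nonneg _)
  have h7 : ε⁻¹ * ∫ x, χ x * (‖gradient u x‖ ^ 2 / (1 + (u x / ε) ^ 2)) ≤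
      2 * ∫ x, |⟪gradient u x, gradient χ x⟫| := by linarith only [hfv, h6]
  rw [inv_mul_le_iff₀ hε] at h7
  linarith only [h7]

end MC

end Vale.Agent.P098
end

section

/-!
# P098, module C, part 3: layer estimates, one-sided divergence theorem
-/

open MeasureTheory Set Metric Filter
open scoped ContDiff RealInnerProductSpace Topology

namespace Vale.Agent.P098

variable {d : ℕ}

namespace MC

theorem contDiff_gradient {U : E d → ℝ} (hU : ContDiff ℝ ∞ U) : ContDiff ℝ ∞ (gradient U) := by
  have h1 : ContDiff ℝ ∞ (fderiv ℝ U) := hU.fderiv_right (by simp)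
  exact (LinearIsometryEquiv.contDiff _).comp h1

theorem _root_.Vale.Agent.P098.LocalExt.mc_gradient_eq {u : E d → ℝ} (hu : Continuous u) {N : Set (E d)} {U : E d → ℝ}
    (hU : LocalExt u N U) {x : E d} (hx : x ∈ N) (hux : 0 < u x) :
    gradient u x = gradient U x :=
  (hU.mc_eventuallyEq hu hx hux).gradient_eq

theorem measurable_layer {u : E d → ℝ} (hu : Measurable u) (ε : ℝ) :
    Measurable fun x => 1 / (1 + (u x / ε) ^ 2) :=
  (((hu.div_const ε).pow_const 2).const_add 1).const_div 1

theorem layer_le_one (a : ℝ) : 1 / (1 + a ^ 2) ≤ 1 := by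
  rw [div_le_one (by positivity)]
  linarith only [sq_nonneg a]

theorem integrableOn_layer {u : E d → ℝ} (hu : Measurable u) (ε : ℝ) {S : Set (E d)}
    (hS : IsCompact S) : IntegrableOn (fun x => 1 / (1 + (u x / ε) ^ 2)) S := by
  refine Measure.integrableOn_of_bounded (M := 1) hS.measure_ne_top
    (measurable_layer hu ε).aestronglyMeasurable (Eventually.of_forall fun x => ?_)
  rw [Real.norm_eq_abs, abs_of_nonneg (by (clear * -; positivity))]
  exact layer_le_one _

/-- Layer estimate on a compact subset of `N`. -/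
theorem layer_est {u : E d → ℝ} {K : NNReal} (hK : LipschitzWith K u) (h0 : ∀ x, 0 ≤ u x)
    (hmin : LipMin u) {N : Set (E d)} {U : E d → ℝ} (hU : LocalExt u N U)
    (hUs : ContDiff ℝ ∞ U) {S : Set (E d)} (hS : IsCompact S) (hSN : S ⊆ N) :
    ∃ C : ℝ, 0 ≤ C ∧ ∃ ε₀ : ℝ, 0 < ε₀ ∧ ∀ ε : ℝ, 0 < ε →
      ∫ x in S ∩ {x | 0 < u x ∧ u x < ε₀}, 1 / (1 + (u x / ε) ^ 2) ≤ C * ε := by
  have hu := hK.continuous
  have hmu : Measurable u := hu.measurable
  have hmg : Measurable (gradient u) := measurable_gradient u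
  obtain ⟨χ, hχ, hχc, hχN, hχ0, hχ1, O, hO, hSO, hO1⟩ := exists_cutoff hS hU.isOpen hSN
  obtain ⟨C, hC0, hC⟩ := layer_bound hK h0 hmin hχ hχc
  have hgU := (contDiff_gradient hUs).continuous
  obtain ⟨ε₀, hε₀, hnear⟩ := near_bdry hu h0 hS (f := fun x => ‖gradient U x‖ ^ 2 - 1)
    (by (clear * - hgU; fun_prop)) (fun x hx hxf => by rw [hU.grad x (hSN hx) hxf]; norm_num)
    (δ := 3 / 4) (by norm_num)
  refine ⟨4 * C, by (clear * - hC0; positivity), ε₀, hε₀, fun ε hε => ?_⟩
  have hms : MeasurableSet (S ∩ {x | 0 < u x ∧ u x < ε₀}) :=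
    hS.measurableSet.inter ((measurableSet_lt measurable_const hmu).inter
      (measurableSet_lt hmu measurable_const))
  have hsub : S ∩ {x | 0 < u x ∧ u x < ε₀} ⊆ S := inter_subset_left
  have hi : Integrable fun x => χ x * (‖gradient u x‖ ^ 2 / (1 + (u x / ε) ^ 2)) := by
    refine integrable_of_bdd (S := tsupport χ) (C := (K : ℝ) ^ 2) ?_ hχc ?_ ?_
    · exact hχ.continuous.measurable.mul ((hmg.norm.pow_const 2).div
        (((hmu.div_const ε).pow_const 2).const_add 1))
    · intro x hx
      rw [image_eq_zero_of_notMem_tsupport hx, zero_mul]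
    · intro x _
      have h1 : ‖gradient u x‖ ^ 2 ≤ (K : ℝ) ^ 2 :=
        pow_le_pow_left₀ (norm_nonneg _) (norm_gradient_le hK x) 2
      have h2 : (1 : ℝ) ≤ 1 + (u x / ε) ^ 2 := by linarith [sq_nonneg (u x / ε)]
      rw [abs_of_nonneg (mul_nonneg (hχ0 x) (by (clear * -; positivity)))]
      refine (mul_le_of_le_one_left (by (clear * -; positivity)) (hχ1 x)).trans ?_
      exact (div_le_self (by (clear * -; positivity)) h2).trans h1
  have h1 : ∫ x in S ∩ {x | 0 < u x ∧ u x < ε₀}, 1 / (1 + (u x / ε) ^ 2) ≤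
      ∫ x in S ∩ {x | 0 < u x ∧ u x < ε₀},
        4 * (χ x * (‖gradient u x‖ ^ 2 / (1 + (u x / ε) ^ 2))) := by
    refine setIntegral_mono_on ((integrableOn_layer hmu ε hS).mono_set hsub)
      (hi.integrableOn.const_mul 4) hms fun x hx => ?_
    have h2 := hnear x hx.1 hx.2.1 hx.2.2
    rw [hO1 x (hSO hx.1), hU.mc_gradient_eq hu (hSN hx.1) hx.2.1, one_mul, ← mul_div_assoc]
    gcongr
    linarith only [h2]
  refine h1.trans ?_
  rw [integral_const_mul]
  have h2 : ∫ x in S ∩ {x | 0 < u x ∧ u x < ε₀},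
      χ x * (‖gradient u x‖ ^ 2 / (1 + (u x / ε) ^ 2)) ≤
      ∫ x, χ x * (‖gradient u x‖ ^ 2 / (1 + (u x / ε) ^ 2)) :=
    setIntegral_le_integral hi (Eventually.of_forall fun x => mul_nonneg (hχ0 x) (by (clear * -; positivity)))
  have h3 := hC ε hε
  linarith

/-- The measure of a boundary layer. -/
theorem layer_volume {u : E d → ℝ} {K : NNReal} (hK : LipschitzWith K u) (h0 : ∀ x, 0 ≤ u x)
    (hmin : LipMin u) {N : Set (E d)} {U : E d → ℝ} (hU : LocalExt u N U)
    (hUs : ContDiff ℝ ∞ U) {S : Set (E d)} (hS : IsCompact S) (hSN : S ⊆ N) :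
    ∃ C : ℝ, 0 ≤ C ∧ ∃ ε₀ : ℝ, 0 < ε₀ ∧ ∀ ε : ℝ, 0 < ε → ε < ε₀ →
      volume.real (S ∩ {x | 0 < u x ∧ u x < ε}) ≤ C * ε := by
  have hmu : Measurable u := hK.continuous.measurable
  obtain ⟨C, hC0, ε₀, hε₀, hC⟩ := layer_est hK h0 hmin hU hUs hS hSN
  refine ⟨2 * C, by (clear * - hC0; positivity), ε₀, hε₀, fun ε hε hεlt => ?_⟩
  have hms : ∀ ε, MeasurableSet (S ∩ {x | 0 < u x ∧ u x < ε}) := fun ε =>
    hS.measurableSet.inter ((measurableSet_lt measurable_const hmu).inter
      (measurableSet_lt hmu measurable_const))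
  have hfin : volume (S ∩ {x | 0 < u x ∧ u x < ε}) ≠ ⊤ :=
    measure_ne_top_of_subset inter_subset_left hS.measure_ne_top
  have h1 : volume.real (S ∩ {x | 0 < u x ∧ u x < ε}) =
      ∫ x in S ∩ {x | 0 < u x ∧ u x < ε}, (1 : ℝ) := by
    rw [setIntegral_const, smul_eq_mul, mul_one]
  have h2 : ∫ x in S ∩ {x | 0 < u x ∧ u x < ε}, (1 : ℝ) ≤
      ∫ x in S ∩ {x | 0 < u x ∧ u x < ε}, 2 * (1 / (1 + (u x / ε) ^ 2)) := by
    refine setIntegral_mono_on (integrableOn_const hfin)
      (((integrableOn_layer hmu ε hS).mono_set inter_subset_left).const_mul 2) (hms ε)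
      fun x hx => ?_
    have h3 : u x / ε < 1 := (div_lt_one hε).2 hx.2.2
    have h4 : 0 ≤ u x / ε := div_nonneg (h0 x) hε.le
    rw [mul_one_div, le_div_iff₀ (by (clear * -; positivity))]
    nlinarith only [h3, h4]
  have h5 : ∫ x in S ∩ {x | 0 < u x ∧ u x < ε}, 2 * (1 / (1 + (u x / ε) ^ 2)) ≤
      ∫ x in S ∩ {x | 0 < u x ∧ u x < ε₀}, 2 * (1 / (1 + (u x / ε) ^ 2)) := by
    refine setIntegral_mono_set
      (((integrableOn_layer hmu ε hS).mono_set inter_subset_left).const_mul 2)
      (Eventually.of_forall fun x => by (clear * -; positivity)) ?_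
    have h6 : S ∩ {x | 0 < u x ∧ u x < ε} ⊆ S ∩ {x | 0 < u x ∧ u x < ε₀} :=
      fun x hx => ⟨hx.1, hx.2.1, hx.2.2.trans hεlt⟩
    exact h6.eventuallyLE
  rw [h1]
  refine (h2.trans h5).trans ?_
  rw [integral_const_mul]
  have := hC ε hε
  linarith only [this]

theorem eq_sum_ee (v : E d) : v = ∑ i, v i • ee i := by
  ext j
  simp only [ee, WithLp.ofLp_sum, WithLp.ofLp_smul, PiLp.ofLp_single, Finset.sum_apply, Pi.smul_apply, Pi.single_apply, smul_eq_mul, mul_ite, mul_one, mul_zero, Finset.sum_ite_eq, Finset.mem_univ, ↓reduceIte]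

/-- Integration by parts. -/
theorem integral_mul_divg {ψ : E d → ℝ} {K : NNReal} (hψ : LipschitzWith K ψ) {G : E d → E d}
    (hG : ContDiff ℝ 1 G) (hGc : HasCompactSupport G) :
    ∫ x, ψ x * divg G x = - ∫ x, ⟪gradient ψ x, G x⟫ := by
  have hGi : ∀ i, ContDiff ℝ 1 fun x => G x i := fun i => by fun_prop
  have hGci : ∀ i, HasCompactSupport fun x => G x i := fun i =>
    hGc.comp_left (g := fun v : E d => v i) rfl
  have hLip : ∀ i, ∃ C, LipschitzWith C fun x => G x i := fun i =>
    ContDiff.lipschitzWith_of_hasCompactSupport (hGci i) (hGi i) (by simp)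
  have hparts : ∀ i, ∫ x, fderiv ℝ ψ x (ee i) * G x i = - ∫ x, ψ x * fderiv ℝ G x (ee i) i := by
    intro i
    obtain ⟨C, hC⟩ := hLip i
    have h1 := hψ.integral_lineDeriv_mul_eq (μ := volume) hC (hGci i) (ee i)
    have h2 : ∫ x, lineDeriv ℝ ψ x (ee i) * G x i = ∫ x, fderiv ℝ ψ x (ee i) * G x i := by
      refine integral_congr_ae ?_
      filter_upwards [hψ.ae_differentiableAt] with x hx
      rw [hx.lineDeriv_eq_fderiv]
    have h3 : ∀ x, lineDeriv ℝ (fun x => G x i) x (-(ee i)) * ψ x =
        - (ψ x * fderiv ℝ G x (ee i) i) := by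
      intro x
      have hd : DifferentiableAt ℝ (fun x => G x i) x :=
        ((hGi i).differentiable (by simp)).differentiableAt
      have hdG : DifferentiableAt ℝ G x := (hG.differentiable (by simp)).differentiableAt
      rw [hd.lineDeriv_eq_fderiv, map_neg]
      have h4 : fderiv ℝ (fun x => G x i) x = (EuclideanSpace.proj i).comp (fderiv ℝ G x) :=
        ((EuclideanSpace.proj (𝕜 := ℝ) i).hasFDerivAt.comp x hdG.hasFDerivAt).fderiv
      rw [h4]
      simp only [ContinuousLinearMap.comp_apply, PiLp.proj_apply, neg_mul, neg_inj]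
      ring
    rw [← h2, h1]
    simp_rw [h3]
    rw [integral_neg]
  have hint1 : ∀ i, Integrable fun x => ψ x * fderiv ℝ G x (ee i) i := by
    intro i
    have hc : Continuous fun x => fderiv ℝ G x (ee i) i := by
      have := hG.continuous_fderiv (by simp)
      (clear * - hG; fun_prop)
    refine (hψ.continuous.mul hc).integrable_of_hasCompactSupport ?_
    refine HasCompactSupport.mul_left ?_
    exact (hGc.fderiv ℝ).comp_left (g := fun L : E d →L[ℝ] E d => L (ee i) i) (by simp)
  have hint2 : ∀ i, Integrable fun x => fderiv ℝ ψ x (ee i) * G x i := by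
    intro i
    obtain ⟨M, hM⟩ := (hGci i).exists_bound_of_continuous (hGi i).continuous
    refine integrable_of_bdd (S := tsupport G) (C := K * M) ?_ hGc ?_ ?_
    · exact (measurable_fderiv_apply_const ℝ ψ (ee i)).mul (hGi i).continuous.measurable
    · intro x hx
      rw [image_eq_zero_of_notMem_tsupport hx]
      simp
    · intro x _
      rw [abs_mul]
      refine mul_le_mul ?_ (hM x) (abs_nonneg _) K.2
      have h1 := (fderiv ℝ ψ x).le_opNorm (ee i)
      have h2 : ‖(ee i : E d)‖ = 1 := by simp only [ee, PiLp.norm_single, norm_one]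
      rw [h2, mul_one] at h1
      exact h1.trans (norm_fderiv_le_of_lipschitz ℝ hψ)
  have h1 : ∀ x, ψ x * divg G x = ∑ i, ψ x * fderiv ℝ G x (ee i) i := by
    intro x
    rw [divg, Finset.mul_sum]
  have h2 : ∀ x, ⟪gradient ψ x, G x⟫ = ∑ i, fderiv ℝ ψ x (ee i) * G x i := by
    intro x
    rw [inner_gradient_left]
    conv_lhs => rw [eq_sum_ee (G x), map_sum]
    refine Finset.sum_congr rfl fun i _ => ?_
    rw [map_smul, smul_eq_mul, mul_comm]
  simp_rw [h1, h2]
  rw [integral_finsetSum _ fun i _ => hint1 i, integral_finsetSum _ fun i _ => hint2 i,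
    ← Finset.sum_neg_distrib]
  refine Finset.sum_congr rfl fun i _ => ?_
  rw [hparts i, neg_neg]

/-- One-sided divergence theorem. -/
theorem one_sided_div {u : E d → ℝ} {K : NNReal} (hK : LipschitzWith K u) (h0 : ∀ x, 0 ≤ u x)
    (hmin : LipMin u) {N : Set (E d)} {U : E d → ℝ} (hU : LocalExt u N U)
    (hUs : ContDiff ℝ ∞ U) {G : E d → E d} (hG : ContDiff ℝ 1 G) (hGc : HasCompactSupport G)
    (hGN : tsupport G ⊆ N)
    (hb : ∀ x ∈ N, x ∈ frontier {y | 0 < u y} → 0 ≤ ⟪G x, gradient U x⟫) :
    ∫ x in {y | 0 < u y}, divg G x ≤ 0 := by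
  have hu := hK.continuous
  have hmu : Measurable u := hu.measurable
  have hmg : Measurable (gradient u) := measurable_gradient u
  have hmG : Measurable G := hG.continuous.measurable
  have hS : IsCompact (tsupport G) := hGc
  have hΩm : MeasurableSet {y | 0 < u y} := measurableSet_lt measurable_const hmu
  obtain ⟨C, hC0, ε₁, hε₁, hC⟩ := layer_est hK h0 hmin hU hUs hS hGN
  obtain ⟨M, hM⟩ := hGc.exists_bound_of_continuous hG.continuous
  have hgU := (contDiff_gradient hUs).continuous
  have hdc : Continuous (divg G) := by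
    have := hG.continuous_fderiv (by simp)
    unfold divg
    (clear * - hG; fun_prop)
  have hdcs : HasCompactSupport (divg G) :=
    (hGc.fderiv ℝ).comp_left (g := fun L : E d →L[ℝ] E d => ∑ i, L (ee i) i) (by simp only [zero_apply, PiLp.zero_apply, Finset.sum_const_zero])
  have hdi : Integrable (divg G) := hdc.integrable_of_hasCompactSupport hdcs
  have hi0 : Integrable fun x => ⟪gradient u x, G x⟫ := by
    refine integrable_of_bdd (S := tsupport G) (C := (K : ℝ) * M) (hmg.inner hmG) hS ?_ ?_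
    · intro x hx
      rw [image_eq_zero_of_notMem_tsupport hx, inner_zero_right]
    · intro x _
      exact (abs_real_inner_le_norm _ _).trans (mul_le_mul (norm_gradient_le hK x)
        (hM x) (norm_nonneg _) K.2)
  -- main estimate
  have key : ∀ η : ℝ, 0 < η → ∃ C' : ℝ, ∀ ε : ℝ, 0 < ε →
      ∫ x, Real.arctan (u x / ε) * divg G x ≤ C * η + C' * ε := by
    intro η hη
    obtain ⟨ε₂, hε₂, hnear⟩ := near_bdry hu h0 hS (f := fun x => ⟪G x, gradient U x⟫)
      (by have := hG.continuous; fun_prop) (fun x hx hxf => hb x (hGN hx) hxf) hη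
    set ε₀ := min ε₁ ε₂ with hε₀
    have hε₀pos : 0 < ε₀ := lt_min hε₁ hε₂
    refine ⟨(ε₀ ^ 2)⁻¹ * ∫ x, |⟪gradient u x, G x⟫|, fun ε hε => ?_⟩
    have hε' : LipschitzWith (Real.toNNReal ε⁻¹ * K) fun x => u x / ε := by
      refine LipschitzWith.of_dist_le_mul fun x y => ?_
      have := hK.dist_le_mul x y
      rw [Real.dist_eq] at this ⊢
      rw [← sub_div, abs_div, abs_of_pos hε, NNReal.coe_mul, Real.coe_toNNReal _ (by (clear * - hε; positivity)),
        div_eq_inv_mul, mul_assoc]
      (clear * - this hε; gcongr)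
    have ha : LipschitzWith (1 * (Real.toNNReal ε⁻¹ * K)) fun x => Real.arctan (u x / ε) :=
      lip_arctan.comp hε'
    rw [integral_mul_divg ha hG hGc]
    have hpt : ∀ᵐ x : E d, ⟪gradient (fun x => Real.arctan (u x / ε)) x, G x⟫ =
        ε⁻¹ * (1 / (1 + (u x / ε) ^ 2) * ⟪gradient u x, G x⟫) := by
      filter_upwards [hK.ae_differentiableAt] with x hx
      have h1 : HasFDerivAt (fun y => u y / ε) (ε⁻¹ • fderiv ℝ u x) x := by
        have := hx.hasFDerivAt.const_smul ε⁻¹
        refine this.congr_of_eventuallyEq (Eventually.of_forall fun y => ?_)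
        simp [div_eq_inv_mul]
      have h2 := h1.arctan
      rw [inner_gradient_left, inner_gradient_left, h2.fderiv]
      simp only [smul_apply, smul_eq_mul]
      ring
    rw [integral_congr_ae hpt, integral_const_mul, ← mul_neg, ← integral_neg]
    have hint : Integrable fun x => -(1 / (1 + (u x / ε) ^ 2) * ⟪gradient u x, G x⟫) := by
      refine (hi0.bdd_mul (c := 1) (measurable_layer hmu ε).aestronglyMeasurable
        (Eventually.of_forall fun x => ?_)).neg
      rw [Real.norm_eq_abs, abs_of_nonneg (by (clear * -; positivity))]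
      exact layer_le_one _
    have hms : MeasurableSet (tsupport G ∩ {x | 0 < u x ∧ u x < ε₁}) :=
      hS.measurableSet.inter ((measurableSet_lt measurable_const hmu).inter
        (measurableSet_lt hmu measurable_const))
    have hI1 : Integrable ((tsupport G ∩ {x | 0 < u x ∧ u x < ε₁}).indicator
        fun x => η * (1 / (1 + (u x / ε) ^ 2))) := by
      rw [integrable_indicator_iff hms]
      exact ((integrableOn_layer hmu ε hS).mono_set inter_subset_left).const_mul η
    have hle : ∫ x, -(1 / (1 + (u x / ε) ^ 2) * ⟪gradient u x, G x⟫) ≤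
        ∫ x, ((tsupport G ∩ {x | 0 < u x ∧ u x < ε₁}).indicator
          (fun x => η * (1 / (1 + (u x / ε) ^ 2))) x +
          ε ^ 2 * ((ε₀ ^ 2)⁻¹ * |⟪gradient u x, G x⟫|)) := by
      refine integral_mono hint (hI1.add ((hi0.abs.const_mul _).const_mul _)) fun x => ?_
      have hnn : 0 ≤ ε ^ 2 * ((ε₀ ^ 2)⁻¹ * |⟪gradient u x, G x⟫|) := by (clear * - hε hε₁ hε₂; positivity)
      have hnn' : 0 ≤ (tsupport G ∩ {x | 0 < u x ∧ u x < ε₁}).indicator
          (fun x => η * (1 / (1 + (u x / ε) ^ 2))) x :=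
        indicator_nonneg (fun x _ => by (clear * - hη; positivity)) x
      by_cases hxS : x ∈ tsupport G
      · rcases (h0 x).lt_or_eq with hux | hux
        · by_cases hlt : u x < ε₀
          · have h1 : u x < ε₁ := hlt.trans_le (min_le_left _ _)
            have h2 : u x < ε₂ := hlt.trans_le (min_le_right _ _)
            have h3 := hnear x hxS hux h2
            rw [hU.mc_gradient_eq hu (hGN hxS) hux,
              indicator_of_mem (show x ∈ tsupport G ∩ {x | 0 < u x ∧ u x < ε₁} from
                ⟨hxS, hux, h1⟩)]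
            rw [hU.mc_gradient_eq hu (hGN hxS) hux] at hnn
            rw [real_inner_comm] at h3
            have h4 : 0 < 1 / (1 + (u x / ε) ^ 2) := by (clear * - hux hε; positivity)
            linarith only [hnn, mul_pos (sub_pos.2 h3) (sub_pos.2 h4)]
          · rw [not_lt] at hlt
            have h3 : 1 / (1 + (u x / ε) ^ 2) ≤ ε ^ 2 * (ε₀ ^ 2)⁻¹ := by
              have h4 : ε₀ ^ 2 ≤ u x ^ 2 := pow_le_pow_left₀ hε₀pos.le hlt 2
              have h5 : 0 < ε₀ ^ 2 := by (clear * - hε₁ hε₂; positivity)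
              rw [div_le_iff₀ (by (clear * - hux hε; positivity)), div_pow]
              have h6 : (1 : ℝ) ≤ ε ^ 2 * (ε₀ ^ 2)⁻¹ * (u x ^ 2 / ε ^ 2) := by
                have h7 : ε ^ 2 * (ε₀ ^ 2)⁻¹ * (u x ^ 2 / ε ^ 2) = u x ^ 2 / ε₀ ^ 2 := by
                  (clear * - hε hux hε₀pos; field_simp)
                rw [h7, le_div_iff₀ h5]
                linarith only [h4]
              have h8 : 0 ≤ ε ^ 2 * (ε₀ ^ 2)⁻¹ := by (clear * - hε hε₁ hε₂; positivity)
              linarith
            have h9 : -(1 / (1 + (u x / ε) ^ 2) * ⟪gradient u x, G x⟫) ≤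
                1 / (1 + (u x / ε) ^ 2) * |⟪gradient u x, G x⟫| := by
              have := neg_abs_le ⟪gradient u x, G x⟫
              have h10 : 0 < 1 / (1 + (u x / ε) ^ 2) := by (clear * - hux hε; positivity)
              nlinarith only [this, h10]
            have h11 := mul_le_mul_of_nonneg_right h3 (abs_nonneg ⟪gradient u x, G x⟫)
            linarith only [hnn', h9, h11]
        · rw [gradient_eq_zero_of_eq_zero h0 hux.symm, inner_zero_left, mul_zero, neg_zero]
          simp only [abs_zero, mul_zero, add_zero]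
          exact hnn'
      · rw [image_eq_zero_of_notMem_tsupport hxS, inner_zero_right, mul_zero, neg_zero]
        simp only [abs_zero, mul_zero, add_zero]
        exact hnn'
    rw [integral_add hI1 ((hi0.abs.const_mul _).const_mul _), integral_indicator hms,
      integral_const_mul, integral_const_mul, integral_const_mul] at hle
    have h12 := hC ε hε
    have h13 : ε⁻¹ * ∫ x, -(1 / (1 + (u x / ε) ^ 2) * ⟪gradient u x, G x⟫) ≤
        ε⁻¹ * (η * (C * ε) + ε ^ 2 * ((ε₀ ^ 2)⁻¹ * ∫ x, |⟪gradient u x, G x⟫|)) := by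
      gcongr
      refine hle.trans ?_
      (clear * - h12 hη; gcongr)
    refine h13.trans (le_of_eq ?_)
    (clear * - hε₀pos hε; field_simp)
  -- the limit
  have hlim : Tendsto (fun n : ℕ => ∫ x, Real.arctan (u x / (1 / ((n : ℝ) + 1))) * divg G x) atTop
      (𝓝 (∫ x, (Real.pi / 2) * ({y | 0 < u y}.indicator (divg G) x))) := by
    refine tendsto_integral_of_dominated_convergence (fun x => 2 * |divg G x|) ?_
      (hdi.abs.const_mul 2) ?_ ?_
    · intro n
      exact ((Real.measurable_arctan.comp (hmu.div_const _)).mul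
        hdc.measurable).aestronglyMeasurable
    · intro n
      refine Eventually.of_forall fun x => ?_
      rw [Real.norm_eq_abs, abs_mul]
      exact mul_le_mul_of_nonneg_right (abs_arctan_le _) (abs_nonneg _)
    · refine Eventually.of_forall fun x => ?_
      rcases (h0 x).lt_or_eq with hux | hux
      · rw [indicator_of_mem (show x ∈ {y | 0 < u y} from hux)]
        refine Tendsto.mul_const _ ?_
        have h1 : Tendsto (fun n : ℕ => u x / (1 / ((n : ℝ) + 1))) atTop atTop := by
          have : ∀ n : ℕ, u x / (1 / ((n : ℝ) + 1)) = u x * ((n : ℝ) + 1) := by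
            intro n; (clear * - hux; field_simp)
          simp_rw [this]
          exact (tendsto_natCast_atTop_atTop.atTop_add tendsto_const_nhds).const_mul_atTop hux
        exact (Real.tendsto_arctan_atTop.mono_right nhdsWithin_le_nhds).comp h1
      · rw [indicator_of_notMem (show x ∉ {y | 0 < u y} from fun h => by
          rw [mem_ofPred_eq] at h; linarith only [hux, h]), ← hux]
        simp only [one_div, div_inv_eq_mul, zero_mul, Real.arctan_zero, mul_zero, tendsto_const_nhds_iff]
  rw [integral_const_mul, integral_indicator hΩm] at hlim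
  have hfin : ∀ η : ℝ, 0 < η → Real.pi / 2 * ∫ x in {y | 0 < u y}, divg G x ≤ C * η := by
    intro η hη
    obtain ⟨C', hC'⟩ := key η hη
    have h1 : Tendsto (fun n : ℕ => C * η + C' * (1 / ((n : ℝ) + 1))) atTop (𝓝 (C * η)) := by
      have := (tendsto_one_div_add_atTop_nhds_zero_nat (𝕜 := ℝ)).const_mul C'
      simpa only [one_div, mul_zero, add_zero] using this.const_add (C * η)
    exact le_of_tendsto_of_tendsto' hlim h1 fun n => hC' _ (by (clear * -; positivity))
  have h2 : Real.pi / 2 * ∫ x in {y | 0 < u y}, divg G x ≤ 0 := by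
    refine le_of_forall_pos_le_add fun η hη => ?_
    have h3 := hfin (η / (C + 1)) (by (clear * - hη hC0; positivity))
    have h4 : C * (η / (C + 1)) ≤ η := by
      rw [mul_div_assoc', div_le_iff₀ (by (clear * - hC0; positivity))]
      nlinarith only [hη]
    linarith
  have h3 : 0 < Real.pi / 2 := by positivity
  by_contra hcon
  rw [not_le] at hcon
  exact absurd h2 (not_le.2 (mul_pos h3 hcon))

end MC

end Vale.Agent.P098
end

section

/-! # E1: comparison with strict subsolutions and supersolutions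

`sub_comparison`. Let `φ = (v - u)₊` on `D`, `φ = 0` off `D`: Lipschitz with compact support
(`closure D` is compact, `v` is smooth near it, `v ≤ u` on `frontier D`). Competitor
`w = u + φ` (`= max(u, v)` on `D`). On the open set `{φ > 0} ⊆ D`: `w = v`, `u = v - φ`,
`|∇w|² - |∇u|² = 2∇v·∇φ - |∇φ|²`, and `w = v > u ≥ 0`, so `χ_{w>0} - χ_{u>0} = χ_{u=0}`. As
`∇φ = 0` a.e. off `{φ > 0}` and `∫ ∇v·∇φ = -∫ Δv φ` (multiply `v` by a cutoff `= 1` near
`closure D`), `LipMin` gives
`0 ≤ -2∫Δv φ - ∫_{φ>0}|∇φ|² + vol({φ>0} ∩ {u=0})`. On `{φ>0} ∩ {u=0}`, `∇u = 0` (minimum), so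
`∇φ = ∇v` and `|∇φ|² = ‖∇v‖² ≥ 1` by `hgrad`. Hence `0 ≤ -2∫Δv φ`, and `Δv > 0` on `{φ > 0}`
forces `φ = 0`.

`super_comparison`. `φ = (u - v₊)₊` on `D`, `0` off `D`; competitor `w = u - φ` (`= min(u, v₊)` on
`D`). On `{φ>0} ∩ {v>0}`: `|∇w|² - |∇u|² = |∇v|² - |∇v+∇φ|² = -2∇v·∇φ - |∇φ|²`; on
`{φ>0} ∩ {v≤0}`: `w = 0`, `φ = u`, energy change `-|∇φ|² - 1`. So
`0 ≤ -∫|∇φ|² - 2∫_{v>0}∇v·∇φ - vol({φ>0, v≤0})
   = -∫|∇φ|² + 2∫Δv φ + 2∫_{v≤0}∇v·∇φ - vol({φ>0, v≤0})` (integration by parts over all of `D`).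
With `2∇v·∇φ ≤ |∇v|² + |∇φ|² ≤ 1 + |∇φ|²` on `{φ>0, v≤0}` (there `u > 0`) we get
`0 ≤ 2∫Δv φ`, and `Δv < 0` forces `φ = 0`. -/

open MeasureTheory Set Metric Filter
open scoped ContDiff RealInnerProductSpace Topology NNReal

namespace Vale.Agent.P098

variable {d : ℕ}

/-- A Lipschitz function vanishing on the frontier of `D`, cut off outside `D`. -/
theorem rE1_lip_indicator {g : E d → ℝ} {K : ℝ≥0} (hg : LipschitzWith K g) {D : Set (E d)}
    (h0 : ∀ x ∈ frontier D, g x = 0) : LipschitzWith K (D.indicator g) := by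
  have key : ∀ x ∈ D, ∀ y, y ∉ D → |g x| ≤ K * dist x y := by
    intro x hx y hy
    have hne : D ≠ univ := fun h => hy (h ▸ mem_univ y)
    obtain ⟨z, hz, hzd⟩ := exists_mem_frontier_infDist_compl_eq_dist hx hne
    have h1 : dist x z ≤ dist x y := by
      rw [← hzd]
      exact infDist_le_dist_of_mem hy
    have h2 := hg.dist_le_mul x z
    rw [h0 z hz, Real.dist_eq, sub_zero] at h2
    exact h2.trans (mul_le_mul_of_nonneg_left h1 K.coe_nonneg)
  refine LipschitzWith.of_dist_le_mul fun x y => ?_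
  by_cases hx : x ∈ D
  · by_cases hy : y ∈ D
    · rw [indicator_of_mem hx, indicator_of_mem hy]
      exact hg.dist_le_mul x y
    · rw [indicator_of_mem hx, indicator_of_notMem hy, Real.dist_eq, sub_zero]
      exact key x hx y hy
  · by_cases hy : y ∈ D
    · rw [indicator_of_notMem hx, indicator_of_mem hy, Real.dist_eq, zero_sub, abs_neg, dist_comm]
      exact key y hy x hx
    · rw [indicator_of_notMem hx, indicator_of_notMem hy, dist_self]
      (clear * -; positivity)

/-- Cut off a function smooth near a compact set. -/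
theorem rE1_cutoff {D N : Set (E d)} (hDb : Bornology.IsBounded D) (hN : IsOpen N)
    (hDN : closure D ⊆ N) {v : E d → ℝ} (hv : ContDiffOn ℝ ∞ v N) :
    ∃ V : E d → ℝ, ContDiff ℝ ∞ V ∧ HasCompactSupport V ∧ ∀ x ∈ closure D, V =ᶠ[𝓝 x] v := by
  have hDc : IsCompact (closure D) := hDb.isCompact_closure
  obtain ⟨K, hK, hDK, hKN⟩ := exists_compact_between hDc hN hDN
  obtain ⟨f, hf0, hf1, -⟩ := exists_contMDiffMap_zero_one_nhds_of_isClosed
    (modelWithCornersSelf ℝ (E d)) (n := (⊤ : ℕ∞)) (s := (interior K)ᶜ) (t := closure D)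
    isOpen_interior.isClosed_compl isClosed_closure
    (disjoint_compl_left_iff_subset.2 hDK)
  have hfs : ContDiff ℝ ∞ (f : E d → ℝ) := contMDiff_iff_contDiff.1 f.contMDiff
  have hf0' : ∀ x, x ∉ interior K → (f : E d → ℝ) =ᶠ[𝓝 x] fun _ => 0 := by
    intro x hx
    exact (eventually_nhdsSet_iff_forall.1 hf0) x hx
  have hf1' : ∀ x ∈ closure D, (f : E d → ℝ) =ᶠ[𝓝 x] fun _ => 1 := by
    intro x hx
    exact (eventually_nhdsSet_iff_forall.1 hf1) x hx
  refine ⟨fun x => f x * v x, ?_, ?_, ?_⟩
  · rw [contDiff_iff_contDiffAt]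
    intro x
    by_cases hx : x ∈ interior K
    · exact hfs.contDiffAt.mul (hv.contDiffAt (hN.mem_nhds (hKN (interior_subset hx))))
    · have h1 : (fun x => f x * v x) =ᶠ[𝓝 x] fun _ => (0 : ℝ) := by
        filter_upwards [hf0' x hx] with y hy
        rw [hy, zero_mul]
      exact contDiffAt_const.congr_of_eventuallyEq h1
  · refine HasCompactSupport.intro hK fun x hx => ?_
    have := (hf0' x fun h => hx (interior_subset h)).eq_of_nhds
    rw [this, zero_mul]
  · intro x hx
    filter_upwards [hf1' x hx] with y hy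
    rw [hy, one_mul]

/-- Integration by parts of a test function against a Lipschitz function. -/
theorem rE1_ibp {V φ : E d → ℝ} (hV : ContDiff ℝ ∞ V) (hVc : HasCompactSupport V) {K : ℝ≥0}
    (hφ : LipschitzWith K φ) :
    Integrable (fun x => ⟪gradient V x, gradient φ x⟫) ∧ Integrable (fun x => lap V x * φ x) ∧
    ∫ x, ⟪gradient V x, gradient φ x⟫ = - ∫ x, lap V x * φ x := by
  have hP : ∀ i, ContDiff ℝ ∞ (P1 V i) := fun i =>
    contDiff_iff_contDiffAt.2 fun x => mb_P1_contDiffAt hV.contDiffAt i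
  have hPc : ∀ i, HasCompactSupport (P1 V i) := fun i =>
    hVc.fderiv_apply (𝕜 := ℝ) (ee i)
  have hP2 : ∀ i, Continuous (P2 V i i) := fun i =>
    ((hP i).continuous_fderiv (by simp)).clm_apply continuous_const
  have hP2c : ∀ i, HasCompactSupport (P2 V i i) := fun i =>
    (hPc i).fderiv_apply (𝕜 := ℝ) (ee i)
  have hmφ : ∀ i, Measurable (P1 φ i) := fun i => measurable_fderiv_apply_const ℝ φ (ee i)
  have hbφ : ∀ i x, |P1 φ i x| ≤ K := by
    intro i x
    have h1 : ‖fderiv ℝ φ x‖ ≤ K := norm_fderiv_le_of_lipschitz ℝ hφ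
    have h2 := (fderiv ℝ φ x).le_opNorm (ee i)
    have h3 : ‖(ee i : E d)‖ = 1 := by simp only [PiLp.norm_single, norm_one]
    rw [h3, mul_one] at h2
    exact h2.trans h1
  have i1 : ∀ i, Integrable fun x => P1 V i x * P1 φ i x := by
    intro i
    obtain ⟨C, hC⟩ := (hPc i).exists_bound_of_continuous (hP i).continuous
    refine mb_integrable (F := fun x => P1 V i x * P1 φ i x)
      (((hP i).continuous.measurable).mul (hmφ i)).aestronglyMeasurable
      (C := C * K) ?_ (hPc i).isCompact ?_
    · intro x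
      rw [abs_mul]
      exact mul_le_mul (hC x) (hbφ i x) (abs_nonneg _) ((norm_nonneg _).trans (hC x))
    · intro x hx
      rw [image_eq_zero_of_notMem_tsupport hx, zero_mul]
  have i2 : ∀ i, Integrable fun x => P2 V i i x * φ x := fun i =>
    ((hP2 i).mul hφ.continuous).integrable_of_hasCompactSupport ((hP2c i).mul_right)
  have e1 : (fun x => ⟪gradient V x, gradient φ x⟫) = fun x => ∑ i, P1 V i x * P1 φ i x := by
    ext x
    exact mb_inner_gradient_eq_sum V φ x
  have e2 : (fun x => lap V x * φ x) = fun x => ∑ i, P2 V i i x * φ x := by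
    ext x
    rw [lap, Finset.sum_mul]
  refine ⟨?_, ?_, ?_⟩
  · rw [e1]
    exact integrable_finsetSum _ fun i _ => i1 i
  · rw [e2]
    exact integrable_finsetSum _ fun i _ => i2 i
  · rw [e1, e2, integral_finsetSum _ fun i _ => i1 i, integral_finsetSum _ fun i _ => i2 i,
      ← Finset.sum_neg_distrib]
    refine Finset.sum_congr rfl fun i _ => ?_
    have h1 := ModA.isWeakGrad_of_lipschitz hφ univ (P1 V i) (hP i) (hPc i) (subset_univ _) (ee i)
    rw [Measure.restrict_univ] at h1
    have h2 : ∫ x, φ x * fderiv ℝ (P1 V i) x (ee i) = ∫ x, P2 V i i x * φ x :=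
      integral_congr_ae (Eventually.of_forall fun x => mul_comm _ _)
    have h3 : ∫ x, ⟪gradient φ x, ee i⟫ * P1 V i x = ∫ x, P1 V i x * P1 φ i x := by
      refine integral_congr_ae (Eventually.of_forall fun x => ?_)
      simp only
      rw [mb_inner_gradient, mul_comm]
      rfl
    rw [h2, h3] at h1
    rw [h1, neg_neg]

/-- Laplacians of functions agreeing near a point. -/
theorem rE1_lap_congr {f g : E d → ℝ} {x : E d} (h : f =ᶠ[𝓝 x] g) : lap f x = lap g x := by
  unfold lap P2
  refine Finset.sum_congr rfl fun i _ => ?_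
  have h1 : P1 f i =ᶠ[𝓝 x] P1 g i := by
    filter_upwards [h.eventuallyEq_nhds] with y hy
    unfold P1
    rw [hy.fderiv_eq]
  rw [h1.fderiv_eq]

/-- A nonnegative continuous function on `E d` whose weighted integral has the wrong sign
vanishes. -/
theorem rE1_zero {D : Set (E d)} {φ : E d → ℝ} (hφ : Continuous φ)
    (h0 : ∀ x, 0 ≤ φ x) (hoff : ∀ x, x ∉ D → φ x = 0) {W : E d → ℝ} (hW : ∀ x ∈ D, 0 < W x)
    (hi : Integrable fun x => W x * φ x) (hle : ∫ x, W x * φ x ≤ 0) : ∀ x, φ x = 0 := by
  have hnn : ∀ x, 0 ≤ W x * φ x := by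
    intro x
    by_cases hx : x ∈ D
    · exact mul_nonneg (hW x hx).le (h0 x)
    · rw [hoff x hx, mul_zero]
  have h1 : ∫ x, W x * φ x = 0 := le_antisymm hle (integral_nonneg hnn)
  have h2 : (fun x => W x * φ x) =ᵐ[volume] 0 :=
    (integral_eq_zero_iff_of_nonneg hnn hi).1 h1
  have h3 : φ =ᵐ[volume] fun _ => 0 := by
    filter_upwards [h2] with x hx
    by_cases hxD : x ∈ D
    · simp only [Pi.zero_apply, mul_eq_zero] at hx
      rcases hx with hx | hx
      · exact absurd hx (hW x hxD).ne'
      · exact hx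
    · exact hoff x hxD
  have h4 : φ = fun _ => 0 := (Continuous.ae_eq_iff_eq volume hφ continuous_const).1 h3
  intro x
  rw [h4]

theorem sub_comparison {L : ℝ≥0} {u : E d → ℝ} (hu : MinL L u) {D N : Set (E d)} (hD : IsOpen D)
    (hDb : Bornology.IsBounded D) (hN : IsOpen N) (hDN : closure D ⊆ N) {v : E d → ℝ}
    (hv : ContDiffOn ℝ ∞ v N) (hlap : ∀ x ∈ D, 0 < lap v x)
    (hgrad : ∀ x ∈ D, u x = 0 → 0 < v x → 1 ≤ ‖fderiv ℝ v x‖)
    (hb : ∀ x ∈ frontier D, v x ≤ u x) : ∀ x ∈ D, v x ≤ u x := by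
  obtain ⟨V, hV, hVc, hVv⟩ := rE1_cutoff hDb hN hDN hv
  obtain ⟨C, hC⟩ := hV.lipschitzWith_of_hasCompactSupport hVc (by simp)
  have hgL : LipschitzWith (C + L) fun x => max (V x - u x) 0 := mb_lip_max_zero (hC.sub hu.lip)
  set φ : E d → ℝ := D.indicator fun x => max (V x - u x) 0 with hφdef
  have hφL : LipschitzWith (C + L) φ := by
    refine rE1_lip_indicator hgL fun x hx => ?_
    have h1 : V x = v x := (hVv x (frontier_subset_closure hx)).eq_of_nhds
    rw [h1]
    exact max_eq_right (sub_nonpos.2 (hb x hx))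
  have hφ0 : ∀ x, 0 ≤ φ x := indicator_nonneg fun x _ => le_max_right _ _
  have hφoff : ∀ x, x ∉ D → φ x = 0 := fun x hx => indicator_of_notMem hx _
  have hφpos : ∀ x, 0 < φ x → x ∈ D ∧ φ x = V x - u x := by
    intro x hx
    have hxD : x ∈ D := by
      by_contra h
      rw [hφoff x h] at hx
      exact lt_irrefl _ hx
    refine ⟨hxD, ?_⟩
    have h1 : φ x = max (V x - u x) 0 := indicator_of_mem hxD _
    rw [h1] at hx ⊢
    rcases le_total (V x - u x) 0 with h | h
    · rw [max_eq_right h] at hx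
      exact absurd hx (lt_irrefl _)
    · exact max_eq_left h
  have hφc : HasCompactSupport φ := by
    refine HasCompactSupport.intro hDb.isCompact_closure fun x hx => ?_
    exact hφoff x fun h => hx (subset_closure h)
  set w : E d → ℝ := fun x => u x + φ x with hw
  have hwL : LipschitzWith (L + (C + L)) w := mb_lip_add hu.lip hφL
  have hw0 : ∀ x, 0 ≤ w x := fun x => add_nonneg (hu.nonneg x) (hφ0 x)
  have hwc : HasCompactSupport fun x => w x - u x := by
    have : (fun x => w x - u x) = φ := by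
      ext x
      simp [hw]
    rw [this]
    exact hφc
  have hJ := hu.min w ⟨_, hwL⟩ hw0 hwc
  change 0 ≤ ∫ x, mbJ u w x at hJ
  obtain ⟨j1, j2, j3⟩ := rE1_ibp hV hVc hφL
  have hpt : ∀ᵐ x : E d, mbJ u w x ≤ 2 * ⟪gradient V x, gradient φ x⟫ := by
    filter_upwards [mb_ae_diff hu.lip, mb_ae_diff hφL] with x hx1 hx2
    have hgw : gradient w x = gradient u x + gradient φ x := by
      rw [hw, mb_gradient_add hx1 hx2]
    rw [mbJ_eq]
    rcases (hφ0 x).eq_or_lt with h | h
    · have h1 : gradient φ x = 0 := mb_gradient_zero_of_min hφ0 h.symm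
      have h2 : w x = u x := by simp only [hw]; rw [← h, add_zero]
      have h3 : {y | 0 < w y}.indicator (fun _ => (1 : ℝ)) x =
          {y | 0 < u y}.indicator (fun _ => (1 : ℝ)) x := by
        simp only [indicator_apply, mem_ofPred_eq, h2]
      rw [hgw, h1, h3, inner_zero_right, add_zero]
      simp only [sub_self, add_zero, mul_zero, Std.le_refl]
    · obtain ⟨hxD, hφx⟩ := hφpos x h
      have hwV : w =ᶠ[𝓝 x] V := by
        filter_upwards [(isOpen_lt continuous_const hφL.continuous).mem_nhds h] with y hy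
        simp only [hw]
        rw [(hφpos y hy).2]
        ring
      have hgV : gradient V x = gradient u x + gradient φ x := by
        rw [← mb_gradient_congr hwV, hgw]
      have hwx : 0 < w x := add_pos_of_nonneg_of_pos (hu.nonneg x) h
      have hVx : 0 < V x := by rw [← hwV.eq_of_nhds]; exact hwx
      have hind : {y | 0 < w y}.indicator (fun _ => (1 : ℝ)) x = 1 :=
        indicator_of_mem (show x ∈ {y | 0 < w y} from hwx) _
      rw [hind, hgw]
      rcases (hu.nonneg x).eq_or_lt with hu0 | hu0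
      · have h4 : gradient u x = 0 := mb_gradient_zero_of_min hu.nonneg hu0.symm
        have h5 : {y | 0 < u y}.indicator (fun _ => (1 : ℝ)) x = 0 :=
          indicator_of_notMem (show x ∉ {y | 0 < u y} from fun h => (ne_of_gt h) hu0.symm) _
        rw [h4, zero_add] at hgV
        have hVvx := hVv x (subset_closure hxD)
        have h6 : 1 ≤ ‖gradient φ x‖ := by
          rw [← hgV, mb_norm_gradient, hVvx.fderiv_eq]
          refine hgrad x hxD hu0.symm ?_
          rw [← hVvx.eq_of_nhds]
          exact hVx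
        rw [h4, h5, hgV, zero_add, norm_zero, real_inner_self_eq_norm_sq]
        nlinarith only [h6]
      · have h5 : {y | 0 < u y}.indicator (fun _ => (1 : ℝ)) x = 1 :=
          indicator_of_mem (show x ∈ {y | 0 < u y} from hu0) _
        rw [h5, hgV, norm_add_sq_real, inner_add_left, real_inner_self_eq_norm_sq]
        have : 0 ≤ ‖gradient φ x‖ ^ 2 := by (clear * -; positivity)
        linarith only [this]
  have hle : ∫ x, mbJ u w x ≤ ∫ x, 2 * ⟪gradient V x, gradient φ x⟫ :=
    integral_mono_ae (mbJ_integrable hu.lip hwL hwc) (j1.const_mul 2) hpt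
  rw [integral_const_mul, j3] at hle
  have hW : ∀ x ∈ D, 0 < lap V x := by
    intro x hx
    rw [rE1_lap_congr (hVv x (subset_closure hx))]
    exact hlap x hx
  have hz := rE1_zero hφL.continuous hφ0 hφoff hW j2 (by linarith only [hJ, hle])
  intro x hx
  have h1 := hz x
  rw [hφdef, indicator_of_mem hx] at h1
  have h2 : V x - u x ≤ 0 := (le_max_left (V x - u x) 0).trans h1.le
  have h3 : V x = v x := (hVv x (subset_closure hx)).eq_of_nhds
  linarith only [h2, h3]

theorem super_comparison {L : ℝ≥0} {u : E d → ℝ} (hu : MinL L u) {D N : Set (E d)}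
    (hD : IsOpen D) (hDb : Bornology.IsBounded D) (hN : IsOpen N) (hDN : closure D ⊆ N)
    {v : E d → ℝ} (hv : ContDiffOn ℝ ∞ v N) (hlap : ∀ x ∈ D, lap v x < 0)
    (hgrad : ∀ x ∈ D, 0 < u x → v x ≤ 0 → ‖fderiv ℝ v x‖ ≤ 1)
    (hb : ∀ x ∈ frontier D, u x ≤ max (v x) 0) : ∀ x ∈ D, u x ≤ max (v x) 0 := by
  obtain ⟨V, hV, hVc, hVv⟩ := rE1_cutoff hDb hN hDN hv
  obtain ⟨C, hC⟩ := hV.lipschitzWith_of_hasCompactSupport hVc (by simp)
  have hgL : LipschitzWith (L + C) fun x => max (u x - max (V x) 0) 0 :=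
    mb_lip_max_zero (hu.lip.sub (mb_lip_max_zero hC))
  set φ : E d → ℝ := D.indicator fun x => max (u x - max (V x) 0) 0 with hφdef
  have hφL : LipschitzWith (L + C) φ := by
    refine rE1_lip_indicator hgL fun x hx => ?_
    have h1 : V x = v x := (hVv x (frontier_subset_closure hx)).eq_of_nhds
    rw [h1]
    exact max_eq_right (sub_nonpos.2 (hb x hx))
  have hφ0 : ∀ x, 0 ≤ φ x := indicator_nonneg fun x _ => le_max_right _ _
  have hφoff : ∀ x, x ∉ D → φ x = 0 := fun x hx => indicator_of_notMem hx _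
  have hφpos : ∀ x, 0 < φ x → x ∈ D ∧ φ x = u x - max (V x) 0 := by
    intro x hx
    have hxD : x ∈ D := by
      by_contra h
      rw [hφoff x h] at hx
      exact lt_irrefl _ hx
    refine ⟨hxD, ?_⟩
    have h1 : φ x = max (u x - max (V x) 0) 0 := indicator_of_mem hxD _
    rw [h1] at hx ⊢
    rcases le_total (u x - max (V x) 0) 0 with h | h
    · rw [max_eq_right h] at hx
      exact absurd hx (lt_irrefl _)
    · exact max_eq_left h
  have hφu : ∀ x, φ x ≤ u x := by
    intro x
    rcases (hφ0 x).eq_or_lt with h | h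
    · rw [← h]
      exact hu.nonneg x
    · rw [(hφpos x h).2]
      have : 0 ≤ max (V x) 0 := le_max_right _ _
      linarith only [this]
  have hφc : HasCompactSupport φ := by
    refine HasCompactSupport.intro hDb.isCompact_closure fun x hx => ?_
    exact hφoff x fun h => hx (subset_closure h)
  set w : E d → ℝ := fun x => u x - φ x with hw
  have hwL : LipschitzWith (L + (L + C)) w := hu.lip.sub hφL
  have hw0 : ∀ x, 0 ≤ w x := fun x => sub_nonneg.2 (hφu x)
  have hwc : HasCompactSupport fun x => w x - u x := by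
    refine HasCompactSupport.intro hφc.isCompact fun x hx => ?_
    simp only [hw]
    rw [image_eq_zero_of_notMem_tsupport hx]
    ring
  have hJ := hu.min w ⟨_, hwL⟩ hw0 hwc
  change 0 ≤ ∫ x, mbJ u w x at hJ
  obtain ⟨j1, j2, j3⟩ := rE1_ibp hV hVc hφL
  have hpt : ∀ᵐ x : E d, mbJ u w x ≤ (-2) * ⟪gradient V x, gradient φ x⟫ := by
    filter_upwards [mb_ae_diff hu.lip, mb_ae_diff hφL, mb_ae_diff hwL] with x hx1 hx2 hx3
    have hgw : gradient w x = gradient u x - gradient φ x := by
      rw [hw, mb_gradient_sub hx1 hx2]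
    rw [mbJ_eq]
    rcases (hφ0 x).eq_or_lt with h | h
    · have h1 : gradient φ x = 0 := mb_gradient_zero_of_min hφ0 h.symm
      have h2 : w x = u x := by simp only [hw]; rw [← h, sub_zero]
      have h3 : {y | 0 < w y}.indicator (fun _ => (1 : ℝ)) x =
          {y | 0 < u y}.indicator (fun _ => (1 : ℝ)) x := by
        simp only [indicator_apply, mem_ofPred_eq, h2]
      rw [hgw, h1, h3, inner_zero_right, sub_zero]
      simp only [sub_self, add_zero, mul_zero, Std.le_refl]
    · obtain ⟨hxD, hφx⟩ := hφpos x h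
      have hux : 0 < u x := lt_of_lt_of_le h (hφu x)
      have hindu : {y | 0 < u y}.indicator (fun _ => (1 : ℝ)) x = 1 :=
        indicator_of_mem (show x ∈ {y | 0 < u y} from hux) _
      have hwV : w =ᶠ[𝓝 x] fun y => max (V y) 0 := by
        filter_upwards [(isOpen_lt continuous_const hφL.continuous).mem_nhds h] with y hy
        simp only [hw]
        rw [(hφpos y hy).2]
        ring
      have hgu : gradient u x = gradient w x + gradient φ x := by
        rw [hgw]
        abel
      rw [hindu, hgu]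
      rcases lt_or_ge 0 (V x) with hVx | hVx
      · have h4 : gradient w x = gradient V x := by
          rw [mb_gradient_congr hwV, (mb_gradient_max hC.continuous x).1 hVx]
        have h5 : {y | 0 < w y}.indicator (fun _ => (1 : ℝ)) x = 1 := by
          refine indicator_of_mem (show x ∈ {y | 0 < w y} from ?_) _
          rw [mem_ofPred_eq, hwV.eq_of_nhds]
          exact lt_max_of_lt_left hVx
        rw [h4, h5, norm_add_sq_real]
        have : 0 ≤ ‖gradient φ x‖ ^ 2 := by (clear * -; positivity)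
        linarith only [this]
      · have h4 : gradient w x = 0 := by
          rw [mb_gradient_congr hwV, (mb_gradient_max hC.continuous x).2 hVx]
        have h5 : {y | 0 < w y}.indicator (fun _ => (1 : ℝ)) x = 0 := by
          refine indicator_of_notMem (show x ∉ {y | 0 < w y} from ?_) _
          rw [mem_ofPred_eq, hwV.eq_of_nhds, max_eq_right hVx]
          exact lt_irrefl 0
        have hVvx := hVv x (subset_closure hxD)
        have h6 : ‖gradient V x‖ ≤ 1 := by
          rw [mb_norm_gradient, hVvx.fderiv_eq]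
          refine hgrad x hxD hux ?_
          rw [← hVvx.eq_of_nhds]
          exact hVx
        rw [h4, h5, zero_add, norm_zero]
        have h7 : 0 ≤ ‖gradient V x - gradient φ x‖ ^ 2 := by (clear * -; positivity)
        rw [norm_sub_sq_real] at h7
        have h8 : ‖gradient V x‖ ^ 2 ≤ 1 := by
          have := norm_nonneg (gradient V x)
          linarith [mul_nonneg (sub_nonneg.2 h6) (sub_nonneg.2 this), mul_nonneg (sub_nonneg.2 h6) (sub_nonneg.2 h6)]
        linarith only [h7, h8]
  have hle : ∫ x, mbJ u w x ≤ ∫ x, (-2) * ⟪gradient V x, gradient φ x⟫ :=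
    integral_mono_ae (mbJ_integrable hu.lip hwL hwc) (j1.const_mul (-2)) hpt
  rw [integral_const_mul, j3] at hle
  have hW : ∀ x ∈ D, 0 < - lap V x := by
    intro x hx
    rw [rE1_lap_congr (hVv x (subset_closure hx))]
    exact neg_pos.2 (hlap x hx)
  have j4 : Integrable fun x => - lap V x * φ x := by
    have : (fun x => - lap V x * φ x) = fun x => -(lap V x * φ x) := by
      ext x
      ring
    rw [this]
    exact j2.neg
  have hle2 : ∫ x, - lap V x * φ x ≤ 0 := by
    have : ∫ x, - lap V x * φ x = - ∫ x, lap V x * φ x := by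
      rw [← integral_neg]
      congr 1
      ext x
      ring
    rw [this]
    linarith only [hJ, hle]
  have hz := rE1_zero hφL.continuous hφ0 hφoff hW j4 hle2
  intro x hx
  have h1 := hz x
  rw [hφdef, indicator_of_mem hx] at h1
  have h2 : u x - max (V x) 0 ≤ 0 := (le_max_left (u x - max (V x) 0) 0).trans h1.le
  have h3 : V x = v x := (hVv x (subset_closure hx)).eq_of_nhds
  rw [h3] at h2
  linarith only [h2]

end Vale.Agent.P098
end

section

/-! # Restriction of a certificate to fewer variables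

All conditions of a certificate except `kappa` restrict from `m + 1` to `m` variables: add a zero
eigenvalue. -/

open MeasureTheory Set Metric Filter
open scoped ContDiff RealInnerProductSpace Topology

namespace Vale.Agent.P098

variable {m : ℕ}

/-- The extension of a vector by a zero. -/
noncomputable def pad (x : Fin m → ℝ) : Fin (m + 1) → ℝ := Fin.snoc (α := fun _ => ℝ) x 0

@[simp] theorem pad_castSucc (x : Fin m → ℝ) (i : Fin m) : pad x i.castSucc = x i := by
  simp [pad]

@[simp] theorem pad_last (x : Fin m → ℝ) : pad x (Fin.last m) = 0 := by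
  simp [pad]

theorem pad_eq_zero {x : Fin m → ℝ} (h : pad x = 0) : x = 0 := by
  funext i
  have := congrFun h i.castSucc
  simpa using this

theorem sum_pad (x : Fin m → ℝ) : ∑ i, pad x i = ∑ i, x i := by
  rw [Fin.sum_univ_castSucc]
  simp only [pad_castSucc, pad_last, add_zero]

theorem pw_pad (lam : Fin m → ℝ) (j : ℕ) : pw (pad lam) (j + 1) = pw lam (j + 1) := by
  unfold pw
  rw [Fin.sum_univ_castSucc]
  simp only [pad_castSucc, pad_last, ne_eq, Nat.add_eq_zero_iff, one_ne_zero, and_false, not_false_eq_true, zero_pow, add_zero]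

theorem pw_pad' (lam : Fin m → ℝ) {j : ℕ} (h : 1 ≤ j) : pw (pad lam) j = pw lam j := by
  obtain ⟨i, rfl⟩ : ∃ i, j = i + 1 := ⟨j - 1, by omega⟩
  exact pw_pad lam i

theorem pw_pad1 (lam : Fin m → ℝ) : pw (pad lam) 1 = pw lam 1 := pw_pad lam 0
theorem pw_pad2 (lam : Fin m → ℝ) : pw (pad lam) 2 = pw lam 2 := pw_pad lam 1
theorem pw_pad3 (lam : Fin m → ℝ) : pw (pad lam) 3 = pw lam 3 := pw_pad lam 2
theorem pw_pad4 (lam : Fin m → ℝ) : pw (pad lam) 4 = pw lam 4 := pw_pad lam 3

theorem XX_pad (lam x : Fin m → ℝ) (j : ℕ) : XX (pad lam) (pad x) j = XX lam x j := by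
  unfold XX
  rw [Fin.sum_univ_castSucc]
  simp only [pad_castSucc, pad_last, mul_zero, add_zero]

theorem qf_pad (lam x : Fin m → ℝ) (k : Fin m) (j : ℕ) :
    qf (pad lam) (pad x) k.castSucc j = qf lam x k j := by
  unfold qf
  rw [Fin.sum_univ_castSucc]
  simp only [Fin.castSucc_inj, pad_castSucc, ite_mul, pad_last, ne_eq, OfNat.ofNat_ne_zero, not_false_eq_true, zero_pow, mul_zero, add_zero]

theorem XE_pad (lam x : Fin m → ℝ) (k : Fin m) (a j : ℕ) :
    XE (pad lam) (pad x) k.castSucc a j = XE lam x k a j := by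
  unfold XE
  simp only [XX_pad, pad_castSucc]

theorem qe_pad (lam x : Fin m → ℝ) (k : Fin m) (a j : ℕ) :
    qe (pad lam) (pad x) k.castSucc a j = qe lam x k a j := by
  unfold qe
  simp only [XX_pad]
  rw [Fin.sum_univ_castSucc]
  simp only [Fin.castSucc_inj, pad_castSucc, ite_mul, pad_last, ne_eq, OfNat.ofNat_ne_zero, not_false_eq_true, zero_pow, mul_zero, add_zero]

theorem formC_pad (Φ : Fam) (α y v : ℝ) (lam : Fin m → ℝ) (k : Fin m) (x : Fin m → ℝ) (t : ℝ) :
    formC Φ α y v (pad lam) k.castSucc (pad x) t = formC Φ α y v lam k x t := by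
  unfold formC
  simp only [pw_pad3, pw_pad4, qf_pad, XX_pad, qe_pad, XE_pad]

theorem formB_pad (Φ : Fam) (α y v : ℝ) (lam : Fin m → ℝ) (k : Fin m) (x : Fin m → ℝ) (t : ℝ) :
    formB Φ α y v (pad lam) k.castSucc (pad x) t = formB Φ α y v lam k x t := by
  unfold formB
  simp only [pw_pad3, pw_pad4, pad_castSucc, XX_pad, XE_pad]

theorem formG_pad (Φ : Fam) (y v : ℝ) (lam : Fin m → ℝ) :
    formG Φ y v (pad lam) = formG Φ y v lam := by
  unfold formG
  simp only [pw_pad]

theorem formA_pad (Φ : Fam) (y v : ℝ) (lam : Fin m → ℝ) (k : Fin m) :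
    formA Φ y v (pad lam) k.castSucc = formA Φ y v lam k := by
  unfold formA
  simp only [pw_pad, formG_pad, pad_castSucc]

theorem formN_pad (Φ : Fam) (lam : Fin m → ℝ) (k : Fin m) :
    formN Φ (pad lam) k.castSucc = formN Φ lam k := by
  have h2 : ∀ j, pw (pad lam) (j + 2) = pw lam (j + 2) := fun j => pw_pad lam (j + 1)
  unfold formN
  simp only [h2, pw_pad, pad_castSucc]

/-- A certificate in `m + 1` variables restricts to `m` variables, except for the condition
`kappa`. -/
theorem Cert.down {α : ℝ} {Φ : Fam} (h : Cert (m + 1) α Φ)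
    (hk : ∃ ε : ℝ, 0 < ε ∧ ∀ y v : ℝ, 0 ≤ y → y ≤ 1 → 0 ≤ v → v ≤ 1 → ∀ lam : Fin m → ℝ,
      pw lam 1 = 0 → pw lam 2 = 1 →
        ε * (v + (1 - y) ^ 2) ≤ v * formK Φ y v lam + (1 - y) ^ 2 * formG Φ y v lam) :
    Cert m α Φ where
  hα := h.hα
  w_pos := by
    intro y v hy0 hy1 hv0 hv1 lam h1 h2
    have h3 := h.w_pos y v hy0 hy1 hv0 hv1 (pad lam) (by rw [pw_pad1]; exact h1)
      (by rw [pw_pad2]; exact h2)
    rwa [pw_pad3, pw_pad4] at h3
  form_pos := by
    intro y ρ hy0 hy1 hρ0 hρ1 lam h1 h2 k ξ t x hx hne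
    have h3 := h.form_pos y ρ hy0 hy1 hρ0 hρ1 (pad lam) (by rw [pw_pad1]; exact h1)
      (by rw [pw_pad2]; exact h2) k.castSucc ξ t (pad x) (by rw [sum_pad]; exact hx)
      (fun hz => hne ⟨hz.1, hz.2.1, pad_eq_zero hz.2.2⟩)
    rwa [formA_pad, formB_pad, formC_pad] at h3
  formC_pos := by
    intro y v hy0 hy1 hv0 hv1 lam h1 h2 k t x hx hne
    have h3 := h.formC_pos y v hy0 hy1 hv0 hv1 (pad lam) (by rw [pw_pad1]; exact h1)
      (by rw [pw_pad2]; exact h2) k.castSucc t (pad x) (by rw [sum_pad]; exact hx)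
      (fun hz => hne ⟨hz.1, pad_eq_zero hz.2⟩)
    rwa [formC_pad] at h3
  triple := by
    intro y v hy0 hy1 hv0 hv1 lam h1 h2 i j k hij hjk hik
    have h3 := h.triple y v hy0 hy1 hv0 hv1 (pad lam) (by rw [pw_pad1]; exact h1)
      (by rw [pw_pad2]; exact h2) i.castSucc j.castSucc k.castSucc
      (fun e => hij (Fin.castSucc_injective m e)) (fun e => hjk (Fin.castSucc_injective m e))
      (fun e => hik (Fin.castSucc_injective m e))
    simpa only [pw_pad3, pw_pad4, pad_castSucc] using h3
  kappa := hk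
  bdry := by
    intro lam h1 h2 k hk
    have h3 := h.bdry (pad lam) (by rw [pw_pad1]; exact h1) (by rw [pw_pad2]; exact h2)
      k.castSucc (by rw [pad_castSucc]; exact hk)
    rwa [formN_pad] at h3

end Vale.Agent.P098
end
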