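import Mathlib
import Vale.Agent.P098.Bdl.B2
import Vale.Agent.P098.Bdl.B3
import Vale.Agent.P098.Bdl.B9
import Vale.Agent.P098.Bdl.B5
import Vale.Agent.P098.Bdl.B4
import Vale.Agent.P098.Bdl.B12
import Vale.Agent.P098.Bdl.B11
import Vale.Agent.P098.Bdl.B13

set_option linter.all false

section

set_option linter.all false

/-! # M11: dimension one -/

open MeasureTheory Set Metric Filter
open scoped ContDiff RealInnerProductSpace Topology NNReal

namespace Vale.Agent.P098

variable {d : ℕ}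

/-- The coordinate isometry of `E 1`. -/
noncomputable def rM11_I0 : E 1 ≃ₗᵢ[ℝ] ℝ where
  toFun x := x 0
  invFun t := EuclideanSpace.single 0 t
  map_add' x y := by simp
  map_smul' r x := by simp
  left_inv x := by
    ext i
    fin_cases i
    simp
  right_inv t := by simp
  norm_map' x := by
    rw [EuclideanSpace.norm_eq, Fin.sum_univ_one, Real.sqrt_sq (norm_nonneg _)]
    rfl

theorem rM11_I0_apply (x : E 1) : rM11_I0 x = x 0 := rfl

theorem rM11_I0_symm (t : ℝ) : rM11_I0.symm t = EuclideanSpace.single 0 t := rfl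

theorem rM11_norm (I : E 1 ≃ₗᵢ[ℝ] ℝ) (f : ℝ → ℝ) (x : E 1) :
    ‖fderiv ℝ (fun x => f (I x)) x‖ = |deriv f (I x)| := by
  have h1 : fderiv ℝ (f ∘ I.toContinuousLinearEquiv) x =
      (fderiv ℝ f (I x)).comp (I.toContinuousLinearEquiv : E 1 →L[ℝ] ℝ) :=
    ContinuousLinearEquiv.comp_right_fderiv I.toContinuousLinearEquiv
  have h2 : fderiv ℝ (fun x => f (I x)) x =
      (fderiv ℝ f (I x)).comp (I.toContinuousLinearEquiv : E 1 →L[ℝ] ℝ) := h1
  rw [h2, ← Real.norm_eq_abs, norm_deriv_eq_norm_fderiv]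
  exact ContinuousLinearMap.opNorm_comp_linearIsometryEquiv _ I

theorem rM11_key (I : E 1 ≃ₗᵢ[ℝ] ℝ) (u : E 1 → ℝ) (hmin : LipMin u) (f g : ℝ → ℝ)
    (hug : ∀ x, u x = g (I x)) (K : ℝ≥0) (hf : LipschitzWith K f) (h0 : ∀ t, 0 ≤ f t)
    (hc : HasCompactSupport (fun t => f t - g t)) :
    0 ≤ ∫ t : ℝ, ((deriv f t ^ 2 - deriv g t ^ 2) +
      ({y | 0 < f y}.indicator (fun _ => (1 : ℝ)) t -
        {y | 0 < g y}.indicator (fun _ => (1 : ℝ)) t)) := by
  have hu : u = fun x => g (I x) := funext hug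
  have h := hmin (fun x => f (I x)) ⟨K * 1, hf.comp I.isometry.lipschitz⟩ (fun x => h0 _) (by
    have := hc.comp_homeomorph I.toHomeomorph
    rw [hu]
    exact this)
  have e : (fun x : E 1 => ((‖fderiv ℝ (fun x => f (I x)) x‖ ^ 2 - ‖fderiv ℝ u x‖ ^ 2) +
      ({y | 0 < f (I y)}.indicator (fun _ => (1 : ℝ)) x -
        {y | 0 < u y}.indicator (fun _ => (1 : ℝ)) x))) =
      fun x => (fun t : ℝ => ((deriv f t ^ 2 - deriv g t ^ 2) +
      ({y | 0 < f y}.indicator (fun _ => (1 : ℝ)) t -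
        {y | 0 < g y}.indicator (fun _ => (1 : ℝ)) t))) (I x) := by
    funext x
    rw [hu, rM11_norm, rM11_norm, sq_abs, sq_abs]
    simp only [Set.indicator_apply, Set.mem_setOf_eq]
  rw [e] at h
  have h5 := I.measurePreserving.integral_comp I.toHomeomorph.measurableEmbedding
    (fun t : ℝ => ((deriv f t ^ 2 - deriv g t ^ 2) +
      ({y | 0 < f y}.indicator (fun _ => (1 : ℝ)) t -
        {y | 0 < g y}.indicator (fun _ => (1 : ℝ)) t)))
  rw [← h5]
  exact h

/-- Integral of a function with two constant pieces. -/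
theorem rM11_int {F : ℝ → ℝ} {p q r c₁ c₂ : ℝ} (hpq : p ≤ q) (hqr : q ≤ r)
    (h1 : ∀ t, p < t → t < q → F t = c₁) (h2 : ∀ t, q < t → t < r → F t = c₂)
    (h3 : ∀ t, t < p → F t = 0) (h4 : ∀ t, r < t → F t = 0) :
    ∫ t, F t = c₁ * (q - p) + c₂ * (r - q) := by
  have hae : F =ᵐ[volume] fun t => (Ioo p q).indicator (fun _ => c₁) t +
      (Ioo q r).indicator (fun _ => c₂) t := by
    have hn : ∀ᵐ t : ℝ, t ∉ ({p, q, r} : Set ℝ) := by
      rw [ae_iff]
      simp only [not_not]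
      exact (Set.toFinite ({p, q, r} : Set ℝ)).measure_zero volume
    filter_upwards [hn] with t ht
    simp only [mem_insert_iff, mem_singleton_iff, not_or] at ht
    obtain ⟨a1, a2, a3⟩ := ht
    rcases lt_or_gt_of_ne a1 with hp | hp
    · rw [h3 t hp]
      simp only [Set.indicator_apply, mem_Ioo]
      rw [if_neg (by intro h; linarith [h.1]), if_neg (by intro h; linarith [h.1])]
      simp
    rcases lt_or_gt_of_ne a2 with hq | hq
    · rw [h1 t hp hq]
      simp only [Set.indicator_apply, mem_Ioo]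
      rw [if_pos ⟨hp, hq⟩, if_neg (by intro h; linarith [h.1])]
      simp
    rcases lt_or_gt_of_ne a3 with hr | hr
    · rw [h2 t hq hr]
      simp only [Set.indicator_apply, mem_Ioo]
      rw [if_neg (by intro h; linarith [h.2]), if_pos ⟨hq, hr⟩]
      simp
    · rw [h4 t hr]
      simp only [Set.indicator_apply, mem_Ioo]
      rw [if_neg (by intro h; linarith [h.2]), if_neg (by intro h; linarith [h.2])]
      simp
  rw [integral_congr_ae hae, integral_add, integral_indicator measurableSet_Ioo,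
    integral_indicator measurableSet_Ioo, setIntegral_const, setIntegral_const]
  · simp only [measureReal_def, Real.volume_Ioo, smul_eq_mul]
    rw [ENNReal.toReal_ofReal (by linarith), ENNReal.toReal_ofReal (by linarith)]
    ring
  · rw [integrable_indicator_iff measurableSet_Ioo]
    exact integrableOn_const (by simp)
  · rw [integrable_indicator_iff measurableSet_Ioo]
    exact integrableOn_const (by simp)

theorem rM11_deriv {f : ℝ → ℝ} {s : Set ℝ} (hs : IsOpen s) {α β : ℝ}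
    (h : ∀ t ∈ s, f t = α * t + β) {t : ℝ} (ht : t ∈ s) : deriv f t = α := by
  have h1 : f =ᶠ[𝓝 t] fun t => α * t + β := by
    filter_upwards [hs.mem_nhds ht] with y hy using h y hy
  rw [h1.deriv_eq]
  have : HasDerivAt (fun t : ℝ => α * t + β) (α * 1) t :=
    ((hasDerivAt_id t).const_mul α).add_const β
  rw [this.deriv, mul_one]

theorem rM11_lip_aff (α β : ℝ) : ∃ K : ℝ≥0, LipschitzWith K (fun t : ℝ => α * t + β) := by
  refine ⟨⟨|α|, abs_nonneg _⟩, LipschitzWith.of_dist_le_mul fun x y => ?_⟩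
  rw [Real.dist_eq, Real.dist_eq]
  have : α * x + β - (α * y + β) = α * (x - y) := by ring
  rw [this, abs_mul]
  rfl

/-- The piecewise linear function with slopes `a` and `-b`. -/
noncomputable def rM11_g (a b t : ℝ) : ℝ := max (a * t) (-(b * t))

theorem rM11_g_pos {a b t : ℝ} (ha : 0 ≤ a) (hb : 0 ≤ b) (ht : 0 ≤ t) :
    rM11_g a b t = a * t := by
  rw [rM11_g, max_eq_left]
  linarith only [mul_nonneg hb ht, mul_nonneg ha ht]

theorem rM11_g_neg {a b t : ℝ} (ha : 0 ≤ a) (hb : 0 ≤ b) (ht : t ≤ 0) :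
    rM11_g a b t = -(b * t) := by
  rw [rM11_g, max_eq_right]
  linarith only [mul_nonneg hb (neg_nonneg.2 ht), mul_nonneg ha (neg_nonneg.2 ht)]

theorem rM11_rep (I : E 1 ≃ₗᵢ[ℝ] ℝ) {u : E 1 → ℝ} (h0 : ∀ x, 0 ≤ u x) (hH : Hom1 u) (x : E 1) :
    u x = rM11_g (u (I.symm 1)) (u (I.symm (-1))) (I x) := by
  have hz : u 0 = 0 := by
    have := hH 2 (by norm_num) 0
    rw [smul_zero] at this
    linarith
  rcases lt_trichotomy (I x) 0 with h | h | h
  · rw [rM11_g_neg (h0 _) (h0 _) h.le]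
    have := hH (-(I x)) (by linarith) (I.symm (-1))
    rw [← map_smul, smul_eq_mul, mul_neg, mul_one, neg_neg, I.symm_apply_apply] at this
    rw [this]; ring
  · rw [rM11_g_pos (h0 _) (h0 _) h.ge, h, mul_zero]
    have : x = 0 := by
      rw [← I.symm_apply_apply x, h, map_zero]
    rw [this, hz]
  · rw [rM11_g_pos (h0 _) (h0 _) h.le]
    have := hH (I x) h (I.symm 1)
    rw [← map_smul, smul_eq_mul, mul_one, I.symm_apply_apply] at this
    rw [this]; ring

theorem rM11_lip_g (a b : ℝ) : ∃ K : ℝ≥0, LipschitzWith K (rM11_g a b) := by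
  obtain ⟨K1, h1⟩ := rM11_lip_aff a 0
  obtain ⟨K2, h2⟩ := rM11_lip_aff (-b) 0
  refine ⟨max K1 K2, ?_⟩
  have h3 := h1.max h2
  have e : rM11_g a b = fun t => max (a * t + 0) (-b * t + 0) := by
    funext t
    rw [rM11_g]
    congr 1 <;> ring
  rw [e]
  exact h3

/-- The value of the integrand at a point where both functions are affine. -/
theorem rM11_val {f g : ℝ → ℝ} {s : Set ℝ} (hs : IsOpen s) {α β α' β' : ℝ}
    (h : ∀ t ∈ s, f t = α * t + β) (h' : ∀ t ∈ s, g t = α' * t + β') {t : ℝ} (ht : t ∈ s) :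
    ((deriv f t ^ 2 - deriv g t ^ 2) +
      ({y | 0 < f y}.indicator (fun _ => (1 : ℝ)) t -
        {y | 0 < g y}.indicator (fun _ => (1 : ℝ)) t)) =
    α ^ 2 - α' ^ 2 + ((if 0 < f t then 1 else 0) - (if 0 < g t then 1 else 0)) := by
  rw [rM11_deriv hs h ht, rM11_deriv hs h' ht]
  rfl

/-- Both slopes positive: impossible. -/
theorem rM11_case1 (I : E 1 ≃ₗᵢ[ℝ] ℝ) {u : E 1 → ℝ} (hmin : LipMin u) {a b : ℝ} (ha : 0 < a)
    (hb : 0 < b) (hu : ∀ x, u x = rM11_g a b (I x)) : False := by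
  obtain ⟨K1, hK1⟩ := rM11_lip_g a b
  obtain ⟨K2, hK2⟩ := rM11_lip_aff ((a - b) / 2) ((a + b) / 2)
  set f : ℝ → ℝ := fun t => max (rM11_g a b t) ((a - b) / 2 * t + (a + b) / 2) with hf
  have g1 : ∀ t, 0 ≤ t → rM11_g a b t = a * t := fun t ht => rM11_g_pos ha.le hb.le ht
  have g2 : ∀ t, t ≤ 0 → rM11_g a b t = -(b * t) := fun t ht => rM11_g_neg ha.le hb.le ht
  have f1 : ∀ t, 1 ≤ t → f t = a * t := by
    intro t ht
    simp only [hf]
    rw [g1 t (by linarith), max_eq_left]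
    linarith only [mul_nonneg (le_of_lt (sub_pos.2 hb)) (sub_nonneg.2 ht), mul_nonneg (le_of_lt (sub_pos.2 ha)) (sub_nonneg.2 ht)]
  have f2 : ∀ t, t ≤ -1 → f t = -(b * t) := by
    intro t ht
    simp only [hf]
    rw [g2 t (by linarith), max_eq_left]
    linarith only [mul_nonneg (le_of_lt (sub_pos.2 hb)) (sub_nonneg.2 ht), mul_nonneg (le_of_lt (sub_pos.2 ha)) (sub_nonneg.2 ht)]
  have f3 : ∀ t, 0 ≤ t → t ≤ 1 → f t = (a - b) / 2 * t + (a + b) / 2 := by
    intro t ht ht'
    simp only [hf]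
    rw [g1 t ht, max_eq_right]
    linarith only [mul_nonneg (le_of_lt (sub_pos.2 hb)) (sub_nonneg.2 ht'), mul_nonneg (le_of_lt (sub_pos.2 ha)) (sub_nonneg.2 ht')]
  have f4 : ∀ t, -1 ≤ t → t ≤ 0 → f t = (a - b) / 2 * t + (a + b) / 2 := by
    intro t ht ht'
    simp only [hf]
    rw [g2 t ht', max_eq_right]
    nlinarith
  have key := rM11_key I u hmin f (rM11_g a b) hu _ (hK1.max hK2)
    (fun t => by
      simp only [hf]
      rcases le_total 0 t with h | h
      · rw [g1 t h]; exact le_max_of_le_left (by positivity)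
      · rw [g2 t h]; exact le_max_of_le_left (by linarith only [mul_nonneg (le_of_lt (sub_pos.2 hb)) (sub_nonneg.2 h)]))
    (by
      refine HasCompactSupport.intro (isCompact_Icc (a := (-1 : ℝ)) (b := 1)) fun t ht => ?_
      rw [mem_Icc, not_and_or, not_le, not_le] at ht
      rcases ht with h | h
      · rw [f2 t h.le, g2 t (by linarith)]; ring
      · rw [f1 t h.le, g1 t (by linarith)]; ring)
  rw [rM11_int (p := -1) (q := 0) (r := 1) (c₁ := ((a - b) / 2) ^ 2 - b ^ 2)
    (c₂ := ((a - b) / 2) ^ 2 - a ^ 2) (by norm_num) (by norm_num)] at key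
  · linarith only [mul_pos (sub_pos.2 hb) (sub_pos.2 (mul_pos ha hb)), mul_pos (sub_pos.2 ha) (sub_pos.2 (mul_pos ha hb)), mul_nonneg (le_of_lt (sub_pos.2 ha)) (sub_nonneg.2 key), mul_nonneg (sq_nonneg (1 * a : ℝ)) (le_of_lt (sub_pos.2 ha))]
  · intro t h1 h2
    rw [rM11_val (s := Ioo (-1) 0) isOpen_Ioo (α := (a - b) / 2) (β := (a + b) / 2) (α' := -b)
      (β' := 0) (fun t ht => f4 t ht.1.le ht.2.le)
      (fun t ht => by rw [g2 t ht.2.le]; ring) ⟨h1, h2⟩]
    have e1 : 0 < f t := by rw [f4 t h1.le h2.le]; nlinarith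
    have e2 : 0 < rM11_g a b t := by rw [g2 t h2.le]; (by_contra nlg; linarith [mul_pos (sub_pos.2 hb) (sub_pos.2 h2), mul_nonneg (sub_nonneg.2 (not_lt.1 nlg)) (le_of_lt (sub_pos.2 h2)), mul_nonneg (sub_nonneg.2 (not_lt.1 nlg)) (le_of_lt (sub_pos.2 h1))])
    rw [if_pos e1, if_pos e2]; ring
  · intro t h1 h2
    rw [rM11_val (s := Ioo 0 1) isOpen_Ioo (α := (a - b) / 2) (β := (a + b) / 2) (α' := a)
      (β' := 0) (fun t ht => f3 t ht.1.le ht.2.le)
      (fun t ht => by rw [g1 t ht.1.le]; ring) ⟨h1, h2⟩]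
    have e1 : 0 < f t := by rw [f3 t h1.le h2.le]; nlinarith
    have e2 : 0 < rM11_g a b t := by rw [g1 t h1.le]; (by_contra nlg; linarith [mul_pos (sub_pos.2 ha) (sub_pos.2 h1), mul_nonneg (sub_nonneg.2 (not_lt.1 nlg)) (le_of_lt (sub_pos.2 h2)), mul_nonneg (sub_nonneg.2 (not_lt.1 nlg)) (le_of_lt (sub_pos.2 h1))])
    rw [if_pos e1, if_pos e2]; ring
  · intro t h1
    rw [rM11_val (s := Iio (-1)) isOpen_Iio (α := -b) (β := 0) (α' := -b)
      (β' := 0) (fun t ht => by rw [f2 t (le_of_lt ht)]; ring)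
      (fun t ht => by rw [g2 t (by linarith [mem_Iio.1 ht])]; ring) h1]
    have e1 : f t = rM11_g a b t := by rw [f2 t h1.le, g2 t (by linarith)]
    rw [e1]; ring
  · intro t h1
    rw [rM11_val (s := Ioi 1) isOpen_Ioi (α := a) (β := 0) (α' := a)
      (β' := 0) (fun t ht => by rw [f1 t (le_of_lt ht)]; ring)
      (fun t ht => by rw [g1 t (by linarith [mem_Ioi.1 ht])]; ring) h1]
    have e1 : f t = rM11_g a b t := by rw [f1 t h1.le, g1 t (by linarith)]
    rw [e1]; ring

/-- One slope positive, the other zero: the slope is at least one. -/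
theorem rM11_case2a (I : E 1 ≃ₗᵢ[ℝ] ℝ) {u : E 1 → ℝ} (hmin : LipMin u) {a : ℝ} (ha : 0 < a)
    (hu : ∀ x, u x = rM11_g a 0 (I x)) {s : ℝ} (hs0 : 0 < s) (hs1 : s < 1) :
    1 - s ≤ a ^ 2 := by
  have h1s : 0 < 1 - s := by linarith
  obtain ⟨K1, hK1⟩ := rM11_lip_g a 0
  obtain ⟨K2, hK2⟩ := rM11_lip_aff (a / (1 - s)) (-(a / (1 - s) * s))
  set f : ℝ → ℝ := fun t => min (rM11_g a 0 t) (max (a / (1 - s) * t + -(a / (1 - s) * s)) 0)
    with hf
  have hc : 0 < a / (1 - s) := by positivity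
  have hc2 : a / (1 - s) * (1 - s) = a := by field_simp
  set c := a / (1 - s) with hcdef
  have g1 : ∀ t, 0 ≤ t → rM11_g a 0 t = a * t := fun t ht => rM11_g_pos ha.le le_rfl ht
  have g2 : ∀ t, t ≤ 0 → rM11_g a 0 t = 0 := fun t ht => by
    rw [rM11_g_neg ha.le le_rfl ht]; ring
  have f1 : ∀ t, 1 ≤ t → f t = a * t := by
    intro t ht
    simp only [hf]
    rw [g1 t (by linarith), min_eq_left]
    refine le_max_of_le_left ?_
    nlinarith [mul_nonneg (mul_pos hc hs0).le (by linarith : (0:ℝ) ≤ t - 1)]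
  have f2 : ∀ t, t ≤ 0 → f t = 0 := by
    intro t ht
    simp only [hf]
    rw [g2 t ht, min_eq_left (le_max_right _ _)]
  have f3 : ∀ t, 0 ≤ t → t ≤ s → f t = 0 := by
    intro t ht ht'
    simp only [hf]
    rw [g1 t ht, max_eq_right (by (by_contra nlg; linarith [mul_eq_zero_of_left (sub_eq_zero.2 hc2) (s - (t)), mul_nonneg (le_of_lt (sub_pos.2 ha)) (sub_nonneg.2 ht'), mul_pos (sub_pos.2 (not_le.1 nlg)) (sub_pos.2 h1s)])), min_eq_right (by positivity)]
  have f4 : ∀ t, s ≤ t → t ≤ 1 → f t = c * t + -(c * s) := by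
    intro t ht ht'
    simp only [hf]
    rw [g1 t (by linarith), max_eq_left (by nlinarith), min_eq_right]
    nlinarith [mul_nonneg (mul_pos hc hs0).le (by linarith : (0:ℝ) ≤ 1 - t)]
  have key := rM11_key I u hmin f (rM11_g a 0) hu _ (hK1.min (hK2.max (LipschitzWith.const 0)))
    (fun t => by
      simp only [hf]
      refine le_min ?_ (le_max_right _ _)
      rcases le_total 0 t with h | h
      · rw [g1 t h]; positivity
      · rw [g2 t h])
    (by
      refine HasCompactSupport.intro (isCompact_Icc (a := (0 : ℝ)) (b := 1)) fun t ht => ?_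
      rw [mem_Icc, not_and_or, not_le, not_le] at ht
      rcases ht with h | h
      · rw [f2 t h.le, g2 t (by linarith)]; ring
      · rw [f1 t h.le, g1 t (by linarith)]; ring)
  rw [rM11_int (p := 0) (q := s) (r := 1) (c₁ := - a ^ 2 - 1)
    (c₂ := c ^ 2 - a ^ 2) hs0.le hs1.le] at key
  · have h2 : c ^ 2 * (1 - s) = a * c := by rw [← hc2]; ring
    have h3 : (c ^ 2 - a ^ 2) * (1 - s) = a * c - a ^ 2 * (1 - s) := by rw [← h2]; ring
    have h4 : a ^ 2 * s / (1 - s) = a * c - a ^ 2 := by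
      rw [hcdef]; field_simp; ring
    have h5 : 0 ≤ a ^ 2 * s / (1 - s) - s := by rw [h4]; nlinarith
    have h6 : a ^ 2 * s / (1 - s) - s = s * (a ^ 2 - (1 - s)) / (1 - s) := by
      field_simp
    rw [h6] at h5
    have h7 : 0 ≤ s * (a ^ 2 - (1 - s)) := by
      by_contra hneg
      push Not at hneg
      exact absurd h5 (not_le.2 (div_neg_of_neg_of_pos hneg h1s))
    nlinarith [nonneg_of_mul_nonneg_right h7 hs0]
  · intro t h1 h2
    rw [rM11_val (s := Ioo 0 s) isOpen_Ioo (α := 0) (β := 0) (α' := a)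
      (β' := 0) (fun t ht => by rw [f3 t ht.1.le ht.2.le]; ring)
      (fun t ht => by rw [g1 t ht.1.le]; ring) ⟨h1, h2⟩]
    have e2 : 0 < rM11_g a 0 t := by rw [g1 t h1.le]; positivity
    rw [f3 t h1.le h2.le, if_neg (lt_irrefl _), if_pos e2]; ring
  · intro t h1 h2
    rw [rM11_val (s := Ioo s 1) isOpen_Ioo (α := c) (β := -(c * s)) (α' := a)
      (β' := 0) (fun t ht => f4 t ht.1.le ht.2.le)
      (fun t ht => by rw [g1 t (by linarith [ht.1])]; ring) ⟨h1, h2⟩]
    have e1 : 0 < f t := by rw [f4 t h1.le h2.le]; nlinarith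
    have e2 : 0 < rM11_g a 0 t := by
      rw [g1 t (by linarith)]
      exact mul_pos ha (by linarith)
    rw [if_pos e1, if_pos e2]; ring
  · intro t h1
    rw [rM11_val (s := Iio 0) isOpen_Iio (α := 0) (β := 0) (α' := 0)
      (β' := 0) (fun t ht => by rw [f2 t (le_of_lt ht)]; ring)
      (fun t ht => by rw [g2 t (le_of_lt ht)]; ring) h1]
    rw [f2 t h1.le, g2 t h1.le]; ring
  · intro t h1
    rw [rM11_val (s := Ioi 1) isOpen_Ioi (α := a) (β := 0) (α' := a)
      (β' := 0) (fun t ht => by rw [f1 t (le_of_lt ht)]; ring)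
      (fun t ht => by rw [g1 t (by linarith [mem_Ioi.1 ht])]; ring) h1]
    have e1 : f t = rM11_g a 0 t := by rw [f1 t h1.le, g1 t (by linarith)]
    rw [e1]; ring

/-- One slope positive, the other zero: the slope is at most one. -/
theorem rM11_case2b (I : E 1 ≃ₗᵢ[ℝ] ℝ) {u : E 1 → ℝ} (hmin : LipMin u) {a : ℝ} (ha : 0 < a)
    (hu : ∀ x, u x = rM11_g a 0 (I x)) {s : ℝ} (hs0 : 0 < s) :
    a ^ 2 ≤ 1 + s := by
  have h1s : 0 < 1 + s := by linarith
  obtain ⟨K1, hK1⟩ := rM11_lip_g a 0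
  obtain ⟨K2, hK2⟩ := rM11_lip_aff (a / (1 + s)) (a / (1 + s) * s)
  set f : ℝ → ℝ := fun t => max (rM11_g a 0 t) (max (a / (1 + s) * t + a / (1 + s) * s) 0)
    with hf
  have hc : 0 < a / (1 + s) := by positivity
  have hc2 : a / (1 + s) * (1 + s) = a := by field_simp
  set c := a / (1 + s) with hcdef
  have g1 : ∀ t, 0 ≤ t → rM11_g a 0 t = a * t := fun t ht => rM11_g_pos ha.le le_rfl ht
  have g2 : ∀ t, t ≤ 0 → rM11_g a 0 t = 0 := fun t ht => by
    rw [rM11_g_neg ha.le le_rfl ht]; ring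
  have f1 : ∀ t, 1 ≤ t → f t = a * t := by
    intro t ht
    simp only [hf]
    rw [g1 t (by linarith), max_eq_left]
    refine max_le ?_ (by positivity)
    nlinarith [mul_nonneg (mul_pos hc hs0).le (by linarith : (0:ℝ) ≤ t - 1)]
  have f2 : ∀ t, t ≤ -s → f t = 0 := by
    intro t ht
    simp only [hf]
    rw [g2 t (by linarith), max_eq_right (le_max_right _ _), max_eq_right]
    (by_contra nlg; linarith [mul_eq_zero_of_left (sub_eq_zero.2 hc2) (-s - (t)), mul_nonneg (le_of_lt (sub_pos.2 ha)) (sub_nonneg.2 ht), mul_pos (sub_pos.2 (not_le.1 nlg)) (sub_pos.2 h1s)])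
  have f3 : ∀ t, -s ≤ t → t ≤ 0 → f t = c * t + c * s := by
    intro t ht ht'
    simp only [hf]
    rw [g2 t ht', max_eq_right (le_max_right _ _), max_eq_left]
    (by_contra nlg; linarith [mul_eq_zero_of_left (sub_eq_zero.2 hc2) (t - (-s)), mul_nonneg (le_of_lt (sub_pos.2 ha)) (sub_nonneg.2 ht), mul_pos (sub_pos.2 (not_le.1 nlg)) (sub_pos.2 h1s)])
  have f4 : ∀ t, 0 ≤ t → t ≤ 1 → f t = c * t + c * s := by
    intro t ht ht'
    simp only [hf]
    rw [g1 t ht, max_eq_left (a := c * t + c * s) (by positivity), max_eq_right]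
    nlinarith [mul_nonneg (mul_pos hc hs0).le (by linarith : (0:ℝ) ≤ 1 - t)]
  have key := rM11_key I u hmin f (rM11_g a 0) hu _ (hK1.max (hK2.max (LipschitzWith.const 0)))
    (fun t => by
      simp only [hf]
      exact le_max_of_le_right (le_max_right _ _))
    (by
      refine HasCompactSupport.intro (isCompact_Icc (a := -s) (b := 1)) fun t ht => ?_
      rw [mem_Icc, not_and_or, not_le, not_le] at ht
      rcases ht with h | h
      · rw [f2 t h.le, g2 t (by linarith)]; ring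
      · rw [f1 t h.le, g1 t (by linarith)]; ring)
  rw [rM11_int (p := -s) (q := 0) (r := 1) (c₁ := c ^ 2 + 1)
    (c₂ := c ^ 2 - a ^ 2) (by linarith) (by norm_num)] at key
  · have h2 : c ^ 2 * (1 + s) = a * c := by rw [← hc2]; ring
    have h4 : a ^ 2 * s / (1 + s) = a ^ 2 - a * c := by
      rw [hcdef]; field_simp; ring
    have h5 : 0 ≤ s - a ^ 2 * s / (1 + s) := by rw [h4]; linarith only [h2, key]
    have h6 : s - a ^ 2 * s / (1 + s) = s * ((1 + s) - a ^ 2) / (1 + s) := by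
      field_simp
    rw [h6] at h5
    have h7 : 0 ≤ s * ((1 + s) - a ^ 2) := by
      by_contra hneg
      push Not at hneg
      exact absurd h5 (not_le.2 (div_neg_of_neg_of_pos hneg h1s))
    linarith only [nonneg_of_mul_nonneg_right h7 hs0]
  · intro t h1 h2
    rw [rM11_val (s := Ioo (-s) 0) isOpen_Ioo (α := c) (β := c * s) (α' := 0)
      (β' := 0) (fun t ht => f3 t ht.1.le ht.2.le)
      (fun t ht => by rw [g2 t ht.2.le]; ring) ⟨h1, h2⟩]
    have e1 : 0 < f t := by rw [f3 t h1.le h2.le]; (by_contra nlg; linarith only [nlg, mul_eq_zero_of_left (sub_eq_zero.2 hc2) (t - (-s)), mul_pos (sub_pos.2 ha) (sub_pos.2 h1), mul_nonneg (sub_nonneg.2 (not_lt.1 nlg)) (le_of_lt (sub_pos.2 h1s))])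
    rw [if_pos e1, g2 t h2.le, if_neg (lt_irrefl _)]; ring
  · intro t h1 h2
    rw [rM11_val (s := Ioo 0 1) isOpen_Ioo (α := c) (β := c * s) (α' := a)
      (β' := 0) (fun t ht => f4 t ht.1.le ht.2.le)
      (fun t ht => by rw [g1 t (by linarith [ht.1])]; ring) ⟨h1, h2⟩]
    have e1 : 0 < f t := by rw [f4 t h1.le h2.le]; positivity
    have e2 : 0 < rM11_g a 0 t := by
      rw [g1 t (by linarith)]
      exact mul_pos ha (by linarith)
    rw [if_pos e1, if_pos e2]; ring
  · intro t h1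
    rw [rM11_val (s := Iio (-s)) isOpen_Iio (α := 0) (β := 0) (α' := 0)
      (β' := 0) (fun t ht => by rw [f2 t (le_of_lt ht)]; ring)
      (fun t ht => by rw [g2 t (by linarith [mem_Iio.1 ht])]; ring) h1]
    rw [f2 t h1.le, g2 t (by linarith)]; ring
  · intro t h1
    rw [rM11_val (s := Ioi 1) isOpen_Ioi (α := a) (β := 0) (α' := a)
      (β' := 0) (fun t ht => by rw [f1 t (le_of_lt ht)]; ring)
      (fun t ht => by rw [g1 t (by linarith [mem_Ioi.1 ht])]; ring) h1]
    have e1 : f t = rM11_g a 0 t := by rw [f1 t h1.le, g1 t (by linarith)]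
    rw [e1]; ring

theorem rM11_case2 (I : E 1 ≃ₗᵢ[ℝ] ℝ) {u : E 1 → ℝ} (hmin : LipMin u) {a : ℝ} (ha : 0 < a)
    (hu : ∀ x, u x = rM11_g a 0 (I x)) : a = 1 := by
  have h1 : a ^ 2 ≤ 1 := by
    refine le_of_forall_pos_le_add fun ε hε => ?_
    exact rM11_case2b I hmin ha hu hε
  have h2 : 1 ≤ a ^ 2 := by
    by_contra hlt
    push Not at hlt
    have := rM11_case2a I hmin ha hu (s := (1 - a ^ 2) / 2) (by linarith)
      (by linarith only [sq_nonneg a])
    linarith
  have h3 : a ^ 2 = 1 := le_antisymm h1 h2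
  nlinarith [sq_nonneg (a - 1)]

theorem FL_one : FL 1 := by
  intro L u hu hH
  set a := u (rM11_I0.symm 1) with ha
  set b := u (rM11_I0.symm (-1)) with hb
  have hrep : ∀ x, u x = rM11_g a b (rM11_I0 x) := rM11_rep rM11_I0 hu.nonneg hH
  have ha0 : 0 ≤ a := hu.nonneg _
  have hb0 : 0 ≤ b := hu.nonneg _
  rcases ha0.eq_or_lt with h1 | h1
  · rcases hb0.eq_or_lt with h2 | h2
    · left
      intro x
      rw [hrep, ← h1, ← h2, rM11_g]
      simp
    · right
      have hI : ∀ x, u x = rM11_g b 0 ((rM11_I0.trans (LinearIsometryEquiv.neg ℝ)) x) := by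
        intro x
        rw [hrep, ← h1]
        have e : (rM11_I0.trans (LinearIsometryEquiv.neg ℝ)) x = - rM11_I0 x := rfl
        rw [e, rM11_g, rM11_g, max_comm]
        congr 1 <;> ring
      have hb1 := rM11_case2 _ hu.min h2 hI
      refine ⟨-ee 0, by simp, fun x => ?_⟩
      rw [hI, hb1, rM11_g]
      have e : (rM11_I0.trans (LinearIsometryEquiv.neg ℝ)) x = - (x 0) := rfl
      rw [e, inner_neg_right]
      simp [ee, EuclideanSpace.inner_single_right]
  · rcases hb0.eq_or_lt with h2 | h2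
    · right
      have hI : ∀ x, u x = rM11_g a 0 (rM11_I0 x) := by
        intro x
        rw [hrep, ← h2]
      have hb1 := rM11_case2 _ hu.min h1 hI
      refine ⟨ee 0, by simp, fun x => ?_⟩
      rw [hI, hb1, rM11_g]
      have e : rM11_I0 x = (x 0) := rfl
      rw [e]
      simp [ee, EuclideanSpace.inner_single_right]
    · exact (rM11_case1 rM11_I0 hu.min h1 h2 hrep).elim

end Vale.Agent.P098
end

section

/-! # M3: nondegeneracy

Let `B_ρ = ball 0 ρ`. By rescaling it suffices to show for a small `c = c(d)`: if `u < c` on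
`closedBall 0 1` then `u 0 = 0` (if `NonDeg c` fails at `x, r`, consider `resc u x r`).

Step A: if `u ≤ c` on `closedBall 0 1` then `vol({u > 0} ∩ B_{1/2}) ≤ C₁ c²`.
Let `χ` be a smooth function, `χ = 0` on `B_{1/2}`, `χ = 1` for `|x|² ≥ 1/2`, and
`Ψ = c χ + L max(|x| - 1, 0)`, competitor `v = min(u, Ψ)`, `φ = u - v`. Minimality gives
`0 ≤ -2c∫∇χ·∇φ - vol({u>0} ∩ B_{1/2}) = 2 c ∫ Δχ φ - vol(…) ≤ 2 C c · c vol(B_1) - vol(…)`.

Step B: under the same hypothesis `u ≤ C₂ c³` on `closedBall 0 (1/4)`, by `MinL.le_av` with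
`t = 1/4`. Choose `c` with `C₂ c² ≤ 1/4` and `C₁ c² < vol(B_{1/2})`.

Step C: iterate B with `resc u 0 (4^{-k})`; by A `{u > 0}` contains no ball around `0`; it is
open, so `u 0 = 0`. -/

open MeasureTheory Set Metric Filter
open scoped ContDiff RealInnerProductSpace Topology NNReal

namespace Vale.Agent.P098

variable {d : ℕ}

/-- the smooth barrier -/
noncomputable def rM3_chi (x : E d) : ℝ := Real.smoothTransition (4 * ‖x‖ ^ 2 - 1)

theorem rM3_chi_contDiff : ContDiff ℝ ∞ (rM3_chi : E d → ℝ) := by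
  unfold rM3_chi
  exact Real.smoothTransition.contDiff.comp ((contDiff_const.mul (contDiff_norm_sq ℝ)).sub
    contDiff_const)

theorem rM3_chi_nonneg (x : E d) : 0 ≤ rM3_chi x := Real.smoothTransition.nonneg _

theorem rM3_chi_zero {x : E d} (hx : ‖x‖ ≤ 1 / 2) : rM3_chi x = 0 := by
  refine Real.smoothTransition.zero_of_nonpos ?_
  nlinarith [norm_nonneg x]

theorem rM3_chi_one {x : E d} (hx : 1 / 2 ≤ ‖x‖ ^ 2) : rM3_chi x = 1 := by
  refine Real.smoothTransition.one_of_one_le ?_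
  linarith

theorem rM3_P1_contDiff (i : Fin d) : ContDiff ℝ ∞ (P1 (rM3_chi : E d → ℝ) i) := by
  unfold P1
  exact (rM3_chi_contDiff.fderiv_right (m := ∞) (by simp)).clm_apply contDiff_const

theorem rM3_P1_zero (i : Fin d) {x : E d} (hx : x ∉ closedBall (0 : E d) 1) :
    P1 (rM3_chi : E d → ℝ) i x = 0 := by
  have h1 : (rM3_chi : E d → ℝ) =ᶠ[𝓝 x] fun _ => 1 := by
    filter_upwards [isClosed_closedBall.isOpen_compl.mem_nhds hx] with y hy
    refine rM3_chi_one ?_
    have : 1 < ‖y‖ := by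
      rw [mem_compl_iff, mem_closedBall, dist_zero_right, not_le] at hy
      exact hy
    nlinarith
  unfold P1
  rw [h1.fderiv_eq]
  simp

theorem rM3_P1_supp (i : Fin d) : HasCompactSupport (P1 (rM3_chi : E d → ℝ) i) :=
  HasCompactSupport.intro (isCompact_closedBall 0 1) fun _ hx => rM3_P1_zero i hx

theorem rM3_P2_cont (i : Fin d) : Continuous (P2 (rM3_chi : E d → ℝ) i i) := by
  unfold P2
  exact ((rM3_P1_contDiff i).continuous_fderiv (by simp)).clm_apply continuous_const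

theorem rM3_P2_supp (i : Fin d) : HasCompactSupport (P2 (rM3_chi : E d → ℝ) i i) :=
  (rM3_P1_supp i).fderiv_apply ℝ (ee i)

theorem rM3_lap_bound : ∃ M : ℝ, 0 ≤ M ∧ ∀ x : E d, |lap rM3_chi x| ≤ M := by
  have h : ∀ i : Fin d, ∃ M : ℝ, ∀ x : E d, ‖P2 (rM3_chi : E d → ℝ) i i x‖ ≤ M := fun i =>
    (rM3_P2_cont i).bounded_above_of_compact_support (rM3_P2_supp i)
  choose M hM using h
  refine ⟨∑ i, M i, Finset.sum_nonneg fun i _ => (norm_nonneg _).trans (hM i 0), fun x => ?_⟩
  exact (Finset.abs_sum_le_sum_abs _ _).trans (Finset.sum_le_sum fun i _ => hM i x)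

/-- integration by parts -/
theorem rM3_ibp {φ : E d → ℝ} {K : ℝ≥0} (hφ : LipschitzWith K φ) :
    ∫ x, ⟪gradient rM3_chi x, gradient φ x⟫ = - ∫ x, φ x * lap rM3_chi x := by
  have hw := ModA.isWeakGrad_of_lipschitz hφ univ
  have h1 : ∀ i : Fin d, ∫ x, φ x * P2 rM3_chi i i x =
      - ∫ x, fderiv ℝ φ x (ee i) * P1 rM3_chi i x := by
    intro i
    have := hw (P1 rM3_chi i) (rM3_P1_contDiff i) (rM3_P1_supp i) (subset_univ _) (ee i)
    simp only [Measure.restrict_univ, mb_inner_gradient] at this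
    exact this
  have i1 : ∀ i : Fin d, Integrable fun x => φ x * P2 rM3_chi i i x := fun i =>
    (hφ.continuous.mul (rM3_P2_cont i)).integrable_of_hasCompactSupport (rM3_P2_supp i).mul_left
  have i2 : ∀ i : Fin d, Integrable fun x => fderiv ℝ φ x (ee i) * P1 rM3_chi i x := by
    intro i
    obtain ⟨M, hM⟩ := (rM3_P1_contDiff i).continuous.bounded_above_of_compact_support
      (rM3_P1_supp i)
    refine mb_integrable (C := K * M) ?_ ?_ (rM3_P1_supp i).isCompact ?_
    · exact ((measurable_fderiv_apply_const ℝ φ (ee i)).mul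
        (rM3_P1_contDiff i).continuous.measurable).aestronglyMeasurable
    · intro x
      rw [abs_mul]
      refine mul_le_mul ?_ (hM x) (abs_nonneg _) K.coe_nonneg
      refine ((fderiv ℝ φ x).le_opNorm _).trans ?_
      have : ‖(ee i : E d)‖ = 1 := by simp [ee]
      rw [this, mul_one]
      exact norm_fderiv_le_of_lipschitz ℝ hφ
    · intro x hx
      rw [image_eq_zero_of_notMem_tsupport hx, mul_zero]
  have h2 : ∀ x : E d, ⟪gradient rM3_chi x, gradient φ x⟫ =
      ∑ i, fderiv ℝ φ x (ee i) * P1 rM3_chi i x := by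
    intro x
    rw [mb_inner_gradient_eq_sum]
    exact Finset.sum_congr rfl fun i _ => mul_comm _ _
  simp only [h2, lap, Finset.mul_sum]
  rw [integral_finsetSum _ fun i _ => i2 i, integral_finsetSum _ fun i _ => i1 i,
    ← Finset.sum_neg_distrib]
  exact Finset.sum_congr rfl fun i _ => by rw [h1 i, neg_neg]

theorem rM3_chi_lip : ∃ K : ℝ≥0, LipschitzWith K (rM3_chi : E d → ℝ) := by
  have h1 : HasCompactSupport fun x : E d => 1 - rM3_chi x := by
    refine HasCompactSupport.intro (isCompact_closedBall 0 1) fun x hx => ?_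
    rw [mem_closedBall, dist_zero_right, not_le] at hx
    rw [rM3_chi_one (by nlinarith), sub_self]
  have h2 : ContDiff ℝ ∞ fun x : E d => 1 - rM3_chi x := contDiff_const.sub rM3_chi_contDiff
  obtain ⟨K, hK⟩ := h2.lipschitzWith_of_hasCompactSupport h1 (by simp)
  refine ⟨0 + K, ?_⟩
  have h3 : (rM3_chi : E d → ℝ) = fun x => 1 - (1 - rM3_chi x) := by
    funext x; ring
  rw [h3]
  exact (LipschitzWith.const (1 : ℝ)).sub hK

theorem rM3_stepA (d : ℕ) : ∃ C : ℝ, 0 ≤ C ∧ ∀ (L : ℝ≥0) (u : E d → ℝ), MinL L u →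
    ∀ c : ℝ, 0 < c → (∀ x ∈ closedBall (0 : E d) 1, u x ≤ c) →
    volume.real (pos u ∩ closedBall (0 : E d) (1 / 2)) ≤ C * c ^ 2 := by
  obtain ⟨M, hM0, hM⟩ := rM3_lap_bound (d := d)
  refine ⟨2 * M * volume.real (closedBall (0 : E d) 1), by positivity, ?_⟩
  intro L u hu c hc hle
  obtain ⟨K, hK⟩ := rM3_chi_lip (d := d)
  set Ψ : E d → ℝ := fun x => c * rM3_chi x + L * max (‖x‖ - 1) 0 with hΨ
  have hΨL : LipschitzWith (‖c‖₊ * K + ‖(L : ℝ)‖₊ * 1) Ψ := by
    refine mb_lip_add (mb_lip_const_mul c hK) (mb_lip_const_mul (L : ℝ) ?_)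
    have h1 : LipschitzWith 1 fun x : E d => ‖x‖ - 1 := by
      have := (lipschitzWith_one_norm (E := E d)).sub (LipschitzWith.const (1 : ℝ))
      simpa using this
    exact mb_lip_max_zero h1
  have hΨ0 : ∀ x, 0 ≤ Ψ x := fun x =>
    add_nonneg (mul_nonneg hc.le (rM3_chi_nonneg x)) (mul_nonneg L.coe_nonneg (le_max_right _ _))
  set w : E d → ℝ := fun x => u x - Ψ x with hw
  have hwL := hu.lip.sub hΨL
  change LipschitzWith _ w at hwL
  set φ : E d → ℝ := fun x => max (w x) 0 with hφ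
  have hφL := mb_lip_max_zero hwL
  change LipschitzWith _ φ at hφL
  set v : E d → ℝ := fun x => u x - φ x with hv
  have hvL := hu.lip.sub hφL
  change LipschitzWith _ v at hvL
  -- `φ` vanishes for `|x|² ≥ 1/2`
  have hw0 : ∀ x : E d, 1 / 2 ≤ ‖x‖ ^ 2 → w x ≤ 0 := by
    intro x hx
    simp only [hw, hΨ]
    rw [rM3_chi_one hx]
    rcases le_or_gt ‖x‖ 1 with h1 | h1
    · have h2 := hle x (by rwa [mem_closedBall, dist_zero_right])
      have h3 : 0 ≤ (L : ℝ) * max (‖x‖ - 1) 0 := mul_nonneg L.coe_nonneg (le_max_right _ _)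
      linarith
    · have hx0 : 0 < ‖x‖ := by linarith
      have h2 := hle (‖x‖⁻¹ • x) (by
        rw [mem_closedBall, dist_zero_right, norm_smul, norm_inv, norm_norm,
          inv_mul_cancel₀ hx0.ne'])
      have h3 := hu.lip.dist_le_mul x (‖x‖⁻¹ • x)
      have h4 : dist x (‖x‖⁻¹ • x) = ‖x‖ - 1 := by
        have e1 : x - ‖x‖⁻¹ • x = (1 - ‖x‖⁻¹) • x := by rw [sub_smul, one_smul]
        rw [dist_eq_norm, e1, norm_smul, Real.norm_eq_abs, abs_of_nonneg, sub_mul, one_mul,
          inv_mul_cancel₀ hx0.ne']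
        rw [sub_nonneg]
        exact inv_le_one_of_one_le₀ h1.le
      rw [h4, Real.dist_eq] at h3
      have h5 := (abs_le.1 h3).2
      rw [max_eq_left (by linarith : (0 : ℝ) ≤ ‖x‖ - 1)]
      linarith
  have hφ0 : ∀ x : E d, 1 / 2 ≤ ‖x‖ ^ 2 → φ x = 0 := fun x hx => max_eq_right (hw0 x hx)
  have hφnn : ∀ x, 0 ≤ φ x := fun x => le_max_right _ _
  have hφle : ∀ x, φ x ≤ u x := fun x => max_le (by simp only [hw]; linarith [hΨ0 x]) (hu.nonneg x)
  have hvΨ : ∀ x, v x ≤ Ψ x := by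
    intro x
    have : w x ≤ φ x := le_max_left _ _
    simp only [hw] at this
    simp only [hv]
    linarith
  have hφc : HasCompactSupport φ := by
    refine HasCompactSupport.intro (isCompact_closedBall 0 1) fun x hx => hφ0 x ?_
    rw [mem_closedBall, dist_zero_right, not_le] at hx
    nlinarith
  have hcs : HasCompactSupport fun x => v x - u x := by
    have : (fun x => v x - u x) = fun x => - φ x := by
      funext x; simp only [hv]; ring
    rw [this]
    exact hφc.neg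
  have hJ := hu.min v ⟨_, hvL⟩ (fun x => by simp only [hv]; linarith [hφle x]) hcs
  change 0 ≤ ∫ x, mbJ u v x at hJ
  set S : Set (E d) := pos u ∩ closedBall (0 : E d) (1 / 2) with hS
  have hSm : MeasurableSet S :=
    (isOpen_lt continuous_const hu.lip.continuous).measurableSet.inter measurableSet_closedBall
  have hSfin : volume S ≠ ⊤ :=
    ((measure_mono inter_subset_right).trans_lt measure_closedBall_lt_top).ne
  have iS : Integrable (S.indicator fun _ => (1 : ℝ)) :=
    (integrable_indicator_iff hSm).2 (integrableOn_const hSfin)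
  have i1 : Integrable fun x => ⟪gradient rM3_chi x, gradient φ x⟫ := by
    obtain ⟨K2, hK2⟩ : ∃ K2, LipschitzWith K2 φ := ⟨_, hφL⟩
    refine mb_integrable ((mb_measurable_gradient rM3_chi).inner
      (mb_measurable_gradient φ)).aestronglyMeasurable (C := K * K2) ?_ hφc.isCompact ?_
    · intro x
      refine (abs_real_inner_le_norm _ _).trans ?_
      exact mul_le_mul (mb_gradient_le hK x) (mb_gradient_le hK2 x) (norm_nonneg _) K.coe_nonneg
    · intro x hx
      rw [mb_gradient_zero_of_notMem hx, inner_zero_right]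
  have hpt : ∀ᵐ x : E d, mbJ u v x ≤
      (-2 * c) * ⟪gradient rM3_chi x, gradient φ x⟫ - S.indicator (fun _ => (1 : ℝ)) x := by
    filter_upwards [mb_ae_diff hu.lip, mb_ae_diff hφL] with x hx1 hx2
    rw [mbJ_eq]
    have hgv : gradient v x = gradient u x - gradient φ x := mb_gradient_sub hx1 hx2
    have hind : {y | 0 < v y}.indicator (fun _ => (1 : ℝ)) x -
        {y | 0 < u y}.indicator (fun _ => (1 : ℝ)) x ≤ - S.indicator (fun _ => (1 : ℝ)) x := by
      by_cases hxS : x ∈ S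
      · have hux : x ∈ {y | 0 < u y} := hxS.1
        have hvx : x ∉ {y | 0 < v y} := by
          intro h
          have h1 : 0 < v x := h
          have h2 : ‖x‖ ≤ 1 / 2 := by
            have := hxS.2
            rwa [mem_closedBall, dist_zero_right] at this
          have h3 : Ψ x = 0 := by
            simp only [hΨ]
            rw [rM3_chi_zero h2, max_eq_right (by linarith), mul_zero, mul_zero, add_zero]
          have h4 := hvΨ x
          linarith
        rw [indicator_of_mem hxS, indicator_of_mem hux, indicator_of_notMem hvx]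
        norm_num
      · rw [indicator_of_notMem hxS]
        have : {y | 0 < v y}.indicator (fun _ => (1 : ℝ)) x ≤
            {y | 0 < u y}.indicator (fun _ => (1 : ℝ)) x := by
          refine indicator_le_indicator_of_subset ?_ (fun _ => zero_le_one) x
          intro y hy
          have h1 : 0 < v y := hy
          have h2 : v y ≤ u y := by simp only [hv]; linarith [hφnn y]
          exact lt_of_lt_of_le h1 h2
        linarith
    have hgr : ‖gradient v x‖ ^ 2 - ‖gradient u x‖ ^ 2 ≤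
        (-2 * c) * ⟪gradient rM3_chi x, gradient φ x⟫ := by
      rcases lt_or_ge 0 (w x) with h | h
      · have hx3 : ‖x‖ ^ 2 < 1 / 2 := by
          by_contra hcon
          exact absurd (hw0 x (not_lt.1 hcon)) (not_le.2 h)
        have hx4 : ‖x‖ < 1 := by (by_contra nlg; linarith only [nlg, mul_pos (sub_pos.2 hx3) (sub_pos.2 hx3), mul_nonneg (sub_nonneg.2 (not_lt.1 nlg)) (sub_nonneg.2 (norm_nonneg x)), mul_nonneg (sub_nonneg.2 (not_lt.1 nlg)) (le_of_lt (sub_pos.2 hx3)), mul_nonneg (sq_nonneg (1 * ‖x‖ : ℝ)) (sub_nonneg.2 (norm_nonneg x)), mul_nonneg (sq_nonneg (1 * ‖x‖ : ℝ)) (le_of_lt (sub_pos.2 hx3)), mul_nonneg (sq_nonneg (1 * ‖x‖ : ℝ)) (sub_nonneg.2 (not_lt.1 nlg))])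
        have hcong : φ =ᶠ[𝓝 x] fun y => u y - c * rM3_chi y := by
          filter_upwards [(isOpen_lt continuous_const hwL.continuous).mem_nhds h,
            (isOpen_lt continuous_norm continuous_const).mem_nhds hx4] with y hy1 hy2
          have hy1' : 0 < w y := hy1
          have hy2' : ‖y‖ < 1 := hy2
          simp only [hφ]
          rw [max_eq_left hy1'.le]
          simp only [hw, hΨ]
          rw [max_eq_right (by linarith), mul_zero, add_zero]
        have hdc : DifferentiableAt ℝ (rM3_chi : E d → ℝ) x :=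
          (rM3_chi_contDiff.differentiable (by simp)) x
        have hgφ : gradient φ x = gradient u x - c • gradient rM3_chi x := by
          rw [mb_gradient_congr hcong, mb_gradient_sub hx1 (hdc.const_mul c),
            mb_gradient_const_mul c hdc]
        have hgu : gradient u x = gradient φ x + c • gradient rM3_chi x := by
          rw [hgφ]; abel
        have e1 : ‖gradient v x‖ ^ 2 = c ^ 2 * ‖gradient rM3_chi x‖ ^ 2 := by
          rw [hgv, hgu, add_sub_cancel_left, norm_smul, mul_pow, Real.norm_eq_abs, sq_abs]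
        have e2 : ‖gradient u x‖ ^ 2 = ‖gradient φ x‖ ^ 2 +
            2 * c * ⟪gradient rM3_chi x, gradient φ x⟫ + c ^ 2 * ‖gradient rM3_chi x‖ ^ 2 := by
          rw [hgu, norm_add_sq_real, inner_smul_right, norm_smul, mul_pow, Real.norm_eq_abs,
            sq_abs, real_inner_comm]
          ring
        rw [e1, e2]
        linarith only [sq_nonneg ‖gradient φ x‖]
      · have hgφ : gradient φ x = 0 := mb_gradient_zero_of_min hφnn (max_eq_right h)
        rw [hgv, hgφ, sub_zero, inner_zero_right, mul_zero, sub_self]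
    linarith
  have h1 : 0 ≤ (-2 * c) * (∫ x, ⟪gradient rM3_chi x, gradient φ x⟫) - volume.real S := by
    refine hJ.trans ?_
    have h2 := integral_mono_ae (mbJ_integrable hu.lip hvL hcs) ((i1.const_mul (-2 * c)).sub iS) hpt
    refine h2.trans (le_of_eq ?_)
    have h3 := integral_sub (i1.const_mul (-2 * c)) iS
    rw [integral_const_mul, integral_indicator_const _ hSm, smul_eq_mul, mul_one] at h3
    exact h3
  rw [rM3_ibp hφL] at h1
  have h2 : ∫ x, φ x * lap rM3_chi x ≤ c * M * volume.real (closedBall (0 : E d) 1) := by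
    have h3 : ∀ x, φ x * lap rM3_chi x ≤
        (closedBall (0 : E d) 1).indicator (fun _ => c * M) x := by
      intro x
      by_cases hx : x ∈ closedBall (0 : E d) 1
      · rw [indicator_of_mem hx]
        have := (abs_le.1 (hM x)).2
        calc φ x * lap rM3_chi x ≤ φ x * M := mul_le_mul_of_nonneg_left this (hφnn x)
          _ ≤ c * M := mul_le_mul_of_nonneg_right ((hφle x).trans (hle x hx)) hM0
      · rw [indicator_of_notMem hx]
        rw [mem_closedBall, dist_zero_right, not_le] at hx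
        rw [hφ0 x (by nlinarith), zero_mul]
    have hBm : MeasurableSet (closedBall (0 : E d) 1) := measurableSet_closedBall
    have i3 : Integrable ((closedBall (0 : E d) 1).indicator fun _ => c * M) :=
      (integrable_indicator_iff hBm).2 (integrableOn_const measure_closedBall_lt_top.ne)
    have i4 : Integrable fun x => φ x * lap rM3_chi x := by
      refine mb_integrable ?_ (C := c * M) ?_ (isCompact_closedBall (0 : E d) 1) ?_
      · refine (hφL.continuous.mul ?_).aestronglyMeasurable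
        unfold lap
        exact continuous_finsetSum _ fun i _ => rM3_P2_cont i
      · intro x
        rw [abs_mul, abs_of_nonneg (hφnn x)]
        by_cases hx : x ∈ closedBall (0 : E d) 1
        · exact mul_le_mul ((hφle x).trans (hle x hx)) (hM x) (abs_nonneg _) hc.le
        · rw [mem_closedBall, dist_zero_right, not_le] at hx
          rw [hφ0 x (by nlinarith), zero_mul]
          positivity
      · intro x hx
        rw [mem_closedBall, dist_zero_right, not_le] at hx
        rw [hφ0 x (by nlinarith), zero_mul]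
    refine (integral_mono i4 i3 h3).trans (le_of_eq ?_)
    rw [integral_indicator_const _ hBm, smul_eq_mul]
    ring
  (by_contra nlg; linarith only [nlg, mul_nonneg (le_of_lt (sub_pos.2 hc)) (sub_nonneg.2 h1), mul_pos (sub_pos.2 (not_le.1 nlg)) (sub_pos.2 hc), mul_nonneg (sq_nonneg (c : ℝ)) (sub_nonneg.2 h2)])

theorem rM3_stepB (d : ℕ) {C₁ : ℝ} (hC : ∀ (L : ℝ≥0) (u : E d → ℝ), MinL L u →
    ∀ c : ℝ, 0 < c → (∀ x ∈ closedBall (0 : E d) 1, u x ≤ c) →
    volume.real (pos u ∩ closedBall (0 : E d) (1 / 2)) ≤ C₁ * c ^ 2) :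
    ∃ C₂ : ℝ, ∀ (L : ℝ≥0) (u : E d → ℝ), MinL L u →
    ∀ c : ℝ, 0 < c → (∀ x ∈ closedBall (0 : E d) 1, u x ≤ c) →
    ∀ x ∈ closedBall (0 : E d) (1 / 4), u x ≤ C₂ * c ^ 3 := by
  have hI : 0 < ∫ y : E d, mk y := mk_integral_pos
  refine ⟨(∫ y : E d, mk y)⁻¹ * (|(((1 / 4 : ℝ)) ^ Module.finrank ℝ (E d))⁻¹| * C₁), ?_⟩
  intro L u hu c hc hle x hx
  rw [mem_closedBall, dist_zero_right] at hx
  refine (hu.le_av x (t := 1 / 4) (by norm_num)).trans ?_
  set S : Set (E d) := pos u ∩ closedBall (0 : E d) (1 / 2) with hS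
  have hSm : MeasurableSet S :=
    (isOpen_lt continuous_const hu.lip.continuous).measurableSet.inter measurableSet_closedBall
  have hSfin : volume S ≠ ⊤ :=
    ((measure_mono inter_subset_right).trans_lt measure_closedBall_lt_top).ne
  have iS : Integrable (S.indicator fun _ => c) :=
    (integrable_indicator_iff hSm).2 (integrableOn_const hSfin)
  have h1 : ∀ y : E d, mk y * u (x + (1 / 4 : ℝ) • y) ≤
      (S.indicator fun _ => c) (x + (1 / 4 : ℝ) • y) := by
    intro y
    rcases le_or_gt 1 ‖y‖ with hy | hy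
    · rw [mk_eq_zero hy, zero_mul]
      exact indicator_nonneg (fun _ _ => hc.le) _
    · have hn : ‖x + (1 / 4 : ℝ) • y‖ ≤ 1 / 2 := by
        refine (norm_add_le _ _).trans ?_
        rw [norm_smul, Real.norm_eq_abs, abs_of_nonneg (by norm_num)]
        linarith
      by_cases hp : 0 < u (x + (1 / 4 : ℝ) • y)
      · rw [indicator_of_mem (show x + (1 / 4 : ℝ) • y ∈ S from
          ⟨hp, by rwa [mem_closedBall, dist_zero_right]⟩)]
        have h2 := hle (x + (1 / 4 : ℝ) • y) (by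
          rw [mem_closedBall, dist_zero_right]; linarith)
        calc mk y * u (x + (1 / 4 : ℝ) • y) ≤ 1 * u (x + (1 / 4 : ℝ) • y) :=
              mul_le_mul_of_nonneg_right (mk_le_one y) hp.le
          _ ≤ c := by rw [one_mul]; exact h2
      · have h0 : u (x + (1 / 4 : ℝ) • y) = 0 := le_antisymm (not_lt.1 hp) (hu.nonneg _)
        rw [h0, mul_zero]
        exact indicator_nonneg (fun _ _ => hc.le) _
  have i1 : Integrable fun y : E d => mk y * u (x + (1 / 4 : ℝ) • y) := by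
    refine Continuous.integrable_of_hasCompactSupport ?_ mk_hasCompactSupport.mul_right
    exact mk_contDiff.continuous.mul (hu.lip.continuous.comp (by fun_prop))
  have i2 : Integrable fun y : E d => (S.indicator fun _ => c) (x + (1 / 4 : ℝ) • y) := by
    have := (iS.comp_add_left x).comp_smul (R := (1 / 4 : ℝ)) (by norm_num)
    exact this
  have h2 : ∫ y : E d, (S.indicator fun _ => c) (x + (1 / 4 : ℝ) • y) =
      |(((1 / 4 : ℝ)) ^ Module.finrank ℝ (E d))⁻¹| * (volume.real S * c) := by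
    have e1 := Measure.integral_comp_smul volume
      (fun y : E d => (S.indicator fun _ => c) (x + y)) (1 / 4 : ℝ)
    rw [e1, integral_add_left_eq_self (fun y => (S.indicator fun _ => c) y) x,
      integral_indicator_const _ hSm]
    simp only [smul_eq_mul]
  have h3 := integral_mono i1 i2 h1
  rw [h2] at h3
  have h4 := hC L u hu c hc hle
  unfold av
  rw [div_eq_inv_mul, mul_assoc]
  refine mul_le_mul_of_nonneg_left ?_ (inv_nonneg.2 hI.le)
  refine h3.trans ?_
  rw [mul_assoc]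
  refine mul_le_mul_of_nonneg_left ?_ (abs_nonneg _)
  calc volume.real S * c ≤ C₁ * c ^ 2 * c := mul_le_mul_of_nonneg_right h4 hc.le
    _ = C₁ * c ^ 3 := by ring

theorem rM3_resc_resc (u : E d → ℝ) {a b : ℝ} (ha : a ≠ 0) (hb : b ≠ 0) :
    resc (resc u 0 a) 0 b = resc u 0 (a * b) := by
  funext x
  simp only [resc, zero_add, smul_smul]
  field_simp

theorem rM3_core (d : ℕ) (hd : 1 ≤ d) : ∃ c : ℝ, 0 < c ∧ ∀ (L : ℝ≥0) (u : E d → ℝ), MinL L u →
    (∀ x ∈ closedBall (0 : E d) 1, u x ≤ c) → u 0 = 0 := by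
  obtain ⟨C₁, hC₁, hA⟩ := rM3_stepA d
  obtain ⟨C₂, hB⟩ := rM3_stepB d hA
  set V : ℝ := volume.real (closedBall (0 : E d) (1 / 2)) with hV
  have hVpos : 0 < V := by
    rw [hV]
    have : Nontrivial (E d) := by
      have : Nonempty (Fin d) := ⟨⟨0, hd⟩⟩
      infer_instance
    exact ENNReal.toReal_pos (measure_closedBall_pos volume 0 (by norm_num)).ne'
      measure_closedBall_lt_top.ne
  obtain ⟨c, hc0, hc1, hc2⟩ : ∃ c : ℝ, 0 < c ∧ C₁ * c ^ 2 < V ∧ C₂ * c ^ 2 ≤ 1 / 4 := by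
    have t1 : Tendsto (fun c : ℝ => C₁ * c ^ 2) (𝓝[>] 0) (𝓝 (C₁ * 0 ^ 2)) :=
      ((continuous_const.mul (continuous_pow 2)).tendsto 0).mono_left nhdsWithin_le_nhds
    have t2 : Tendsto (fun c : ℝ => C₂ * c ^ 2) (𝓝[>] 0) (𝓝 (C₂ * 0 ^ 2)) :=
      ((continuous_const.mul (continuous_pow 2)).tendsto 0).mono_left nhdsWithin_le_nhds
    have e1 := t1.eventually (gt_mem_nhds (by simpa using hVpos : C₁ * 0 ^ 2 < V))
    have e2 := t2.eventually (gt_mem_nhds (by norm_num : C₂ * 0 ^ 2 < 1 / 4))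
    obtain ⟨c, ⟨h1, h2⟩, h3⟩ := ((e1.and e2).and self_mem_nhdsWithin).exists
    exact ⟨c, h3, h1, h2.le⟩
  refine ⟨c, hc0, fun L u hu hle => ?_⟩
  have hk : ∀ k : ℕ, MinL L (resc u 0 ((1 / 4 : ℝ) ^ k)) ∧
      ∀ x ∈ closedBall (0 : E d) 1, resc u 0 ((1 / 4 : ℝ) ^ k) x ≤ c := by
    intro k
    refine ⟨hu.resc 0 (by positivity), ?_⟩
    induction k with
    | zero =>
      intro x hx
      simpa [resc] using hle x hx
    | succ k ih =>
      intro x hx
      have h1 := hB L _ (hu.resc 0 (r := (1 / 4 : ℝ) ^ k) (by positivity)) c hc0 ih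
        ((1 / 4 : ℝ) • x) (by
          rw [mem_closedBall, dist_zero_right] at hx ⊢
          rw [norm_smul, Real.norm_eq_abs, abs_of_nonneg (by norm_num)]
          linarith only [hx])
      rw [pow_succ, ← rM3_resc_resc u (by positivity) (by norm_num)]
      have h2 : resc (resc u 0 ((1 / 4 : ℝ) ^ k)) 0 (1 / 4) x =
          resc u 0 ((1 / 4 : ℝ) ^ k) ((1 / 4 : ℝ) • x) / (1 / 4) := by
        simp only [resc, zero_add]
      rw [h2, div_le_iff₀ (by norm_num)]
      refine h1.trans ?_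
      have : C₂ * c ^ 3 = C₂ * c ^ 2 * c := by ring
      rw [this]
      (by_contra nlg; linarith only [nlg, mul_pos (sub_pos.2 (not_le.1 nlg)) (sub_pos.2 hc0), mul_nonneg (sq_nonneg (1 * c : ℝ)) (sub_nonneg.2 hc2)])
  by_contra hne
  have hpos : 0 < u 0 := lt_of_le_of_ne (hu.nonneg 0) (Ne.symm hne)
  obtain ⟨ρ, hρ, hball⟩ := Metric.isOpen_iff.1 (isOpen_lt continuous_const hu.lip.continuous) 0
    (show (0 : E d) ∈ {x | 0 < u x} from hpos)
  obtain ⟨k, hk2⟩ := exists_pow_lt_of_lt_one hρ (by norm_num : (1 / 4 : ℝ) < 1)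
  have h1 := hA L _ (hk k).1 c hc0 (hk k).2
  have h2 : pos (resc u 0 ((1 / 4 : ℝ) ^ k)) ∩ closedBall (0 : E d) (1 / 2) =
      closedBall (0 : E d) (1 / 2) := by
    refine inter_eq_right.2 fun x hx => ?_
    rw [mem_closedBall, dist_zero_right] at hx
    have hp4 : (0 : ℝ) < (1 / 4) ^ k := by positivity
    have h3 : (1 / 4 : ℝ) ^ k • x ∈ ball (0 : E d) ρ := by
      rw [mem_ball, dist_zero_right, norm_smul, Real.norm_eq_abs, abs_of_nonneg hp4.le]
      (by_contra nlg; linarith only [nlg, mul_nonneg (sub_nonneg.2 hx) (le_of_lt (sub_pos.2 hp4)), mul_nonneg (mul_self_nonneg (1 : ℝ)) (le_of_lt (sub_pos.2 hk2)), mul_nonneg (mul_self_nonneg (1 : ℝ)) (sub_nonneg.2 (not_lt.1 nlg)), hp4])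
    have h4 : 0 < u ((1 / 4 : ℝ) ^ k • x) := hball h3
    show 0 < resc u 0 ((1 / 4 : ℝ) ^ k) x
    simp only [resc, zero_add]
    exact div_pos h4 hp4
  rw [h2] at h1
  linarith

theorem nondeg (d : ℕ) (hd : 1 ≤ d) : ∃ c : ℝ, 0 < c ∧ ∀ (L : ℝ≥0) (u : E d → ℝ), MinL L u →
    NonDeg c u := by
  obtain ⟨c, hc, h⟩ := rM3_core d hd
  refine ⟨c, hc, fun L u hu x hx r hr => ?_⟩
  by_contra hcon
  push Not at hcon
  have h1 := h L _ (hu.resc x hr) (fun z hz => ?_)
  · simp only [resc, smul_zero, add_zero] at h1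
    rw [div_eq_zero_iff] at h1
    rcases h1 with h1 | h1 <;> linarith
  · rw [mem_closedBall, dist_zero_right] at hz
    have h2 := hcon (x + r • z) (by
      rw [mem_closedBall, dist_eq_norm, add_sub_cancel_left, norm_smul, Real.norm_eq_abs,
        abs_of_pos hr]
      linarith only [mul_nonneg (le_of_lt (sub_pos.2 hr)) (sub_nonneg.2 hz)])
    simp only [resc]
    rw [div_le_iff₀ hr]
    exact h2.le

/-- Closure version. -/
theorem NonDeg.closure {c : ℝ} {u : E d → ℝ} (hc : 0 < c) (h : NonDeg c u) {x : E d}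
    (hx : x ∈ closure (pos u)) {r : ℝ} (hr : 0 < r) : ∃ y ∈ closedBall x r, c / 2 * r ≤ u y := by
  obtain ⟨x', hx', hd⟩ := Metric.mem_closure_iff.1 hx (r / 2) (by linarith)
  obtain ⟨y, hy, hy2⟩ := h x' hx' (r / 2) (by linarith)
  refine ⟨y, ?_, by linarith⟩
  rw [mem_closedBall] at hy ⊢
  have := dist_triangle y x' x
  rw [dist_comm x' x] at this
  linarith

end Vale.Agent.P098
end

section

/-!
# The condition `formC_pos` for `m = 5` from the checker on the ball
-/

namespace Vale.Agent.P098.N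

open Vale.Agent.P098.K

/-- Products of `1`, `y`, `1 - y`, `v`, `1 - v`. -/
def mulOk : Ex → Bool
  | .c 1 => true
  | .v 0 => true
  | .v 1 => true
  | .sub (.c 1) (.v 0) => true
  | .sub (.c 1) (.v 1) => true
  | .mul a b => mulOk a && mulOk b
  | _ => false

theorem mulOk_nonneg {rs : List ℕ} {X : ℕ → ℝ} (h0 : 0 ≤ X 0) (h0' : X 0 ≤ 1) (h1 : 0 ≤ X 1)
    (h1' : X 1 ≤ 1) (e : Ex) : mulOk e = true → 0 ≤ evE rs X e := by
  induction e using mulOk.induct with
  | case1 => intro _; simp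
  | case2 => intro _; simpa using h0
  | case3 => intro _; simpa using h1
  | case4 => intro _; simpa using h0'
  | case5 => intro _; simpa using h1'
  | case6 a b iha ihb =>
    intro h
    simp only [mulOk, Bool.and_eq_true] at h
    simpa using mul_nonneg (iha h.1) (ihb h.2)
  | case7 e h1 h2 h3 h4 h5 h6 =>
    intro h
    simp [mulOk] at h

/-- The form on the ball is positive definite if all entries pass the check. The index `i` of
the check stands for the index `i + 1` of `TE`. -/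
theorem formC_pos5_of {F : FD} (hD : 0 < F.D) (hd : 0 < F.ad) {α : ℝ} (hα : (F.ad : ℝ) * α = F.an)
    {c : CdB} {s : ℕ} (hs : 0 < s) {ε Δ : ℕ} (hε : 5 * Δ < ε * 2 ^ 24) {T : ℕ → ℕ → Ex}
    (hT : ∀ (X : ℕ → ℝ) (i j : ℕ), i < 5 → j < 5 →
      evE rs6 X (T i j) = evE rs6 X (TE crd5 F 5 s (i + 1) (j + 1)))
    (hchk : ∀ i < 5, ∀ j < 5, i ≤ j → c.chk (T i j) (if i = j then (ε : ℤ) else 0) Δ i j = true)
    (hst : ∀ g ∈ c.grps, ∀ b ∈ g.g.blks, mulOk b.m = true ∧ b.t00 = .c 1 ∧ b.t01 = .c 1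
      ∧ b.t11 = .c 1) :
    ∀ y v : ℝ, 0 ≤ y → y ≤ 1 → 0 ≤ v → v ≤ 1 → ∀ lam : Fin 5 → ℝ, pw lam 1 = 0 →
    pw lam 2 ≤ 1 → ∀ (t : ℝ) (x : Fin 5 → ℝ), ∑ i, x i = 0 →
      ¬ (t = 0 ∧ x = 0) → 0 < formC F.fam α y v lam 0 x t := by
  intro y v hy0 hy1 hv0 hv1 lam hl1 hl2 t x hx hne
  obtain ⟨hX, hsph⟩ := pt5_ok hy0 hy1 hv0 hv1 hl1 hl2
  have hm := CdB.main (c := c) hX (by rw [hsph]; exact hl2) (n := 5) (T := T) hchk
    (fun i hi j hj => by rw [hT _ i j hi hj, hT _ j i hj hi, TE_symm]) (ρ := 1) (by simp)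
    (by
      intro g hg b hb
      obtain ⟨h1, h2, h3, h4⟩ := hst g hg b hb
      refine ⟨mulOk_nonneg (by simpa [pt5_0] using hy0) (by simpa [pt5_0] using hy1)
        (by simpa [pt5_1] using hv0) (by simpa [pt5_1] using hv1) b.m h1, 1, 1, ?_, ?_, ?_⟩
      · rw [h2]; simp
      · rw [h3]; simp
      · rw [h4]; simp) (fun i => vec5 0 t x (i + 1))
  have hform := form_eq (rs := rs6) (X := pt5 y v lam) (G := crd5) (m := 4) (n := 5) F
    hD.ne' hα (ptX5 hl1) (ρ := 1) (ξ := 0) (U := vec5 0 t x) rfl (ptU5 (t := t) hx)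
    (fun i => rfl) s
  have hshift : ∑ i ∈ Finset.range 5, ∑ j ∈ Finset.range 5, evE rs6 (pt5 y v lam) (T i j)
        * (wgt 1 i j * (vec5 0 t x (i + 1) * vec5 0 t x (j + 1)))
      = 2 * s * F.ad * F.D * formC F.fam α y v lam 0 x t := by
    have e0 : vec5 0 t x 0 = 0 := rfl
    have e1 : ∀ i j, wgt 1 i j = 1 := fun i j => by simp [wgt]
    rw [Finset.sum_range_succ' _ 5] at hform
    simp only [Finset.sum_range_succ' _ 5, e0, zero_mul, mul_zero, e1, one_mul, add_zero,
      Finset.sum_const_zero, zero_pow two_ne_zero, zero_add] at hform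
    simp only [e1, one_mul]
    refine Eq.trans (Finset.sum_congr rfl fun i hi => Finset.sum_congr rfl fun j hj => ?_)
      (hform.trans ?_)
    · rw [hT _ i j (Finset.mem_range.mp hi) (Finset.mem_range.mp hj)]
    · push_cast
      ring
  rw [hshift] at hm
  have hu : 0 < ∑ i ∈ Finset.range 5, vec5 0 t x (i + 1) ^ 2 := by
    by_contra hcon
    have h0 : ∑ i ∈ Finset.range 5, vec5 0 t x (i + 1) ^ 2 = 0 :=
      le_antisymm (not_lt.mp hcon) (Finset.sum_nonneg fun i _ => sq_nonneg _)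
    have h1 := (Finset.sum_eq_zero_iff_of_nonneg fun i _ => sq_nonneg (vec5 0 t x (i + 1))).mp h0
    have h2 : ∀ i < 5, vec5 0 t x (i + 1) = 0 := fun i hi =>
      pow_eq_zero_iff two_ne_zero |>.mp (h1 i (Finset.mem_range.mpr hi))
    have e1 := h2 0 (by norm_num)
    have e2 := h2 1 (by norm_num)
    have e3 := h2 2 (by norm_num)
    have e4 := h2 3 (by norm_num)
    have e5 := h2 4 (by norm_num)
    simp only [Nat.reduceAdd, vec5_1, vec5_2, vec5_3, vec5_4, vec5_5] at e1 e2 e3 e4 e5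
    have h5 : x 0 + x 1 + x 2 + x 3 + x 4 = 0 := by
      simpa [Fin.sum_univ_succ, add_assoc] using hx
    refine hne ⟨e5, ?_⟩
    funext i
    fin_cases i
    · simp; linarith
    · simp; linarith
    · simp; linarith
    · simp; linarith
    · simp; linarith
  have hpos : (0 : ℝ) < (ε : ℝ) - (5 : ℕ) * (Δ / 2 ^ 24) := by
    have : ((5 * Δ : ℕ) : ℝ) < ((ε * 2 ^ 24 : ℕ) : ℝ) := by exact_mod_cast hε
    push_cast at this
    have h2 : (5 : ℝ) * (Δ / 2 ^ 24) < ε := by
      rw [← mul_div_assoc, div_lt_iff₀ (by positivity)]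
      have e : (2 : ℝ) ^ 24 = 16777216 := by norm_num
      rw [e]
      exact this
    push_cast
    linarith
  have h6 := lt_of_lt_of_le (mul_pos hpos hu) hm
  have h7 : (0 : ℝ) < 2 * s * F.ad * F.D := by
    have : (0 : ℝ) < F.ad := by exact_mod_cast hd
    positivity
  exact (pos_iff_pos_of_mul_pos h6).mp h7

end Vale.Agent.P098.N
end

section

/-!
# Fast check on the ball
-/

namespace Vale.Agent.P098.N

open Vale.Agent.P098.K

variable {B h b : ℕ} {X : ℕ → ℝ}

/-- `1 - 20 l² - 4 (a² + b² + c²)`. -/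
def pBF (B : ℕ) : P3 :=
  [[[Int.subNatNat 1 (Nat.mul 20 (Nat.pow B 32)), 0, Int.negSucc 3], [], [Int.negSucc 3]], [],
    [[Int.negSucc 3]]]

theorem pBF_eq (B : ℕ) : pB B = pBF B := by
  have h : Int.subNatNat 1 (Nat.mul 20 (Nat.pow B 32)) = 1 - 20 * (B : ℤ) ^ 32 := by
    rw [Int.subNatNat_eq_coe]
    have : Nat.mul 20 (Nat.pow B 32) = 20 * B ^ 32 := rfl
    rw [this]
    push_cast
    ring
  rw [pB, pBF, h]
  rfl

/-- A group with or without the multiplier, in short form. -/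
structure GBF where
  mp : Bool
  g : Gf

/-- The group in long form. -/
def GBF.toGB (g : GBF) : GB := ⟨g.mp, g.g.toGrp⟩

/-- All lists of rows are nonempty. -/
def neGB (l : List GBF) : Bool :=
  List.rec (motive := fun _ => Bool) true (fun g _ ih => neF g.g.blks && ih) l

/-- Entry `(i, j)` of the sum of squares. -/
def sosFB (B i j : ℕ) : List GBF → P3
  | [] => []
  | g :: l => add3 (bif g.mp then mul3 (pBF B) (cmpP (tabF B (kd i) (kd j) g.g.blks) i j g.g.comps)
      else cmpP (tabF B (kd i) (kd j) g.g.blks) i j g.g.comps) (sosFB B i j l)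

theorem sosPB_eq (B i j : ℕ) : ∀ l : List GBF, neGB l = true →
    sosPB B i j (l.map GBF.toGB) = sosFB B i j l := by
  intro l
  induction l with
  | nil => intro _; rfl
  | cons g l ih =>
    intro h
    have h' : (neF g.g.blks && neGB l) = true := h
    rw [Bool.and_eq_true] at h'
    have e : tabZ B (kd i) (kd j) (g.toGB).g.blks = tabF B (kd i) (kd j) g.g.blks :=
      tabZ_eq B (kd i) (kd j) g.g.blks h'.1
    have e2 : (g.toGB).mp = g.mp := rfl
    have e3 : (g.toGB).g.comps = g.g.comps := rfl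
    rw [List.map_cons, sosPB, sosFB, ih h'.2, e, e2, e3, pBF_eq]

/-- Certificate data on the ball, in short form. -/
structure CdBF where
  B : ℕ
  h : ℕ
  bE : ℕ
  grps : List GBF

/-- The residual of an entry. -/
def CdBF.res (c : CdBF) (T : Ex) (e : ℤ) (i j : ℕ) : P3 :=
  add3 (add3 (evf c.B T) [[[Int.neg e]]]) (scl3 (-1) (sosFB c.B i j c.grps))

/-- The cheap part of the check. -/
def CdBF.chk0 (c : CdBF) (T : Ex) (e : ℤ) (i j : ℕ) : Bool :=
  okE rs6 T && leL (dgE rs6 T) [3, 3, 10, 8, 8, 8] && sosOB c.bE i j (c.grps.map GBF.toGB)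
    && Nat.blt (lE T + e.natAbs + sosLB c.bE i j (c.grps.map GBF.toGB)) c.h
    && Nat.ble (2 * c.h) c.B && neGB c.grps

/-- The whole check of an entry. -/
def CdBF.chk (c : CdBF) (T : Ex) (e : ℤ) (Δ i j : ℕ) : Bool :=
  c.chk0 T e i j && finB c.B c.h Δ (c.res T e i j)

theorem CdBF.chk_sound {c : CdBF} (hX : Pt X) {T : Ex} {e : ℤ} {Δ i j : ℕ}
    (h : c.chk T e Δ i j = true) :
    |evE rs6 X T - e - sosRB X i j (c.grps.map GBF.toGB)| * 2 ^ 24 ≤ Δ := by
  simp only [CdBF.chk, CdBF.chk0, finB, Bool.and_eq_true, List.all_eq_true] at h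
  obtain ⟨⟨⟨⟨⟨⟨h1, h2⟩, h3⟩, h4⟩, h5⟩, h5'⟩, ⟨h6, h7⟩, h8⟩ := h
  obtain ⟨r1, hl⟩ := rep_Ex (B := c.B) (X := X) (rs := rs6) (by decide) T h1
  have r1' := r1.weaken h2 le_rfl
  have r2 := (Rep.const (B := c.B) (X := X) (rs := rs6) e).weaken
    (ds' := [3, 3, 10, 8, 8, 8]) (by decide) le_rfl
  have r3 := rep_sosB (B := c.B) (X := X) h3
  have r4 := (r1'.sub r2).sub r3
  have e1 : fv3 ((c.B : ℤ) ^ 272) ((c.B : ℤ) ^ 4624) ((c.B : ℤ) ^ 78608) (c.res T e i j)
      = krE c.B rs6 T - e - fv3 ((c.B : ℤ) ^ 272) ((c.B : ℤ) ^ 4624) ((c.B : ℤ) ^ 78608)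
        (sosPB c.B i j (c.grps.map GBF.toGB)) := by
    rw [CdBF.res, fv3_add, fv3_add, fv3_scl, fv3_evf, fv3_const, ← sosPB_eq c.B i j c.grps h5']
    have : Int.neg e = -e := rfl
    rw [this]
    ring
  rw [← e1] at r4
  have h4' : (lE T + e.natAbs + sosLB c.bE i j (c.grps.map GBF.toGB)) < c.h := by
    rw [Nat.blt, Nat.ble_eq] at h4
    exact h4
  refine (bound3 hX r4 (by decide) h4' (Nat.le_of_ble_eq_true h5) (Nat.le_of_ble_eq_true h6)
    h7 24).trans ?_
  exact_mod_cast Nat.le_of_ble_eq_true h8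

/-- Main theorem on the ball, from bounds for the residuals. -/
theorem ball_main {grps : List GB} (hp : 20 * X 2 ^ 2 + 4 * (X 3 ^ 2 + X 4 ^ 2 + X 5 ^ 2) ≤ 1)
    {n : ℕ} {T : ℕ → ℕ → Ex} {ε Δ : ℕ}
    (hbd : ∀ i < n, ∀ j < n, i ≤ j →
      |evE rs6 X (T i j) - ((if i = j then (ε : ℤ) else 0 : ℤ) : ℝ) - sosRB X i j grps| * 2 ^ 24 ≤ Δ)
    (hsym : ∀ i < n, ∀ j < n, evE rs6 X (T i j) = evE rs6 X (T j i))
    {ρ : ℝ} (hρ : |ρ| ≤ 1)
    (hb : ∀ g ∈ grps, ∀ b ∈ g.g.blks, b.good X ρ) (u : ℕ → ℝ) :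
    ((ε : ℝ) - n * (Δ / 2 ^ 24)) * ∑ i ∈ Finset.range n, u i ^ 2 ≤
      ∑ i ∈ Finset.range n, ∑ j ∈ Finset.range n, evE rs6 X (T i j) * (wgt ρ i j * (u i * u j)) := by
  have hδ0 : (0 : ℝ) ≤ Δ / 2 ^ 24 := by positivity
  have hp' : 0 ≤ pR X := by unfold pR; linarith
  refine main_key (S := fun i j => sosRB X i j grps) hδ0 ?_ hρ u
    (sosB_nonneg hp' n ρ u grps hb)
  intro i hi j hj
  rw [le_div_iff₀ (by positivity)]
  rcases le_total i j with hij | hij
  · have := hbd i hi j hj hij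
    refine le_trans (le_of_eq ?_) this
    congr 2
    split_ifs <;> push_cast <;> ring
  · have := hbd j hj i hi hij
    refine le_trans (le_of_eq ?_) this
    rw [hsym i hi j hj, sosRB_symm i j]
    congr 2
    by_cases h : i = j
    · subst h; simp; ring
    · rw [if_neg h, if_neg (fun h' => h h'.symm)]; push_cast; ring

end Vale.Agent.P098.N
end
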