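import Mathlib
import Vale.Agent.P098.Bdl.B14
import Vale.Agent.P098.Bdl.B17
import Vale.Agent.P098.Bdl.B20
import Vale.Agent.P098.Bdl.B9
import Vale.Agent.P098.Bdl.B2
attribute [-instance] ProperSMul.toContinuousSMul IsTopologicalTorsor.toContinuousSMul IdemSemiring.toCanonicallyOrderedAdd IdemSemiring.toMulLeftMono IdemSemiring.toMulRightMono AddQuantale.instAddLeftMono AddQuantale.instAddRightMono Quantale.instMulLeftMono Quantale.instMulRightMono FiniteDimensional.rclike_to_real IsScalarTower.complexToReal FiniteDimensional.complexToReal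

set_option linter.all false

section

/-! # E9: improvement of approximation

Let `C₇` be from `taylor_harm n K`. Choose `σ ≤ 1/2` with `C₇ σ ≤ 1/4`, `θ = σ^{2K+1}/16`,
`δ_c` from `linear_compare n θ`, `C₈, δ₈` from `correction n K C₇`, `κ = min(δ_c/2, 1)`, then `δ₀`
small: `3δ₀ + κ ≤ δ_c`, `(n+1) K δ₀ ≤ δ_c`, `δ₀ ≤ δ_c, δ₈`, `2C₈δ₀ ≤ κ`,
`2C₈δ₀ ≤ σ^{2K+1}/4`.
Hypotheses of `linear_compare`: `|P - x 0| ≤ cn(P - X 0) ≤ δ`, `‖∇P - ee 0‖ ≤ (n+1)Kδ`
(`cn_pderiv_le`, `abs_ev_le`), and `‖∇P‖² - 1 = P Q + remP P Q`, so on `{|P| ≤ 3ε}` it is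
`≤ 3εδ + κε ≤ δ_c ε`. Get `h`. `|h(0)| ≤ θ`: `u 0 = 0` gives `P(0) + ε(h(0) - θ) ≤ 0`, i.e.
`h(0) ≤ θ` (`P(0) = 0`); if `h(0) + θ < 0` then `P + ε(h+θ) < 0` near `0`, so `u = 0` near `0`,
contradicting `0 ∈ frontier (pos u)`. Let `q` from `taylor_harm`, `(P', Q')` from `correction`.
On `ball 0 (σ²)` (`σ² ≤ 1/4`):
`|P' - (P + εh)| ≤ ε|h(0)| + ε|h - h(0) - q| + |P' - P - εq|
  ≤ ε(θ + C₇σ^{2K+2} + 2C₈δ₀) ≤ ε(θ + σ^{2K+1}/2)`, so
`u ≤ max(P + ε(h+θ),0) ≤ max(P' + εσ^{2K+1}, 0)` and similarly from below. The other claims: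
`cn(P'-P) ≤ ε C₇ + C₈ε(δ+ε)`, `cn(remP P' Q') ≤ κε + C₈ε·2δ₀ ≤ 2κε`. -/

open MeasureTheory Set Metric Filter
open scoped ContDiff RealInnerProductSpace Topology NNReal

namespace Vale.Agent.P098

variable {d : ℕ}

theorem rE9_ev_X0 {n : ℕ} (x : E (n + 1)) : ev (MvPolynomial.X 0) x = x 0 := by
  simp [ev]

theorem rE9_ev_zero {n : ℕ} (p : MvPolynomial (Fin n) ℝ) : ev p 0 = p.coeff 0 := by
  unfold ev
  have h : (fun i : Fin n => (0 : E n) i) = 0 := by
    funext i; simp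
  rw [h]
  rw [MvPolynomial.eval_zero, MvPolynomial.constantCoeff_eq]

theorem rE9_ev_smul {n : ℕ} (c : ℝ) (p : MvPolynomial (Fin n) ℝ) (x : E n) :
    ev (c • p) x = c * ev p x := by
  simp only [ev, MvPolynomial.smul_eval]

/-- the gradient is close to the first coordinate vector -/
theorem rE9_grad {n K : ℕ} (hK : 1 ≤ K) {P : MvPolynomial (Fin (n + 1)) ℝ} {δ : ℝ}
    (hP : P.totalDegree ≤ K) (hδ : cn (P - MvPolynomial.X 0) ≤ δ) {x : E (n + 1)}
    (hx : ‖x‖ ≤ 1) : ‖gradient (ev P) x - ee 0‖ ≤ (n + 1) * (K * δ) := by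
  have hdeg : (P - MvPolynomial.X 0).totalDegree ≤ K := by
    refine (MvPolynomial.totalDegree_sub _ _).trans (max_le hP ?_)
    rw [MvPolynomial.totalDegree_X]; exact hK
  have hδ0 : 0 ≤ δ := (cn_nonneg _).trans hδ
  have hcomp : ∀ i, (gradient (ev P) x - ee 0 : E (n + 1)) i
      = ev (MvPolynomial.pderiv i (P - MvPolynomial.X 0)) x := by
    intro i
    rw [map_sub, ev_sub, ← gradient_ev_apply]
    have h1 : ev (MvPolynomial.pderiv i (MvPolynomial.X (0 : Fin (n + 1)))) x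
        = (ee 0 : E (n + 1)) i := by
      rw [MvPolynomial.pderiv_X]
      by_cases hi : i = 0
      · subst hi
        simp only [ev, Pi.single_eq_same, map_one, PiLp.single_eq_same]
      · simp only [ev, ne_eq, Ne.symm hi, not_false_eq_true, Pi.single_eq_of_ne, map_zero, hi, PiLp.single_eq_of_ne]
    rw [h1]; rfl
  have hbd : ∀ i, |(gradient (ev P) x - ee 0 : E (n + 1)) i| ≤ K * δ := by
    intro i
    rw [hcomp i]
    refine (abs_ev_le _ hx).trans ((cn_pderiv_le _ _).trans ?_)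
    have h2 : ((P - MvPolynomial.X 0).totalDegree : ℝ) ≤ K := by exact_mod_cast hdeg
    exact mul_le_mul h2 hδ (cn_nonneg _) (by positivity)
  have hsum : ‖gradient (ev P) x - ee 0‖ ≤ ∑ i, |(gradient (ev P) x - ee 0 : E (n + 1)) i| := by
    have h3 := EuclideanSpace.norm_eq (gradient (ev P) x - ee 0)
    rw [h3]
    apply Real.sqrt_le_iff.2
    refine ⟨Finset.sum_nonneg fun i _ => abs_nonneg _, ?_⟩
    have h4 : ∑ i, ‖(gradient (ev P) x - ee 0 : E (n + 1)) i‖ ^ 2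
        = ∑ i, |(gradient (ev P) x - ee 0 : E (n + 1)) i| ^ 2 := by
      simp only [Real.norm_eq_abs]
    rw [h4]
    exact Finset.sum_sq_le_sq_sum_of_nonneg (fun i _ => abs_nonneg _)
  refine hsum.trans ((Finset.sum_le_sum fun i _ => hbd i).trans ?_)
  simp only [Finset.sum_const, Finset.card_univ, Fintype.card_fin, nsmul_eq_mul, Nat.cast_add, Nat.cast_one, Std.le_refl]

/-- `‖∇P‖² - 1` on the set where `|P| ≤ 3 ε` -/
theorem rE9_normsq {n : ℕ} {P Q : MvPolynomial (Fin (n + 1)) ℝ} {ε δ κ : ℝ}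
    (hQ : cn Q ≤ δ) (hR : cn (remP P Q) ≤ κ * ε) {x : E (n + 1)}
    (hx : ‖x‖ ≤ 1) (hPx : |ev P x| ≤ 3 * ε) :
    |‖fderiv ℝ (ev P) x‖ ^ 2 - 1| ≤ (3 * δ + κ) * ε := by
  have hδ0 : 0 ≤ δ := (cn_nonneg _).trans hQ
  have h1 : ‖fderiv ℝ (ev P) x‖ ^ 2 - 1 = ev P x * ev Q x + ev (remP P Q) x := by
    rw [norm_fderiv_ev_sq]
    unfold remP ev
    simp only [map_sub, map_mul, map_sum, map_pow, map_one]
    ring
  rw [h1]
  have h2 := abs_ev_le Q hx
  have h3 := abs_ev_le (remP P Q) hx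
  calc |ev P x * ev Q x + ev (remP P Q) x| ≤ |ev P x * ev Q x| + |ev (remP P Q) x| := abs_add_le _ _
    _ = |ev P x| * |ev Q x| + |ev (remP P Q) x| := by rw [abs_mul]
    _ ≤ (3 * ε) * δ + κ * ε := by
        refine add_le_add (mul_le_mul hPx (h2.trans hQ) (abs_nonneg _) ?_) (h3.trans hR)
        exact (abs_nonneg _).trans hPx
    _ = (3 * δ + κ) * ε := by ring

theorem rE9_origin {n : ℕ} {L : ℝ≥0} {u : E (n + 1) → ℝ} (hu : MinL L u)
    (h0 : 0 ∈ frontier (pos u)) {P h : MvPolynomial (Fin (n + 1)) ℝ} (hP : P.coeff 0 = 0)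
    {ε t : ℝ} (hε : 0 < ε)
    (hcmp : ∀ x ∈ ball (0 : E (n + 1)) (1 / 2), max (ev P x + ε * (ev h x - t)) 0 ≤ u x ∧
        u x ≤ max (ev P x + ε * (ev h x + t)) 0) : |ev h 0| ≤ t := by
  have hP0 : ev P (0 : E (n + 1)) = 0 := by rw [rE9_ev_zero]; exact hP
  have hcont : Continuous u := hu.lip.continuous
  have hu0 : u 0 = 0 := by
    have hopen : IsOpen (pos u) := isOpen_lt continuous_const hcont
    have h1 : (0 : E (n + 1)) ∉ pos u := by
      have := h0.2
      rwa [hopen.interior_eq] at this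
    exact le_antisymm (not_lt.1 h1) (hu.nonneg 0)
  have h0ball : (0 : E (n + 1)) ∈ ball (0 : E (n + 1)) (1 / 2) := mem_ball_self (by norm_num)
  rw [abs_le]
  constructor
  · by_contra hlt
    push Not at hlt
    -- then `P + ε (h + θ) < 0` near `0`
    have hc : Continuous fun x : E (n + 1) => ev P x + ε * (ev h x + t) :=
      (contDiff_ev P).continuous.add (continuous_const.mul
        ((contDiff_ev h).continuous.add continuous_const))
    have hneg : ev P (0 : E (n + 1)) + ε * (ev h 0 + t) < 0 := by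
      rw [hP0]
      have h2 : ev h (0 : E (n + 1)) + t < 0 := by linarith
      linarith only [mul_pos (sub_pos.2 hε) (sub_pos.2 hlt)]
    have hev : ∀ᶠ x in 𝓝 (0 : E (n + 1)), ev P x + ε * (ev h x + t) < 0 :=
      hc.continuousAt.eventually_lt continuousAt_const hneg
    have hev2 : ∀ᶠ x in 𝓝 (0 : E (n + 1)), x ∈ ball (0 : E (n + 1)) (1 / 2) :=
      isOpen_ball.mem_nhds h0ball
    have hcl : (0 : E (n + 1)) ∈ closure (pos u) := frontier_subset_closure h0
    have hfreq : ∃ᶠ x in 𝓝 (0 : E (n + 1)), x ∈ pos u := mem_closure_iff_frequently.1 hcl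
    obtain ⟨x, hx1, hx2, hx3⟩ := (hfreq.and_eventually (hev.and hev2)).exists
    have h5 := (hcmp x hx3).2
    rw [max_eq_right hx2.le] at h5
    exact absurd hx1 (not_lt.2 h5)
  · have h5 := (hcmp 0 h0ball).1
    rw [hu0, hP0] at h5
    have h6 := (le_max_left _ _).trans h5
    have h7 : ε * (ev h (0 : E (n + 1)) - t) ≤ 0 := by linarith only [h6]
    have h8 : ev h (0 : E (n + 1)) - t ≤ 0 := by
      by_contra h9
      push Not at h9
      have := mul_pos hε h9
      linarith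
    linarith

theorem rE9_trap {n K : ℕ} {u : E (n + 1) → ℝ} {P P' q h : MvPolynomial (Fin (n + 1)) ℝ}
    {σ s C₇ C₈ ε δ : ℝ} (hs : s = σ ^ (2 * K + 1)) (hs0 : 0 < s) (hσ0 : 0 < σ) (hσ2 : σ ≤ 1 / 2)
    (hC₇ : 0 < C₇) (hσC : C₇ * σ ≤ 1 / 4) (hε : 0 < ε)
    (hP' : cn (P' - P - ε • q) ≤ C₈ * ε * (δ + ε)) (hsmall2 : C₈ * ε * (δ + ε) ≤ s / 4 * ε)
    (hqT : ∀ x ∈ ball (0 : E (n + 1)) (1 / 4), |ev h x - ev h 0 - ev q x| ≤ C₇ * ‖x‖ ^ (K + 1))
    (hh0 : |ev h 0| ≤ s / 16)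
    (hcmp : ∀ x ∈ ball (0 : E (n + 1)) (1 / 2), max (ev P x + ε * (ev h x - s / 16)) 0 ≤ u x ∧
        u x ≤ max (ev P x + ε * (ev h x + s / 16)) 0) :
    Trap u (ev P') (-(s * ε)) (s * ε) 0 (σ ^ 2) := by
  intro x hx
  have hxn : ‖x‖ < σ ^ 2 := mem_ball_zero_iff.1 hx
  have hσσ : σ ^ 2 ≤ 1 / 4 := by nlinarith only [hσ2, hσ0]
  have hx4 : x ∈ ball (0 : E (n + 1)) (1 / 4) := mem_ball_zero_iff.2 (by linarith only [hxn, hσσ])
  have hx2 : x ∈ ball (0 : E (n + 1)) (1 / 2) := mem_ball_zero_iff.2 (by linarith only [hxn, hσσ])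
  have hx1 : ‖x‖ ≤ 1 := by linarith only [hxn, hσσ]
  have hTx := hqT x hx4
  have hpow : C₇ * ‖x‖ ^ (K + 1) ≤ s / 4 := by
    have h1 : ‖x‖ ^ (K + 1) ≤ (σ ^ 2) ^ (K + 1) :=
      pow_le_pow_left₀ (norm_nonneg _) hxn.le _
    have h2 : (σ ^ 2) ^ (K + 1) = σ * s := by
      rw [hs, ← pow_mul]; ring
    calc C₇ * ‖x‖ ^ (K + 1) ≤ C₇ * (σ * s) := by
          rw [← h2]; exact mul_le_mul_of_nonneg_left h1 hC₇.le
      _ = (C₇ * σ) * s := by ring
      _ ≤ 1 / 4 * s := mul_le_mul_of_nonneg_right hσC hs0.le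
      _ = s / 4 := by ring
  have hdiff : |ev P' x - (ev P x + ε * ev q x)| ≤ s / 4 * ε := by
    have h1 : ev P' x - (ev P x + ε * ev q x) = ev (P' - P - ε • q) x := by
      rw [ev_sub, ev_sub, rE9_ev_smul]; ring
    rw [h1]
    exact (abs_ev_le _ hx1).trans (hP'.trans hsmall2)
  have hq : |ev h x - ev h 0 - ev q x| ≤ s / 4 := hTx.trans hpow
  have hcx := hcmp x hx2
  obtain ⟨hd1, hd2⟩ := abs_le.1 hdiff
  obtain ⟨hq1, hq2⟩ := abs_le.1 hq
  obtain ⟨hh1, hh2⟩ := abs_le.1 hh0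
  have hsε : 0 < s * ε := mul_pos hs0 hε
  have hlow : ev P' x + -(s * ε) ≤ ev P x + ε * (ev h x - s / 16) := by
    have h1 : ε * ev q x ≤ ε * (ev h x + s / 16 + s / 4) :=
      mul_le_mul_of_nonneg_left (by linarith only [hq1, hh1]) hε.le
    linarith only [h1, hsε, hd2]
  have hup : ev P x + ε * (ev h x + s / 16) ≤ ev P' x + s * ε := by
    have h1 : ε * (ev h x - s / 16 - s / 4) ≤ ε * ev q x :=
      mul_le_mul_of_nonneg_left (by linarith only [hq2, hh2]) hε.le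
    linarith only [h1, hsε, hd1]
  exact ⟨(max_le_max_right 0 hlow).trans hcx.1, hcx.2.trans (max_le_max_right 0 hup)⟩

theorem improvement (n K : ℕ) (hK : 1 ≤ K) : ∃ σ κ δ₀ C : ℝ, 0 < σ ∧ σ ≤ 1 / 2 ∧ 0 < κ ∧
    0 < δ₀ ∧ 0 < C ∧ ∀ (L : ℝ≥0) (u : E (n + 1) → ℝ), MinL L u → 0 ∈ frontier (pos u) →
    ∀ (P Q : MvPolynomial (Fin (n + 1)) ℝ) (ε δ : ℝ), 0 < ε → ε ≤ δ → δ ≤ δ₀ →
    AdmS K P Q → cn (P - MvPolynomial.X 0) ≤ δ → cn Q ≤ δ → cn (remP P Q) ≤ κ * ε →
    Trap u (ev P) (-ε) ε 0 1 →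
    ∃ P' Q' : MvPolynomial (Fin (n + 1)) ℝ, AdmS K P' Q' ∧ cn (P' - P) ≤ C * ε ∧
      cn (Q' - Q) ≤ C * ε ∧ cn (remP P' Q') ≤ 2 * κ * ε ∧
      Trap u (ev P') (-(σ ^ (2 * K + 1) * ε)) (σ ^ (2 * K + 1) * ε) 0 (σ ^ 2) := by
  obtain ⟨C₇, hC₇, hT⟩ := taylor_harm n K
  obtain ⟨C₈, δ₈, hC₈, hδ₈, hCor⟩ := correction n K hK C₇
  set σ : ℝ := min (1 / 2) (1 / (4 * C₇)) with hσ
  have hσ0 : 0 < σ := lt_min (by norm_num) (by positivity)
  have hσ2 : σ ≤ 1 / 2 := min_le_left _ _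
  have hσC : C₇ * σ ≤ 1 / 4 := by
    have : σ ≤ 1 / (4 * C₇) := min_le_right _ _
    calc C₇ * σ ≤ C₇ * (1 / (4 * C₇)) := mul_le_mul_of_nonneg_left this hC₇.le
      _ = 1 / 4 := by field_simp
  set s : ℝ := σ ^ (2 * K + 1) with hs
  have hs0 : 0 < s := by positivity
  have hs1 : s ≤ 1 := pow_le_one₀ hσ0.le (by linarith only [hσ2])
  obtain ⟨δc, hδc, hLC⟩ := linear_compare n (s / 16) (by positivity)
  set κ : ℝ := min (δc / 2) 1 with hκ
  have hκ0 : 0 < κ := lt_min (by positivity) one_pos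
  have hκ1 : κ ≤ δc / 2 := min_le_left _ _
  set δ₀ : ℝ := min (min (δc / 6) (δc / ((n + 1) * K))) (min δ₈ (min (κ / (2 * C₈)) (s / (8 * C₈))))
    with hδ₀
  have hKr : (1 : ℝ) ≤ K := by exact_mod_cast hK
  have hδ₀0 : 0 < δ₀ := by
    refine lt_min (lt_min (by (clear * - hδc; positivity)) (by (clear * - hδc hK; positivity))) (lt_min hδ₈ (lt_min (by positivity)
      (by positivity)))
  have e1 : δ₀ ≤ δc / 6 := (min_le_left _ _).trans (min_le_left _ _)
  have e2 : δ₀ ≤ δc / ((n + 1) * K) := (min_le_left _ _).trans (min_le_right _ _)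
  have e3 : δ₀ ≤ δ₈ := (min_le_right _ _).trans (min_le_left _ _)
  have e4 : δ₀ ≤ κ / (2 * C₈) := (min_le_right _ _).trans ((min_le_right _ _).trans (min_le_left _ _))
  have e5 : δ₀ ≤ s / (8 * C₈) := (min_le_right _ _).trans ((min_le_right _ _).trans (min_le_right _ _))
  have e4' : 2 * C₈ * δ₀ ≤ κ := by
    calc 2 * C₈ * δ₀ ≤ 2 * C₈ * (κ / (2 * C₈)) := mul_le_mul_of_nonneg_left e4 (by positivity)
      _ = κ := by (clear * - hC₈ hκ0; field_simp)
  have e5' : 2 * C₈ * δ₀ ≤ s / 4 := by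
    calc 2 * C₈ * δ₀ ≤ 2 * C₈ * (s / (8 * C₈)) := mul_le_mul_of_nonneg_left e5 (by positivity)
      _ = s / 4 := by field_simp; ring
  refine ⟨σ, κ, δ₀, C₇ + κ + C₈, hσ0, hσ2, hκ0, hδ₀0, by positivity, ?_⟩
  intro L u hu h0 P Q ε δ hε hεδ hδ hA hPX hQ hR hTrap
  have hδpos : 0 < δ := hε.trans_le hεδ
  -- apply the linear comparison
  obtain ⟨h, hlap, heven, hbd, hcmp⟩ := hLC L u (ev P) ε hu hε (by linarith only [hδ₀0, e1, hεδ, hδ]) (harm_ev hA.harm _)
    (by
      intro x hx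
      have hx1 : ‖x‖ ≤ 1 := by simpa only using (mem_ball_zero_iff.1 hx).le
      have h1 : ev P x - x 0 = ev (P - MvPolynomial.X 0) x := by rw [ev_sub, rE9_ev_X0]
      rw [h1]
      refine (abs_ev_le _ hx1).trans ?_
      linarith only [hδ₀0, e1, hδ, hPX])
    (by
      intro x hx
      have hx1 : ‖x‖ ≤ 1 := by simpa only using (mem_ball_zero_iff.1 hx).le
      refine (rE9_grad hK hA.degP hPX hx1).trans ?_
      have h2 : δ ≤ δc / ((n + 1) * K) := hδ.trans e2
      calc ((n : ℝ) + 1) * (K * δ) = ((n + 1) * K) * δ := by ring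
        _ ≤ ((n + 1) * K) * (δc / ((n + 1) * K)) := mul_le_mul_of_nonneg_left h2 (by (clear * - hK; positivity))
        _ = δc := by (clear * - hK hδc; field_simp))
    (by
      intro x hx hPx
      have hx1 : ‖x‖ ≤ 1 := by simpa only using (mem_ball_zero_iff.1 hx).le
      refine (rE9_normsq hQ hR hx1 hPx).trans ?_
      refine mul_le_mul_of_nonneg_right ?_ hε.le
      linarith only [hκ1, e1, hδ])
    hTrap
  have hh0 := rE9_origin hu h0 hA.zero hε hcmp
  obtain ⟨q, hqdeg, hqlap, hqeven, hq0, hqC, hqT⟩ := hT h hlap heven hbd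
  obtain ⟨P', Q', hA', hP', hQ', hR'⟩ := hCor P Q q ε δ hε.le (by linarith only [e3, hεδ, hδ]) hδpos.le (by linarith only [e3, hδ])
    hA hPX hQ hqdeg hqlap hqeven hq0 hqC
  have hsmall : C₈ * ε * (δ + ε) ≤ κ * ε := by
    have : C₈ * (δ + ε) ≤ κ := by
      refine le_trans ?_ e4'
      nlinarith only [hC₈, hεδ, hδ]
    calc C₈ * ε * (δ + ε) = (C₈ * (δ + ε)) * ε := by ring
      _ ≤ κ * ε := mul_le_mul_of_nonneg_right this hε.le
  have hsmall2 : C₈ * ε * (δ + ε) ≤ s / 4 * ε := by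
    have : C₈ * (δ + ε) ≤ s / 4 := by
      refine le_trans ?_ e5'
      linarith only [mul_nonneg (le_of_lt (sub_pos.2 hC₈)) (sub_nonneg.2 hδ), mul_nonneg (le_of_lt (sub_pos.2 hC₈)) (sub_nonneg.2 hεδ)]
    calc C₈ * ε * (δ + ε) = (C₈ * (δ + ε)) * ε := by ring
      _ ≤ s / 4 * ε := mul_le_mul_of_nonneg_right this hε.le
  refine ⟨P', Q', hA', ?_, ?_, ?_, ?_⟩
  · have h1 : P' - P = (P' - P - ε • q) + ε • q := by ring
    rw [h1]
    refine (cn_add_le _ _).trans ?_
    rw [cn_smul, abs_of_pos hε]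
    have h2 : ε * cn q ≤ C₇ * ε := by
      rw [mul_comm]; exact mul_le_mul_of_nonneg_right hqC hε.le
    have h3 : 0 ≤ C₈ * ε := by positivity
    linarith only [h3, h2, hsmall, hP']
  · refine hQ'.trans ?_
    have h3 : 0 ≤ (C₇ + κ) * ε := by (clear * - hC₇ hδc hε; positivity)
    nlinarith only [h3]
  · have h1 : remP P' Q' = (remP P' Q' - remP P Q) + remP P Q := by ring
    rw [h1]
    refine (cn_add_le _ _).trans ?_
    have := hR'.trans hsmall
    linarith only [hR, hR', hsmall]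
  · exact rE9_trap hs hs0 hσ0 hσ2 hC₇ hσC hε hP' hsmall2 hqT hh0 hcmp

end Vale.Agent.P098
end

section

/-! # E10: pointwise expansions at a free boundary point

`σ, κ, δ₀, C` from `improvement`. Construct recursively `(P_j, Q_j)` with, for
`u_j = resc u 0 (σ^{2j})`, `ε_j = σ^{j(2K-1)} ε`, `δ_j = ε + C ∑_{i<j} ε_i ≤ C'ε ≤ δ₀`:
`AdmS K P_j Q_j`, `cn(P_j - X₀) ≤ δ_j`, `cn Q_j ≤ δ_j`, `cn(remP P_j Q_j) ≤ κ ε_j`,
`Trap u_j (ev P_j) (-ε_j) ε_j 0 1`. Start: `P_0 = X₀`, `Q_0 = 0`, `remP = 0`. Step: `improvement`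
gives `P', Q'`; let `P_{j+1}(x) = P'(σ²x)/σ²` (coefficient of degree `m` times `σ^{2(m-1)}`),
`Q_{j+1}(x) = σ² Q'(σ² x)`, so `remP P_{j+1} Q_{j+1} (x) = remP P' Q' (σ²x)`; as `P'` has no constant
term, `σ ≤ 1`, and `remP P' Q'` has only terms of degree `≥ K`:
`cn(P_{j+1}-X₀) ≤ cn(P'-X₀)`, `cn Q_{j+1} ≤ cn Q'`,
`cn(remP P_{j+1}Q_{j+1}) ≤ σ^{2K} 2κε_j ≤ κ σ^{2K-1} ε_j` (`σ ≤ 1/2`), and the trap scales to
`σ^{2K+1}ε_j/σ² = ε_{j+1}`.
Unscaled polynomials `P^{(j)}(x) = σ^{2j} P_j(σ^{-2j} x)`: since `P_{j+1}` comes from `P'` by scaling,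
`|coeff_m (P^{(j+1)} - P^{(j)})| ≤ σ^{2j(1-|m|)} C ε_j = C ε σ^{j(2K+1-2|m|)} ≤ C ε σ^j`
(`|m| ≤ K`). So `P^{(j)} → P` coefficientwise, `|coeff_m(P - P^{(j)})| ≤ C''ε σ^{j(2K+1-2|m|)}`, and
`|P - P^{(j)}| ≤ C''' ε σ^{j(2K+1)}` on `ball 0 (σ^{2j})`. Together with the trap for `u_j`:
`Trap u (ev P) (∓ C ε σ^{j(2K+1)}) 0 (σ^{2j})`; for `σ^{2(j+1)} < r ≤ σ^{2j}` this gives the claim with
`C σ^{-(2K+1)}`. The constant coefficient of `remP P_j Q_j` vanishes (`K ≥ 1`), so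
`∑ (∂_i P_j(0))² = 1`, hence `‖∇P(0)‖ = 1`. -/

open MeasureTheory Set Metric Filter
open scoped ContDiff RealInnerProductSpace Topology NNReal

namespace Vale.Agent.P098

variable {d : ℕ}

/-- Scaling of a polynomial. -/
noncomputable def rE10_sc (s : ℝ) : MvPolynomial (Fin d) ℝ →ₐ[ℝ] MvPolynomial (Fin d) ℝ :=
  MvPolynomial.aeval (fun i => MvPolynomial.C s * MvPolynomial.X i)

theorem rE10_sc_monomial (s : ℝ) (v : Fin d →₀ ℕ) (a : ℝ) :
    rE10_sc s (MvPolynomial.monomial v a) = MvPolynomial.monomial v (s ^ v.degree * a) := by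
  unfold rE10_sc
  rw [MvPolynomial.aeval_monomial]
  simp only [mul_pow]
  rw [Finsupp.prod_mul]
  have h1 : (v.prod fun i n => (MvPolynomial.C s : MvPolynomial (Fin d) ℝ) ^ n)
      = MvPolynomial.C (s ^ v.degree) := by
    rw [Finsupp.prod, Finset.prod_pow_eq_pow_sum, ← map_pow]
    rfl
  rw [h1, MvPolynomial.monomial_eq (s := v) (a := s ^ v.degree * a), MvPolynomial.C_mul]
  rw [MvPolynomial.algebraMap_eq]
  ring

theorem rE10_coeff_sc (s : ℝ) (p : MvPolynomial (Fin d) ℝ) (m : Fin d →₀ ℕ) :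
    (rE10_sc s p).coeff m = s ^ m.degree * p.coeff m := by
  induction p using MvPolynomial.induction_on' with
  | monomial v a =>
    rw [rE10_sc_monomial, MvPolynomial.coeff_monomial, MvPolynomial.coeff_monomial]
    split_ifs with h
    · rw [h]
    · simp
  | add p q hp hq => rw [map_add, MvPolynomial.coeff_add, MvPolynomial.coeff_add, hp, hq]; ring

theorem rE10_sc_X (s : ℝ) (i : Fin d) :
    rE10_sc s (MvPolynomial.X i) = s • (MvPolynomial.X i : MvPolynomial (Fin d) ℝ) := by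
  unfold rE10_sc
  rw [MvPolynomial.aeval_X, MvPolynomial.smul_eq_C_mul]

theorem rE10_pderiv_sc (s : ℝ) (p : MvPolynomial (Fin d) ℝ) (i : Fin d) :
    MvPolynomial.pderiv i (rE10_sc s p) = s • rE10_sc s (MvPolynomial.pderiv i p) := by
  ext m
  rw [MvPolynomial.coeff_pderiv, rE10_coeff_sc, MvPolynomial.coeff_smul, rE10_coeff_sc,
    MvPolynomial.coeff_pderiv]
  simp only [smul_eq_mul, map_add, Finsupp.degree_single, pow_succ]
  ring

theorem rE10_lapP_sc (s : ℝ) (p : MvPolynomial (Fin d) ℝ) :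
    lapP (rE10_sc s p) = (s * s) • rE10_sc s (lapP p) := by
  unfold lapP
  rw [map_sum, Finset.smul_sum]
  refine Finset.sum_congr rfl fun i _ => ?_
  rw [rE10_pderiv_sc, Derivation.map_smul, rE10_pderiv_sc, smul_smul]

theorem rE10_remP_sc (s : ℝ) (hs : s ≠ 0) (P Q : MvPolynomial (Fin d) ℝ) :
    remP (s⁻¹ • rE10_sc s P) (s • rE10_sc s Q) = rE10_sc s (remP P Q) := by
  unfold remP
  rw [map_sub, map_sub, map_sum, map_one, map_mul]
  congr 1
  · congr 1
    refine Finset.sum_congr rfl fun i _ => ?_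
    rw [Derivation.map_smul, rE10_pderiv_sc, smul_smul, inv_mul_cancel₀ hs, one_smul, map_pow]
  · rw [smul_mul_smul_comm, inv_mul_cancel₀ hs, one_smul]

theorem rE10_cn_eq_sum (p : MvPolynomial (Fin d) ℝ) (S : Finset (Fin d →₀ ℕ))
    (h : p.support ⊆ S) : cn p = ∑ m ∈ S, |p.coeff m| := by
  unfold cn
  refine Finset.sum_subset h fun m _ hm => ?_
  rw [MvPolynomial.notMem_support_iff.1 hm, abs_zero]

theorem rE10_cn_le {p q : MvPolynomial (Fin d) ℝ} {c : ℝ}
    (h : ∀ m, |q.coeff m| ≤ c * |p.coeff m|) : cn q ≤ c * cn p := by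
  have hsub : q.support ⊆ p.support := by
    intro m hm
    rw [MvPolynomial.mem_support_iff] at hm ⊢
    intro h0
    have := h m
    rw [h0, abs_zero, mul_zero] at this
    exact hm (abs_eq_zero.1 (le_antisymm this (abs_nonneg _)))
  rw [rE10_cn_eq_sum q p.support hsub]
  unfold cn
  rw [Finset.mul_sum]
  exact Finset.sum_le_sum fun m _ => h m


theorem rE10_totalDegree_le {p q : MvPolynomial (Fin d) ℝ} {K : ℕ} (hp : p.totalDegree ≤ K)
    (h : ∀ m, p.coeff m = 0 → q.coeff m = 0) : q.totalDegree ≤ K := by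
  refine le_trans (MvPolynomial.totalDegree_le_of_support_subset fun m hm => ?_) hp
  rw [MvPolynomial.mem_support_iff] at hm ⊢
  exact fun h0 => hm (h m h0)

theorem rE10_coeff_zero_of_degree {p : MvPolynomial (Fin d) ℝ} {K : ℕ} (hp : p.totalDegree ≤ K)
    {m : Fin d →₀ ℕ} (hm : K < m.degree) : p.coeff m = 0 := by
  by_contra h
  have := MvPolynomial.le_totalDegree (MvPolynomial.mem_support_iff.2 h)
  have h2 : m.degree = m.sum fun _ e => e := rfl
  omega

theorem rE10_resc_resc (u : E d → ℝ) (a b : ℝ) (x : E d) :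
    resc u 0 (a * b) x = resc u 0 a (b • x) / b := by
  unfold resc
  rw [zero_add, zero_add, smul_smul, div_div]

/-- The invariant of the iteration. -/
structure rE10_Inv {n : ℕ} (K : ℕ) (s ρ κ C ε : ℝ) (u : E (n + 1) → ℝ) (j : ℕ)
    (P Q : MvPolynomial (Fin (n + 1)) ℝ) : Prop where
  adm : AdmS K P Q
  hP : cn (P - MvPolynomial.X 0) ≤ 2 * C * ε * (1 - ρ ^ j)
  hQ : cn Q ≤ 2 * C * ε * (1 - ρ ^ j)
  hR : cn (remP P Q) ≤ κ * (ρ ^ j * ε)
  trap : Trap (resc u 0 (s ^ j)) (ev P) (-(ρ ^ j * ε)) (ρ ^ j * ε) 0 1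

theorem rE10_step {n k : ℕ} {σ κ δ₀ C : ℝ} (hσ : 0 < σ) (hσ1 : σ ≤ 1 / 2) (hκ : 0 < κ)
    (hC : 0 < C)
    (himp : ∀ (L : ℝ≥0) (u : E (n + 1) → ℝ), MinL L u → 0 ∈ frontier (pos u) →
      ∀ (P Q : MvPolynomial (Fin (n + 1)) ℝ) (ε δ : ℝ), 0 < ε → ε ≤ δ → δ ≤ δ₀ →
      AdmS (k + 1) P Q → cn (P - MvPolynomial.X 0) ≤ δ → cn Q ≤ δ → cn (remP P Q) ≤ κ * ε →
      Trap u (ev P) (-ε) ε 0 1 →
      ∃ P' Q' : MvPolynomial (Fin (n + 1)) ℝ, AdmS (k + 1) P' Q' ∧ cn (P' - P) ≤ C * ε ∧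
        cn (Q' - Q) ≤ C * ε ∧ cn (remP P' Q') ≤ 2 * κ * ε ∧
        Trap u (ev P') (-(σ ^ (2 * (k + 1) + 1) * ε)) (σ ^ (2 * (k + 1) + 1) * ε) 0 (σ ^ 2))
    {L : ℝ≥0} {u : E (n + 1) → ℝ} (hu : MinL L u) (h0 : 0 ∈ frontier (pos u)) {ε : ℝ}
    (hε : 0 < ε) (hε0 : (1 + 2 * C) * ε ≤ δ₀) {j : ℕ} {P Q : MvPolynomial (Fin (n + 1)) ℝ}
    (h : rE10_Inv (k + 1) (σ ^ 2) (σ ^ (2 * k + 1)) κ C ε u j P Q) :
    ∃ P' Q' : MvPolynomial (Fin (n + 1)) ℝ,
      rE10_Inv (k + 1) (σ ^ 2) (σ ^ (2 * k + 1)) κ C ε u (j + 1)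
        ((σ ^ 2)⁻¹ • rE10_sc (σ ^ 2) P') (σ ^ 2 • rE10_sc (σ ^ 2) Q') ∧
      P'.totalDegree ≤ k + 1 ∧ P'.coeff 0 = 0 ∧
      cn (P' - P) ≤ C * ((σ ^ (2 * k + 1)) ^ j * ε) := by
  set s : ℝ := σ ^ 2 with hs
  set ρ : ℝ := σ ^ (2 * k + 1) with hρ
  have hs0 : 0 < s := by positivity
  have hσ1' : σ ≤ 1 := by linarith
  have hs1 : s ≤ 1 := pow_le_one₀ hσ.le hσ1'
  have hρ0 : 0 < ρ := by positivity
  have hρ1 : ρ ≤ 1 / 2 := by
    calc ρ = σ ^ (2 * k) * σ := pow_succ _ _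
      _ ≤ 1 * (1 / 2) := by
        apply mul_le_mul (pow_le_one₀ hσ.le hσ1') hσ1 hσ.le zero_le_one
      _ = 1 / 2 := one_mul _
  have hρj : 0 < ρ ^ j := by positivity
  have hρj1 : ρ ^ j ≤ 1 := pow_le_one₀ hρ0.le (by linarith only [hρ1])
  have hρs : σ ^ (2 * (k + 1) + 1) = ρ * s := by rw [hρ, hs, ← pow_add]; congr 1
  have hsK : s ^ (k + 1) = σ * ρ := by rw [hρ, hs, ← pow_mul, ← pow_succ']; congr 1
  obtain ⟨P', Q', hadm, h1, h2, h3, h4⟩ := himp L (resc u 0 (s ^ j)) (hu.resc 0 (by positivity))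
    ((mem_frontier_resc (by positivity) 0).2 (by simpa only [smul_zero, add_zero] using h0)) P Q (ρ ^ j * ε)
    ((1 + 2 * C) * ε) (by positivity) (by nlinarith only [hC, hε, hρj1]) hε0 h.adm
    (h.hP.trans (by linarith only [mul_pos (mul_pos hC hε) hρj, hε]))
    (h.hQ.trans (by linarith only [mul_pos (mul_pos hC hε) hρj, hε])) h.hR h.trap
  have hkey : 2 * C * ε * (1 - ρ ^ j) + C * (ρ ^ j * ε) ≤ 2 * C * ε * (1 - ρ ^ (j + 1)) := by
    rw [pow_succ]
    have : 0 ≤ C * ε * ρ ^ j * (1 - 2 * ρ) := by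
      apply mul_nonneg (by positivity) (by linarith only [hρ1])
    linarith only [this]
  have hlap : lapP (s⁻¹ • rE10_sc s P') = 0 := by
    have : lapP (s⁻¹ • rE10_sc s P') = s⁻¹ • lapP (rE10_sc s P') := by
      unfold lapP
      rw [Finset.smul_sum]
      refine Finset.sum_congr rfl fun i _ => ?_
      rw [Derivation.map_smul, Derivation.map_smul]
    rw [this, rE10_lapP_sc, hadm.harm, map_zero, smul_zero, smul_zero]
  refine ⟨P', Q', ⟨⟨?_, ?_, hlap, ?_, ?_⟩, ?_, ?_, ?_, ?_⟩, hadm.degP, hadm.zero, h1⟩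
  · refine rE10_totalDegree_le hadm.degP fun m hm => ?_
    rw [MvPolynomial.coeff_smul, rE10_coeff_sc, hm]; simp
  · refine rE10_totalDegree_le hadm.degQ fun m hm => ?_
    rw [MvPolynomial.coeff_smul, rE10_coeff_sc, hm]; simp
  · rw [MvPolynomial.coeff_smul, rE10_coeff_sc, hadm.zero]; simp
  · intro m hm
    rw [rE10_remP_sc s hs0.ne', rE10_coeff_sc, hadm.low m hm, mul_zero]
  · refine le_trans ?_ hkey
    have e1 : s⁻¹ • rE10_sc s P' - MvPolynomial.X 0
        = s⁻¹ • rE10_sc s (P' - MvPolynomial.X 0) := by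
      rw [map_sub, smul_sub, rE10_sc_X, smul_smul, inv_mul_cancel₀ hs0.ne', one_smul]
    have e2 : cn (s⁻¹ • rE10_sc s P' - MvPolynomial.X 0) ≤ 1 * cn (P' - MvPolynomial.X 0) := by
      rw [e1]
      refine rE10_cn_le fun m => ?_
      rw [MvPolynomial.coeff_smul, rE10_coeff_sc, smul_eq_mul, abs_mul, abs_mul, ← mul_assoc]
      by_cases hm : m = 0
      · subst hm
        rw [MvPolynomial.coeff_sub, hadm.zero, MvPolynomial.coeff_zero_X]
        simp
      · refine mul_le_mul_of_nonneg_right ?_ (abs_nonneg _)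
        have hdeg : m.degree ≠ 0 := by
          rw [Ne, Finsupp.degree_eq_zero_iff]; exact hm
        obtain ⟨i, hi⟩ := Nat.exists_eq_succ_of_ne_zero hdeg
        rw [hi, abs_of_pos (by positivity), abs_of_pos (by positivity), Nat.succ_eq_add_one,
          pow_succ', ← mul_assoc, inv_mul_cancel₀ hs0.ne', one_mul]
        exact pow_le_one₀ hs0.le hs1
    have e3 : cn (P' - MvPolynomial.X 0) ≤ cn (P' - P) + cn (P - MvPolynomial.X 0) := by
      have := cn_add_le (P' - P) (P - MvPolynomial.X 0)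
      rwa [sub_add_sub_cancel] at this
    linarith only [h.hP, e3, e2, h1]
  · refine le_trans ?_ hkey
    have e2 : cn (s • rE10_sc s Q') ≤ 1 * cn Q' := by
      refine rE10_cn_le fun m => ?_
      rw [MvPolynomial.coeff_smul, rE10_coeff_sc, smul_eq_mul, abs_mul, abs_mul, ← mul_assoc]
      refine mul_le_mul_of_nonneg_right ?_ (abs_nonneg _)
      rw [abs_of_pos (by positivity), abs_of_pos (by positivity), ← pow_succ']
      exact pow_le_one₀ hs0.le hs1
    have e3 : cn Q' ≤ cn (Q' - Q) + cn Q := by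
      have := cn_add_le (Q' - Q) Q
      rwa [sub_add_cancel] at this
    linarith only [h2, e2, e3, h.hQ]
  · rw [rE10_remP_sc s hs0.ne']
    have e2 : cn (rE10_sc s (remP P' Q')) ≤ s ^ (k + 1) * cn (remP P' Q') := by
      refine rE10_cn_le fun m => ?_
      rw [rE10_coeff_sc, abs_mul]
      by_cases hm : m.degree < k + 1
      · rw [hadm.low m hm]; simp
      · refine mul_le_mul_of_nonneg_right ?_ (abs_nonneg _)
        rw [abs_of_pos (by positivity)]
        exact pow_le_pow_of_le_one hs0.le hs1 (not_lt.1 hm)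
    refine e2.trans ?_
    rw [hsK]
    calc σ * ρ * cn (remP P' Q') ≤ σ * ρ * (2 * κ * (ρ ^ j * ε)) :=
          mul_le_mul_of_nonneg_left h3 (by positivity)
      _ = (2 * σ) * (κ * (ρ ^ (j + 1) * ε)) := by rw [pow_succ]; ring
      _ ≤ 1 * (κ * (ρ ^ (j + 1) * ε)) :=
          mul_le_mul_of_nonneg_right (by linarith only [hσ1]) (by positivity)
      _ = _ := one_mul _
  · intro x hx
    have hx' : s • x ∈ ball (0 : E (n + 1)) s := by
      rw [mem_ball_zero_iff] at hx ⊢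
      rw [norm_smul, Real.norm_of_nonneg hs0.le]
      nlinarith only [hs0, hx]
    obtain ⟨ha, hb⟩ := h4 (s • x) hx'
    have e1 : resc u 0 (s ^ (j + 1)) x = resc u 0 (s ^ j) (s • x) / s := by
      rw [pow_succ, rE10_resc_resc]
    have e2 : ev (s⁻¹ • rE10_sc s P') x = ev P' (s • x) / s := by
      have : ev (s⁻¹ • rE10_sc s P') x = s⁻¹ * ev (rE10_sc s P') x := by
        unfold ev; rw [MvPolynomial.smul_eval]
      rw [this, ev_of_scale (fun m => rE10_coeff_sc s P' m)]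
      rw [div_eq_inv_mul]
    rw [e1, e2]
    rw [hρs] at ha hb
    have e3 : ∀ c : ℝ, max (ev P' (s • x) / s + ρ * c) 0
        = max (ev P' (s • x) + ρ * s * c) 0 / s := by
      intro c
      rw [← max_div_div_right hs0.le, zero_div]
      congr 1
      (clear * - hs0; field_simp)
    have e4 : -(ρ ^ (j + 1) * ε) = ρ * (-(ρ ^ j * ε)) := by rw [pow_succ]; ring
    have e5 : ρ ^ (j + 1) * ε = ρ * (ρ ^ j * ε) := by rw [pow_succ]; ring
    constructor
    · rw [e4, e3]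
      refine div_le_div_of_nonneg_right ?_ hs0.le
      rwa [mul_neg]
    · rw [e5, e3]
      exact div_le_div_of_nonneg_right hb hs0.le

/-- The polynomials of degree at most `K`: finite set of exponents. -/
noncomputable def rE10_S (d K : ℕ) : Finset (Fin d →₀ ℕ) :=
  (Finsupp.finite_of_degree_le (σ := Fin d) K).toFinset

theorem rE10_mem_S {K : ℕ} {m : Fin d →₀ ℕ} : m ∈ rE10_S d K ↔ m.degree ≤ K := by
  simp only [rE10_S, Finite.mem_toFinset, mem_ofPred_eq]

theorem rE10_eq_sum {K : ℕ} {p : MvPolynomial (Fin d) ℝ} (hp : p.totalDegree ≤ K) :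
    p = ∑ m ∈ rE10_S d K, MvPolynomial.monomial m (p.coeff m) := by
  ext m
  rw [MvPolynomial.coeff_sum]
  simp only [MvPolynomial.coeff_monomial]
  rw [Finset.sum_ite_eq']
  split_ifs with h
  · rfl
  · exact rE10_coeff_zero_of_degree hp (not_le.1 fun h' => h (rE10_mem_S.2 h'))

theorem rE10_support_subset {K : ℕ} {p : MvPolynomial (Fin d) ℝ} (hp : p.totalDegree ≤ K) :
    p.support ⊆ rE10_S d K := by
  intro m hm
  rw [rE10_mem_S]
  exact (MvPolynomial.le_totalDegree hm).trans hp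

theorem rE10_linear {K : ℕ} {p : MvPolynomial (Fin d) ℝ} (hp : p.totalDegree ≤ K)
    (ℓ : MvPolynomial (Fin d) ℝ →ₗ[ℝ] ℝ) :
    ℓ p = ∑ m ∈ rE10_S d K, p.coeff m * ℓ (MvPolynomial.monomial m 1) := by
  conv_lhs => rw [rE10_eq_sum hp]
  rw [map_sum]
  refine Finset.sum_congr rfl fun m _ => ?_
  rw [← smul_eq_mul, ← map_smul, MvPolynomial.smul_monomial, smul_eq_mul, mul_one]

theorem rE10_limit {K : ℕ} (Pu : ℕ → MvPolynomial (Fin d) ℝ) (hdeg : ∀ j, (Pu j).totalDegree ≤ K)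
    (A : ℝ) (t : (Fin d →₀ ℕ) → ℝ) (ht : ∀ m, t m ≤ 1 / 2) (ht0 : ∀ m, 0 ≤ t m)
    (h : ∀ m : Fin d →₀ ℕ, m.degree ≤ K → ∀ j,
      |(Pu j).coeff m - (Pu (j + 1)).coeff m| ≤ A * t m ^ j) :
    ∃ P : MvPolynomial (Fin d) ℝ, P.totalDegree ≤ K ∧
      (∀ m : Fin d →₀ ℕ, m.degree ≤ K → ∀ j, |(Pu j).coeff m - P.coeff m| ≤ 2 * A * t m ^ j) ∧
      ∀ ℓ : MvPolynomial (Fin d) ℝ →ₗ[ℝ] ℝ,
        Tendsto (fun j => ℓ (Pu j)) atTop (𝓝 (ℓ P)) := by
  have key : ∀ m : Fin d →₀ ℕ, ∃ a : ℝ, m.degree ≤ K →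
      Tendsto (fun j => (Pu j).coeff m) atTop (𝓝 a) := by
    intro m
    by_cases hm : m.degree ≤ K
    · have hc : CauchySeq fun j => (Pu j).coeff m :=
        cauchySeq_of_le_geometric (t m) A (by linarith [ht m]) fun j => by
          rw [Real.dist_eq]; exact h m hm j
      obtain ⟨a, ha⟩ := cauchySeq_tendsto_of_complete hc
      exact ⟨a, fun _ => ha⟩
    · exact ⟨0, fun h' => absurd h' hm⟩
  choose a ha using key
  set P : MvPolynomial (Fin d) ℝ := ∑ m ∈ rE10_S d K, MvPolynomial.monomial m (a m) with hP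
  have hcoef : ∀ m : Fin d →₀ ℕ, m.degree ≤ K → P.coeff m = a m := by
    intro m hm
    rw [hP, MvPolynomial.coeff_sum]
    simp only [MvPolynomial.coeff_monomial]
    rw [Finset.sum_ite_eq', if_pos (rE10_mem_S.2 hm)]
  have hPdeg : P.totalDegree ≤ K := by
    refine MvPolynomial.totalDegree_finsetSum_le fun m hm => ?_
    refine (MvPolynomial.totalDegree_monomial_le _ _).trans ?_
    exact rE10_mem_S.1 hm
  refine ⟨P, hPdeg, fun m hm j => ?_, fun ℓ => ?_⟩
  · rw [hcoef m hm]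
    have hA : 0 ≤ A := by
      have := h m hm 0
      rw [pow_zero, mul_one] at this
      exact (abs_nonneg _).trans this
    have := dist_le_of_le_geometric_of_tendsto (t m) A (by linarith only [ht m])
      (fun j => by rw [Real.dist_eq]; exact h m hm j) (ha m hm) j
    rw [Real.dist_eq] at this
    refine this.trans ?_
    rw [div_le_iff₀ (by linarith only [ht m])]
    have hp : 0 ≤ A * t m ^ j := mul_nonneg hA (pow_nonneg (ht0 m) j)
    linarith only [mul_nonneg (sub_nonneg.2 hp) (sub_nonneg.2 (ht m))]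
  · rw [rE10_linear hPdeg]
    have : (fun j => ℓ (Pu j)) = fun j => ∑ m ∈ rE10_S d K,
        (Pu j).coeff m * ℓ (MvPolynomial.monomial m 1) := by
      funext j
      exact rE10_linear (hdeg j) ℓ
    rw [this]
    refine tendsto_finsetSum _ fun m hm => ?_
    rw [hcoef m (rE10_mem_S.1 hm)]
    exact (ha m (rE10_mem_S.1 hm)).mul_const _

theorem rE10_abs_ev_le {K : ℕ} {p : MvPolynomial (Fin d) ℝ} (hp : p.totalDegree ≤ K) (x : E d) :
    |ev p x| ≤ ∑ m ∈ rE10_S d K, |p.coeff m| * ‖x‖ ^ m.degree := by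
  have h1 : ev p x = ∑ m ∈ rE10_S d K, p.coeff m * ∏ i, x i ^ m i := by
    conv_lhs => rw [rE10_eq_sum hp]
    unfold ev
    rw [map_sum]
    refine Finset.sum_congr rfl fun m _ => ?_
    rw [MvPolynomial.eval_monomial, Finsupp.prod_fintype _ _ (fun i => pow_zero _)]
  rw [h1]
  refine (Finset.abs_sum_le_sum_abs _ _).trans (Finset.sum_le_sum fun m _ => ?_)
  rw [abs_mul]
  refine mul_le_mul_of_nonneg_left ?_ (abs_nonneg _)
  rw [Finset.abs_prod, Finsupp.degree_eq_sum, ← Finset.prod_pow_eq_pow_sum]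
  refine Finset.prod_le_prod (fun i _ => abs_nonneg _) fun i _ => ?_
  rw [abs_pow]
  refine pow_le_pow_left₀ (abs_nonneg _) ?_ _
  rw [← Real.norm_eq_abs]
  exact PiLp.norm_apply_le x i

theorem rE10_start {n k : ℕ} {s ρ κ C ε : ℝ} (hκ : 0 < κ) (hε : 0 < ε)
    {u : E (n + 1) → ℝ} (hT : Trap u (fun x => x 0) (-ε) ε 0 1) :
    rE10_Inv (k + 1) s ρ κ C ε u 0 (MvPolynomial.X 0) 0 := by
  have hrem : remP (MvPolynomial.X 0 : MvPolynomial (Fin (n + 1)) ℝ) 0 = 0 := by
    unfold remP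
    rw [mul_zero, sub_zero, sub_eq_zero]
    rw [Finset.sum_eq_single 0]
    · rw [MvPolynomial.pderiv_X_self, one_pow]
    · intro i _ hi
      rw [MvPolynomial.pderiv_X_of_ne (Ne.symm hi)]
      simp
    · simp only [Finset.mem_univ, not_true_eq_false, MvPolynomial.pderiv_X, Pi.single_eq_same, one_pow, one_ne_zero, imp_self]
  refine ⟨⟨?_, ?_, ?_, ?_, ?_⟩, ?_, ?_, ?_, ?_⟩
  · rw [MvPolynomial.totalDegree_X]; omega
  · simp only [MvPolynomial.totalDegree_zero, le_add_iff_nonneg_left, zero_le]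
  · unfold lapP
    refine Finset.sum_eq_zero fun i _ => ?_
    rw [MvPolynomial.pderiv_X]
    by_cases hi : i = 0
    · subst hi; simp only [Pi.single_eq_same, Derivation.map_one_eq_zero]
    · simp [hi]
  · exact MvPolynomial.coeff_zero_X _
  · intro m _
    rw [hrem, MvPolynomial.coeff_zero]
  · rw [sub_self, cn_zero]; simp
  · rw [cn_zero]; simp
  · rw [hrem, cn_zero]; positivity
  · intro x hx
    have := hT x hx
    have e1 : resc u 0 (s ^ 0) x = u x := by
      unfold resc; simp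
    have e2 : ev (MvPolynomial.X 0) x = x 0 := by
      unfold ev; simp
    rw [e1, e2, pow_zero, one_mul]
    exact this

theorem expansion (n K : ℕ) (hK : 1 ≤ K) : ∃ ε₀ C : ℝ, 0 < ε₀ ∧ 0 < C ∧
    ∀ (L : ℝ≥0) (u : E (n + 1) → ℝ), MinL L u → 0 ∈ frontier (pos u) → ∀ ε : ℝ, 0 < ε → ε ≤ ε₀ →
    Trap u (fun x => x 0) (-ε) ε 0 1 →
    ∃ P : MvPolynomial (Fin (n + 1)) ℝ, P.totalDegree ≤ K ∧ lapP P = 0 ∧ P.coeff 0 = 0 ∧
      ‖fderiv ℝ (ev P) 0‖ = 1 ∧ cn (P - MvPolynomial.X 0) ≤ C * ε ∧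
      ∀ r : ℝ, 0 < r → r ≤ 1 →
        Trap u (ev P) (-(C * ε * (r ^ K * √r))) (C * ε * (r ^ K * √r)) 0 r := by
  obtain ⟨k, rfl⟩ : ∃ k, K = k + 1 := ⟨K - 1, by omega⟩
  obtain ⟨σ, κ, δ₀, C, hσ, hσ1, hκ, hδ, hC, himp⟩ := improvement n (k + 1) hK
  set s : ℝ := σ ^ 2 with hs
  set ρ : ℝ := σ ^ (2 * k + 1) with hρ
  set θ : ℝ := σ ^ (2 * (k + 1) + 1) with hθ
  set NN : ℝ := ((rE10_S (n + 1) (k + 1)).card : ℝ) with hNN
  have hNN0 : 0 ≤ NN := Nat.cast_nonneg _
  have hs0 : 0 < s := by positivity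
  have hσ1' : σ ≤ 1 := by linarith only [hσ1]
  have hs1 : s < 1 := pow_lt_one₀ hσ.le (by linarith only [hσ1]) two_ne_zero
  have hρ0 : 0 < ρ := by positivity
  have hθ0 : 0 < θ := by positivity
  have hθ1 : θ ≤ 1 := pow_le_one₀ hσ.le hσ1'
  have hρs : θ = ρ * s := by rw [hθ, hρ, hs, ← pow_add]; rfl
  refine ⟨δ₀ / (1 + 2 * C), (1 + 2 * C * NN) / θ, by positivity, by (clear * - hC hσ; positivity), ?_⟩
  intro L u hu h0 ε hε hε0 hT
  have hε0' : (1 + 2 * C) * ε ≤ δ₀ := by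
    rw [le_div_iff₀ (by positivity)] at hε0
    linarith only [hε0]
  -- the sequence
  have step : ∀ (j : ℕ) (x : {x : MvPolynomial (Fin (n + 1)) ℝ × MvPolynomial (Fin (n + 1)) ℝ //
      rE10_Inv (k + 1) s ρ κ C ε u j x.1 x.2}),
      ∃ y : {x : MvPolynomial (Fin (n + 1)) ℝ × MvPolynomial (Fin (n + 1)) ℝ //
        rE10_Inv (k + 1) s ρ κ C ε u (j + 1) x.1 x.2},
        ∃ P' : MvPolynomial (Fin (n + 1)) ℝ, y.1.1 = s⁻¹ • rE10_sc s P' ∧
          cn (P' - x.1.1) ≤ C * (ρ ^ j * ε) := by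
    intro j x
    obtain ⟨P', Q', h1, _, _, h2⟩ := rE10_step hσ hσ1 hκ hC himp hu h0 hε hε0' x.2
    exact ⟨⟨(_, _), h1⟩, P', rfl, h2⟩
  choose F hF using step
  let f : ∀ j : ℕ, {x : MvPolynomial (Fin (n + 1)) ℝ × MvPolynomial (Fin (n + 1)) ℝ //
      rE10_Inv (k + 1) s ρ κ C ε u j x.1 x.2} := fun j =>
    Nat.rec ⟨(MvPolynomial.X 0, 0), rE10_start hκ hε hT⟩ (fun j x => F j x) j
  have hf0 : (f 0).1.1 = MvPolynomial.X 0 := rfl
  have hf : ∀ j, ∃ P' : MvPolynomial (Fin (n + 1)) ℝ, (f (j + 1)).1.1 = s⁻¹ • rE10_sc s P' ∧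
      cn (P' - (f j).1.1) ≤ C * (ρ ^ j * ε) := fun j => hF j (f j)
  have hinv : ∀ j, rE10_Inv (k + 1) s ρ κ C ε u j (f j).1.1 (f j).1.2 := fun j => (f j).2
  clear_value f
  -- unscaled polynomials
  set Pu : ℕ → MvPolynomial (Fin (n + 1)) ℝ := fun j => s ^ j • rE10_sc (s ^ j)⁻¹ (f j).1.1
    with hPu
  have hcoef : ∀ j (m : Fin (n + 1) →₀ ℕ),
      (Pu j).coeff m = s ^ j * (((s ^ j)⁻¹) ^ m.degree * (f j).1.1.coeff m) := by
    intro j m
    rw [hPu]
    simp only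
    rw [MvPolynomial.coeff_smul, rE10_coeff_sc, smul_eq_mul]
  have hdeg : ∀ j, (Pu j).totalDegree ≤ k + 1 := by
    intro j
    refine rE10_totalDegree_le (hinv j).adm.degP fun m hm => ?_
    rw [hcoef, hm]; simp
  have hlap : ∀ j, lapP (Pu j) = 0 := by
    intro j
    have : lapP (Pu j) = s ^ j • lapP (rE10_sc (s ^ j)⁻¹ (f j).1.1) := by
      unfold lapP
      rw [Finset.smul_sum]
      refine Finset.sum_congr rfl fun i _ => ?_
      rw [hPu]
      simp only
      rw [Derivation.map_smul, Derivation.map_smul]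
    rw [this, rE10_lapP_sc, (hinv j).adm.harm, map_zero, smul_zero, smul_zero]
  set t : (Fin (n + 1) →₀ ℕ) → ℝ := fun m => σ ^ (2 * (k + 1 - m.degree) + 1) with ht
  have ht0 : ∀ m, 0 < t m := fun m => by rw [ht]; positivity
  have ht1 : ∀ m, t m ≤ 1 / 2 := by
    intro m
    rw [ht]
    simp only
    calc σ ^ (2 * (k + 1 - m.degree) + 1) = σ ^ (2 * (k + 1 - m.degree)) * σ := pow_succ _ _
      _ ≤ 1 * (1 / 2) := by
        apply mul_le_mul (pow_le_one₀ hσ.le hσ1') hσ1 hσ.le zero_le_one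
      _ = 1 / 2 := one_mul _
  have hts : ∀ m : Fin (n + 1) →₀ ℕ, m.degree ≤ k + 1 → t m * s ^ m.degree = θ := by
    intro m hm
    rw [ht, hs, hθ]
    simp only
    rw [← pow_mul, ← pow_add]
    congr 1
    omega
  have hdiff : ∀ m : Fin (n + 1) →₀ ℕ, m.degree ≤ k + 1 → ∀ j,
      |(Pu j).coeff m - (Pu (j + 1)).coeff m| ≤ C * ε * t m ^ j := by
    intro m hm j
    obtain ⟨P', hP', hcn⟩ := hf j
    have e1 : (Pu (j + 1)).coeff m = s ^ j * (((s ^ j)⁻¹) ^ m.degree * P'.coeff m) := by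
      rw [hcoef, hP', MvPolynomial.coeff_smul, rE10_coeff_sc, smul_eq_mul, pow_succ, mul_inv,
        mul_pow]
      have : s⁻¹ ^ m.degree * s ^ m.degree = 1 := by
        rw [← mul_pow, inv_mul_cancel₀ hs0.ne', one_pow]
      calc s ^ j * s * ((s ^ j)⁻¹ ^ m.degree * s⁻¹ ^ m.degree * (s⁻¹ * (s ^ m.degree *
            P'.coeff m)))
          = (s * s⁻¹) * (s⁻¹ ^ m.degree * s ^ m.degree) * (s ^ j * ((s ^ j)⁻¹ ^ m.degree *
            P'.coeff m)) := by ring
        _ = _ := by rw [this, mul_inv_cancel₀ hs0.ne', one_mul, one_mul]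
    rw [e1, hcoef, ← mul_sub, ← mul_sub, abs_mul, abs_mul, abs_of_pos (by positivity),
      abs_of_pos (by positivity), abs_sub_comm, ← MvPolynomial.coeff_sub]
    have e2 : |(P' - (f j).1.1).coeff m| ≤ C * (ρ ^ j * ε) := (abs_coeff_le_cn _ _).trans hcn
    have e3 : s ^ j * (s ^ j)⁻¹ ^ m.degree * ρ ^ j = t m ^ j := by
      rw [mul_right_comm, ← mul_pow, mul_comm s ρ, ← hρs, ← hts m hm, mul_pow, inv_pow,
        pow_right_comm s m.degree j, mul_assoc, mul_inv_cancel₀ (by positivity), mul_one]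
    calc s ^ j * ((s ^ j)⁻¹ ^ m.degree * |(P' - (f j).1.1).coeff m|)
        ≤ s ^ j * ((s ^ j)⁻¹ ^ m.degree * (C * (ρ ^ j * ε))) := by (clear * - e2 hσ; gcongr)
      _ = C * ε * (s ^ j * (s ^ j)⁻¹ ^ m.degree * ρ ^ j) := by ring
      _ = C * ε * t m ^ j := by rw [e3]
  obtain ⟨P, hPdeg, hPc, hPl⟩ := rE10_limit Pu hdeg (C * ε) t ht1 (fun m => (ht0 m).le) hdiff
  have hPu0 : Pu 0 = MvPolynomial.X 0 := by
    ext m
    rw [hcoef, hf0]
    simp
  have hgrad : ∀ j, ∑ i, (MvPolynomial.pderiv i (Pu j)).coeff 0 ^ 2 = 1 := by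
    intro j
    have h1 : ∀ i, (MvPolynomial.pderiv i (Pu j)).coeff 0
        = (MvPolynomial.pderiv i (f j).1.1).coeff 0 := by
      intro i
      rw [MvPolynomial.coeff_pderiv, hcoef, MvPolynomial.coeff_pderiv, zero_add,
        Finsupp.degree_single, pow_one, ← mul_assoc (s ^ j), mul_inv_cancel₀ (by positivity),
        one_mul]
    have h2 := (hinv j).adm.low 0 (by simp only [map_zero, Order.lt_add_one_iff, zero_le])
    unfold remP at h2
    rw [MvPolynomial.coeff_sub, MvPolynomial.coeff_sub, MvPolynomial.coeff_sum,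
      MvPolynomial.coeff_zero_one] at h2
    have h3 : ((f j).1.1 * (f j).1.2).coeff 0 = 0 := by
      rw [← MvPolynomial.constantCoeff_eq, map_mul, MvPolynomial.constantCoeff_eq,
        (hinv j).adm.zero, zero_mul]
    have h4 : ∀ i, (MvPolynomial.pderiv i (f j).1.1 ^ 2).coeff 0
        = (MvPolynomial.pderiv i (f j).1.1).coeff 0 ^ 2 := by
      intro i
      rw [← MvPolynomial.constantCoeff_eq, map_pow, MvPolynomial.constantCoeff_eq]
    rw [h3, sub_zero] at h2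
    simp only [h4] at h2
    simp only [h1]
    linarith only [h2]
  refine ⟨P, hPdeg, ?_, ?_, ?_, ?_, ?_⟩
  · ext m
    have hℓ := hPl
      { toFun := fun p => (lapP p).coeff m
        map_add' := fun p q => by
          unfold lapP
          simp only [map_add, Finset.sum_add_distrib, MvPolynomial.coeff_add]
        map_smul' := fun c p => by
          unfold lapP
          simp only [Derivation.map_smul, ← Finset.smul_sum, MvPolynomial.coeff_smul, RingHom.id_apply] }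
    simp only [LinearMap.coe_mk, AddHom.coe_mk, hlap, MvPolynomial.coeff_zero] at hℓ
    rw [MvPolynomial.coeff_zero]
    exact (tendsto_nhds_unique hℓ tendsto_const_nhds)
  · have hz : ∀ j, (Pu j).coeff 0 = 0 := fun j => by rw [hcoef, (hinv j).adm.zero]; simp
    have hℓ := hPl
      { toFun := fun p => p.coeff 0
        map_add' := fun p q => MvPolynomial.coeff_add _ _ _
        map_smul' := fun c p => by
          simp only [MvPolynomial.coeff_smul, RingHom.id_apply] }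
    simp only [LinearMap.coe_mk, AddHom.coe_mk, hz] at hℓ
    exact (tendsto_nhds_unique hℓ tendsto_const_nhds)
  · have hℓ : ∀ i, Tendsto (fun j => (MvPolynomial.pderiv i (Pu j)).coeff 0) atTop
        (𝓝 ((MvPolynomial.pderiv i P).coeff 0)) := by
      intro i
      exact hPl
        { toFun := fun p => (MvPolynomial.pderiv i p).coeff 0
          map_add' := fun p q => by simp only [map_add, MvPolynomial.coeff_add]
          map_smul' := fun c p => by
            simp only [Derivation.map_smul, MvPolynomial.coeff_smul, RingHom.id_apply] }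
    have h1 : Tendsto (fun j => ∑ i, (MvPolynomial.pderiv i (Pu j)).coeff 0 ^ 2) atTop
        (𝓝 (∑ i, (MvPolynomial.pderiv i P).coeff 0 ^ 2)) :=
      tendsto_finsetSum _ fun i _ => (hℓ i).pow 2
    simp only [hgrad] at h1
    have h2 := tendsto_nhds_unique h1 tendsto_const_nhds
    have h3 := norm_fderiv_ev_sq P (0 : E (n + 1))
    have h4 : ∀ i, ev (MvPolynomial.pderiv i P) (0 : E (n + 1))
        = (MvPolynomial.pderiv i P).coeff 0 := by
      intro i
      unfold ev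
      have : (fun i : Fin (n + 1) => (0 : E (n + 1)) i) = 0 := by funext i; simp
      rw [this, MvPolynomial.eval_zero, MvPolynomial.constantCoeff_eq]
    simp only [h4] at h3
    rw [h2] at h3
    nlinarith only [h3, norm_nonneg (fderiv ℝ (ev P) (0 : E (n + 1)))]
  · have hX : (MvPolynomial.X 0 : MvPolynomial (Fin (n + 1)) ℝ).totalDegree ≤ k + 1 := by
      rw [MvPolynomial.totalDegree_X]; omega
    have h1 : (P - MvPolynomial.X 0).totalDegree ≤ k + 1 :=
      (MvPolynomial.totalDegree_sub _ _).trans (max_le hPdeg hX)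
    rw [rE10_cn_eq_sum _ _ (rE10_support_subset h1)]
    have h2 : ∀ m ∈ rE10_S (n + 1) (k + 1), |(P - MvPolynomial.X 0).coeff m| ≤ 2 * (C * ε) := by
      intro m hm
      have := hPc m (rE10_mem_S.1 hm) 0
      rw [pow_zero, mul_one, hPu0, abs_sub_comm] at this
      rwa [MvPolynomial.coeff_sub]
    refine (Finset.sum_le_sum h2).trans ?_
    rw [Finset.sum_const, nsmul_eq_mul, ← hNN, div_mul_eq_mul_div, le_div_iff₀ hθ0]
    have : 0 ≤ NN * (2 * (C * ε)) := by (clear * - hC hε; positivity)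
    linarith only [mul_nonneg (sub_nonneg.2 hθ1) (sub_nonneg.2 this), hε]
  · intro r hr hr1 x hx
    obtain ⟨j, hj1, hj2⟩ := exists_nat_pow_near_of_lt_one hr hr1 hs0 hs1
    have hsj : 0 < s ^ j := by positivity
    have hxr : ‖x‖ < s ^ j := (mem_ball_zero_iff.1 hx).trans_le hj2
    have hy : (s ^ j)⁻¹ • x ∈ ball (0 : E (n + 1)) 1 := by
      rw [mem_ball_zero_iff, norm_smul, Real.norm_of_nonneg (by positivity),
        inv_mul_lt_iff₀ hsj, mul_one]
      exact hxr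
    obtain ⟨ha, hb⟩ := (hinv j).trap _ hy
    have e1 : resc u 0 (s ^ j) ((s ^ j)⁻¹ • x) = u x / s ^ j := by
      unfold resc
      rw [zero_add, smul_smul, mul_inv_cancel₀ hsj.ne', one_smul]
    have e2 : ev (f j).1.1 ((s ^ j)⁻¹ • x) = ev (Pu j) x / s ^ j := by
      have : ev (Pu j) x = s ^ j * ev (rE10_sc (s ^ j)⁻¹ (f j).1.1) x := by
        rw [hPu]
        unfold ev
        simp only
        rw [MvPolynomial.smul_eval]
      rw [this, ev_of_scale (fun m => rE10_coeff_sc (s ^ j)⁻¹ (f j).1.1 m),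
        mul_div_cancel_left₀ _ hsj.ne']
    have e3 : ∀ c : ℝ, max (ev (Pu j) x / s ^ j + ρ ^ j * c) 0
        = max (ev (Pu j) x + θ ^ j * c) 0 / s ^ j := by
      intro c
      rw [← max_div_div_right hsj.le, zero_div, hρs, mul_pow]
      congr 1
      (clear * - hs0; field_simp)
    rw [e1, e2, ← mul_neg, e3, div_le_div_iff_of_pos_right hsj] at ha
    rw [e1, e2, e3, div_le_div_iff_of_pos_right hsj] at hb
    have hd : |ev (Pu j) x - ev P x| ≤ NN * (2 * (C * ε) * θ ^ j) := by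
      have h1 : (Pu j - P).totalDegree ≤ k + 1 :=
        (MvPolynomial.totalDegree_sub _ _).trans (max_le (hdeg j) hPdeg)
      rw [← ev_sub]
      refine (rE10_abs_ev_le h1 x).trans ?_
      have h2 : ∀ m ∈ rE10_S (n + 1) (k + 1), |(Pu j - P).coeff m| * ‖x‖ ^ m.degree
          ≤ 2 * (C * ε) * θ ^ j := by
        intro m hm
        have h3 := hPc m (rE10_mem_S.1 hm) j
        rw [← MvPolynomial.coeff_sub] at h3
        calc |(Pu j - P).coeff m| * ‖x‖ ^ m.degree
            ≤ 2 * (C * ε) * t m ^ j * (s ^ j) ^ m.degree := by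
              (clear * - h3 hxr hC hε hσ; gcongr)
          _ = 2 * (C * ε) * θ ^ j := by
              rw [← hts m (rE10_mem_S.1 hm), mul_pow, pow_right_comm s j m.degree]
              ring
      refine (Finset.sum_le_sum h2).trans ?_
      rw [Finset.sum_const, nsmul_eq_mul]
    have hθr : θ ^ (j + 1) ≤ r ^ (k + 1) * √r := by
      have h1 : θ ^ (j + 1) = (s ^ (j + 1)) ^ (k + 1) * √(s ^ (j + 1)) := by
        have h2 : √(s ^ (j + 1)) = σ ^ (j + 1) := by
          rw [hs, pow_right_comm, Real.sqrt_sq (by positivity)]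
        rw [h2, hθ, hs, ← pow_mul, ← pow_mul, ← pow_mul, ← pow_add]
        congr 1
        ring
      rw [h1]
      have h3 : √(s ^ (j + 1)) ≤ √r := Real.sqrt_le_sqrt hj1.le
      (clear * - hσ hj1 h3 hr; gcongr)
    set W : ℝ := (1 + 2 * C * NN) / θ * ε * (r ^ (k + 1) * √r) with hW
    have hW1 : θ ^ j * ε + NN * (2 * (C * ε) * θ ^ j) ≤ W := by
      calc θ ^ j * ε + NN * (2 * (C * ε) * θ ^ j) = (1 + 2 * C * NN) / θ * ε * θ ^ (j + 1) := by
            rw [pow_succ]; (clear * - hθ0 hNN0 hC hε; field_simp)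
        _ ≤ W := by
            rw [hW]
            exact mul_le_mul_of_nonneg_left hθr (by (clear * - hC hσ hε; positivity))
    have hd' := abs_le.1 hd
    constructor
    · refine le_trans (max_le_max ?_ le_rfl) ha
      linarith only [hW1, hd']
    · refine le_trans hb (max_le_max ?_ le_rfl)
      linarith only [hW1, hd']

end Vale.Agent.P098
end

section

/-! # E11: uniform expansions at nearby free boundary points; cone condition

`boundary_expansion`: let `y` be a frontier point in `ball 0 (1/2)`. `u y = 0` and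
`y ∈ closure (pos u)` give `|y 0| ≤ ε` (from the trap, resp. its negation near `y`). For
`u_y = resc u y (1/2)`: `0 ∈ frontier (pos u_y)`, `Trap u_y (fun x => x 0) (-4ε) (4ε) 0 1`
(`u_y x = 2 u(y + x/2) ≤ max(2y₀ + x₀ + 2ε, 0)`). Apply `expansion` (if `4ε ≤ ε₀`), and scale back:
`P(x) = ½ P̃(2x)` (coefficients times `2^{|m|-1}`), `(2r)^K √(2r) ≤ 2^{K+1} r^K √r`.

`cone_condition`: `boundary_expansion` with `K = 1`: `ev P z = ⟪z, ν⟫`, `‖ν‖ = 1`,
`‖ν - ee 0‖ ≤ C'ε`. For `x, y ∈ ball 0 (1/4)`, `y` in the frontier, all `r` with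
`‖x-y‖ < r ≤ 1/2`: `⟪x-y,ν⟫ - Cεr√r ≤ u x ≤ max(⟪x-y,ν⟫ + Cεr√r, 0)`; let `r ↓ ‖x-y‖`; so
`u x ≥ (x 0 - y 0) - C''ε‖x-y‖` and `u x ≤ max((x 0 - y 0) + C''ε‖x-y‖, 0)`. The second strict
inequality is an open condition, so `x` is even outside of the closure. -/

open MeasureTheory Set Metric Filter
open scoped ContDiff RealInnerProductSpace Topology NNReal

namespace Vale.Agent.P098

variable {d : ℕ}

theorem rE11_continuous_coord {d : ℕ} (i : Fin d) : Continuous fun x : E d => x i := by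
  (clear * -; fun_prop)

theorem rE11_abs_y {n : ℕ} {L : ℝ≥0} {u : E (n + 1) → ℝ} (hu : MinL L u) {ε : ℝ}
    (hT : Trap u (fun x => x 0) (-ε) ε 0 1) {y : E (n + 1)} (hy : y ∈ frontier (pos u))
    (hyb : y ∈ ball (0 : E (n + 1)) 1) : |y 0| ≤ ε := by
  rw [abs_le]
  constructor
  · by_contra hlt
    push Not at hlt
    have hop : IsOpen {x : E (n + 1) | x 0 < -ε} :=
      isOpen_lt (rE11_continuous_coord 0) continuous_const
    have hmem : y ∈ {x : E (n + 1) | x 0 < -ε} ∩ ball (0 : E (n + 1)) 1 := ⟨hlt, hyb⟩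
    have hcl : y ∈ closure (pos u) := frontier_subset_closure hy
    obtain ⟨z, hz, hzp⟩ := mem_closure_iff.1 hcl _ (hop.inter isOpen_ball) hmem
    have h1 := (hT z hz.2).2
    have h2 : z 0 < -ε := hz.1
    have h3 : 0 < u z := hzp
    rw [max_eq_right (by simp only; linarith)] at h1
    linarith only [h1, h3]
  · have h0 : u y = 0 := hu.zero_of_frontier hy
    have h1 := (hT y hyb).1
    rw [h0] at h1
    have := (le_max_left _ _).trans h1
    simp only at this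
    linarith

/-- Scaling a polynomial: `P(x) = ½ p(2x)`. -/
theorem rE11_scale {n : ℕ} (p : MvPolynomial (Fin (n + 1)) ℝ) {K : ℕ} (hK : 1 ≤ K)
    (hdeg : p.totalDegree ≤ K) (hharm : lapP p = 0) (h0 : p.coeff 0 = 0)
    (hg : ‖fderiv ℝ (ev p) 0‖ = 1) :
    ∃ P : MvPolynomial (Fin (n + 1)) ℝ, P.totalDegree ≤ K ∧ lapP P = 0 ∧ P.coeff 0 = 0 ∧
      ‖fderiv ℝ (ev P) 0‖ = 1 ∧
      cn (P - MvPolynomial.X 0) ≤ 2 ^ K * cn (p - MvPolynomial.X 0) ∧
      ∀ x : E (n + 1), ev P x = ev p ((2 : ℝ) • x) / 2 := by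
  classical
  obtain ⟨q, hq⟩ := exists_scale p 2
  have hev : ∀ x, ev q x = ev p ((2 : ℝ) • x) := ev_of_scale hq
  have hcP : ∀ m, ((1 / 2 : ℝ) • q).coeff m = (1 / 2) * (2 ^ m.degree * p.coeff m) := by
    intro m
    rw [MvPolynomial.coeff_smul, hq m, smul_eq_mul]
  have hevP : ∀ x, ev ((1 / 2 : ℝ) • q) x = ev p ((2 : ℝ) • x) / 2 := by
    intro x
    rw [← hev x]
    simp only [ev, MvPolynomial.smul_eval]
    ring
  have hsup : ∀ r : MvPolynomial (Fin (n + 1)) ℝ, (∀ m, r.coeff m ≠ 0 → p.coeff m ≠ 0) →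
      r.totalDegree ≤ K := by
    intro r hr
    refine le_trans ?_ hdeg
    rw [MvPolynomial.totalDegree_eq, MvPolynomial.totalDegree_eq]
    refine Finset.sup_mono ?_
    intro m hm
    rw [MvPolynomial.mem_support_iff] at hm ⊢
    exact hr m hm
  refine ⟨(1 / 2 : ℝ) • q, ?_, ?_, ?_, ?_, ?_, hevP⟩
  · refine hsup _ ?_
    intro m hm h
    apply hm
    rw [hcP, h]
    ring
  · ext m
    have h1 : ∀ r : MvPolynomial (Fin (n + 1)) ℝ, (lapP r).coeff m =
        ∑ i, r.coeff (m + Finsupp.single i 1 + Finsupp.single i 1) *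
          ((((m + Finsupp.single i 1 : Fin (n + 1) →₀ ℕ) i : ℕ) : ℝ) + 1) * ((m i : ℝ) + 1) := by
      intro r
      rw [lapP, MvPolynomial.coeff_sum]
      refine Finset.sum_congr rfl ?_
      intro i _
      rw [MvPolynomial.coeff_pderiv, MvPolynomial.coeff_pderiv]
    have h2 := h1 p
    rw [hharm, MvPolynomial.coeff_zero] at h2
    rw [h1, MvPolynomial.coeff_zero]
    have h3 : ∀ i : Fin (n + 1),
        ((1 / 2 : ℝ) • q).coeff (m + Finsupp.single i 1 + Finsupp.single i 1) =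
        (1 / 2) * 2 ^ (m.degree + 2) *
          p.coeff (m + Finsupp.single i 1 + Finsupp.single i 1) := by
      intro i
      rw [hcP]
      have : (m + Finsupp.single i 1 + Finsupp.single i 1).degree = m.degree + 2 := by
        rw [map_add, map_add, Finsupp.degree_single]
      rw [this]
      ring
    rw [← mul_zero ((1 / 2 : ℝ) * 2 ^ (m.degree + 2)), h2, Finset.mul_sum]
    refine Finset.sum_congr rfl ?_
    intro i _
    rw [h3]
    ring
  · rw [hcP, h0]
    ring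
  · have hd : DifferentiableAt ℝ (ev p) ((2 : ℝ) • (0 : E (n + 1))) :=
      (contDiff_ev p).differentiable (by simp) _
    have h1 : HasFDerivAt (fun x : E (n + 1) => ev p ((2 : ℝ) • x) / 2)
        ((1 / 2 : ℝ) • ((fderiv ℝ (ev p) ((2 : ℝ) • (0 : E (n + 1)))).comp
          ((2 : ℝ) • ContinuousLinearMap.id ℝ (E (n + 1))))) 0 := by
      have h2 : HasFDerivAt (fun x : E (n + 1) => (2 : ℝ) • x)
          ((2 : ℝ) • ContinuousLinearMap.id ℝ (E (n + 1))) 0 :=
        (hasFDerivAt_id (0 : E (n + 1))).const_smul (2 : ℝ)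
      have h3 := (hd.hasFDerivAt.comp (0 : E (n + 1)) h2).const_smul (1 / 2 : ℝ)
      refine h3.congr_of_eventuallyEq (Filter.Eventually.of_forall ?_)
      intro x
      simp only [Function.comp, Pi.smul_apply, smul_eq_mul]
      ring
    have h4 : ev ((1 / 2 : ℝ) • q) = fun x : E (n + 1) => ev p ((2 : ℝ) • x) / 2 :=
      funext hevP
    rw [h4, h1.fderiv]
    have h5 : (1 / 2 : ℝ) • ((fderiv ℝ (ev p) ((2 : ℝ) • (0 : E (n + 1)))).comp
          ((2 : ℝ) • ContinuousLinearMap.id ℝ (E (n + 1)))) = fderiv ℝ (ev p) 0 := by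
      rw [smul_zero]
      ext v
      simp only [smul_apply, ContinuousLinearMap.comp_apply,
        ContinuousLinearMap.id_apply, map_smul, smul_eq_mul]
      ring
    rw [h5, hg]
  · -- the coefficient norm
    have hX : ∀ m : Fin (n + 1) →₀ ℕ, (MvPolynomial.X 0 : MvPolynomial (Fin (n + 1)) ℝ).coeff m =
        (1 / 2) * (2 ^ m.degree * (MvPolynomial.X 0 : MvPolynomial (Fin (n + 1)) ℝ).coeff m) := by
      intro m
      rw [MvPolynomial.coeff_X]
      by_cases h : Finsupp.single 0 1 = m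
      · rw [if_pos h, ← h, Finsupp.degree_single]
        norm_num
      · rw [if_neg h]
        ring
    have hc : ∀ m, ((1 / 2 : ℝ) • q - MvPolynomial.X 0).coeff m =
        (1 / 2) * (2 ^ m.degree * (p - MvPolynomial.X 0).coeff m) := by
      intro m
      rw [MvPolynomial.coeff_sub, MvPolynomial.coeff_sub, hcP, hX m]
      by_cases h : Finsupp.single 0 1 = m
      · rw [← h, Finsupp.degree_single]
        ring
      · rw [MvPolynomial.coeff_X, if_neg h]
        ring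
    have hdegX : (p - MvPolynomial.X 0).totalDegree ≤ K := by
      refine (MvPolynomial.totalDegree_sub _ _).trans ?_
      rw [MvPolynomial.totalDegree_X]
      exact max_le hdeg hK
    have hsupp : ((1 / 2 : ℝ) • q - MvPolynomial.X 0).support ⊆
        (p - MvPolynomial.X 0).support := by
      intro m hm
      rw [MvPolynomial.mem_support_iff] at hm ⊢
      intro h
      apply hm
      rw [hc, h]
      ring
    rw [cn, cn, Finset.mul_sum]
    refine (Finset.sum_le_sum_of_subset_of_nonneg hsupp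
      (fun _ _ _ => abs_nonneg _)).trans ?_
    refine Finset.sum_le_sum ?_
    intro m hm
    have hmK : m.degree ≤ K := by
      exact (MvPolynomial.le_totalDegree hm).trans hdegX
    rw [hc, abs_mul, abs_mul, abs_of_pos (by norm_num : (0 : ℝ) < 1 / 2),
      abs_of_pos (by positivity : (0 : ℝ) < 2 ^ m.degree)]
    have h1 : (2 : ℝ) ^ m.degree ≤ 2 ^ K := pow_le_pow_right₀ (by norm_num) hmK
    have h2 := abs_nonneg ((p - MvPolynomial.X 0).coeff m)
    linarith only [mul_nonneg (sub_nonneg.2 h1) (sub_nonneg.2 h2), mul_nonneg (mul_self_nonneg (1 : ℝ)) (sub_nonneg.2 (mul_nonneg (by positivity : (0:ℝ) ≤ 2 ^ m.degree) h2))]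

theorem boundary_expansion (n K : ℕ) (hK : 1 ≤ K) : ∃ ε₀ C : ℝ, 0 < ε₀ ∧ 0 < C ∧
    ∀ (L : ℝ≥0) (u : E (n + 1) → ℝ), MinL L u → ∀ ε : ℝ, 0 < ε → ε ≤ ε₀ →
    Trap u (fun x => x 0) (-ε) ε 0 1 →
    ∀ y ∈ frontier (pos u), y ∈ ball (0 : E (n + 1)) (1 / 2) →
    ∃ P : MvPolynomial (Fin (n + 1)) ℝ, P.totalDegree ≤ K ∧ lapP P = 0 ∧ P.coeff 0 = 0 ∧
      ‖fderiv ℝ (ev P) 0‖ = 1 ∧ cn (P - MvPolynomial.X 0) ≤ C * ε ∧
      ∀ r : ℝ, 0 < r → r ≤ 1 / 2 →
        Trap u (fun x => ev P (x - y)) (-(C * ε * (r ^ K * √r))) (C * ε * (r ^ K * √r)) y r := by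
  obtain ⟨ε₀, C, hε₀, hC, H⟩ := expansion n K hK
  refine ⟨ε₀ / 4, C * 2 ^ (K + 2), by positivity, by positivity, ?_⟩
  intro L u hu ε hε hεε₀ hT y hy hyb
  have hyb1 : y ∈ ball (0 : E (n + 1)) 1 := ball_subset_ball (by norm_num) hyb
  have hy0 : |y 0| ≤ ε := rE11_abs_y hu hT hy hyb1
  have hny : ‖y‖ < 1 / 2 := by simpa only [one_div, mem_ball, dist_zero_right] using hyb
  have hu' : MinL L (resc u y (1 / 2)) := hu.resc y (by norm_num)
  have hf' : (0 : E (n + 1)) ∈ frontier (pos (resc u y (1 / 2))) := by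
    rw [mem_frontier_resc (by norm_num)]
    simpa only [one_div, smul_zero, add_zero] using hy
  have hT' : Trap (resc u y (1 / 2)) (fun x => x 0) (-(4 * ε)) (4 * ε) 0 1 := by
    intro x hx
    have hx1 : ‖x‖ < 1 := by simpa only [mem_ball, dist_zero_right] using hx
    have hmem : y + (1 / 2 : ℝ) • x ∈ ball (0 : E (n + 1)) 1 := by
      rw [mem_ball_zero_iff]
      calc ‖y + (1 / 2 : ℝ) • x‖ ≤ ‖y‖ + ‖(1 / 2 : ℝ) • x‖ := norm_add_le _ _
        _ = ‖y‖ + 1 / 2 * ‖x‖ := by rw [norm_smul]; norm_num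
        _ < 1 := by linarith only [hny, hx1]
    obtain ⟨h1, h2⟩ := hT _ hmem
    have hc : (y + (1 / 2 : ℝ) • x) 0 = y 0 + 1 / 2 * x 0 := by
      simp only [one_div, PiLp.add_apply, PiLp.smul_apply, smul_eq_mul]
    simp only [hc] at h1 h2
    have h3 := abs_le.1 hy0
    simp only [resc]
    have hdiv : u (y + (1 / 2 : ℝ) • x) / (1 / 2) = 2 * u (y + (1 / 2 : ℝ) • x) := by ring
    rw [hdiv]
    constructor
    · refine max_le ?_ ?_
      · have := (le_max_left _ _).trans h1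
        linarith only [h3, this]
      · have := (le_max_right _ _).trans h1
        linarith only [this]
    · rcases le_total (y 0 + 1 / 2 * x 0 + ε) 0 with h | h
      · rw [max_eq_right h] at h2
        refine le_trans ?_ (le_max_right _ _)
        linarith only [h2]
      · rw [max_eq_left h] at h2
        refine le_trans ?_ (le_max_left _ _)
        linarith only [h2, h3]
  obtain ⟨p, hpd, hph, hp0, hpg, hpc, hpT⟩ :=
    H L _ hu' hf' (4 * ε) (by positivity) (by linarith only [hεε₀]) hT'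
  obtain ⟨P, hPd, hPh, hP0, hPg, hPc, hPev⟩ := rE11_scale p hK hpd hph hp0 hpg
  refine ⟨P, hPd, hPh, hP0, hPg, ?_, ?_⟩
  · calc cn (P - MvPolynomial.X 0) ≤ 2 ^ K * cn (p - MvPolynomial.X 0) := hPc
      _ ≤ 2 ^ K * (C * (4 * ε)) := by (clear * - hpc; gcongr)
      _ = C * 2 ^ (K + 2) * ε := by ring
  · intro r hr hr2 x hx
    have hxr : ‖x - y‖ < r := by simpa [dist_eq_norm] using hx
    have hmem : (2 : ℝ) • (x - y) ∈ ball (0 : E (n + 1)) (2 * r) := by
      rw [mem_ball_zero_iff, norm_smul]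
      norm_num
      exact hxr
    obtain ⟨h1, h2⟩ := hpT (2 * r) (by (clear * - hr; positivity)) (by linarith only [hr2]) _ hmem
    have hux : resc u y (1 / 2) ((2 : ℝ) • (x - y)) = 2 * u x := by
      simp only [resc]
      have : y + (1 / 2 : ℝ) • (2 : ℝ) • (x - y) = x := by
        rw [smul_smul]
        norm_num
      rw [this]
      ring
    rw [hux] at h1 h2
    have hev : ev p ((2 : ℝ) • (x - y)) = 2 * ev P (x - y) := by
      rw [hPev]
      ring
    rw [hev] at h1 h2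
    have hsq : √(2 * r) ≤ 2 * √r := by
      rw [Real.sqrt_mul (by norm_num)]
      gcongr
      rw [Real.sqrt_le_left (by norm_num)]
      norm_num
    have hD : C * (4 * ε) * ((2 * r) ^ K * √(2 * r)) ≤
        2 * (C * 2 ^ (K + 2) * ε * (r ^ K * √r)) := by
      calc C * (4 * ε) * ((2 * r) ^ K * √(2 * r))
          ≤ C * (4 * ε) * ((2 * r) ^ K * (2 * √r)) := by (clear * - hsq hr hC hε; gcongr)
        _ = 2 * (C * 2 ^ (K + 2) * ε * (r ^ K * √r)) := by
            rw [mul_pow]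
            ring
    set D := C * 2 ^ (K + 2) * ε * (r ^ K * √r) with hDdef
    set D' := C * (4 * ε) * ((2 * r) ^ K * √(2 * r)) with hD'def
    simp only
    constructor
    · refine max_le ?_ ?_
      · have := (le_max_left _ _).trans h1
        linarith only [hD, this]
      · have := (le_max_right _ _).trans h1
        linarith only [this]
    · rcases le_total (2 * ev P (x - y) + D') 0 with h | h
      · rw [max_eq_right h] at h2
        refine le_trans ?_ (le_max_right _ _)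
        linarith only [h2]
      · rw [max_eq_left h] at h2
        refine le_trans ?_ (le_max_left _ _)
        linarith only [h2, hD]

theorem cone_condition (n : ℕ) : ∃ ε₀ C : ℝ, 0 < ε₀ ∧ 0 < C ∧
    ∀ (L : ℝ≥0) (u : E (n + 1) → ℝ), MinL L u → ∀ ε : ℝ, 0 < ε → ε ≤ ε₀ →
    Trap u (fun x => x 0) (-ε) ε 0 1 →
    ∀ y ∈ frontier (pos u), y ∈ ball (0 : E (n + 1)) (1 / 4) →
    ∀ x ∈ ball (0 : E (n + 1)) (1 / 4), (C * ε * ‖x - y‖ < x 0 - y 0 → 0 < u x) ∧
      (x 0 - y 0 < -(C * ε * ‖x - y‖) → x ∉ closure (pos u)) := by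
  obtain ⟨ε₀, C, hε₀, hC, H⟩ := boundary_expansion n 1 le_rfl
  refine ⟨ε₀, 3 * C, hε₀, by positivity, ?_⟩
  intro L u hu ε hε hεε₀ hT y hy hyb
  have hyb2 : y ∈ ball (0 : E (n + 1)) (1 / 2) := ball_subset_ball (by norm_num) hyb
  have hny : ‖y‖ < 1 / 4 := by simpa using hyb
  obtain ⟨P, hPd, hPh, hP0, hPg, hPc, hPT⟩ := H L u hu ε hε hεε₀ hT y hy hyb2
  -- the two sided bound
  have key : ∀ x ∈ ball (0 : E (n + 1)) (1 / 4), x ≠ y →
      x 0 - y 0 - 3 * C * ε * ‖x - y‖ ≤ u x ∧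
      u x ≤ max (x 0 - y 0 + 3 * C * ε * ‖x - y‖) 0 := by
    intro x hx hxy
    have hnx : ‖x‖ < 1 / 4 := by simpa only [one_div, mem_ball, dist_zero_right] using hx
    have hz : 0 < ‖x - y‖ := norm_pos_iff.2 (sub_ne_zero.2 hxy)
    have hz2 : ‖x - y‖ < 1 / 2 := (norm_sub_le _ _).trans_lt (by (clear * - hny hnx; linarith only [hnx, hny]))
    set r := min (2 * ‖x - y‖) (1 / 2) with hrdef
    have hr0 : 0 < r := lt_min (by (clear * - hz; positivity)) (by norm_num)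
    have hr1 : r ≤ 1 / 2 := min_le_right _ _
    have hr2 : r ≤ 2 * ‖x - y‖ := min_le_left _ _
    have hr3 : ‖x - y‖ < r := lt_min (by linarith only [hz]) hz2
    have hmem : x ∈ ball y r := by simpa [dist_eq_norm] using hr3
    obtain ⟨h1, h2⟩ := hPT r hr0 hr1 x hmem
    simp only [pow_one] at h1 h2
    have hsq : √r ≤ 1 := by
      rw [Real.sqrt_le_left (by norm_num)]
      linarith only [hr1]
    have hD : C * ε * (r * √r) ≤ 2 * C * ε * ‖x - y‖ := by
      calc C * ε * (r * √r) ≤ C * ε * (r * 1) := by (clear * - hsq hz hC hε; gcongr)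
        _ ≤ C * ε * (2 * ‖x - y‖ * 1) := by (clear * - hr2 hC hε; gcongr)
        _ = 2 * C * ε * ‖x - y‖ := by ring
    have hlow : LowZero 1 (P - MvPolynomial.X 0) := by
      intro m hm
      have hm0 : m = 0 := by
        rw [← Finsupp.degree_eq_zero_iff]
        omega
      rw [hm0, MvPolynomial.coeff_sub, hP0, MvPolynomial.coeff_zero_X, sub_zero]
    have hle := abs_ev_le_of_lowZero (P - MvPolynomial.X 0) hlow
      (x := x - y) (by linarith only [hr1, hr3])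
    rw [pow_one, ev_sub] at hle
    have hX : ev (MvPolynomial.X 0 : MvPolynomial (Fin (n + 1)) ℝ) (x - y) = x 0 - y 0 := by
      simp [ev]
    rw [hX] at hle
    have hle2 : |ev P (x - y) - (x 0 - y 0)| ≤ C * ε * ‖x - y‖ :=
      hle.trans (by (clear * - hPc hz; gcongr))
    have hle3 := abs_le.1 hle2
    constructor
    · have := (le_max_left _ _).trans h1
      linarith only [hD, hle3, this]
    · rcases le_total (ev P (x - y) + C * ε * (r * √r)) 0 with h | h
      · rw [max_eq_right h] at h2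
        exact h2.trans (le_max_right _ _)
      · rw [max_eq_left h] at h2
        refine le_trans ?_ (le_max_left _ _)
        linarith only [h2, hD, hle3]
  intro x hx
  constructor
  · intro hlt
    have hxy : x ≠ y := by
      rintro rfl
      simp at hlt
    have := (key x hx hxy).1
    linarith only [hlt, this]
  · intro hlt hcl
    have hop : IsOpen {z : E (n + 1) | z 0 - y 0 < -(3 * C * ε * ‖z - y‖)} := by
      refine isOpen_lt ?_ ?_
      · exact (rE11_continuous_coord 0).sub continuous_const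
      · fun_prop
    obtain ⟨z, hz, hzp⟩ := mem_closure_iff.1 hcl _ (hop.inter isOpen_ball) ⟨hlt, hx⟩
    have hz1 : z 0 - y 0 < -(3 * C * ε * ‖z - y‖) := hz.1
    have hzy : z ≠ y := by
      rintro rfl
      simp at hz1
    have h2 := (key z hz.2 hzy).2
    rw [max_eq_right (by linarith only [hz1])] at h2
    have h3 : 0 < u z := hzp
    linarith only [h2, h3]

end Vale.Agent.P098
end

section

set_option linter.all false

/-! # E12a: estimates of jets near the free boundary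

For a frontier point `y ∈ ball 0 (1/2)` let `P y` be from `boundary_expansion` and
`p_y(x) = ev (P y) (x - y)`; so for `x ∈ pos u ∩ ball y r`, `r ≤ 1/2`: `|u x - p_y x| ≤ C r^K √r`
(on `pos u`, `max(a,0) ≤ u ≤ max(b,0)` and `u > 0` give `a ≤ u ≤ b`).
(1) For frontier points `x, y` in `ball 0 (3/8)`, `0 < ρ = |x-y| ≤ 1/16`: the ball
`B = ball (x + ρ e) (ρ/4)`, `e = ee 0`, is inside `pos u` (by the trap at `x` with `K`:
`u z ≥ ev (P x)(z-x) - C ε r^K√r` and `ev (P x) w ≥ w 0 - Cε|w|`) and inside `ball x (2ρ) ∩ ball y (3ρ)`;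
so `|p_x - p_y| ≤ C ρ^K √ρ` on `B`, and `poly_bounds` gives
`‖D^m(p_x - p_y)(z)‖ ≤ C ρ^{K-m} √ρ` for `|z - x| ≤ 6ρ`, `m ≤ K`
(`p_x` is `ev` of a translate of the polynomial `P x`, of the same degree).
(2) For `z ∈ pos u`, `x` a frontier point in `ball 0 (1/4)`, `|z-x| ≤ 1/32`, let `y` be a nearest point
of the frontier, `s = |z-y| ≤ |z-x|` (so `y ∈ ball 0 (3/8)`); `ball z s ⊆ pos u` (connectedness);
`u - p_y` is harmonic on `ball z s` and `|u - p_y| ≤ C s^K√s` there, so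
`‖D^m(u - p_y)(z)‖ ≤ C s^{K-m}√s` (`harm_deriv_bound`). Combine with (1) for `p_x - p_y` at `z`
(`|x-y| ≤ 2|z-x|`; if `x = y` nothing to do; note `|z - x| ≤ 6|x-y|` may fail when `|x-y|` is much
smaller than `|z-x|`: then apply `poly_bounds` to the ball `ball (x + |z-x| e) (|z-x|/4)` instead,
which is at distance comparable to `|z-x|` from both `x` and `y`; in fact always use
`ρ = max (|x-y|) |z-x|`-sized balls). -/


open MeasureTheory Set Metric Filter
open scoped ContDiff RealInnerProductSpace Topology NNReal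

namespace Vale.Agent.P098

variable {d : ℕ}

theorem rE12a_two_le : (1 : WithTop ℕ∞) + 1 ≤ ∞ := by
  have : ((1 + 1 : ℕ∞) : WithTop ℕ∞) ≤ ∞ := WithTop.coe_le_coe.2 le_top
  exact this

/-- translation of a polynomial -/
theorem rE12a_translate (p : MvPolynomial (Fin d) ℝ) (y : E d) :
    ∃ q : MvPolynomial (Fin d) ℝ, q.totalDegree ≤ p.totalDegree ∧ ∀ x, ev q x = ev p (x - y) := by
  classical
  refine ⟨MvPolynomial.bind₁ (fun i => MvPolynomial.X i - MvPolynomial.C (y i)) p, ?_, fun x => ?_⟩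
  · rw [MvPolynomial.bind₁, MvPolynomial.aeval_def, MvPolynomial.eval₂_eq]
    refine MvPolynomial.totalDegree_finsetSum_le fun m hm => ?_
    refine (MvPolynomial.totalDegree_mul _ _).trans ?_
    have h1 : (algebraMap ℝ (MvPolynomial (Fin d) ℝ) (p.coeff m)).totalDegree = 0 := by
      simp only [MvPolynomial.algebraMap_eq, MvPolynomial.totalDegree_C]
    rw [h1, zero_add]
    refine (MvPolynomial.totalDegree_finset_prod _ _).trans ?_
    refine le_trans ?_ (MvPolynomial.le_totalDegree hm)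
    rw [Finsupp.sum]
    refine Finset.sum_le_sum fun i _ => ?_
    refine (MvPolynomial.totalDegree_pow _ _).trans ?_
    have h2 : (MvPolynomial.X i - MvPolynomial.C (y i) : MvPolynomial (Fin d) ℝ).totalDegree ≤ 1 := by
      refine (MvPolynomial.totalDegree_sub _ _).trans ?_
      simp only [MvPolynomial.totalDegree_X, MvPolynomial.totalDegree_C, zero_le, sup_of_le_left, Std.le_refl]
    calc m i * _ ≤ m i * 1 := Nat.mul_le_mul_left _ h2
      _ = m i := mul_one _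
  · simp only [ev]
    rw [← MvPolynomial.coe_aeval_eq_eval, ← MvPolynomial.coe_aeval_eq_eval]
    simp only [RingHom.coe_coe]
    rw [MvPolynomial.aeval_bind₁]
    congr 1
    simp only [MvPolynomial.aeval_eq_eval, map_sub, MvPolynomial.eval_X, MvPolynomial.eval_C, PiLp.sub_apply]

theorem rE12a_P1_trans (f : E d → ℝ) (y : E d) (i : Fin d) (x : E d) :
    P1 (fun w => f (w - y)) i x = P1 f i (x - y) := by
  simp only [P1]
  rw [fderiv_comp_sub]

theorem rE12a_lap_trans (f : E d → ℝ) (y : E d) (x : E d) :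
    lap (fun w => f (w - y)) x = lap f (x - y) := by
  simp only [lap, P2]
  refine Finset.sum_congr rfl fun i _ => ?_
  have : P1 (fun w => f (w - y)) i = fun w => P1 f i (w - y) := funext fun w => rE12a_P1_trans f y i w
  rw [this, fderiv_comp_sub]

theorem rE12a_harm_trans {s : Set (E d)} {f : E d → ℝ} (hf : Harm univ f) (y : E d) :
    Harm univ (fun w => f (w - y)) := by
  refine ⟨?_, fun x _ => ?_⟩
  · have h := hf.1
    rw [contDiffOn_univ] at h ⊢
    exact h.comp (contDiff_id.sub contDiff_const)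
  · rw [rE12a_lap_trans]; exact hf.2 _ (mem_univ _)

theorem rE12a_harm_sub {s : Set (E d)} (hs : IsOpen s) {f g : E d → ℝ} (hf : Harm s f) (hg : Harm s g) :
    Harm s (fun w => f w - g w) := by
  refine ⟨hf.1.sub hg.1, fun x hx => ?_⟩
  have hfx := hf.2 x hx
  have hgx := hg.2 x hx
  have key : lap (fun w => f w - g w) x = lap f x - lap g x := by
    simp only [lap, P2]
    rw [← Finset.sum_sub_distrib]
    refine Finset.sum_congr rfl fun i _ => ?_
    have h1 : P1 (fun w => f w - g w) i =ᶠ[𝓝 x] fun w => P1 f i w - P1 g i w := by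
      filter_upwards [hs.mem_nhds hx] with w hw
      simp only [P1]
      have hfd : DifferentiableAt ℝ f w := (hf.1.contDiffAt (hs.mem_nhds hw)).differentiableAt (by simp)
      have hgd : DifferentiableAt ℝ g w := (hg.1.contDiffAt (hs.mem_nhds hw)).differentiableAt (by simp)
      rw [fderiv_fun_sub hfd hgd]; rfl
    rw [h1.fderiv_eq]
    have hP : ∀ {h : E d → ℝ}, Harm s h → DifferentiableAt ℝ (P1 h i) x := by
      intro h hh
      have h2 : ContDiffAt ℝ ∞ h x := hh.1.contDiffAt (hs.mem_nhds hx)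
      have h3 : ContDiffAt ℝ 1 (fderiv ℝ h) x := h2.fderiv_right (m := 1) rE12a_two_le
      exact (h3.differentiableAt (by simp)).clm_apply (differentiableAt_const _)
    rw [fderiv_fun_sub (hP hf) (hP hg)]; rfl
  rw [key, hfx, hgx, sub_zero]


theorem rE12a_abs {n : ℕ} {u f : E n → ℝ} {a r : ℝ} {x w : E n} (hT : Trap u f (-a) a x r)
    (hw : w ∈ ball x r) (hu : 0 < u w) (ha : 0 ≤ a) : |u w - f w| ≤ a := by
  obtain ⟨h1, h2⟩ := hT w hw
  have h3 : f w + -a ≤ u w := (le_max_left _ _).trans h1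
  have h4 : u w ≤ f w + a := by
    rcases le_max_iff.1 h2 with h | h
    · exact h
    · linarith only [hu, h]
  rw [abs_le]; constructor <;> linarith

theorem rE12a_sqrt_le {c ρ : ℝ} (hρ : 0 ≤ ρ) (hc : c ≤ 4) (hc0 : 0 ≤ c) : √(c * ρ) ≤ 2 * √ρ := by
  rw [Real.sqrt_le_left (by positivity)]
  rw [mul_pow, Real.sq_sqrt hρ]
  linarith only [mul_nonneg (sub_nonneg.2 hρ) (sub_nonneg.2 hc)]

theorem rE12a_ee_norm {n : ℕ} (c : ℝ) (hc : 0 ≤ c) : ‖c • (ee 0 : E (n + 1))‖ = c := by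
  rw [norm_smul]; simp [abs_of_nonneg hc]

theorem rE12a_coord_le {n : ℕ} (v : E (n + 1)) : |v 0| ≤ ‖v‖ := by
  have := EuclideanSpace.norm_eq v
  have h2 : |v 0| = ‖v 0‖ := rfl
  rw [h2]; exact PiLp.norm_apply_le v 0

theorem rE12a_ev_X {n : ℕ} (v : E (n + 1)) : ev (MvPolynomial.X 0) v = v 0 := by
  simp [ev]

theorem rE12a_close {n K : ℕ} (hK : 1 ≤ K) {C₁ C₂ ε : ℝ} (hC₁ : 0 < C₁) (hC₂ : 0 < C₂) (hε : 0 < ε)
    (hε1 : ε ≤ 1) (hε2 : 8 * C₁ * ε ≤ 1)
    (hpb : ∀ p : MvPolynomial (Fin (n + 1)) ℝ,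
      p.totalDegree ≤ K → ∀ (z x : E (n + 1)) (r M : ℝ), 0 < r → (∀ y ∈ ball z r, |ev p y| ≤ M) →
      dist x z ≤ 32 * r → ∀ k : ℕ, k ≤ K + 1 → ‖iteratedFDeriv ℝ k (ev p) x‖ ≤ C₂ * M / r ^ k)
    {u : E (n + 1) → ℝ} {Px Py : MvPolynomial (Fin (n + 1)) ℝ} {x y : E (n + 1)}
    (hPxd : Px.totalDegree ≤ K) (hPyd : Py.totalDegree ≤ K) (hPx0 : Px.coeff 0 = 0)
    (hPxc : cn (Px - MvPolynomial.X 0) ≤ C₁ * ε)
    (hTx : ∀ r : ℝ, 0 < r → r ≤ 1 / 2 →
        Trap u (fun w => ev Px (w - x)) (-(C₁ * ε * (r ^ K * √r))) (C₁ * ε * (r ^ K * √r)) x r)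
    (hTy : ∀ r : ℝ, 0 < r → r ≤ 1 / 2 →
        Trap u (fun w => ev Py (w - y)) (-(C₁ * ε * (r ^ K * √r))) (C₁ * ε * (r ^ K * √r)) y r)
    {ρ : ℝ} (hρ : 0 < ρ) (hρ1 : ρ ≤ 1 / 16) (hxy : ‖x - y‖ ≤ ρ) {z : E (n + 1)}
    (hz : ‖z - x‖ ≤ 6 * ρ) {m : ℕ} (hm : m ≤ K) :
    ‖iteratedFDeriv ℝ m (fun w => ev Px (w - x)) z - iteratedFDeriv ℝ m (fun w => ev Py (w - y)) z‖
      ≤ C₂ * (4 * C₁ * 12 ^ K) * (ρ ^ (K - m) * √ρ) := by
  obtain ⟨qx, hqxd, hqx⟩ := rE12a_translate Px x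
  obtain ⟨qy, hqyd, hqy⟩ := rE12a_translate Py y
  have hfx : (fun w => ev Px (w - x)) = ev qx := funext fun w => (hqx w).symm
  have hfy : (fun w => ev Py (w - y)) = ev qy := funext fun w => (hqy w).symm
  have hsm : ∀ q : MvPolynomial (Fin (n + 1)) ℝ, ContDiffAt ℝ m (ev q) z := fun q =>
    ((contDiff_ev q).of_le (by exact_mod_cast le_top)).contDiffAt
  rw [hfx, hfy, ← iteratedFDeriv_sub_apply (hsm qx) (hsm qy)]
  have hsub : ev qx - ev qy = ev (qx - qy) := by
    funext w; rw [Pi.sub_apply, ev_sub]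
  rw [hsub]
  have hdeg : (qx - qy).totalDegree ≤ K :=
    (MvPolynomial.totalDegree_sub _ _).trans (max_le (hqxd.trans hPxd) (hqyd.trans hPyd))
  have hsq : 0 ≤ √ρ := Real.sqrt_nonneg _
  have hCe : 0 < C₁ * ε := by positivity
  have hpow : 0 ≤ ρ ^ K := by positivity
  -- bound on the error terms
  have herr : ∀ c : ℝ, 0 ≤ c → c ≤ 3 → C₁ * ε * ((c * ρ) ^ K * √(c * ρ)) ≤ C₁ * (3 ^ K * ρ ^ K * (2 * √ρ)) := by
    intro c hc0 hc3
    have h1 : (c * ρ) ^ K ≤ 3 ^ K * ρ ^ K := by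
      rw [← mul_pow]; exact pow_le_pow_left₀ (by (clear * - hc0 hρ; positivity)) (by linarith only [mul_nonneg (le_of_lt (sub_pos.2 hρ)) (sub_nonneg.2 hc3)]) K
    have h2 := rE12a_sqrt_le hρ.le (by linarith only [hc3] : c ≤ 4) hc0
    have h3 : (c * ρ) ^ K * √(c * ρ) ≤ 3 ^ K * ρ ^ K * (2 * √ρ) :=
      mul_le_mul h1 h2 (Real.sqrt_nonneg _) (by (clear * - hρ; positivity))
    calc C₁ * ε * ((c * ρ) ^ K * √(c * ρ)) ≤ C₁ * 1 * ((c * ρ) ^ K * √(c * ρ)) := by
          have : 0 ≤ (c * ρ) ^ K * √(c * ρ) := by (clear * - hc0 hρ; positivity)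
          (clear * - hε1 hC₁ hc0 hρ; gcongr)
      _ ≤ C₁ * 1 * (3 ^ K * ρ ^ K * (2 * √ρ)) := by (clear * - h3 hC₁; gcongr)
      _ = _ := by ring
  have hbound : ∀ w ∈ ball (x + ρ • ee 0) (ρ / 4), |ev (qx - qy) w| ≤ 4 * C₁ * 3 ^ K * (ρ ^ K * √ρ) := by
    intro w hw
    rw [mem_ball, dist_eq_norm] at hw
    have hwx : ‖w - x‖ ≤ ρ / 4 + ρ := by
      calc ‖w - x‖ = ‖(w - (x + ρ • ee 0)) + ρ • ee 0‖ := by congr 1; abel
        _ ≤ ‖w - (x + ρ • ee 0)‖ + ‖ρ • (ee 0 : E (n + 1))‖ := norm_add_le _ _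
        _ ≤ ρ / 4 + ρ := by rw [rE12a_ee_norm ρ hρ.le]; linarith only [hw]
    have hwy : ‖w - y‖ ≤ ρ / 4 + ρ + ρ := by
      calc ‖w - y‖ = ‖(w - x) + (x - y)‖ := by congr 1; abel
        _ ≤ ‖w - x‖ + ‖x - y‖ := norm_add_le _ _
        _ ≤ _ := by linarith only [hxy, hwx]
    have hwx' : w ∈ ball x (2 * ρ) := by rw [mem_ball, dist_eq_norm]; linarith only [hρ, hwx]
    have hwy' : w ∈ ball y (3 * ρ) := by rw [mem_ball, dist_eq_norm]; linarith only [hρ, hwy]
    have tx := hTx (2 * ρ) (by (clear * - hρ; positivity)) (by linarith only [hρ1])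
    have ty := hTy (3 * ρ) (by positivity) (by linarith only [hρ1])
    -- positivity of u
    have hL : |ev (Px - MvPolynomial.X 0) (w - x)| ≤ cn (Px - MvPolynomial.X 0) * ‖w - x‖ ^ 1 := by
      apply abs_ev_le_of_lowZero
      · intro k hk
        have hk0 : k = 0 := by
          have : k.degree = 0 := by omega
          exact (Finsupp.degree_eq_zero_iff k).1 this
        subst hk0
        rw [MvPolynomial.coeff_sub, hPx0]
        simp
      · linarith only [hρ1, hwx]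
    rw [pow_one] at hL
    have hL2 : |ev Px (w - x) - (w - x) 0| ≤ C₁ * ε * (ρ / 4 + ρ) := by
      rw [ev_sub, rE12a_ev_X] at hL
      exact hL.trans (mul_le_mul hPxc hwx (norm_nonneg _) hCe.le)
    have hc0 : 3 / 4 * ρ ≤ (w - x) 0 := by
      have h1 := rE12a_coord_le (w - (x + ρ • (ee 0 : E (n + 1))))
      have h2 : (w - (x + ρ • (ee 0 : E (n + 1))) : E (n + 1)) 0 = (w - x) 0 - ρ := by
        simp only [PiLp.sub_apply, PiLp.add_apply, PiLp.smul_apply, PiLp.single_eq_same, smul_eq_mul, mul_one, sub_sub]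
      rw [h2] at h1
      have := (abs_le.1 (h1.trans hw.le)).1
      (clear * - this; linarith)
    have ha1 : (2 * ρ) ^ K * √(2 * ρ) ≤ 2 * ρ * 1 := by
      apply mul_le_mul _ _ (Real.sqrt_nonneg _) (by positivity)
      · exact pow_le_of_le_one (by positivity) (by (clear * - hρ hρ1; linarith)) (by (clear * - hK; omega))
      · exact Real.sqrt_le_one.2 (by linarith only [hρ1])
    have ha2 : C₁ * ε * ((2 * ρ) ^ K * √(2 * ρ)) ≤ C₁ * ε * (2 * ρ * 1) := by (clear * - ha1 hC₁ hε; gcongr)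
    have hu : 0 < u w := by
      have h1 := (tx w hwx').1
      have h2 := (le_max_left _ _).trans h1
      have h3 := (abs_le.1 hL2).1
      simp only at h2
      linarith only [hρ, hc0, ha2, h2, h3, mul_nonneg (le_of_lt (sub_pos.2 hρ)) (sub_nonneg.2 hε2)]
    have e1 := rE12a_abs tx hwx' hu (by (clear * - hC₁ hε hρ; positivity))
    have e2 := rE12a_abs ty hwy' hu (by positivity)
    have f1 := herr 2 (by norm_num) (by norm_num)
    have f2 := herr 3 (by norm_num) (by norm_num)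
    rw [ev_sub, hqx, hqy]
    have e3 : ev Px (w - x) - ev Py (w - y) = (u w - ev Py (w - y)) - (u w - ev Px (w - x)) := by ring
    rw [e3]
    refine (abs_sub _ _).trans ?_
    calc _ ≤ C₁ * (3 ^ K * ρ ^ K * (2 * √ρ)) + C₁ * (3 ^ K * ρ ^ K * (2 * √ρ)) :=
          add_le_add (e2.trans f2) (e1.trans f1)
      _ = _ := by ring
  have hdist : dist z (x + ρ • ee 0) ≤ 32 * (ρ / 4) := by
    rw [dist_eq_norm]
    calc ‖z - (x + ρ • ee 0)‖ = ‖(z - x) - ρ • ee 0‖ := by congr 1; abel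
      _ ≤ ‖z - x‖ + ‖ρ • (ee 0 : E (n + 1))‖ := norm_sub_le _ _
      _ ≤ _ := by rw [rE12a_ee_norm ρ hρ.le]; linarith only [hρ, hz]
  have hfin := hpb (qx - qy) hdeg (x + ρ • ee 0) z (ρ / 4) _ (by positivity) hbound hdist m (by omega)
  refine hfin.trans ?_
  have hsplit : ρ ^ K = ρ ^ (K - m) * ρ ^ m := by rw [← pow_add]; congr 1; omega
  have hval : C₂ * (4 * C₁ * 3 ^ K * (ρ ^ K * √ρ)) / (ρ / 4) ^ m
      = C₂ * (4 * C₁ * (3 ^ K * 4 ^ m)) * (ρ ^ (K - m) * √ρ) := by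
    rw [hsplit, div_pow]
    have : ρ ^ m ≠ 0 := by positivity
    (clear * - this hρ hC₁ hC₂; field_simp)
  rw [hval]
  have h12 : (3 : ℝ) ^ K * 4 ^ m ≤ 12 ^ K := by
    calc (3 : ℝ) ^ K * 4 ^ m ≤ 3 ^ K * 4 ^ K := by gcongr; norm_num
      _ = 12 ^ K := by rw [← mul_pow]; norm_num
  have : 0 ≤ ρ ^ (K - m) * √ρ := by (clear * - hρ; positivity)
  (clear * - h12 hC₁ hC₂ hρ; gcongr)


theorem jet_estimate (n K : ℕ) (hK : 1 ≤ K) : ∃ ε₀ C : ℝ, 0 < ε₀ ∧ 0 < C ∧
    ∀ (L : ℝ≥0) (u : E (n + 1) → ℝ), MinL L u → ∀ ε : ℝ, 0 < ε → ε ≤ ε₀ →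
    Trap u (fun x => x 0) (-ε) ε 0 1 →
    ∃ P : E (n + 1) → MvPolynomial (Fin (n + 1)) ℝ,
      (∀ y ∈ frontier (pos u), y ∈ ball (0 : E (n + 1)) (3 / 8) →
        (P y).totalDegree ≤ K ∧ (P y).coeff 0 = 0 ∧ ‖fderiv ℝ (ev (P y)) 0‖ = 1 ∧
        cn (P y - MvPolynomial.X 0) ≤ C * ε) ∧
      (∀ x ∈ frontier (pos u), x ∈ ball (0 : E (n + 1)) (1 / 4) →
        ∀ y ∈ frontier (pos u), ‖x - y‖ ≤ 1 / 32 → ∀ m : ℕ, m ≤ K →
        ‖iteratedFDeriv ℝ m (fun w => ev (P x) (w - x)) y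
          - iteratedFDeriv ℝ m (fun w => ev (P y) (w - y)) y‖
          ≤ C * (‖x - y‖ ^ (K - m) * √‖x - y‖)) ∧
      (∀ x ∈ frontier (pos u), x ∈ ball (0 : E (n + 1)) (1 / 4) →
        ∀ z, 0 < u z → ‖z - x‖ ≤ 1 / 32 → ∀ m : ℕ, m ≤ K →
        ‖iteratedFDeriv ℝ m u z - iteratedFDeriv ℝ m (fun w => ev (P x) (w - x)) z‖
          ≤ C * (‖z - x‖ ^ (K - m) * √‖z - x‖)) := by
  classical
  obtain ⟨ε₁, C₁, hε₁, hC₁, hexp⟩ := boundary_expansion n K hK
  obtain ⟨C₂, hC₂, hpb⟩ := poly_bounds (n + 1) K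
  choose C₄ hC₄ hhd using fun m : ℕ => harm_deriv_bound (n + 1) m
  set D : ℝ := ∑ m ∈ Finset.range (K + 1), C₄ m with hD
  have hDm : ∀ m ≤ K, C₄ m ≤ D := fun m hm =>
    Finset.single_le_sum (f := C₄) (fun i _ => (hC₄ i).le) (Finset.mem_range.2 (by omega))
  have hD0 : 0 < D := (hC₄ 0).trans_le (hDm 0 (by omega))
  set CB : ℝ := C₂ * (4 * C₁ * 12 ^ K) with hCB
  have hCB0 : 0 < CB := by positivity
  set CC : ℝ := D * (C₁ * (2 ^ K * 2)) + CB * (2 ^ K * 2) with hCC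
  have hCC0 : 0 < CC := by (clear * - hD0 hC₁ hC₂; positivity)
  refine ⟨min (min ε₁ 1) (1 / (8 * C₁)), C₁ + CB + CC, by positivity, by (clear * - hC₁ hC₂ hD0; positivity), ?_⟩
  intro L u hu ε hε hεle hTrap
  have hεa : ε ≤ ε₁ := hεle.trans ((min_le_left _ _).trans (min_le_left _ _))
  have hεb : ε ≤ 1 := hεle.trans ((min_le_left _ _).trans (min_le_right _ _))
  have hεc : 8 * C₁ * ε ≤ 1 := by
    have : ε ≤ 1 / (8 * C₁) := hεle.trans (min_le_right _ _)
    rw [le_div_iff₀ (by positivity)] at this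
    linarith only [this]
  have hexp' := hexp L u hu ε hε hεa hTrap
  choose! P hPd hPl hP0 hPf hPc hPT using hexp'
  have hcont : Continuous u := hu.lip.continuous
  have hopen : IsOpen (pos u) := isOpen_lt continuous_const hcont
  have hball : ∀ {w : E (n + 1)}, w ∈ ball (0 : E (n + 1)) (3 / 8) → w ∈ ball (0 : E (n + 1)) (1 / 2) :=
    fun hw => ball_subset_ball (by norm_num) hw
  -- the comparison of polynomials
  have hclose : ∀ x ∈ frontier (pos u), x ∈ ball (0 : E (n + 1)) (3 / 8) →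
      ∀ y ∈ frontier (pos u), y ∈ ball (0 : E (n + 1)) (3 / 8) → ∀ ρ : ℝ, 0 < ρ → ρ ≤ 1 / 16 →
      ‖x - y‖ ≤ ρ → ∀ z, ‖z - x‖ ≤ 6 * ρ → ∀ m ≤ K,
      ‖iteratedFDeriv ℝ m (fun w => ev (P x) (w - x)) z
        - iteratedFDeriv ℝ m (fun w => ev (P y) (w - y)) z‖ ≤ CB * (ρ ^ (K - m) * √ρ) := by
    intro x hx hxb y hy hyb ρ hρ hρ1 hxy z hz m hm
    exact rE12a_close hK hC₁ hC₂ hε hεb hεc hpb (hPd x hx (hball hxb)) (hPd y hy (hball hyb))
      (hP0 x hx (hball hxb)) (hPc x hx (hball hxb)) (hPT x hx (hball hxb)) (hPT y hy (hball hyb))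
      hρ hρ1 hxy hz hm
  refine ⟨P, ?_, ?_, ?_⟩
  · intro y hy hyb
    refine ⟨hPd y hy (hball hyb), hP0 y hy (hball hyb), hPf y hy (hball hyb),
      (hPc y hy (hball hyb)).trans ?_⟩
    have : 0 < CB + CC := by (clear * - hC₂ hC₁ hD0; positivity)
    linarith only [mul_pos (sub_pos.2 hε) (sub_pos.2 hCC0), mul_pos (sub_pos.2 hCB0) (sub_pos.2 hε)]
  · intro x hx hxb y hy hxy m hm
    by_cases hne : x = y
    · subst hne
      simp only [sub_self, norm_zero, Real.sqrt_zero, mul_zero, le_refl]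
    have hρ : 0 < ‖x - y‖ := norm_pos_iff.2 (sub_ne_zero.2 hne)
    have hxb' : x ∈ ball (0 : E (n + 1)) (3 / 8) := ball_subset_ball (by norm_num) hxb
    have hyb' : y ∈ ball (0 : E (n + 1)) (3 / 8) := by
      rw [mem_ball, dist_zero_right] at hxb ⊢
      have : ‖y‖ ≤ ‖x‖ + ‖x - y‖ := by
        calc ‖y‖ = ‖x - (x - y)‖ := by congr 1; abel
          _ ≤ _ := norm_sub_le _ _
      linarith only [this, hρ, hxy, hxb]
    have h := hclose x hx hxb' y hy hyb' ‖x - y‖ hρ (by linarith only [hxy]) le_rfl y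
      (by rw [norm_sub_rev]; linarith only [hρ]) m hm
    refine h.trans ?_
    have : 0 ≤ ‖x - y‖ ^ (K - m) * √‖x - y‖ := by (clear * - hρ; positivity)
    have : CB ≤ C₁ + CB + CC := by linarith only [hC₁, hCC0]
    (clear * - this hρ; gcongr)
  · intro x hx hxb z hz hzx m hm
    have hux : u x = 0 := by
      have h1 : x ∉ pos u := by
        have := hopen.frontier_eq ▸ hx
        exact this.2
      exact le_antisymm (not_lt.1 h1) (hu.nonneg x)
    have hρ : 0 < ‖z - x‖ := by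
      rw [norm_pos_iff, sub_ne_zero]
      rintro rfl
      linarith only [hz, hux]
    set ρ := ‖z - x‖ with hρdef
    -- nearest point
    obtain ⟨y, hy, hyd⟩ := isClosed_frontier.exists_infDist_eq_dist (⟨x, hx⟩ : (frontier (pos u)).Nonempty) z
    have hsle : dist z y ≤ ρ := by
      rw [← hyd, hρdef, ← dist_eq_norm]
      exact infDist_le_dist_of_mem hx
    have hs : 0 < dist z y := by
      rw [dist_pos]
      rintro rfl
      have := hopen.frontier_eq ▸ hy
      exact this.2 hz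
    set s := dist z y with hsdef
    have hxb' : x ∈ ball (0 : E (n + 1)) (3 / 8) := ball_subset_ball (by norm_num) hxb
    have hxy2 : ‖x - y‖ ≤ 2 * ρ := by
      calc ‖x - y‖ = ‖(z - y) - (z - x)‖ := by congr 1; abel
        _ ≤ ‖z - y‖ + ‖z - x‖ := norm_sub_le _ _
        _ ≤ _ := by rw [← dist_eq_norm z y]; linarith only [hsle]
    have hyb' : y ∈ ball (0 : E (n + 1)) (3 / 8) := by
      rw [mem_ball, dist_zero_right] at hxb ⊢
      have : ‖y‖ ≤ ‖x‖ + ‖x - y‖ := by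
        calc ‖y‖ = ‖x - (x - y)‖ := by congr 1; abel
          _ ≤ _ := norm_sub_le _ _
      linarith only [this, hxy2, hs, hsle, hzx, hxb]
    -- the ball around z
    have hsub : ball z s ⊆ pos u := by
      intro w hw
      by_contra hwn
      have hnf : ∀ v ∈ ball z s, v ∉ frontier (pos u) := by
        intro v hv1 hv2
        have : s ≤ dist z v := by
          rw [← hyd]; exact infDist_le_dist_of_mem hv2
        rw [mem_ball, dist_comm] at hv1
        linarith only [hv1, this]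
      have hcl : ∀ v ∈ ball z s, v ∉ pos u → v ∈ (closure (pos u))ᶜ := by
        intro v hv hvp hvc
        exact hnf v hv (by rw [hopen.frontier_eq]; exact ⟨hvc, hvp⟩)
      obtain ⟨v, -, hv1, hv2⟩ := (convex_ball z s).isPreconnected (pos u) (closure (pos u))ᶜ hopen
        isClosed_closure.isOpen_compl
        (fun v hv => by
          by_cases h : v ∈ pos u
          · exact Or.inl h
          · exact Or.inr (hcl v hv h))
        ⟨z, mem_ball_self hs, hz⟩ ⟨w, hw, hcl w hw hwn⟩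
      exact hv2 (subset_closure hv1)
    have hH : Harm (ball z s) (fun w => u w - ev (P y) (w - y)) := by
      apply rE12a_harm_sub isOpen_ball
      · exact ⟨hu.harm.1.mono hsub, fun w hw => hu.harm.2 w (hsub hw)⟩
      · have h := rE12a_harm_trans (s := univ) (harm_ev (hPl y hy (hball hyb')) univ) y
        exact ⟨h.1.mono (subset_univ _), fun w hw => h.2 w (mem_univ _)⟩
    have hsq : 0 ≤ √s := Real.sqrt_nonneg _
    have hM : ∀ w ∈ ball z s, |u w - ev (P y) (w - y)| ≤ C₁ * (2 ^ K * 2) * (s ^ K * √s) := by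
      intro w hw
      have hwy : w ∈ ball y (2 * s) := by
        rw [mem_ball] at hw ⊢
        calc dist w y ≤ dist w z + dist z y := dist_triangle _ _ _
          _ < 2 * s := by linarith only [hw]
      have h1 := rE12a_abs (hPT y hy (hball hyb') (2 * s) (by (clear * - hs; positivity)) (by linarith only [hzx, hsle])) hwy
        (hsub hw) (by (clear * - hC₁ hε hs; positivity))
      refine h1.trans ?_
      have h2 := rE12a_sqrt_le hs.le (by norm_num : (2 : ℝ) ≤ 4) (by norm_num)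
      calc C₁ * ε * ((2 * s) ^ K * √(2 * s)) ≤ C₁ * 1 * ((2 * s) ^ K * (2 * √s)) := by (clear * - hεb hC₁ h2 hs; gcongr)
        _ = _ := by rw [mul_pow]; ring
    have h1 := hhd m _ z s _ hs hH hM z (mem_ball_self (by (clear * - hs; positivity)))
    have h1' : ‖iteratedFDeriv ℝ m (fun w => u w - ev (P y) (w - y)) z‖
        ≤ D * (C₁ * (2 ^ K * 2)) * (ρ ^ (K - m) * √ρ) := by
      refine h1.trans ?_
      have hsplit : s ^ K = s ^ (K - m) * s ^ m := by rw [← pow_add]; congr 1; omega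
      have hsm : s ^ m ≠ 0 := by (clear * - hs; positivity)
      have : C₄ m * (C₁ * (2 ^ K * 2) * (s ^ K * √s)) / s ^ m
          = C₄ m * (C₁ * (2 ^ K * 2)) * (s ^ (K - m) * √s) := by
        rw [hsplit]; (clear * - hsm hs hC₁; field_simp)
      rw [this]
      have h3 : s ^ (K - m) * √s ≤ ρ ^ (K - m) * √ρ :=
        mul_le_mul (pow_le_pow_left₀ hs.le hsle _) (Real.sqrt_le_sqrt hsle) hsq (by (clear * - hρ; positivity))
      have h4 : 0 ≤ s ^ (K - m) * √s := by (clear * - hs; positivity)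
      have := hDm m hm
      (clear * - this hC₁ h3 hs hD0; gcongr)
    -- smoothness
    have hmle : ((m : ℕ) : WithTop ℕ∞) ≤ ∞ := by exact_mod_cast le_top
    have hus : ContDiffAt ℝ m u z :=
      (hu.harm.1.contDiffAt (hopen.mem_nhds hz)).of_le hmle
    have hps : ∀ a : E (n + 1), ContDiffAt ℝ m (fun w => ev (P a) (w - a)) z := by
      intro a
      have : ContDiff ℝ ∞ (fun w : E (n + 1) => ev (P a) (w - a)) :=
        (contDiff_ev (P a)).comp (contDiff_id.sub contDiff_const)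
      exact (this.of_le hmle).contDiffAt
    have h5 : iteratedFDeriv ℝ m (fun w => u w - ev (P y) (w - y)) z
        = iteratedFDeriv ℝ m u z - iteratedFDeriv ℝ m (fun w => ev (P y) (w - y)) z :=
      iteratedFDeriv_sub_apply hus (hps y)
    rw [h5] at h1'
    have h6 := hclose x hx hxb' y hy hyb' (2 * ρ) (by (clear * - hρ; positivity)) (by linarith only [hzx]) hxy2 z
      (by linarith only [hρ]) m hm
    have h7 : CB * ((2 * ρ) ^ (K - m) * √(2 * ρ)) ≤ CB * (2 ^ K * 2) * (ρ ^ (K - m) * √ρ) := by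
      have g1 := rE12a_sqrt_le hρ.le (by norm_num : (2 : ℝ) ≤ 4) (by norm_num)
      have g2 : (2 : ℝ) ^ (K - m) ≤ 2 ^ K := pow_le_pow_right₀ (by norm_num) (by (clear * - hm; omega))
      calc CB * ((2 * ρ) ^ (K - m) * √(2 * ρ)) ≤ CB * ((2 * ρ) ^ (K - m) * (2 * √ρ)) := by (clear * - g1 hρ hC₂ hC₁; gcongr)
        _ = CB * (2 ^ (K - m) * 2) * (ρ ^ (K - m) * √ρ) := by rw [mul_pow]; ring
        _ ≤ _ := by
          have : 0 ≤ ρ ^ (K - m) * √ρ := by (clear * - hρ; positivity)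
          (clear * - g2 hC₂ hC₁ hρ; gcongr)
    rw [norm_sub_rev] at h6
    calc ‖iteratedFDeriv ℝ m u z - iteratedFDeriv ℝ m (fun w => ev (P x) (w - x)) z‖
        = ‖(iteratedFDeriv ℝ m u z - iteratedFDeriv ℝ m (fun w => ev (P y) (w - y)) z)
          + (iteratedFDeriv ℝ m (fun w => ev (P y) (w - y)) z
            - iteratedFDeriv ℝ m (fun w => ev (P x) (w - x)) z)‖ := by congr 1; abel
      _ ≤ _ := norm_add_le _ _
      _ ≤ D * (C₁ * (2 ^ K * 2)) * (ρ ^ (K - m) * √ρ) + CB * (2 ^ K * 2) * (ρ ^ (K - m) * √ρ) :=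
        add_le_add h1' (h6.trans h7)
      _ = CC * (ρ ^ (K - m) * √ρ) := by rw [hCC]; ring
      _ ≤ (C₁ + CB + CC) * (ρ ^ (K - m) * √ρ) := by
        have : 0 ≤ ρ ^ (K - m) * √ρ := by (clear * - hρ; positivity)
        have : CC ≤ C₁ + CB + CC := by linarith only [hC₁, hCB0]
        (clear * - this hρ; gcongr)

end Vale.Agent.P098
end

section

/-! # G1: the free boundary is a Lipschitz graph

`ε₀` so small that `2 C ε₀ ≤ 1/2` (`C` from `cone_condition`) and `ε₀ ≤ 1/32`. Let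
`x ∈ ball 0 (1/8)` and consider the vertical line `t ↦ x_t = x + (t - x 0) • ee 0`, `|t| ≤ 1/16·(3/2)`;
these points are in `ball 0 (1/4)`. By the trap `u > 0` for `t > ε₀` and `u = 0` near `x_t` for
`t < -ε₀`. So there is `t` with `x_t ∈ frontier (pos u)`, `|t| ≤ ε₀`; it is unique by
`cone_condition` (two frontier points on a vertical line contradict it: the upper one would have
`u > 0`). Put `g x = t` (for general `x` use the projection of `x` along `ee 0` if its norm is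
`< 1/8`, and `0` otherwise; then `g (x + t • ee 0) = g x`; note that for `x ∈ ball 0 (1/8)` the
projection `x - x 0 • ee 0` has norm `< 1/8`). Lipschitz: for frontier points `y, y'` over `x, x'`
`cone_condition` gives `|y 0 - y' 0| ≤ Cε₀ ‖y - y'‖ ≤ ¼(‖x-x'‖ + |y 0 - y' 0|)`, so
`|y 0 - y' 0| ≤ ½‖x-x'‖`. The equivalences follow from `cone_condition` with `y = x_{g x}`. -/

open MeasureTheory Set Metric Filter
open scoped ContDiff RealInnerProductSpace Topology NNReal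

namespace Vale.Agent.P098

variable {d : ℕ}

/-- Common constants. -/
theorem rG1_const (n : ℕ) : ∃ ε₀ κ : ℝ, 0 < ε₀ ∧ ε₀ ≤ 1 / 32 ∧ 0 < κ ∧ κ ≤ 1 / 4 ∧
    ∀ (L : ℝ≥0) (u : E (n + 1) → ℝ), MinL L u → Trap u (fun x => x 0) (-ε₀) ε₀ 0 1 →
    ∀ y ∈ frontier (pos u), y ∈ ball (0 : E (n + 1)) (1 / 4) →
    ∀ x ∈ ball (0 : E (n + 1)) (1 / 4), (κ * ‖x - y‖ < x 0 - y 0 → 0 < u x) ∧
      (x 0 - y 0 < -(κ * ‖x - y‖) → x ∉ closure (pos u)) := by
  obtain ⟨ε₀, C, hε, hC, h⟩ := cone_condition n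
  have hmin : 0 < min (min ε₀ (1 / 32)) (1 / (4 * C)) := by positivity
  refine ⟨min (min ε₀ (1 / 32)) (1 / (4 * C)), C * min (min ε₀ (1 / 32)) (1 / (4 * C)), hmin,
    (min_le_left _ _).trans (min_le_right _ _), by positivity, ?_, ?_⟩
  · have h1 : min (min ε₀ (1 / 32)) (1 / (4 * C)) ≤ 1 / (4 * C) := min_le_right _ _
    calc C * min (min ε₀ (1 / 32)) (1 / (4 * C)) ≤ C * (1 / (4 * C)) :=
          mul_le_mul_of_nonneg_left h1 hC.le
      _ = 1 / 4 := by field_simp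
  · intro L u hu hT
    exact h L u hu _ hmin ((min_le_left _ _).trans (min_le_left _ _)) hT

theorem rG1_apply {n : ℕ} (x : E (n + 1)) (t : ℝ) : (x + t • ee 0 : E (n + 1)) 0 = x 0 + t := by
  simp [ee]

theorem rG1_norm_ee {n : ℕ} : ‖(ee 0 : E (n + 1))‖ = 1 := by
  simp [ee]

theorem rG1_norm_proj {n : ℕ} (x : E (n + 1)) : ‖x - x 0 • ee 0‖ ≤ ‖x‖ := by
  rw [EuclideanSpace.norm_eq, EuclideanSpace.norm_eq]
  apply Real.sqrt_le_sqrt
  apply Finset.sum_le_sum
  intro i _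
  rw [Real.norm_eq_abs, Real.norm_eq_abs, sq_abs, sq_abs]
  by_cases hi : i = 0
  · subst hi
    simp only [ee, PiLp.sub_apply, PiLp.smul_apply, PiLp.single_eq_same, smul_eq_mul, mul_one, sub_self, ne_eq, OfNat.ofNat_ne_zero, not_false_eq_true, zero_pow]
    positivity
  · simp [ee, hi]

/-- On a vertical line there is a frontier point. -/
theorem rG1_exists {n : ℕ} {ε : ℝ} (hε : 0 < ε) (hε' : ε ≤ 1 / 32) {L : ℝ≥0}
    {u : E (n + 1) → ℝ} (hu : MinL L u) (hT : Trap u (fun x => x 0) (-ε) ε 0 1)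
    {p : E (n + 1)} (hp : ‖p‖ < 1 / 8) (hp0 : p 0 = 0) :
    ∃ t : ℝ, |t| ≤ ε ∧ p + t • ee 0 ∈ frontier (pos u) := by
  have hO : IsOpen (pos u) := isOpen_lt continuous_const hu.lip.continuous
  have hball : ∀ t : ℝ, |t| ≤ 1 / 16 → p + t • ee 0 ∈ ball (0 : E (n + 1)) 1 := by
    intro t ht
    rw [mem_ball_zero_iff]
    calc ‖p + t • ee 0‖ ≤ ‖p‖ + ‖t • (ee 0 : E (n + 1))‖ := norm_add_le _ _
      _ = ‖p‖ + |t| := by rw [norm_smul, rG1_norm_ee, mul_one, Real.norm_eq_abs]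
      _ < 1 := by linarith
  have hup : ∀ t : ℝ, |t| ≤ 1 / 16 → ε < t → p + t • ee 0 ∈ pos u := by
    intro t ht ht'
    have h1 := (hT _ (hball t ht)).1
    have h2 : (p + t • ee 0 : E (n + 1)) 0 = t := by rw [rG1_apply, hp0, zero_add]
    simp only [h2] at h1
    have h3 : (0 : ℝ) < t + -ε := by linarith only [ht']
    exact lt_of_lt_of_le (lt_of_lt_of_le h3 (le_max_left _ _)) h1
  have hdown : ∀ t : ℝ, |t| ≤ 1 / 16 → t < -ε → p + t • ee 0 ∉ closure (pos u) := by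
    intro t ht ht'
    have hc : Continuous (fun z : E (n + 1) => z 0) := by fun_prop
    have hV : IsOpen (ball (0 : E (n + 1)) 1 ∩ {z | z 0 < -ε}) :=
      isOpen_ball.inter (isOpen_lt hc continuous_const)
    have hmem : p + t • ee 0 ∈ ball (0 : E (n + 1)) 1 ∩ {z | z 0 < -ε} := by
      refine ⟨hball t ht, ?_⟩
      change (p + t • ee 0 : E (n + 1)) 0 < -ε
      rw [rG1_apply, hp0, zero_add]
      exact ht'
    intro hcl
    obtain ⟨z, hz1, hz2⟩ := mem_closure_iff.1 hcl _ hV hmem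
    have h1 := (hT z hz1.1).2
    have h2 : z 0 < -ε := hz1.2
    have h3 : max (z 0 + ε) 0 = 0 := max_eq_right (by linarith only [h2])
    have h4 : 0 < u z := hz2
    rw [h3] at h1
    linarith only [h1, h4]
  have hline : Continuous (fun t : ℝ => p + t • (ee 0 : E (n + 1))) := by fun_prop
  have hconn : IsPreconnected ((fun t : ℝ => p + t • (ee 0 : E (n + 1))) ''
      Icc (-(1 / 16) : ℝ) (1 / 16)) := isPreconnected_Icc.image _ hline.continuousOn
  have hex : ∃ t ∈ Icc (-(1 / 16) : ℝ) (1 / 16), p + t • ee 0 ∈ frontier (pos u) := by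
    by_contra hcon
    push Not at hcon
    have h1 := hconn (pos u) (closure (pos u))ᶜ hO isClosed_closure.isOpen_compl ?_ ?_ ?_
    · obtain ⟨z, _, hz1, hz2⟩ := h1
      exact hz2 (subset_closure hz1)
    · rintro z ⟨t, ht, rfl⟩
      by_contra hz
      have hz' : ¬ (p + t • ee 0 ∈ pos u) ∧ p + t • ee 0 ∈ closure (pos u) := by
        constructor
        · intro h; exact hz (Or.inl h)
        · by_contra h; exact hz (Or.inr h)
      apply hcon t ht
      rw [hO.frontier_eq]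
      exact ⟨hz'.2, hz'.1⟩
    · refine ⟨p + (1 / 16 : ℝ) • ee 0, ⟨1 / 16, by constructor <;> norm_num, rfl⟩, ?_⟩
      apply hup
      · norm_num
      · linarith only [hε']
    · refine ⟨p + (-(1 / 16) : ℝ) • ee 0, ⟨-(1 / 16), by constructor <;> norm_num, rfl⟩, ?_⟩
      apply hdown
      · norm_num
      · linarith
  obtain ⟨t, ht, hfr⟩ := hex
  have ht' : |t| ≤ 1 / 16 := abs_le.2 ht
  refine ⟨t, ?_, hfr⟩
  rw [hO.frontier_eq] at hfr
  rw [abs_le]
  constructor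
  · by_contra h
    exact hdown t ht' (not_le.1 h) hfr.1
  · by_contra h
    exact hfr.2 (hup t ht' (not_le.1 h))

theorem exists_graph (n : ℕ) : ∃ ε₀ : ℝ, 0 < ε₀ ∧
    ∀ (L : ℝ≥0) (u : E (n + 1) → ℝ), MinL L u → Trap u (fun x => x 0) (-ε₀) ε₀ 0 1 →
    ∃ g : E (n + 1) → ℝ, (∀ x (t : ℝ), g (x + t • ee 0) = g x) ∧
      (∀ x ∈ ball (0 : E (n + 1)) (1 / 8), ∀ y ∈ ball (0 : E (n + 1)) (1 / 8),
        |g x - g y| ≤ ‖x - y‖ / 2) ∧
      (∀ x ∈ ball (0 : E (n + 1)) (1 / 8), |g x| ≤ 1 / 32 ∧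
        x + (g x - x 0) • ee 0 ∈ frontier (pos u) ∧
        x + (g x - x 0) • ee 0 ∈ ball (0 : E (n + 1)) (1 / 4) ∧
        (0 < u x ↔ g x < x 0) ∧ (x ∈ frontier (pos u) ↔ x 0 = g x) ∧
        (x ∈ closure (pos u) ↔ g x ≤ x 0)) := by
  obtain ⟨ε, κ, hε, hε', hκ, hκ', hcc⟩ := rG1_const n
  refine ⟨ε, hε, fun L u hu hT => ?_⟩
  have hO : IsOpen (pos u) := isOpen_lt continuous_const hu.lip.continuous
  have hcc := hcc L u hu hT
  have hex : ∀ p : E (n + 1), ∃ t : ℝ, ‖p‖ < 1 / 8 → p 0 = 0 →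
      |t| ≤ ε ∧ p + t • ee 0 ∈ frontier (pos u) := by
    intro p
    by_cases hp : ‖p‖ < 1 / 8 ∧ p 0 = 0
    · obtain ⟨t, ht⟩ := rG1_exists hε hε' hu hT hp.1 hp.2
      exact ⟨t, fun _ _ => ht⟩
    · exact ⟨0, fun h1 h2 => absurd ⟨h1, h2⟩ hp⟩
  choose G hG using hex
  set g : E (n + 1) → ℝ := fun x => G (x - x 0 • ee 0) with hg
  have hproj0 : ∀ x : E (n + 1), (x - x 0 • ee 0 : E (n + 1)) 0 = 0 := by
    intro x
    have := rG1_apply x (-(x 0))
    rw [neg_smul, ← sub_eq_add_neg] at this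
    rw [this]; ring
  have hkey : ∀ x ∈ ball (0 : E (n + 1)) (1 / 8), |g x| ≤ ε ∧
      x + (g x - x 0) • ee 0 ∈ frontier (pos u) ∧
      x + (g x - x 0) • ee 0 ∈ ball (0 : E (n + 1)) (1 / 4) := by
    intro x hx
    rw [mem_ball_zero_iff] at hx
    have hp : ‖x - x 0 • ee 0‖ < 1 / 8 := lt_of_le_of_lt (rG1_norm_proj x) hx
    obtain ⟨h1, h2⟩ := hG (x - x 0 • ee 0) hp (hproj0 x)
    have h3 : x + (g x - x 0) • ee 0 = x - x 0 • ee 0 + g x • (ee 0 : E (n + 1)) := by
      rw [sub_smul]; abel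
    refine ⟨h1, ?_, ?_⟩
    · rw [h3]; exact h2
    · rw [h3, mem_ball_zero_iff]
      calc ‖x - x 0 • ee 0 + g x • (ee 0 : E (n + 1))‖
          ≤ ‖x - x 0 • ee 0‖ + ‖g x • (ee 0 : E (n + 1))‖ := norm_add_le _ _
        _ = ‖x - x 0 • ee 0‖ + |g x| := by rw [norm_smul, rG1_norm_ee, mul_one, Real.norm_eq_abs]
        _ < 1 / 4 := by
            have : |g x| ≤ ε := h1
            linarith only [hε', hp, h1]
  have hcoord : ∀ x : E (n + 1), (x + (g x - x 0) • ee 0 : E (n + 1)) 0 = g x := by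
    intro x
    rw [rG1_apply]; ring
  have hfr0 : ∀ y ∈ frontier (pos u), ¬ (0 < u y) := by
    intro y hy
    rw [hO.frontier_eq] at hy
    exact hy.2
  have hlip : ∀ y ∈ frontier (pos u), y ∈ ball (0 : E (n + 1)) (1 / 4) →
      ∀ x ∈ frontier (pos u), x ∈ ball (0 : E (n + 1)) (1 / 4) →
      |x 0 - y 0| ≤ κ * ‖x - y‖ := by
    intro y hy hyb x hx hxb
    rw [abs_le]
    constructor
    · by_contra h
      push Not at h
      have h1 := (hcc x hx hxb y hyb).1
      apply hfr0 y hy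
      apply h1
      rw [norm_sub_rev]
      linarith only [h]
    · by_contra h
      push Not at h
      exact hfr0 x hx ((hcc y hy hyb x hxb).1 h)
  refine ⟨g, ?_, ?_, ?_⟩
  · intro x t
    simp only [hg]
    congr 1
    rw [rG1_apply, add_smul]
    abel
  · intro x hx y hy
    obtain ⟨-, hx1, hx2⟩ := hkey x hx
    obtain ⟨-, hy1, hy2⟩ := hkey y hy
    have h1 := hlip _ hy1 hy2 _ hx1 hx2
    rw [hcoord, hcoord] at h1
    have h2 : ‖(x + (g x - x 0) • ee 0) - (y + (g y - y 0) • (ee 0 : E (n + 1)))‖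
        ≤ ‖x - y‖ + |g x - g y| := by
      have h3 : (x + (g x - x 0) • ee 0) - (y + (g y - y 0) • (ee 0 : E (n + 1)))
          = ((x - y) - (x - y) 0 • ee 0) + (g x - g y) • (ee 0 : E (n + 1)) := by
        rw [PiLp.sub_apply]
        module
      rw [h3]
      refine (norm_add_le _ _).trans ?_
      rw [norm_smul, rG1_norm_ee, mul_one, Real.norm_eq_abs]
      exact add_le_add (rG1_norm_proj _) le_rfl
    have h3 : |g x - g y| ≤ 1 / 4 * (‖x - y‖ + |g x - g y|) := by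
      refine h1.trans ?_
      exact mul_le_mul hκ' h2 (norm_nonneg _) (by norm_num)
    have h4 : 0 ≤ ‖x - y‖ := norm_nonneg _
    linarith only [h3, h4]
  · intro x hx
    obtain ⟨h0, h1, h2⟩ := hkey x hx
    have hxb : x ∈ ball (0 : E (n + 1)) (1 / 4) := ball_subset_ball (by norm_num) hx
    have hdiff : x - (x + (g x - x 0) • (ee 0 : E (n + 1))) = (x 0 - g x) • ee 0 := by
      module
    have hnorm : ‖x - (x + (g x - x 0) • (ee 0 : E (n + 1)))‖ = |x 0 - g x| := by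
      rw [hdiff, norm_smul, rG1_norm_ee, mul_one, Real.norm_eq_abs]
    have habove : g x < x 0 → 0 < u x := by
      intro h
      apply (hcc _ h1 h2 x hxb).1
      rw [hnorm, hcoord, abs_of_pos (by (clear * - h; linarith))]
      nlinarith only [h, hκ']
    have hbelow : x 0 < g x → x ∉ closure (pos u) := by
      intro h
      apply (hcc _ h1 h2 x hxb).2
      rw [hnorm, hcoord, abs_of_neg (by linarith only [h])]
      (by_contra nlg; linarith only [h, mul_nonneg (mul_self_nonneg (1 : ℝ)) (sub_nonneg.2 (not_lt.1 nlg)), mul_nonneg (le_of_lt (sub_pos.2 h)) (sub_nonneg.2 hκ')])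
    have heq : x 0 = g x → x ∈ frontier (pos u) := by
      intro h
      have h3 : x + (g x - x 0) • (ee 0 : E (n + 1)) = x := by
        rw [h, sub_self, zero_smul, add_zero]
      rw [← h3]; exact h1
    refine ⟨h0.trans hε', h1, h2, ⟨?_, habove⟩, ⟨?_, heq⟩, ⟨?_, ?_⟩⟩
    · intro h
      by_contra h3
      rcases (not_lt.1 h3).lt_or_eq with h4 | h4
      · exact hbelow h4 (subset_closure h)
      · exact hfr0 x (heq h4) h
    · intro h
      rcases lt_trichotomy (x 0) (g x) with h3 | h3 | h3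
      · exact absurd (frontier_subset_closure h) (hbelow h3)
      · exact h3
      · exact absurd (habove h3) (hfr0 x h)
    · intro h
      by_contra h3
      exact hbelow (not_le.1 h3) h
    · intro h
      rcases h.lt_or_eq with h3 | h3
      · exact subset_closure (habove h3)
      · exact frontier_subset_closure (heq h3.symm)

/-- The closure of the positivity set has unique derivatives near the free boundary. -/
theorem uniqueDiffOn_closure (n : ℕ) : ∃ ε₀ : ℝ, 0 < ε₀ ∧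
    ∀ (L : ℝ≥0) (u : E (n + 1) → ℝ), MinL L u → Trap u (fun x => x 0) (-ε₀) ε₀ 0 1 →
    UniqueDiffOn ℝ (closure (pos u) ∩ ball 0 (1 / 4)) := by
  obtain ⟨ε, κ, hε, hε', hκ, hκ', hcc⟩ := rG1_const n
  refine ⟨ε, hε, fun L u hu hT => ?_⟩
  have hO : IsOpen (pos u) := isOpen_lt continuous_const hu.lip.continuous
  have hcc := hcc L u hu hT
  intro y hy
  by_cases hpos : y ∈ pos u
  · apply uniqueDiffWithinAt_of_mem_nhds
    refine Filter.inter_mem ?_ (isOpen_ball.mem_nhds hy.2)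
    exact Filter.mem_of_superset (hO.mem_nhds hpos) subset_closure
  · have hfr : y ∈ frontier (pos u) := by
      rw [hO.frontier_eq]; exact ⟨hy.1, hpos⟩
    set V : Set (E (n + 1)) := {z | κ * ‖z - y‖ < z 0 - y 0} ∩ ball 0 (1 / 4) with hV
    have hVo : IsOpen V := by
      refine IsOpen.inter (isOpen_lt ?_ ?_) isOpen_ball
      · fun_prop
      · fun_prop
    have hVs : V ⊆ closure (pos u) ∩ ball 0 (1 / 4) := by
      rintro z ⟨hz1, hz2⟩
      exact ⟨subset_closure ((hcc y hfr hy.2 z hz2).1 hz1), hz2⟩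
    have hVc : Convex ℝ V := by
      refine Convex.inter ?_ (convex_ball _ _)
      rw [convex_iff_forall_pos]
      intro z hz w hw a b ha hb hab
      have hz' : κ * ‖z - y‖ < z 0 - y 0 := hz
      have hw' : κ * ‖w - y‖ < w 0 - y 0 := hw
      change κ * ‖a • z + b • w - y‖ < (a • z + b • w : E (n + 1)) 0 - y 0
      have h1 : a • z + b • w - y = a • (z - y) + b • (w - y) := by
        have : y = (a + b) • y := by rw [hab, one_smul]
        nth_rewrite 1 [this]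
        module
      have h2 : ‖a • z + b • w - y‖ ≤ a * ‖z - y‖ + b * ‖w - y‖ := by
        rw [h1]
        refine (norm_add_le _ _).trans ?_
        rw [norm_smul, norm_smul, Real.norm_eq_abs, Real.norm_eq_abs, abs_of_pos ha,
          abs_of_pos hb]
      have h3 : (a • z + b • w : E (n + 1)) 0 = a * z 0 + b * w 0 := by
        simp only [PiLp.add_apply, PiLp.smul_apply, smul_eq_mul]
      rw [h3]
      have h4 := mul_lt_mul_of_pos_left hz' ha
      have h5 := mul_lt_mul_of_pos_left hw' hb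
      have h6 := mul_le_mul_of_nonneg_left h2 hκ.le
      have h7 : y 0 = a * y 0 + b * y 0 := by rw [← add_mul, hab, one_mul]
      linarith
    have hmem : ∀ᶠ t : ℝ in 𝓝[>] 0, y + t • ee 0 ∈ V := by
      have hcont : Continuous (fun t : ℝ => y + t • (ee 0 : E (n + 1))) := by fun_prop
      have h1 : ∀ᶠ t : ℝ in 𝓝 0, y + t • (ee 0 : E (n + 1)) ∈ ball (0 : E (n + 1)) (1 / 4) := by
        apply hcont.continuousAt.eventually_mem
        rw [zero_smul, add_zero]
        exact isOpen_ball.mem_nhds hy.2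
      filter_upwards [h1.filter_mono nhdsWithin_le_nhds, self_mem_nhdsWithin] with t ht1 ht2
      have ht2 : 0 < t := ht2
      refine ⟨?_, ht1⟩
      change κ * ‖y + t • ee 0 - y‖ < (y + t • ee 0 : E (n + 1)) 0 - y 0
      rw [rG1_apply, add_sub_cancel_left, norm_smul, rG1_norm_ee, mul_one, Real.norm_eq_abs,
        abs_of_pos ht2, add_sub_cancel_left]
      (by_contra nlg; linarith only [nlg, mul_nonneg (le_of_lt (sub_pos.2 ht2)) (sub_nonneg.2 hκ'), mul_nonneg (mul_self_nonneg (1 : ℝ)) (sub_nonneg.2 (not_lt.1 nlg)), ht2])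
    have hycl : y ∈ closure V := by
      have htend : Tendsto (fun t : ℝ => y + t • (ee 0 : E (n + 1))) (𝓝[>] 0) (𝓝 y) := by
        have hcont : Continuous (fun t : ℝ => y + t • (ee 0 : E (n + 1))) := by fun_prop
        have := hcont.tendsto 0
        rw [zero_smul, add_zero] at this
        exact this.mono_left nhdsWithin_le_nhds
      exact mem_closure_of_tendsto htend hmem
    have hne : (interior V).Nonempty := by
      rw [hVo.interior_eq]
      obtain ⟨t, ht⟩ := hmem.exists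
      exact ⟨_, ht⟩
    exact (uniqueDiffWithinAt_convex hVc hne hycl).mono hVs

end Vale.Agent.P098
end

section

/-!
# The condition `w_pos` follows from `formC_pos`
-/

namespace Vale.Agent.P098

variable {m : ℕ}

theorem formC_zero (Φ : Fam) (α y v : ℝ) (lam : Fin m → ℝ) (k : Fin m) (t : ℝ) :
    formC Φ α y v lam k 0 t = Φ.w.g y v (pw lam 3) (pw lam 4) * t ^ 2 := by
  have h1 : ∀ j, XX lam 0 j = 0 := fun j => by simp only [XX, Pi.zero_apply, mul_zero, Finset.sum_const_zero]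
  have h2 : ∀ j, qf lam 0 k j = 0 := fun j => by simp only [qf, Pi.zero_apply, ne_eq, OfNat.ofNat_ne_zero, not_false_eq_true, zero_pow, mul_zero, Finset.sum_const_zero]
  have h3 : ∀ a j, XE lam 0 k a j = 0 := fun a j => by simp [XE, h1]
  have h4 : ∀ a j, qe lam 0 k a j = 0 := fun a j => by simp only [qe, Pi.zero_apply, ne_eq, OfNat.ofNat_ne_zero, not_false_eq_true, zero_pow, mul_zero, Finset.sum_const_zero, h1, zero_mul, add_zero, sub_self]
  simp only [formC, h2, mul_zero, h1, add_zero, Finset.sum_const_zero, h4, h3, zero_add]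

/-- `w > 0` if the form is positive. -/
theorem w_pos_of_formC {Φ : Fam} {α : ℝ} {k : Fin m}
    (h : ∀ y v : ℝ, 0 ≤ y → y ≤ 1 → 0 ≤ v → v ≤ 1 → ∀ lam : Fin m → ℝ, pw lam 1 = 0 →
      pw lam 2 ≤ 1 → ∀ (t : ℝ) (x : Fin m → ℝ), ∑ i, x i = 0 →
        ¬ (t = 0 ∧ x = 0) → 0 < formC Φ α y v lam k x t) :
    ∀ y v : ℝ, 0 ≤ y → y ≤ 1 → 0 ≤ v → v ≤ 1 → ∀ lam : Fin m → ℝ, pw lam 1 = 0 →
      pw lam 2 ≤ 1 → 0 < Φ.w.g y v (pw lam 3) (pw lam 4) := by
  intro y v hy0 hy1 hv0 hv1 lam h1 h2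
  have := h y v hy0 hy1 hv0 hv1 lam h1 h2 1 0 (by simp only [Pi.zero_apply, Finset.sum_const_zero]) (by simp)
  rw [formC_zero] at this
  simpa only [gt_iff_lt, one_pow, mul_one] using this

end Vale.Agent.P098
end
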