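import Mathlib
import Vale.Agent.P098.Bdl.B2
import Vale.Agent.P098.Bdl.B11
import Vale.Agent.P098.Bdl.B7
import Vale.Agent.P098.Bdl.B20
attribute [-instance] ProperSMul.toContinuousSMul IsTopologicalTorsor.toContinuousSMul IdemSemiring.toCanonicallyOrderedAdd IdemSemiring.toMulLeftMono IdemSemiring.toMulRightMono AddQuantale.instAddLeftMono AddQuantale.instAddRightMono Quantale.instMulLeftMono Quantale.instMulRightMono FiniteDimensional.rclike_to_real IsScalarTower.complexToReal FiniteDimensional.complexToReal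

set_option linter.all false

section

open MeasureTheory Set Metric Filter
open scoped ContDiff RealInnerProductSpace Topology

namespace Vale.Agent.P098

variable {d : ℕ}

/-! ## The gradient in coordinates -/

theorem inner_gradient (U : E d → ℝ) (x v : E d) : ⟪gradient U x, v⟫ = fderiv ℝ U x v := by
  unfold gradient
  rw [InnerProductSpace.toDual_symm_apply]

theorem gradient_apply (U : E d → ℝ) (x : E d) (i : Fin d) : gradient U x i = P1 U i x := by
  have h := inner_gradient U x (ee i)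
  rw [EuclideanSpace.inner_single_right] at h
  simpa only [P1, Real.ringHom_apply, one_mul] using h

theorem fderiv_eq_sum (f : E d → ℝ) (x v : E d) :
    fderiv ℝ f x v = ∑ i, v i * fderiv ℝ f x (ee i) := by
  have hv : v = ∑ i, v i • ee i := by
    ext j
    simp only [WithLp.ofLp_sum, WithLp.ofLp_smul, PiLp.ofLp_single, Finset.sum_apply, Pi.smul_apply, Pi.single_apply, smul_eq_mul, mul_ite, mul_one, mul_zero, Finset.sum_ite_eq, Finset.mem_univ, ↓reduceIte]
  conv_lhs => rw [hv]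
  simp only [map_sum, map_smul, smul_eq_mul]

theorem norm_gradient_sq (U : E d → ℝ) (x : E d) : ‖gradient U x‖ ^ 2 = ∑ i, P1 U i x ^ 2 := by
  rw [EuclideanSpace.norm_sq_eq]
  refine Finset.sum_congr rfl fun i _ => ?_
  rw [gradient_apply]
  simp

theorem contDiffOn_P1_bd481 {U : E d → ℝ} {N : Set (E d)} (hN : IsOpen N) (hU : ContDiffOn ℝ ∞ U N)
    (i : Fin d) : ContDiffOn ℝ ∞ (P1 U i) N := by
  have h := hU.fderiv_of_isOpen hN (m := ∞) (by simp)
  exact h.clm_apply contDiffOn_const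

theorem contDiffOn_P2_bd480 {U : E d → ℝ} {N : Set (E d)} (hN : IsOpen N) (hU : ContDiffOn ℝ ∞ U N)
    (i j : Fin d) : ContDiffOn ℝ ∞ (P2 U i j) N :=
  contDiffOn_P1_bd481 hN (contDiffOn_P1_bd481 hN hU i) j

theorem contDiffAt_P1 {U : E d → ℝ} {N : Set (E d)} (hN : IsOpen N) (hU : ContDiffOn ℝ ∞ U N)
    {x : E d} (hx : x ∈ N) (i : Fin d) : ContDiffAt ℝ ∞ (P1 U i) x :=
  (contDiffOn_P1_bd481 hN hU i).contDiffAt (hN.mem_nhds hx)

theorem contDiffAt_P2 {U : E d → ℝ} {N : Set (E d)} (hN : IsOpen N) (hU : ContDiffOn ℝ ∞ U N)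
    {x : E d} (hx : x ∈ N) (i j : Fin d) : ContDiffAt ℝ ∞ (P2 U i j) x :=
  (contDiffOn_P2_bd480 hN hU i j).contDiffAt (hN.mem_nhds hx)

theorem contDiffOn_gradient {U : E d → ℝ} {N : Set (E d)} (hN : IsOpen N)
    (hU : ContDiffOn ℝ ∞ U N) : ContDiffOn ℝ ∞ (gradient U) N := by
  rw [contDiffOn_euclidean]
  intro i
  refine (contDiffOn_P1_bd481 hN hU i).congr fun y _ => ?_
  exact gradient_apply U y i

/-- `curv` in coordinates. -/
theorem curv_eq {U : E d → ℝ} {N : Set (E d)} (hN : IsOpen N) (hU : ContDiffOn ℝ ∞ U N)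
    {x : E d} (hx : x ∈ N) :
    curv U x = - ∑ j, (∑ i, P2 U i j x * P1 U i x) * P1 U j x := by
  have hd : DifferentiableAt ℝ (gradient U) x :=
    ((contDiffOn_gradient hN hU).contDiffAt (hN.mem_nhds hx)).differentiableAt (by simp)
  have hcomp : ∀ (v : E d) (i : Fin d),
      (fderiv ℝ (gradient U) x v) i = fderiv ℝ (P1 U i) x v := by
    intro v i
    have h1 : HasFDerivAt (fun y => gradient U y i)
        ((EuclideanSpace.proj (𝕜 := ℝ) i).comp (fderiv ℝ (gradient U) x)) x :=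
      ((EuclideanSpace.proj (𝕜 := ℝ) i).hasFDerivAt).comp x hd.hasFDerivAt
    have h2 : (fun y => gradient U y i) = P1 U i := funext fun y => gradient_apply U y i
    rw [h2] at h1
    rw [h1.fderiv]
    rfl
  unfold curv
  congr 1
  rw [PiLp.inner_apply]
  simp only [hcomp]
  have h3 : ∀ i, ⟪fderiv ℝ (P1 U i) x (gradient U x), gradient U x i⟫
      = ∑ j, P2 U i j x * P1 U j x * P1 U i x := by
    intro i
    rw [fderiv_eq_sum]
    simp only [gradient_apply, RCLike.inner_apply, conj_trivial]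
    rw [mul_comm, Finset.sum_mul]
    refine Finset.sum_congr rfl fun j _ => ?_
    unfold P2
    rw [show fderiv ℝ (P1 U i) x (ee j) = P1 (P1 U i) j x from rfl]
    ring
  rw [Finset.sum_congr rfl fun i _ => h3 i, Finset.sum_comm]
  refine Finset.sum_congr rfl fun j _ => ?_
  rw [Finset.sum_mul]
  refine Finset.sum_congr rfl fun i _ => ?_
  ring

/-! ## Local structure of the positivity set -/

/-- On the closure of `{u > 0}` inside `N`, `U = u`. -/
theorem eq_on_closure {u : E d → ℝ} (hc : Continuous u) {N : Set (E d)} {U : E d → ℝ}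
    (hU : LocalExt u N U) {z : E d} (hz : z ∈ N) (hzc : z ∈ closure {y | 0 < u y}) :
    U z = u z := by
  have hUc : ContinuousAt U z := (hU.smooth.contDiffAt (hU.isOpen.mem_nhds hz)).continuousAt
  have hmem : z ∈ closure ({y | 0 < u y} ∩ N) := by
    rw [inter_comm]
    exact (hU.isOpen.inter_closure ⟨hz, hzc⟩)
  have hne : (𝓝[{y | 0 < u y} ∩ N] z).NeBot := mem_closure_iff_nhdsWithin_neBot.1 hmem
  have h1 : Tendsto U (𝓝[{y | 0 < u y} ∩ N] z) (𝓝 (U z)) := hUc.mono_left nhdsWithin_le_nhds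
  have h2 : Tendsto u (𝓝[{y | 0 < u y} ∩ N] z) (𝓝 (u z)) :=
    hc.continuousAt.mono_left nhdsWithin_le_nhds
  have h3 : U =ᶠ[𝓝[{y | 0 < u y} ∩ N] z] u := by
    filter_upwards [self_mem_nhdsWithin] with y hy
    exact hU.eq y hy.2 hy.1
  exact tendsto_nhds_unique (h1.congr' h3) h2

/-- A preconnected subset of `N` on which `U > 0` that meets `{u > 0}` is contained in it. -/
theorem subset_of_preconnected {u : E d → ℝ} (hc : Continuous u) {N : Set (E d)} {U : E d → ℝ}
    (hU : LocalExt u N U) {A : Set (E d)} (hA : IsPreconnected A) (hAN : A ⊆ N)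
    (hpos : ∀ y ∈ A, 0 < U y) (hne : (A ∩ {y | 0 < u y}).Nonempty) : A ⊆ {y | 0 < u y} := by
  refine hA.subset_of_closure_inter_subset (isOpen_lt continuous_const hc) hne ?_
  rintro z ⟨hz1, hz2⟩
  have := eq_on_closure hc hU (hAN hz2) hz1
  show 0 < u z
  rw [← this]
  exact hpos z hz2

/-- Growth along the direction `p`. -/
theorem growth_along {U : E d → ℝ} {B : Set (E d)} (hBc : Convex ℝ B)
    (hUd : ∀ y ∈ B, DifferentiableAt ℝ U y) {p : E d} (hp : ∀ y ∈ B, 1 / 2 ≤ fderiv ℝ U y p)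
    {y : E d} {s : ℝ} (hs : 0 ≤ s) (hy : y ∈ B) (hys : y + s • p ∈ B) :
    U y + s / 2 ≤ U (y + s • p) := by
  have hmem : ∀ t ∈ Icc (0 : ℝ) s, y + t • p ∈ B := by
    intro t ht
    rcases eq_or_lt_of_le hs with h0 | h0
    · have : t = 0 := le_antisymm (by simpa only [← h0] using ht.2) ht.1
      simpa only [this, zero_smul, add_zero] using hy
    · have h := hBc.add_smul_sub_mem hy hys (t := t / s)
        ⟨div_nonneg ht.1 hs, (div_le_one h0).2 ht.2⟩
      have h2 : y + (t / s) • (y + s • p - y) = y + t • p := by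
        rw [add_sub_cancel_left, smul_smul, div_mul_cancel₀ _ h0.ne']
      rwa [h2] at h
  have hder : ∀ t ∈ Icc (0 : ℝ) s,
      HasDerivAt (fun t : ℝ => U (y + t • p)) (fderiv ℝ U (y + t • p) p) t := by
    intro t ht
    have h1 : HasDerivAt (fun t : ℝ => y + t • p) p t := by
      simpa using ((hasDerivAt_id t).smul_const p).const_add y
    exact ((hUd _ (hmem t ht)).hasFDerivAt).comp_hasDerivAt t h1
  have hcont : ContinuousOn (fun t : ℝ => U (y + t • p)) (Icc 0 s) := fun t ht =>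
    (hder t ht).continuousAt.continuousWithinAt
  have key := (convex_Icc (0 : ℝ) s).mul_sub_le_image_sub_of_le_deriv (C := 1 / 2) hcont
    (fun t ht => ((hder t (interior_subset ht)).differentiableAt).differentiableWithinAt)
    (fun t ht => by
      rw [(hder t (interior_subset ht)).deriv]
      exact hp _ (hmem t (interior_subset ht)))
    0 ⟨le_refl _, hs⟩ s ⟨hs, le_refl _⟩ hs
  simp only [sub_zero, zero_smul, add_zero] at key
  linarith

/-- Near a free boundary point, `{u > 0} = {U > 0}` and the zero set of `U` is the free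
boundary. -/
theorem local_structure {u : E d → ℝ} (hc : Continuous u) (h0 : ∀ x, 0 ≤ u x)
    {N : Set (E d)} {U : E d → ℝ} (hU : LocalExt u N U)
    {x : E d} (hx : x ∈ N) (hxf : x ∈ frontier {y | 0 < u y}) :
    ∃ ρ > 0, ball x ρ ⊆ N ∧ (∀ y ∈ ball x ρ, 0 < U y → 0 < u y) ∧
      (∀ y ∈ ball x ρ, U y = 0 → y ∈ frontier {y | 0 < u y}) := by
  have hopen : IsOpen {y | 0 < u y} := isOpen_lt continuous_const hc
  have hfr : ∀ y, y ∈ frontier {y | 0 < u y} ↔ y ∈ closure {y | 0 < u y} ∧ ¬ 0 < u y := by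
    intro y
    rw [hopen.frontier_eq]
    rfl
  have hUx : U x = 0 := by
    rw [eq_on_closure hc hU hx ((hfr x).1 hxf).1]
    exact le_antisymm (not_lt.1 ((hfr x).1 hxf).2) (h0 x)
  set p : E d := gradient U x with hp
  have hp1 : ‖p‖ = 1 := hU.grad x hx hxf
  have hCfd : ContinuousAt (fderiv ℝ U) x :=
    ((hU.smooth.fderiv_of_isOpen hU.isOpen (m := ∞) (by simp)).contDiffAt
      (hU.isOpen.mem_nhds hx)).continuousAt
  have hfx : fderiv ℝ U x p = 1 := by
    rw [← inner_gradient, ← hp, real_inner_self_eq_norm_sq, hp1]; norm_num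
  have hnx : ‖fderiv ℝ U x‖ = 1 := by
    rw [← hp1, hp]
    unfold gradient
    simp
  have e1 : ∀ᶠ y in 𝓝 x, 1 / 2 < fderiv ℝ U y p := by
    have : ContinuousAt (fun y => fderiv ℝ U y p) x := hCfd.clm_apply continuousAt_const
    exact this.eventually (lt_mem_nhds (by show 1 / 2 < fderiv ℝ U x p; rw [hfx]; norm_num))
  have e2 : ∀ᶠ y in 𝓝 x, ‖fderiv ℝ U y‖ < 2 :=
    hCfd.norm.eventually (gt_mem_nhds (by show ‖fderiv ℝ U x‖ < 2; rw [hnx]; norm_num))
  obtain ⟨R, hR, hball⟩ := Metric.eventually_nhds_iff_ball.1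
    ((e1.and e2).and (hU.isOpen.mem_nhds hx : ∀ᶠ y in 𝓝 x, y ∈ N))
  set r : ℝ := R / 2 with hr
  have hr0 : 0 < r := by (clear * - hR; positivity)
  have hR2 : R = 2 * r := by rw [hr]; ring
  have hUd : ∀ y ∈ ball x R, DifferentiableAt ℝ U y := fun y hy =>
    (hU.smooth.contDiffAt (hU.isOpen.mem_nhds (hball y hy).2)).differentiableAt (by simp)
  have hgrow : ∀ (y : E d) (s : ℝ), 0 ≤ s → y ∈ ball x R → y + s • p ∈ ball x R →
      U y + s / 2 ≤ U (y + s • p) := fun y s hs hy hys =>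
    growth_along (convex_ball x R) hUd (fun y hy => (hball y hy).1.1.le) hs hy hys
  have hρ : 0 < r / 16 := by (clear * - hR; positivity)
  have hBR : ball x (r / 16) ⊆ ball x R := ball_subset_ball (by rw [hR2]; linarith only [hr0])
  have hBN : ball x (r / 16) ⊆ N := fun y hy => (hball y (hBR hy)).2
  -- the top ball
  set T : Set (E d) := ball (x + r • p) (r / 16) with hT
  have hTR : T ⊆ ball x R := by
    intro z hz
    rw [mem_ball_iff_norm] at hz ⊢
    have h1 : ‖z - x‖ ≤ ‖z - (x + r • p)‖ + ‖r • p‖ := by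
      have : z - x = (z - (x + r • p)) + r • p := by abel
      rw [this]; exact norm_add_le _ _
    rw [norm_smul, hp1, Real.norm_of_nonneg hr0.le] at h1
    rw [hR2]; linarith only [hr0, hz, h1]
  have hxR : x ∈ ball x R := mem_ball_self hR
  have hxrp : x + r • p ∈ T := mem_ball_self hρ
  have hTpos : ∀ z ∈ T, 0 < U z := by
    intro z hz
    have h1 : ‖U z - U (x + r • p)‖ ≤ 2 * ‖z - (x + r • p)‖ :=
      (convex_ball x R).norm_image_sub_le_of_norm_fderiv_le (𝕜 := ℝ) hUd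
        (fun y hy => (hball y hy).1.2.le) (hTR hxrp) (hTR hz)
    have h2 := hgrow x r hr0.le hxR (hTR hxrp)
    rw [hUx] at h2
    have h3 : ‖z - (x + r • p)‖ < r / 16 := mem_ball_iff_norm.1 hz
    rw [Real.norm_eq_abs] at h1
    have h4 := (abs_le.1 h1).1
    linarith only [hr0, h2, h3, h4]
  have hTN : T ⊆ N := fun y hy => (hball y (hTR hy)).2
  have hTconn : IsPreconnected T := (convex_ball _ _).isPreconnected
  -- the sets `S_y ∪ T`
  have hseg : ∀ y ∈ ball x (r / 16), 0 < U y →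
      IsPreconnected (segment ℝ y (y + r • p) ∪ T) ∧ segment ℝ y (y + r • p) ∪ T ⊆ N ∧
      ∀ z ∈ segment ℝ y (y + r • p) ∪ T, 0 < U z := by
    intro y hy hUy
    have hyT : y + r • p ∈ T := by
      rw [hT, mem_ball_iff_norm]
      have : y + r • p - (x + r • p) = y - x := by abel
      rw [this]; exact mem_ball_iff_norm.1 hy
    have hsub : segment ℝ y (y + r • p) ⊆ ball x R :=
      (convex_ball x R).segment_subset (hBR hy) (hTR hyT)
    refine ⟨?_, ?_, ?_⟩
    · exact IsPreconnected.union (y + r • p) (right_mem_segment ℝ _ _) hyT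
        (convex_segment _ _).isPreconnected hTconn
    · rintro z (hz | hz)
      · exact (hball z (hsub hz)).2
      · exact hTN hz
    · rintro z (hz | hz)
      · have hz' := hsub hz
        rw [segment_eq_image'] at hz
        obtain ⟨t, ht, rfl⟩ := hz
        have h5 : y + t • (y + r • p - y) = y + (t * r) • p := by
          rw [add_sub_cancel_left, smul_smul]
        simp only [h5] at hz' ⊢
        have := hgrow y (t * r) (mul_nonneg ht.1 hr0.le) (hBR hy) hz'
        have h6 : 0 ≤ t * r := mul_nonneg ht.1 hr0.le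
        linarith only [hUy, this, h6]
      · exact hTpos z hz
  have hTO : T ⊆ {y | 0 < u y} := by
    have hcl := ((hfr x).1 hxf).1
    obtain ⟨y0, hy0, hy0u⟩ := mem_closure_iff.1 hcl (ball x (r / 16)) isOpen_ball
      (mem_ball_self hρ)
    have hUy0 : 0 < U y0 := by rw [hU.eq y0 (hBN hy0) hy0u]; exact hy0u
    obtain ⟨h1, h2, h3⟩ := hseg y0 hy0 hUy0
    exact subset_union_right.trans (subset_of_preconnected hc hU h1 h2 h3
      ⟨y0, Or.inl (left_mem_segment ℝ _ _), hy0u⟩)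
  have hpos : ∀ y ∈ ball x (r / 16), 0 < U y → 0 < u y := by
    intro y hy hUy
    obtain ⟨h1, h2, h3⟩ := hseg y hy hUy
    exact subset_of_preconnected hc hU h1 h2 h3 ⟨x + r • p, Or.inr hxrp, hTO hxrp⟩
      (Or.inl (left_mem_segment ℝ _ _))
  refine ⟨r / 16, hρ, hBN, hpos, ?_⟩
  intro y hy hUy
  rw [hfr]
  constructor
  · have hlim : Tendsto (fun s : ℝ => y + s • p) (𝓝[>] 0) (𝓝 y) := by
      have h1 : Continuous (fun s : ℝ => y + s • p) := by fun_prop
      have h2 := h1.tendsto 0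
      simp only [zero_smul, add_zero] at h2
      exact h2.mono_left nhdsWithin_le_nhds
    refine mem_closure_of_tendsto hlim ?_
    filter_upwards [hlim.eventually (isOpen_ball.mem_nhds hy), self_mem_nhdsWithin] with s hs hs0
    refine hpos _ hs ?_
    have h0s : (0 : ℝ) < s := hs0
    have := hgrow y s h0s.le (hBR hy) (hBR hs)
    rw [hUy] at this
    linarith only [h0s, this]
  · intro hu
    have := hU.eq y (hBN hy) hu
    rw [hUy] at this
    exact absurd this (ne_of_lt hu)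

/-! ## Derivatives of functions vanishing on the free boundary -/

/-- A `C¹` function vanishing on the free boundary near `x` has zero tangential derivative. -/
theorem tangential_deriv {u : E d → ℝ} (hc : Continuous u) (h0 : ∀ x, 0 ≤ u x)
    {N : Set (E d)} {U : E d → ℝ} (hU : LocalExt u N U)
    {x : E d} (hx : x ∈ N) (hxf : x ∈ frontier {y | 0 < u y}) {f : E d → ℝ}
    (hf : ContDiffAt ℝ 1 f x) (hf0 : ∀ y ∈ N, y ∈ frontier {y | 0 < u y} → f y = 0)
    {τ : E d} (hτ : fderiv ℝ U x τ = 0) : fderiv ℝ f x τ = 0 := by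
  obtain ⟨ρ, hρ, hBN, -, hB⟩ := local_structure hc h0 hU hx hxf
  have hUx : U x = 0 := by
    have hopen : IsOpen {y | 0 < u y} := isOpen_lt continuous_const hc
    rw [hopen.frontier_eq] at hxf
    rw [eq_on_closure hc hU hx hxf.1]
    exact le_antisymm (not_lt.1 hxf.2) (h0 x)
  have hext : IsLocalExtrOn f {y | U y = U x} x := by
    refine Or.inl ?_
    have hfx : f x = 0 := hf0 x hx hxf
    show ∀ᶠ y in 𝓝[{y | U y = U x}] x, f x ≤ f y
    filter_upwards [self_mem_nhdsWithin, mem_nhdsWithin_of_mem_nhds (ball_mem_nhds x hρ)]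
      with y hy hyB
    have hy' : U y = 0 := by rw [← hUx]; exact hy
    rw [hfx, hf0 y (hBN hyB) (hB y hyB hy')]
  have hUs : HasStrictFDerivAt U (fderiv ℝ U x) x :=
    (hU.smooth.contDiffAt (hU.isOpen.mem_nhds hx)).hasStrictFDerivAt (by simp)
  have hfs : HasStrictFDerivAt f (fderiv ℝ f x) x := hf.hasStrictFDerivAt (by simp)
  obtain ⟨a, b, hab, hsum⟩ := hext.exists_multipliers_of_hasStrictFDerivAt_1d hUs hfs
  have hne : fderiv ℝ U x ≠ 0 := by
    intro h
    have h1 := hU.grad x hx hxf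
    have : gradient U x = 0 := by unfold gradient; rw [h]; simp
    rw [this] at h1
    simp only [norm_zero, zero_ne_one] at h1
  have hb : b ≠ 0 := by
    intro hb
    rw [hb, zero_smul, add_zero] at hsum
    rcases smul_eq_zero.1 hsum with h | h
    · exact hab (by rw [h, hb]; rfl)
    · exact hne h
  have h2 : a * fderiv ℝ U x τ + b * fderiv ℝ f x τ = 0 := by
    have := congrArg (fun L : E d →L[ℝ] ℝ => L τ) hsum
    simpa only [add_apply, smul_apply, smul_eq_mul, zero_apply] using this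
  rw [hτ, mul_zero, zero_add] at h2
  exact (mul_eq_zero.1 h2).resolve_left hb

theorem boundary_first {u : E d → ℝ} (hc : Continuous u) (h0 : ∀ x, 0 ≤ u x)
    {N : Set (E d)} {U : E d → ℝ} (hU : LocalExt u N U)
    {x : E d} (hx : x ∈ N) (hxf : x ∈ frontier {y | 0 < u y}) (j : Fin d) :
    ∑ i, P2 U i j x * P1 U i x = - curv U x * P1 U j x := by
  have hp1 : ∑ i, P1 U i x ^ 2 = 1 := by
    rw [← norm_gradient_sq, hU.grad x hx hxf]; norm_num
  have hdiff : ∀ i, DifferentiableAt ℝ (P1 U i) x := fun i =>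
    (contDiffAt_P1 hU.isOpen hU.smooth hx i).differentiableAt (by simp)
  set f : E d → ℝ := fun y => ∑ i, P1 U i y ^ 2 - 1 with hf
  have hfC : ContDiffAt ℝ 1 f x := by
    refine ContDiffAt.sub (ContDiffAt.sum fun i _ => ?_) contDiffAt_const
    exact ((contDiffAt_P1 hU.isOpen hU.smooth hx i).of_le (by simp only [WithTop.one_le_coe, le_top])).pow 2
  have hf0 : ∀ y ∈ N, y ∈ frontier {y | 0 < u y} → f y = 0 := by
    intro y hy hyf
    rw [hf]
    simp only
    rw [← norm_gradient_sq, hU.grad y hy hyf]; norm_num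
  have hder : ∀ v : E d, fderiv ℝ f x v = 2 * ∑ k, v k * ∑ i, P2 U i k x * P1 U i x := by
    intro v
    have h1 : HasFDerivAt f (∑ i, (2 * P1 U i x) • fderiv ℝ (P1 U i) x) x := by
      rw [hf]
      refine HasFDerivAt.sub_const _ (HasFDerivAt.fun_sum fun i _ => ?_)
      have := (hdiff i).hasFDerivAt.pow 2
      simpa only [Nat.add_one_sub_one, pow_one, nsmul_eq_mul, Nat.cast_ofNat] using this
    rw [h1.fderiv]
    simp only [_root_.sum_apply, _root_.smul_apply, smul_eq_mul]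
    have h2 : ∀ i, 2 * P1 U i x * fderiv ℝ (P1 U i) x v
        = ∑ k, 2 * (v k * (P2 U i k x * P1 U i x)) := by
      intro i
      rw [fderiv_eq_sum, Finset.mul_sum]
      refine Finset.sum_congr rfl fun k _ => ?_
      rw [show fderiv ℝ (P1 U i) x (ee k) = P2 U i k x from rfl]
      ring
    rw [Finset.sum_congr rfl fun i _ => h2 i, Finset.sum_comm, Finset.mul_sum]
    refine Finset.sum_congr rfl fun k _ => ?_
    rw [Finset.mul_sum, Finset.mul_sum]
  set w : Fin d → ℝ := fun k => ∑ i, P2 U i k x * P1 U i x with hw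
  set p : E d := gradient U x with hp
  have hpi : ∀ i, p i = P1 U i x := fun i => gradient_apply U x i
  -- tangential vector
  have ht := tangential_deriv hc h0 hU hx hxf hfC hf0 (τ := ee j - P1 U j x • p) (by
    rw [map_sub, map_smul, smul_eq_mul, ← inner_gradient U x p, ← hp,
      real_inner_self_eq_norm_sq, hp, hU.grad x hx hxf]
    show P1 U j x - _ = 0
    ring)
  rw [hder] at ht
  have h3 : ∑ k, (ee j - P1 U j x • p) k * w k = w j - P1 U j x * ∑ k, P1 U k x * w k := by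
    rw [Finset.mul_sum]
    have : w j = ∑ k, (if k = j then w k else 0) := by simp only [Finset.sum_ite_eq', Finset.mem_univ, ↓reduceIte]
    rw [this, ← Finset.sum_sub_distrib]
    refine Finset.sum_congr rfl fun k _ => ?_
    rw [PiLp.sub_apply, PiLp.smul_apply, hpi]
    by_cases hk : k = j
    · subst hk
      simp
      ring
    · simp only [ne_eq, hk, not_false_eq_true, PiLp.single_eq_of_ne, smul_eq_mul, zero_sub, neg_mul, ↓reduceIte, neg_inj]
      ring
  have h4 : w j - P1 U j x * ∑ k, P1 U k x * w k = 0 := by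
    rw [← h3]
    linarith only [ht]
  have h5 : curv U x = - ∑ k, P1 U k x * w k := by
    rw [curv_eq hU.isOpen hU.smooth hx]
    congr 1
    refine Finset.sum_congr rfl fun k _ => ?_
    rw [hw]
    ring
  show w j = _
  rw [h5]
  linarith only [ht, h3]

theorem boundary_second {u : E d → ℝ} (hc : Continuous u) (h0 : ∀ x, 0 ≤ u x)
    {N : Set (E d)} {U : E d → ℝ} (hU : LocalExt u N U)
    {x : E d} (hx : x ∈ N) (hxf : x ∈ frontier {y | 0 < u y}) {τ : Fin d → ℝ}
    (hτ : ∑ i, τ i * P1 U i x = 0) :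
    ∑ i, ∑ j, ∑ k, P3 U i j k x * P1 U i x * τ j * τ k
      = - curv U x * (∑ j, ∑ k, P2 U j k x * τ j * τ k)
        - ∑ i, (∑ j, P2 U i j x * τ j) ^ 2 := by
  set T : E d := WithLp.toLp 2 τ with hT
  have hTi : ∀ i, T i = τ i := fun i => rfl
  have hC1 : ∀ i, ContDiffAt ℝ 1 (P1 U i) x := fun i =>
    (contDiffAt_P1 hU.isOpen hU.smooth hx i).of_le (by simp only [WithTop.one_le_coe, le_top])
  have hC2 : ∀ i j, ContDiffAt ℝ 1 (P2 U i j) x := fun i j =>
    (contDiffAt_P2 hU.isOpen hU.smooth hx i j).of_le (by simp only [WithTop.one_le_coe, le_top])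
  set w : Fin d → E d → ℝ := fun j y => ∑ i, P2 U i j y * P1 U i y with hw
  set c : E d → ℝ := fun y => - ∑ j, w j y * P1 U j y with hcdef
  have hcx : ∀ y ∈ N, curv U y = c y := fun y hy => curv_eq hU.isOpen hU.smooth hy
  have hwC : ∀ j, ContDiffAt ℝ 1 (w j) x := fun j =>
    ContDiffAt.sum fun i _ => (hC2 i j).mul (hC1 i)
  have hcC : ContDiffAt ℝ 1 c x := (ContDiffAt.sum fun j _ => (hwC j).mul (hC1 j)).neg
  set f : E d → ℝ := fun y => ∑ j, τ j * (w j y + c y * P1 U j y) with hf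
  have hfC : ContDiffAt ℝ 1 f x :=
    ContDiffAt.sum fun j _ => contDiffAt_const.mul ((hwC j).add (hcC.mul (hC1 j)))
  have hf0 : ∀ y ∈ N, y ∈ frontier {y | 0 < u y} → f y = 0 := by
    intro y hy hyf
    refine Finset.sum_eq_zero fun j _ => ?_
    have h1 : w j y = - curv U y * P1 U j y := boundary_first hc h0 hU hy hyf j
    rw [h1, hcx y hy]
    ring
  have ht := tangential_deriv hc h0 hU hx hxf hfC hf0 (τ := T) (by
    rw [fderiv_eq_sum]
    exact hτ)
  have hd1 : ∀ i, DifferentiableAt ℝ (P1 U i) x := fun i => (hC1 i).differentiableAt (by simp)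
  have hd2 : ∀ i j, DifferentiableAt ℝ (P2 U i j) x := fun i j =>
    (hC2 i j).differentiableAt (by simp)
  have hdw : ∀ j, DifferentiableAt ℝ (w j) x := fun j => (hwC j).differentiableAt (by simp)
  have hdc : DifferentiableAt ℝ c x := hcC.differentiableAt (by simp)
  have e1 : ∀ i, fderiv ℝ (P1 U i) x T = ∑ k, τ k * P2 U i k x := by
    intro i
    rw [fderiv_eq_sum]
    rfl
  have e2 : ∀ i j, fderiv ℝ (P2 U i j) x T = ∑ k, τ k * P3 U i j k x := by
    intro i j
    rw [fderiv_eq_sum]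
    rfl
  have ew : ∀ j, fderiv ℝ (w j) x T
      = ∑ i, (P2 U i j x * (∑ k, τ k * P2 U i k x) + P1 U i x * (∑ k, τ k * P3 U i j k x)) := by
    intro j
    have h1 : HasFDerivAt (w j)
        (∑ i, (P2 U i j x • fderiv ℝ (P1 U i) x + P1 U i x • fderiv ℝ (P2 U i j) x)) x :=
      HasFDerivAt.fun_sum fun i _ => (hd2 i j).hasFDerivAt.mul (hd1 i).hasFDerivAt
    rw [h1.fderiv]
    simp only [_root_.sum_apply, _root_.add_apply, _root_.smul_apply, smul_eq_mul, e1, e2]
  have ef : fderiv ℝ f x T = ∑ j, τ j * (fderiv ℝ (w j) x T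
      + (c x * fderiv ℝ (P1 U j) x T + P1 U j x * fderiv ℝ c x T)) := by
    have h1 : HasFDerivAt f
        (∑ j, τ j • (fderiv ℝ (w j) x + (c x • fderiv ℝ (P1 U j) x
          + P1 U j x • fderiv ℝ c x))) x :=
      HasFDerivAt.fun_sum fun j _ => ((hdw j).hasFDerivAt.add
        (hdc.hasFDerivAt.mul (hd1 j).hasFDerivAt)).const_mul (τ j)
    rw [h1.fderiv]
    simp only [sum_apply, smul_apply, add_apply, smul_eq_mul]
  rw [ef] at ht
  simp only [ew, e1, mul_add, Finset.sum_add_distrib] at ht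
  -- the term with `fderiv c` vanishes
  have hz : ∑ j, τ j * (P1 U j x * fderiv ℝ c x T) = 0 := by
    have : ∀ j, τ j * (P1 U j x * fderiv ℝ c x T) = (τ j * P1 U j x) * fderiv ℝ c x T :=
      fun j => by ring
    rw [Finset.sum_congr rfl fun j _ => this j, ← Finset.sum_mul, hτ, zero_mul]
  rw [hz, add_zero] at ht
  rw [hcx x hx]
  have a1 : ∑ j, τ j * ∑ i, P1 U i x * (∑ k, τ k * P3 U i j k x)
      = ∑ i, ∑ j, ∑ k, P3 U i j k x * P1 U i x * τ j * τ k := by
    simp only [Finset.mul_sum]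
    rw [Finset.sum_comm]
    refine Finset.sum_congr rfl fun i _ => Finset.sum_congr rfl fun j _ =>
      Finset.sum_congr rfl fun k _ => ?_
    ring
  have a2 : ∑ j, τ j * ∑ i, P2 U i j x * (∑ k, τ k * P2 U i k x)
      = ∑ i, (∑ j, P2 U i j x * τ j) ^ 2 := by
    have h1 : ∀ i, (∑ j, P2 U i j x * τ j) ^ 2
        = ∑ j, ∑ k, τ j * (P2 U i j x * (τ k * P2 U i k x)) := by
      intro i
      rw [sq, Finset.sum_mul_sum]
      refine Finset.sum_congr rfl fun j _ => Finset.sum_congr rfl fun k _ => ?_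
      ring
    rw [Finset.sum_congr rfl fun i _ => h1 i]
    simp only [Finset.mul_sum]
    rw [Finset.sum_comm]
  have a3 : ∑ j, τ j * (c x * ∑ k, τ k * P2 U j k x)
      = c x * (∑ j, ∑ k, P2 U j k x * τ j * τ k) := by
    simp only [Finset.mul_sum]
    refine Finset.sum_congr rfl fun j _ => Finset.sum_congr rfl fun k _ => ?_
    ring
  rw [a1, a2, a3] at ht
  (clear * - ht; linarith)

end Vale.Agent.P098
end

section

/-! # G3: extension of smooth functions from a half ball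

Seeley's (or Borel's) extension theorem; a pure analysis statement, independent of everything.

Route A (Borel). Multiply `f` by a smooth cutoff (`= 1` on `ball 0 (R/2)`, support in
`ball 0 (3R/4)`), so `f` is `C^∞` within `H = {0 ≤ x 0}` with bounded support. For `j ≥ 0` let
`c_j(x) = ∂₀^j f` at the projection `x - x 0 • ee 0` (one-sided derivative, = iteratedFDerivWithin
on `H` applied to `ee 0`); `c_j` is a `C^∞` function on the whole space (composition of the smooth
function `∂₀^j f` on `H` with the projection into `H`), bounded with all its derivatives. Let `φ` be a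
smooth bump, `φ = 1` near `0`, and `G x = ∑_j c_j(x) (x 0)^j / j! · φ(λ_j x 0)` with `λ_j` growing so
fast that the series converges with all derivatives (`contDiff_tsum`). Then all derivatives of
`G` and `f` agree on `{x 0 = 0}`. Finally `f - G` is `C^∞` on `H` and flat on `{x 0 = 0}`, so its
extension by `0` is `C^∞` (induction: the extension of a `C^1` function which vanishes with its
derivative on the boundary is `C^1`, and its derivative is the extension of the derivative).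
`F = G + ext₀(f - G)`.

Route B (Seeley). `F x = f x` for `x 0 ≥ 0` and `F x = ∑_k a_k φ(2^k x 0) f(x - (1 + 2^k)(x 0) ee 0)`
for `x 0 < 0`, with `∑_k a_k (-2^k)^m = 1` for all `m ≥ 0` and `∑ |a_k| 2^{km} < ∞`.

Formalized: Route B with reflection factors `w_k = 4·2^k - 3` and `a_k = -b_{k+1}`,
`b_{k+1} = -2 b_k/(2^{k+1}-1)` (`rG3_moment`); Taylor series are glued along the hyperplane. -/

open MeasureTheory Set Metric Filter
open scoped ContDiff RealInnerProductSpace Topology NNReal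

namespace Vale.Agent.P098

variable {d : ℕ}

/-- Coefficients of the Seeley type extension. -/
noncomputable def rG3_b : ℕ → ℝ
  | 0 => 1
  | k + 1 => -2 / (2 ^ (k + 1) - 1) * rG3_b k

theorem rG3_summable (m : ℕ) : Summable (fun k => rG3_b k * (2 ^ m) ^ k) := by
  refine summable_of_ratio_norm_eventually_le (r := 1 / 2) (by norm_num) ?_
  filter_upwards [eventually_ge_atTop (m + 2)] with k hk
  have h1 : (2 : ℝ) ^ (m + 3) ≤ 2 ^ (k + 1) := pow_le_pow_right₀ (by norm_num) (by omega)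
  have h2 : (1 : ℝ) ≤ 2 ^ m := one_le_pow₀ (by norm_num)
  have h3 : (2 : ℝ) ^ (m + 3) = 8 * 2 ^ m := by ring
  have h4 : (4 : ℝ) * 2 ^ m ≤ 2 ^ (k + 1) - 1 := by linarith only [h1, h2, h3]
  have h5 : (0 : ℝ) < 2 ^ (k + 1) - 1 := by linarith only [h1, h2, h3]
  have h6 : rG3_b (k + 1) * (2 ^ m) ^ (k + 1)
      = (-2 * 2 ^ m / (2 ^ (k + 1) - 1)) * (rG3_b k * (2 ^ m) ^ k) := by
    rw [rG3_b]; ring
  rw [h6, norm_mul]
  refine mul_le_mul_of_nonneg_right ?_ (norm_nonneg _)
  rw [norm_div, Real.norm_of_nonneg h5.le, div_le_div_iff₀ h5 (by norm_num)]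
  have : ‖(-2 * 2 ^ m : ℝ)‖ = 2 * 2 ^ m := by
    rw [norm_mul, Real.norm_of_nonneg (by positivity : (0 : ℝ) ≤ 2 ^ m)]; norm_num
  rw [this]; linarith only [h1, h2, h3]

theorem rG3_summable' (x : ℝ) (hx : 0 ≤ x) : Summable (fun k => rG3_b k * x ^ k) := by
  obtain ⟨m, hm⟩ := pow_unbounded_of_one_lt x (by norm_num : (1 : ℝ) < 2)
  refine Summable.of_norm_bounded ((rG3_summable m).norm) fun k => ?_
  rw [norm_mul, norm_mul, norm_pow, norm_pow, Real.norm_of_nonneg hx,
    Real.norm_of_nonneg (by positivity : (0 : ℝ) ≤ 2 ^ m)]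
  gcongr

theorem rG3_feq (x : ℝ) (hx : 0 ≤ x) :
    ∑' k, rG3_b k * (2 * x) ^ k = (1 - 2 * x) * ∑' k, rG3_b k * x ^ k := by
  have h1 := rG3_summable' x hx
  have h2 := rG3_summable' (2 * x) (by positivity)
  have h3 : ∑' k, (rG3_b k * (2 * x) ^ k - rG3_b k * x ^ k) = -2 * x * ∑' k, rG3_b k * x ^ k := by
    rw [(h2.sub h1).tsum_eq_zero_add, ← tsum_mul_left]
    simp only [pow_zero, sub_self, zero_add]
    refine tsum_congr fun k => ?_
    rw [rG3_b]
    have h5 : (2 : ℝ) ^ (k + 1) - 1 ≠ 0 := by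
      have : (1 : ℝ) < 2 ^ (k + 1) := one_lt_pow₀ (by norm_num) (by omega)
      linarith
    rw [mul_pow]
    field_simp
    ring
  rw [h2.tsum_sub h1] at h3
  linarith only [h3]

theorem rG3_zero (m : ℕ) : HasSum (fun k => rG3_b k * (2 ^ m) ^ k) 0 := by
  have h : ∑' k, rG3_b k * (2 ^ m) ^ k = 0 := by
    induction m with
    | zero =>
      have := rG3_feq (1 / 2) (by norm_num)
      simpa only [pow_zero, one_pow, mul_one, one_div, ne_eq, OfNat.ofNat_ne_zero, not_false_eq_true,     mul_inv_cancel₀, sub_self, inv_pow, zero_mul] using this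
    | succ m ih =>
      have := rG3_feq (2 ^ m) (by positivity)
      rw [ih, mul_zero] at this
      rw [← this]
      refine tsum_congr fun k => ?_
      rw [pow_succ']
  rw [← h]
  exact (rG3_summable m).hasSum

theorem rG3_poly (m : ℕ) : HasSum (fun k => rG3_b k * (3 - 2 * 2 ^ k) ^ m) 0 := by
  have h : HasSum (fun k => ∑ i ∈ Finset.range (m + 1),
      ((-2) ^ i * 3 ^ (m - i) * (m.choose i : ℝ)) * (rG3_b k * (2 ^ i) ^ k))
      (∑ i ∈ Finset.range (m + 1), ((-2) ^ i * 3 ^ (m - i) * (m.choose i : ℝ)) * 0) :=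
    hasSum_sum fun i _ => (rG3_zero i).mul_left _
  simp only [mul_zero, Finset.sum_const_zero] at h
  convert h using 2 with k
  have : (3 - 2 * 2 ^ k : ℝ) = (-2) * 2 ^ k + 3 := by ring
  rw [this, add_pow, Finset.mul_sum]
  refine Finset.sum_congr rfl fun i _ => ?_
  rw [mul_pow, ← pow_mul, ← pow_mul, mul_comm k i]
  ring

/-- The coefficients `a k` and the reflection factors `w k`. -/
noncomputable def rG3_a (k : ℕ) : ℝ := -rG3_b (k + 1)

noncomputable def rG3_w (k : ℕ) : ℝ := 4 * 2 ^ k - 3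

theorem rG3_w_one_le (k : ℕ) : 1 ≤ rG3_w k := by
  have : (1 : ℝ) ≤ 2 ^ k := one_le_pow₀ (by norm_num)
  rw [rG3_w]; linarith only [this]

theorem rG3_w_le (k : ℕ) : rG3_w k ≤ 4 * 2 ^ k := by
  rw [rG3_w]; linarith only []

theorem rG3_moment (m : ℕ) : HasSum (fun k => rG3_a k * (-rG3_w k) ^ m) 1 := by
  have h := (hasSum_nat_add_iff' 1).mpr (rG3_poly m)
  have h2 := h.neg
  have h3 : (-(0 - ∑ i ∈ Finset.range 1, rG3_b i * (3 - 2 * 2 ^ i) ^ m) : ℝ) = 1 := by
    simp only [Finset.range_one, Finset.sum_singleton, rG3_b, pow_zero, mul_one, one_mul, zero_sub, neg_neg]; norm_num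
  rw [h3] at h2
  refine h2.congr_fun fun k => ?_
  simp only [rG3_a, rG3_w, pow_succ]
  have h4 : (3 - 2 * (2 ^ k * 2) : ℝ) = -(4 * 2 ^ k - 3) := by ring
  rw [h4]; ring

theorem rG3_abs_summable (C : ℝ) (m : ℕ) : Summable (fun k => ‖rG3_a k‖ * (C * 2 ^ k) ^ m) := by
  have h := ((summable_nat_add_iff 1).mpr (rG3_summable m)).norm.mul_left (|C| ^ m)
  refine Summable.of_norm_bounded h fun k => ?_
  rw [norm_mul, norm_norm, norm_pow, norm_mul, mul_pow]
  have h1 : ‖rG3_b (k + 1) * (2 ^ m) ^ (k + 1)‖ = ‖rG3_b (k + 1)‖ * (2 ^ m) ^ (k + 1) := by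
    rw [norm_mul, Real.norm_of_nonneg (by positivity : (0 : ℝ) ≤ (2 ^ m) ^ (k + 1))]
  have h2 : ‖(2 : ℝ) ^ k‖ = 2 ^ k := Real.norm_of_nonneg (by positivity)
  rw [h1, h2, rG3_a, norm_neg, Real.norm_eq_abs C]
  have h3 : ((2 : ℝ) ^ k) ^ m ≤ (2 ^ m) ^ (k + 1) := by
    rw [← pow_mul, ← pow_mul]
    exact pow_le_pow_right₀ (by norm_num) (by linarith)
  calc ‖rG3_b (k + 1)‖ * (|C| ^ m * (2 ^ k) ^ m)
      = |C| ^ m * (‖rG3_b (k + 1)‖ * (2 ^ k) ^ m) := by ring
    _ ≤ _ := by (clear * - h3; gcongr)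


section general

variable {V : Type*} [NormedAddCommGroup V] [NormedSpace ℝ V]

theorem rG3_tsum_step {W : Type*} [NormedAddCommGroup W] [NormedSpace ℝ W] [CompleteSpace W]
    {s : Set V} (hs : Convex ℝ s) (ho : IsOpen s) {f : ℕ → V → W} {f' : ℕ → V → V →L[ℝ] W}
    (h : ∀ i, ∀ x ∈ closure s, HasFDerivWithinAt (f i) (f' i x) (closure s) x)
    (hc' : ∀ i, ContinuousOn (f' i) (closure s))
    {u u' : ℕ → ℝ} (hu : Summable u) (hu' : Summable u')
    (hb : ∀ i, ∀ x ∈ closure s, ‖f i x‖ ≤ u i) (hb' : ∀ i, ∀ x ∈ closure s, ‖f' i x‖ ≤ u' i)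
    {x : V} (hx : x ∈ closure s) :
    HasFDerivWithinAt (fun y => ∑' i, f i y) (∑' i, f' i x) (closure s) x := by
  have hcont : ContinuousOn (fun x => ∑' i, f i x) (closure s) :=
    continuousOn_tsum (fun i => fun y hy => (h i y hy).continuousWithinAt) hu hb
  have hcont' : ContinuousOn (fun x => ∑' i, f' i x) (closure s) :=
    continuousOn_tsum hc' hu' hb'
  have hd : ∀ y ∈ s, HasFDerivAt (fun y => ∑' i, f i y) (∑' i, f' i y) y := by
    intro y hy
    refine hasFDerivAt_tsum_of_isPreconnected hu' ho hs.isPreconnected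
      (fun i z hz => (h i z (subset_closure hz)).hasFDerivAt
        (mem_of_superset (ho.mem_nhds hz) subset_closure))
      (fun i z hz => hb' i z (subset_closure hz)) hy
      (Summable.of_norm_bounded hu fun i => hb i y (subset_closure hy)) hy
  refine hasFDerivWithinAt_closure_of_tendsto_fderiv
    (fun y hy => (hd y hy).differentiableAt.differentiableWithinAt) hs ho
    (fun y hy => (hcont y hy).mono subset_closure) ?_
  refine ((hcont' x hx).mono_left (nhdsWithin_mono _ subset_closure)).congr' ?_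
  filter_upwards [self_mem_nhdsWithin] with y hy
  exact (hd y hy).fderiv.symm

theorem rG3_tsum {s : Set V} (hs : Convex ℝ s)
    (ho : IsOpen s) {g : ℕ → V → ℝ} {p : ℕ → V → FormalMultilinearSeries ℝ V ℝ}
    (h : ∀ i, HasFTaylorSeriesUpToOn ∞ (g i) (p i) (closure s)) {v : ℕ → ℕ → ℝ}
    (hv : ∀ m, Summable (v m)) (hb : ∀ m i, ∀ x ∈ closure s, ‖p i x m‖ ≤ v m i) :
    HasFTaylorSeriesUpToOn ∞ (fun x => ∑' i, g i x) (fun x m => ∑' i, p i x m) (closure s) := by
  have hc : ∀ m i, ContinuousOn (fun x => p i x m) (closure s) := fun m i =>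
    (h i).cont m (by exact_mod_cast le_top)
  refine ⟨?_, ?_, fun m _ => continuousOn_tsum (hc m) (hv m) (hb m)⟩
  · intro x hx
    have h0 := (continuousMultilinearCurryFin0 ℝ V ℝ).toContinuousLinearEquiv.map_tsum
      (f := fun i => p i x 0) (L := SummationFilter.unconditional ℕ)
    change (∑' i, p i x 0).curry0 = ∑' i, (p i x 0).curry0 at h0
    rw [h0]
    exact tsum_congr fun i => (h i).zero_eq x hx
  · intro m hm x hx
    have hL : (∑' i, p i x (m + 1)).curryLeft = ∑' i, (p i x (m + 1)).curryLeft := by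
      exact (continuousMultilinearCurryLeftEquiv ℝ (fun _ : Fin (m + 1) => V)
        ℝ).toContinuousLinearEquiv.map_tsum
        (f := fun i => p i x (m + 1)) (L := SummationFilter.unconditional ℕ)
    change HasFDerivWithinAt (fun y => ∑' i, p i y m) (∑' i, p i x (m + 1)).curryLeft
      (closure s) x
    rw [hL]
    refine rG3_tsum_step hs ho (f := fun i y => p i y m)
      (f' := fun i y => (p i y (m + 1)).curryLeft) (fun i y hy => (h i).fderivWithin m hm y hy)
      (fun i => ?_) (hv m) (hv (m + 1)) (hb m) (fun i y hy => ?_) hx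
    · exact (continuousMultilinearCurryLeftEquiv ℝ (fun _ : Fin (m + 1) => V)
        ℝ).continuous.comp_continuousOn (hc (m + 1) i)
    · have := (continuousMultilinearCurryLeftEquiv ℝ (fun _ : Fin (m + 1) => V)
          ℝ).norm_map (p i y (m + 1))
      change ‖(p i y (m + 1)).curryLeft‖ = _ at this
      rw [this]
      exact hb (m + 1) i y hy

theorem rG3_glue {s t : Set V} (hs : IsClosed s) (ht : IsClosed t) (hst : s ∪ t = univ)
    {f : V → ℝ} {p : V → FormalMultilinearSeries ℝ V ℝ}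
    (h1 : HasFTaylorSeriesUpToOn ∞ f p s) (h2 : HasFTaylorSeriesUpToOn ∞ f p t) :
    HasFTaylorSeriesUpTo ∞ f p := by
  rw [← hasFTaylorSeriesUpToOn_univ_iff, ← hst]
  refine ⟨?_, ?_, ?_⟩
  · rintro x (hx | hx)
    · exact h1.zero_eq x hx
    · exact h2.zero_eq x hx
  · intro m hm x hx
    refine HasFDerivWithinAt.union ?_ ?_
    · by_cases h : x ∈ s
      · exact h1.fderivWithin m hm x h
      · exact HasFDerivWithinAt.of_notMem_closure (by rwa [hs.closure_eq])
    · by_cases h : x ∈ t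
      · exact h2.fderivWithin m hm x h
      · exact HasFDerivWithinAt.of_notMem_closure (by rwa [ht.closure_eq])
  · intro m hm
    exact (h1.cont m hm).union_of_isClosed (h2.cont m hm) hs ht

/-- The reflection type maps. -/
noncomputable def rG3_A (ℓ : V →L[ℝ] ℝ) (e : V) (k : ℕ) : V →L[ℝ] V :=
  ContinuousLinearMap.id ℝ V - (1 + rG3_w k) • ℓ.smulRight e

theorem rG3_A_apply (ℓ : V →L[ℝ] ℝ) (e : V) (k : ℕ) (x : V) :
    rG3_A ℓ e k x = x - ((1 + rG3_w k) * ℓ x) • e := by
  simp only [rG3_A, sub_apply, ContinuousLinearMap.id_apply, smul_apply, ContinuousLinearMap.smulRight_apply, smul_smul]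

theorem rG3_A_norm (ℓ : V →L[ℝ] ℝ) (e : V) (k : ℕ) :
    ‖rG3_A ℓ e k‖ ≤ (1 + 5 * (‖ℓ‖ * ‖e‖)) * 2 ^ k := by
  have h1 : (1 : ℝ) ≤ 2 ^ k := one_le_pow₀ (by norm_num)
  have h2 := rG3_w_one_le k
  have h3 := rG3_w_le k
  calc ‖rG3_A ℓ e k‖ ≤ ‖ContinuousLinearMap.id ℝ V‖ + ‖(1 + rG3_w k) • ℓ.smulRight e‖ :=
        norm_sub_le _ _
    _ ≤ 1 + (5 * 2 ^ k) * (‖ℓ‖ * ‖e‖) := by
        refine add_le_add ContinuousLinearMap.norm_id_le ?_
        rw [norm_smul, ContinuousLinearMap.norm_smulRight_apply, Real.norm_of_nonneg (by linarith)]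
        exact mul_le_mul_of_nonneg_right (by linarith) (by (clear * -; positivity))
    _ ≤ _ := by nlinarith only [h1]

theorem rG3_match (ℓ : V →L[ℝ] ℝ) (e : V) {m : ℕ} (Q : V [×m]→L[ℝ] ℝ) (v : Fin m → V) :
    HasSum (fun k => rG3_a k * Q (fun j => rG3_A ℓ e k (v j))) (Q v) := by
  classical
  set u : Fin m → V := fun j => ℓ (v j) • e with hu
  set u' : Fin m → V := fun j => v j - ℓ (v j) • e with hu'
  have h1 : HasSum (fun k => ∑ S : Finset (Fin m), (rG3_a k * (-rG3_w k) ^ S.card) *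
      Q (S.piecewise u u')) (∑ S : Finset (Fin m), 1 * Q (S.piecewise u u')) :=
    hasSum_sum fun S _ => (rG3_moment S.card).mul_right _
  have h2 : ∑ S : Finset (Fin m), 1 * Q (S.piecewise u u') = Q v := by
    simp only [one_mul]
    rw [← Q.map_add_univ]
    congr 1
    ext j
    simp [hu, hu']
  rw [h2] at h1
  refine h1.congr_fun fun k => ?_
  have h3 : (fun j => rG3_A ℓ e k (v j)) = (fun j => (-rG3_w k) • u j) + u' := by
    ext j
    simp only [Pi.add_apply, hu, hu', rG3_A_apply, smul_smul]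
    module
  rw [h3, Q.map_add_univ, Finset.mul_sum]
  refine Finset.sum_congr rfl fun S _ => ?_
  have h4 : S.piecewise (fun j => (-rG3_w k) • u j) u' =
      S.piecewise (fun j => (-rG3_w k) • (S.piecewise u u') j) (S.piecewise u u') := by
    ext j
    by_cases hj : j ∈ S <;> simp [hj]
  rw [h4, Q.map_piecewise_smul (fun _ => -rG3_w k), Finset.prod_const, smul_eq_mul]
  ring

theorem rG3_closure (ℓ : V →L[ℝ] ℝ) {e : V} (he : ℓ e = 1) :
    closure {x | ℓ x < 0} = {x | ℓ x ≤ 0} := by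
  have ho : IsOpenMap ℓ := ℓ.isOpenMap_of_ne_zero (by rintro rfl; simp at he)
  have := ho.preimage_closure_eq_closure_preimage ℓ.continuous (Iio 0)
  rw [closure_Iio] at this
  exact this.symm

theorem rG3_unique (ℓ : V →L[ℝ] ℝ) {e : V} (he : ℓ e = 1) :
    UniqueDiffOn ℝ {x | 0 ≤ ℓ x} := by
  refine uniqueDiffOn_convex ?_ ⟨e, ?_⟩
  · exact (convex_Ici (0 : ℝ)).is_linear_preimage ℓ.isLinear
  · have ho : IsOpen {x | 0 < ℓ x} := isOpen_lt continuous_const ℓ.continuous
    have hsub : {x | 0 < ℓ x} ⊆ {x | 0 ≤ ℓ x} := fun x hx => by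
      have hx' : 0 < ℓ x := hx
      exact hx'.le
    have hmem : e ∈ {x | 0 < ℓ x} := by change 0 < ℓ e; rw [he]; exact one_pos
    exact interior_maximal hsub ho hmem

theorem rG3_seeley (ℓ : V →L[ℝ] ℝ) {e : V} (he : ℓ e = 1) {f : V → ℝ}
    (hf : ContDiffOn ℝ ∞ f {x | 0 ≤ ℓ x})
    (hb : ∀ m : ℕ, ∃ C, ∀ x, 0 ≤ ℓ x → ‖iteratedFDerivWithin ℝ m f {x | 0 ≤ ℓ x} x‖ ≤ C) :
    ∃ F : V → ℝ, ContDiff ℝ ∞ F ∧ ∀ x, 0 ≤ ℓ x → F x = f x := by
  classical
  choose C hC using hb
  set H : Set V := {x | 0 ≤ ℓ x} with hH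
  set P := ftaylorSeriesWithin ℝ f H with hP
  have hT : HasFTaylorSeriesUpToOn ∞ f P H := hf.ftaylorSeriesWithin (rG3_unique ℓ he)
  have hcl := rG3_closure ℓ he
  have hA : ∀ k x, ℓ (rG3_A ℓ e k x) = -rG3_w k * ℓ x := by
    intro k x
    rw [rG3_A_apply, map_sub, map_smul, he]; simp only [smul_eq_mul, mul_one, neg_mul]; ring
  have hAH : ∀ k, ∀ x ∈ closure {x | ℓ x < 0}, rG3_A ℓ e k x ∈ H := by
    intro k x hx
    rw [hcl] at hx
    have hx' : ℓ x ≤ 0 := hx
    change 0 ≤ ℓ _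
    rw [hA]
    have := rG3_w_one_le k
    nlinarith only [hx', this]
  let g : ℕ → V → ℝ := fun k => (rG3_a k • ContinuousLinearMap.id ℝ ℝ) ∘ (f ∘ rG3_A ℓ e k)
  let p : ℕ → V → FormalMultilinearSeries ℝ V ℝ := fun k x m =>
    (rG3_a k • ContinuousLinearMap.id ℝ ℝ).compContinuousMultilinearMap
      ((P (rG3_A ℓ e k x) m).compContinuousLinearMap fun _ => rG3_A ℓ e k)
  have hg : ∀ k, HasFTaylorSeriesUpToOn ∞ (g k) (p k) (closure {x | ℓ x < 0}) := by
    intro k
    have h1 := hT.compContinuousLinearMap (rG3_A ℓ e k)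
    exact (h1.mono (hAH k)).continuousLinearMap_comp (rG3_a k • ContinuousLinearMap.id ℝ ℝ)
  let K := 1 + 5 * (‖ℓ‖ * ‖e‖)
  have hbd : ∀ m k, ∀ x ∈ closure {x | ℓ x < 0},
      ‖p k x m‖ ≤ C m * (‖rG3_a k‖ * (K * 2 ^ k) ^ m) := fun m k x hx => by
      have h1 : ‖(P (rG3_A ℓ e k x) m).compContinuousLinearMap fun _ => rG3_A ℓ e k‖
          ≤ C m * (K * 2 ^ k) ^ m := by
        refine (ContinuousMultilinearMap.norm_compContinuousLinearMap_le _ _).trans ?_
        rw [Finset.prod_const, Finset.card_univ, Fintype.card_fin]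
        have h2 : ‖P (rG3_A ℓ e k x) m‖ ≤ C m := hC m _ (hAH k x hx)
        have h3 := rG3_A_norm ℓ e k
        have h4 : 0 ≤ C m := (norm_nonneg _).trans h2
        (clear * - h2 h3 h4; gcongr)
      refine (ContinuousLinearMap.norm_compContinuousMultilinearMap_le _ _).trans ?_
      have h5 : ‖rG3_a k • ContinuousLinearMap.id ℝ ℝ‖ ≤ ‖rG3_a k‖ := by
        rw [norm_smul]
        exact mul_le_of_le_one_right (norm_nonneg _) ContinuousLinearMap.norm_id_le
      calc _ ≤ ‖rG3_a k‖ * (C m * (K * 2 ^ k) ^ m) := by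
            (clear * - h5 h1; gcongr)
        _ = _ := by ring
  have hsum := rG3_tsum (s := {x | ℓ x < 0})
    ((convex_Iio (0 : ℝ)).is_linear_preimage ℓ.isLinear)
    (isOpen_lt ℓ.continuous continuous_const) hg
    (v := fun m k => C m * (‖rG3_a k‖ * (K * 2 ^ k) ^ m))
    (fun m => (rG3_abs_summable K m).mul_left _) hbd
  rw [hcl] at hsum
  -- matching
  have hm : ∀ x, ℓ x = 0 → ∀ m, ∑' k, p k x m = P x m := by
    intro x hx m
    have hAx : ∀ k, rG3_A ℓ e k x = x := fun k => by rw [rG3_A_apply, hx]; simp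
    have hs : Summable (fun k => p k x m) := by
      refine Summable.of_norm_bounded ((rG3_abs_summable K m).mul_left (C m)) fun k => ?_
      exact hbd m k x (by rw [hcl]; exact hx.le)
    ext v
    have h1 := (ContinuousMultilinearMap.apply ℝ (fun _ : Fin m => V) ℝ v).map_tsum hs
    change (∑' k, p k x m) v = ∑' k, (p k x m) v at h1
    rw [h1]
    have h2 := (rG3_match ℓ e (P x m) v).tsum_eq
    rw [← h2]
    refine tsum_congr fun k => ?_
    simp [p, hAx]
  let q : V → FormalMultilinearSeries ℝ V ℝ := fun x m => if 0 ≤ ℓ x then P x m else ∑' k, p k x m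
  let F : V → ℝ := fun x => if 0 ≤ ℓ x then f x else ∑' k, g k x
  have h1 : HasFTaylorSeriesUpToOn ∞ F q H := by
    refine (hT.congr fun x hx => ?_).congr_series fun m _ x hx => ?_
    · have hx' : 0 ≤ ℓ x := hx
      simp only [hx', ↓reduceIte, F]
    · have hx' : 0 ≤ ℓ x := hx
      simp only [hx', ↓reduceIte, q]
  have h2 : HasFTaylorSeriesUpToOn ∞ F q {x | ℓ x ≤ 0} := by
    refine (hsum.congr fun x hx => ?_).congr_series fun m _ x hx => ?_
    · have hx' : ℓ x ≤ 0 := hx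
      rcases hx'.lt_or_eq with h | h
      · simp only [not_le.mpr h, ↓reduceIte, F]
      · have h3 := hm x h 0
        have h4 := hsum.zero_eq x hx
        have h5 := hT.zero_eq x (by change 0 ≤ ℓ x; rw [h])
        simp only [h, le_refl, if_true, F]
        rw [← h4, ← h5, h3]
    · have hx' : ℓ x ≤ 0 := hx
      rcases hx'.lt_or_eq with h | h
      · simp only [not_le.mpr h, ↓reduceIte, q]
      · simp only [hm x h m, h, Std.le_refl, ↓reduceIte, q]
  have h3 := rG3_glue (isClosed_le continuous_const ℓ.continuous)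
    (isClosed_le ℓ.continuous continuous_const) (by
      ext x; simp only [mem_union, mem_ofPred_eq, le_total, mem_univ]) h1 h2
  refine ⟨F, ?_, fun x hx => by simp only [hx, ↓reduceIte, F]⟩
  exact h3.contDiff

end general

theorem half_space_extension {n : ℕ} {f : E (n + 1) → ℝ} {R : ℝ} (hR : 0 < R)
    (hf : ContDiffOn ℝ ∞ f ({x | 0 ≤ x 0} ∩ ball 0 R)) :
    ∃ F : E (n + 1) → ℝ, ContDiffOn ℝ ∞ F (ball 0 (R / 2)) ∧
      ∀ x ∈ ball (0 : E (n + 1)) (R / 2), 0 ≤ x 0 → F x = f x := by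
  let ℓ : E (n + 1) →L[ℝ] ℝ := EuclideanSpace.proj 0
  have hℓ : ∀ x : E (n + 1), ℓ x = x 0 := fun x => rfl
  have he : ℓ (ee 0) = 1 := by rw [hℓ]; simp
  let χ : ContDiffBump (0 : E (n + 1)) := ⟨R / 2, 3 * R / 4, by positivity, by linarith only [hR]⟩
  have hχ1 : ∀ x ∈ ball (0 : E (n + 1)) (R / 2), χ x = 1 := fun x hx =>
    χ.one_of_mem_closedBall (ball_subset_closedBall hx)
  have hχ0 : ∀ x : E (n + 1), 3 * R / 4 < ‖x‖ → (fun y => χ y * f y) =ᶠ[𝓝 x] fun _ => (0 : ℝ) := by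
    intro x hx
    have : ∀ᶠ y in 𝓝 x, 3 * R / 4 < ‖y‖ := continuous_norm.continuousAt.eventually_const_lt hx
    filter_upwards [this] with y hy
    rw [χ.zero_of_le_dist (by rw [dist_zero_right]; exact hy.le), zero_mul]
  have hsm : ContDiffOn ℝ ∞ (fun y => χ y * f y) {x | 0 ≤ ℓ x} := by
    intro x hx
    rcases lt_or_ge ‖x‖ R with h | h
    · have h1 : ContDiffWithinAt ℝ ∞ f ({x | 0 ≤ x 0} ∩ ball 0 R) x :=
        hf x ⟨hx, by simpa using h⟩
      have h2 : ContDiffWithinAt ℝ ∞ f {x | 0 ≤ ℓ x} x := by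
        refine h1.mono_of_mem_nhdsWithin ?_
        exact inter_mem self_mem_nhdsWithin
          (mem_nhdsWithin_of_mem_nhds (isOpen_ball.mem_nhds (by simpa using h)))
      exact χ.contDiff.contDiffWithinAt.mul h2
    · have h1 := hχ0 x (by linarith only [hR, h])
      exact (contDiffAt_const.congr_of_eventuallyEq h1).contDiffWithinAt
  obtain ⟨F, hF, hF'⟩ := rG3_seeley ℓ he hsm (fun m => by
    have hc := hsm.continuousOn_iteratedFDerivWithin (m := m) (by exact_mod_cast le_top)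
      (rG3_unique ℓ he)
    have hcl : IsClosed {x | 0 ≤ ℓ x} := isClosed_le continuous_const ℓ.continuous
    have hK : IsCompact ({x | 0 ≤ ℓ x} ∩ closedBall (0 : E (n + 1)) R) :=
      (isCompact_closedBall _ _).inter_left hcl
    obtain ⟨C, hC⟩ := hK.exists_bound_of_continuousOn (hc.mono inter_subset_left)
    refine ⟨max C 0, fun x hx => ?_⟩
    rcases le_or_gt ‖x‖ R with h | h
    · exact (hC x ⟨hx, by simpa only [mem_closedBall, dist_zero_right] using h⟩).trans (le_max_left _ _)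
    · have h1 := hχ0 x (by linarith only [hR, h])
      have h2 := ((h1.filter_mono nhdsWithin_le_nhds).iteratedFDerivWithin ℝ
        (s := {x | 0 ≤ ℓ x}) m).eq_of_nhdsWithin hx
      rw [h2]
      simp only [iteratedFDerivWithin_fun_zero, Pi.zero_apply, norm_zero, le_sup_right])
  refine ⟨F, hF.contDiffOn, fun x hx hx0 => ?_⟩
  rw [hF' x hx0, hχ1 x hx, one_mul]

end Vale.Agent.P098
end

section

open MeasureTheory Set Metric Filter
open scoped ContDiff RealInnerProductSpace Topology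

namespace Vale.Agent.P098.ModI

variable {d : ℕ}

/-- Along a segment on which the extension is positive one stays in the positivity set. -/
theorem seg_pos {u : E d → ℝ} (hc : Continuous u) (h0 : ∀ x, 0 ≤ u x)
    {N : Set (E d)} {U : E d → ℝ} (hU : LocalExt u N U) {a b : E d} (ha : 0 < u a)
    (hN : segment ℝ a b ⊆ N) (hpos : ∀ z ∈ segment ℝ a b, 0 < U z) : 0 < u b := by
  have ho : IsOpen {y | 0 < u y} := isOpen_lt continuous_const hc
  have h1 : IsPreconnected (segment ℝ a b) := (convex_segment a b).isPreconnected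
  have hsub : segment ℝ a b ⊆ {y | 0 < u y} := by
    refine h1.subset_of_closure_inter_subset ho ⟨a, left_mem_segment ℝ a b, ha⟩ ?_
    rintro z ⟨hz1, hz2⟩
    by_contra hz3
    have hfr : z ∈ frontier {y | 0 < u y} := by rw [ho.frontier_eq]; exact ⟨hz1, hz3⟩
    have := frontier_ext_zero hc h0 hU (hN hz2) hfr
    exact (hpos z hz2).ne' this
  exact hsub (right_mem_segment ℝ a b)

/-- Near a free boundary point, the positivity set is the positivity set of the extension. -/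
theorem local_structure {u : E d → ℝ} (hc : Continuous u) (h0 : ∀ x, 0 ≤ u x)
    {N : Set (E d)} {U : E d → ℝ} (hU : LocalExt u N U) {x : E d} (hx : x ∈ N)
    (hxf : x ∈ frontier {y | 0 < u y}) :
    ∃ ρ > 0, ball x ρ ⊆ N ∧ ∀ y ∈ ball x ρ, 0 < U y → 0 < u y := by
  have hUx := frontier_ext_zero hc h0 hU hx hxf
  have hg := hU.grad x hx hxf
  set p := gradient U x with hp
  have hfd : ContinuousAt (fderiv ℝ U) x :=
    ((hU.smooth.fderiv_of_isOpen hU.isOpen (m := ∞) (by norm_num)).contDiffAt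
      (hU.isOpen.mem_nhds hx)).continuousAt
  have hev : ∀ᶠ y in 𝓝 x, ‖fderiv ℝ U y - fderiv ℝ U x‖ ≤ 1 / 8 := by
    have h1 : ContinuousAt (fun y => ‖fderiv ℝ U y - fderiv ℝ U x‖) x :=
      (hfd.sub continuousAt_const).norm
    have h2 : ∀ᶠ y in 𝓝 x, ‖fderiv ℝ U y - fderiv ℝ U x‖ < 1 / 8 :=
      h1.eventually (gt_mem_nhds (by simp))
    exact h2.mono fun y hy => hy.le
  obtain ⟨r0, hr0, hball⟩ := Metric.eventually_nhds_iff_ball.mp
    (hev.and (hU.isOpen.mem_nhds hx))
  have hBN : ball x r0 ⊆ N := fun y hy => (hball y hy).2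
  have hconv : Convex ℝ (ball x r0) := convex_ball x r0
  have hmv : ∀ y ∈ ball x r0, ∀ z ∈ ball x r0,
      U y + ⟪p, z - y⟫ - 1 / 8 * ‖z - y‖ ≤ U z := by
    intro y hy z hz
    have h1 := hconv.norm_image_sub_le_of_norm_hasFDerivWithin_le' (f := U) (f' := fderiv ℝ U)
      (C := 1 / 8) (φ := fderiv ℝ U x)
      (fun w hw => (((hU.smooth.contDiffAt (hU.isOpen.mem_nhds (hBN hw))).differentiableAt
        (by norm_num)).hasFDerivAt).hasFDerivWithinAt)
      (fun w hw => (hball w hw).1) hy hz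
    rw [← inner_grad U x, ← hp] at h1
    have h2 := neg_le_of_abs_le h1
    linarith only [h2]
  have hpp : ⟪p, p⟫ = 1 := by rw [real_inner_self_eq_norm_sq, hg]; norm_num
  set z0 : E d := x + (r0 / 2) • p with hz0
  -- connecting y to z0
  have hconn : ∀ y ∈ ball x (r0 / 4), 0 < U y →
      (segment ℝ y (y + (r0 / 2) • p) ⊆ ball x r0 ∧
        (∀ z ∈ segment ℝ y (y + (r0 / 2) • p), 0 < U z)) ∧
      (segment ℝ (y + (r0 / 2) • p) z0 ⊆ ball x r0 ∧
        ∀ z ∈ segment ℝ (y + (r0 / 2) • p) z0, 0 < U z) := by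
    intro y hy hUy
    have hyn : ‖y - x‖ < r0 / 4 := by rwa [mem_ball, dist_eq_norm] at hy
    have hyB : y ∈ ball x r0 := ball_subset_ball (by linarith only [hr0]) hy
    have hpn : ‖(r0 / 2) • p‖ = r0 / 2 := by
      rw [norm_smul, hg, mul_one, Real.norm_of_nonneg (by (clear * - hr0; positivity))]
    have hy1B : y + (r0 / 2) • p ∈ ball x r0 := by
      rw [mem_ball, dist_eq_norm]
      calc ‖y + (r0 / 2) • p - x‖ = ‖(y - x) + (r0 / 2) • p‖ := by congr 1; abel
        _ ≤ ‖y - x‖ + ‖(r0 / 2) • p‖ := norm_add_le _ _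
        _ < r0 := by rw [hpn]; linarith only [hr0, hyn]
    have hz0B : z0 ∈ ball x r0 := by
      rw [mem_ball, dist_eq_norm, hz0, add_sub_cancel_left, hpn]; linarith only [hr0]
    refine ⟨⟨hconv.segment_subset hyB hy1B, ?_⟩, hconv.segment_subset hy1B hz0B, ?_⟩
    · intro z hz
      have hzB := hconv.segment_subset hyB hy1B hz
      rw [segment_eq_image_lineMap] at hz
      obtain ⟨θ, hθ, rfl⟩ := hz
      have h1 := hmv y hyB _ hzB
      have e1 : AffineMap.lineMap y (y + (r0 / 2) • p) θ - y = (θ * (r0 / 2)) • p := by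
        rw [AffineMap.lineMap_apply]
        simp [smul_smul]
      rw [e1, inner_smul_right, hpp, norm_smul, hg, Real.norm_of_nonneg
        (mul_nonneg hθ.1 (by (clear * - hr0; positivity)))] at h1
      have h2 : 0 ≤ θ * (r0 / 2) := mul_nonneg hθ.1 (by positivity)
      linarith only [h2, h1, hUy]
    · intro z hz
      have hzB := hconv.segment_subset hy1B hz0B hz
      rw [segment_eq_image_lineMap] at hz
      obtain ⟨θ, hθ, rfl⟩ := hz
      have h1 := hmv x (mem_ball_self hr0) _ hzB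
      have e1 : AffineMap.lineMap (y + (r0 / 2) • p) z0 θ - x
          = (r0 / 2) • p + (1 - θ) • (y - x) := by
        rw [AffineMap.lineMap_apply, hz0]
        simp only [vsub_eq_sub, vadd_eq_add, smul_sub, smul_add, sub_smul, one_smul]
        abel
      rw [e1, inner_add_right, inner_smul_right, inner_smul_right, hpp, hUx] at h1
      have h2 : |⟪p, y - x⟫| ≤ r0 / 4 := by
        have := abs_real_inner_le_norm p (y - x)
        rw [hg, one_mul] at this
        linarith only [hyn, this]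
      have h3 : |(1 - θ) * ⟪p, y - x⟫| ≤ r0 / 4 := by
        rw [abs_mul, abs_of_nonneg (by linarith only [hθ.2] : 0 ≤ 1 - θ)]
        calc (1 - θ) * |⟪p, y - x⟫| ≤ 1 * (r0 / 4) :=
              mul_le_mul (by linarith only [hθ.1]) h2 (abs_nonneg _) (by norm_num)
          _ = r0 / 4 := one_mul _
      have h4 : ‖(r0 / 2) • p + (1 - θ) • (y - x)‖ ≤ 3 * r0 / 4 := by
        calc ‖(r0 / 2) • p + (1 - θ) • (y - x)‖ ≤ ‖(r0 / 2) • p‖ + ‖(1 - θ) • (y - x)‖ :=
              norm_add_le _ _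
          _ ≤ r0 / 2 + r0 / 4 := by
            rw [hpn, norm_smul, Real.norm_of_nonneg (by linarith only [hθ.2] : 0 ≤ 1 - θ)]
            have : (1 - θ) * ‖y - x‖ ≤ 1 * (r0 / 4) :=
              mul_le_mul (by linarith only [hθ.1]) hyn.le (norm_nonneg _) (by norm_num)
            linarith only [this]
          _ = 3 * r0 / 4 := by ring
      have h5 := neg_le_of_abs_le h3
      linarith only [h5, h4, h1, hr0]
  -- z0 is in the positivity set
  have hz0pos : 0 < u z0 := by
    have hcl : x ∈ closure {y | 0 < u y} := frontier_subset_closure hxf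
    obtain ⟨y, hy1, hy2⟩ := Metric.mem_closure_iff.mp hcl (r0 / 4) (by (clear * - hr0; positivity))
    have hyB : y ∈ ball x (r0 / 4) := by rw [mem_ball, dist_comm]; exact hy2
    have hyN : y ∈ N := hBN (ball_subset_ball (by linarith only [hr0]) hyB)
    have hUy : 0 < U y := by rw [hU.eq y hyN hy1]; exact hy1
    obtain ⟨⟨h1, h2⟩, h3, h4⟩ := hconn y hyB hUy
    exact seg_pos hc h0 hU (seg_pos hc h0 hU hy1 (h1.trans hBN) h2) (h3.trans hBN) h4
  refine ⟨r0 / 4, by (clear * - hr0; positivity), (ball_subset_ball (by linarith only [hr0])).trans hBN, ?_⟩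
  intro y hyB hUy
  obtain ⟨⟨h1, h2⟩, h3, h4⟩ := hconn y hyB hUy
  rw [segment_symm] at h1 h2 h3 h4
  exact seg_pos hc h0 hU (seg_pos hc h0 hU hz0pos (h3.trans hBN) h4) (h1.trans hBN) h2

theorem curv_nonneg_core {u : E d → ℝ} (hc : Continuous u) (h0 : ∀ x, 0 ≤ u x)
    (hle : ∀ x, 0 < u x → ‖gradient u x‖ ≤ 1)
    {N : Set (E d)} {U : E d → ℝ} (hU : LocalExt u N U)
    {x : E d} (hx : x ∈ N) (hxf : x ∈ frontier {y | 0 < u y}) : 0 ≤ curv U x := by
  have ho : IsOpen {y | 0 < u y} := isOpen_lt continuous_const hc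
  obtain ⟨ρ, hρ, hBN, hpos⟩ := local_structure hc h0 hU hx hxf
  have hUx := frontier_ext_zero hc h0 hU hx hxf
  have hg := hU.grad x hx hxf
  unfold curv
  set p := gradient U x with hp
  by_contra hneg
  push Not at hneg
  have hl : HasDerivAt (fun t : ℝ => x + t • p) p 0 := by
    have := ((hasDerivAt_id (0 : ℝ)).smul_const p).const_add x
    simpa using this
  have e0 : x + (0 : ℝ) • p = x := by simp
  have hpp : ⟪p, p⟫ = 1 := by rw [real_inner_self_eq_norm_sq, hg]; norm_num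
  have hgd : DifferentiableAt ℝ (gradient U) x := by
    have h1 : DifferentiableAt ℝ (fderiv ℝ U) x :=
      ((hU.smooth.fderiv_of_isOpen hU.isOpen (m := ∞) (by norm_num)).contDiffAt
        (hU.isOpen.mem_nhds hx)).differentiableAt (by norm_num)
    exact ((InnerProductSpace.toDual ℝ (E d)).symm.toContinuousLinearEquiv.differentiableAt).comp
      x h1
  have hd1 : HasDerivAt (fun t : ℝ => gradient U (x + t • p)) (fderiv ℝ (gradient U) x p) 0 := by
    have h1 : HasFDerivAt (gradient U) (fderiv ℝ (gradient U) (x + (0 : ℝ) • p))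
        (x + (0 : ℝ) • p) := by rw [e0]; exact hgd.hasFDerivAt
    have h2 := h1.comp_hasDerivAt (0 : ℝ) hl
    rw [e0] at h2
    exact h2
  have hd2 : HasDerivAt (fun t : ℝ => ⟪gradient U (x + t • p), gradient U (x + t • p)⟫)
      (2 * ⟪fderiv ℝ (gradient U) x p, p⟫) 0 := by
    have := hd1.inner ℝ hd1
    refine this.congr_deriv ?_
    rw [e0, ← hp, real_inner_comm p]
    ring
  have hd3 : HasDerivAt (fun t : ℝ => U (x + t • p)) 1 0 := by
    have h1 : HasFDerivAt U (fderiv ℝ U (x + (0 : ℝ) • p)) (x + (0 : ℝ) • p) := by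
      rw [e0]
      exact ((hU.smooth.contDiffAt (hU.isOpen.mem_nhds hx)).differentiableAt
        (by norm_num)).hasFDerivAt
    have h2 := h1.comp_hasDerivAt (0 : ℝ) hl
    refine h2.congr_deriv ?_
    rw [e0, ← inner_grad, ← hp, hpp]
  have hslope : ∀ {f : ℝ → ℝ} {c : ℝ}, HasDerivAt f c 0 → 0 < c →
      ∀ᶠ t in 𝓝[>] (0 : ℝ), f 0 < f t := by
    intro f c hf hc0
    have h5 : ∀ᶠ t in 𝓝[≠] (0 : ℝ), 0 < slope f 0 t :=
      (hasDerivAt_iff_tendsto_slope.mp hf).eventually (lt_mem_nhds hc0)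
    have h6 : ∀ᶠ t in 𝓝[>] (0 : ℝ), 0 < slope f 0 t :=
      h5.filter_mono (nhdsWithin_mono _ (fun t ht => ne_of_gt ht))
    filter_upwards [h6, self_mem_nhdsWithin] with t ht ht0
    rw [slope_def_field, sub_zero] at ht
    have : 0 < (f t - f 0) / t * t := mul_pos ht ht0
    rw [div_mul_cancel₀ _ (ne_of_gt ht0)] at this
    linarith only [this]
  have h1 := hslope hd3 one_pos
  have h2 := hslope hd2 (by linarith only [hneg])
  have h3 : ∀ᶠ t in 𝓝[>] (0 : ℝ), x + t • p ∈ ball x ρ := by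
    have : ∀ᶠ t in 𝓝 (0 : ℝ), x + t • p ∈ ball x ρ :=
      hl.continuousAt.eventually_mem (by rw [e0]; exact ball_mem_nhds x hρ)
    exact this.filter_mono nhdsWithin_le_nhds
  obtain ⟨t, ht1, ht2, ht3⟩ := (h1.and (h2.and h3)).exists
  rw [e0, hUx] at ht1
  rw [e0, ← hp, hpp] at ht2
  have hut := hpos _ ht3 ht1
  have heq : U =ᶠ[𝓝 (x + t • p)] u := by
    filter_upwards [ho.mem_nhds hut, isOpen_ball.mem_nhds ht3] with z hz hz2
    exact hU.eq z (hBN hz2) hz
  have hgr : gradient U (x + t • p) = gradient u (x + t • p) := by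
    unfold gradient; rw [heq.fderiv_eq]
  have h4 := hle _ hut
  rw [← hgr] at h4
  rw [real_inner_self_eq_norm_sq] at ht2
  have h5 : ‖gradient U (x + t • p)‖ ^ 2 ≤ 1 := by
    have := pow_le_pow_left₀ (norm_nonneg _) h4 2
    simpa only [sq_le_one_iff_abs_le_one, abs_norm, ge_iff_le, one_pow] using this
  linarith only [ht2, h5]

/-- A regular function has a local extension on a neighbourhood of the closure of the positivity
set without the origin. -/
theorem localExt_of_regular {u : E d → ℝ} (hreg : IsRegularAwayFromZero u) :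
    ∃ (N : Set (E d)) (U : E d → ℝ), LocalExt u N U ∧ closure {y | 0 < u y} \ {0} ⊆ N := by
  obtain ⟨hc, V, U, hV, hcl, hUs, hUe, hfb⟩ := hreg
  refine ⟨V \ {0}, U, ⟨hV.sdiff isClosed_singleton, hUs.mono sdiff_subset,
    fun x _ hx => hUe x hx, fun x hx hxf => hfb x hxf hx.2⟩, ?_⟩
  rintro x ⟨hx1, hx2⟩
  exact ⟨hcl ⟨hx1, hx2⟩, hx2⟩

theorem grad_le_one_core (hd : 2 ≤ d) {u : E d → ℝ} (hc : Continuous u) (h0 : ∀ x, 0 ≤ u x)
    (hhom : ∀ r : ℝ, 0 < r → ∀ x, u (r • x) = r * u x)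
    {N : Set (E d)} {U : E d → ℝ} (hU : LocalExt u N U)
    (hcl : closure {y | 0 < u y} \ {0} ⊆ N) (hlap : ∀ x, 0 < u x → lap U x = 0)
    {x : E d} (hx : 0 < u x) : ‖gradient u x‖ ≤ 1 := by
  have ho : IsOpen {y | 0 < u y} := isOpen_lt continuous_const hc
  have hΩN : ∀ y, 0 < u y → y ∈ N := fun y hy =>
    hcl ⟨subset_closure hy, fun h => by
      rw [mem_singleton_iff.mp h, hom_zero hhom] at hy; exact lt_irrefl _ hy⟩
  have heq : U =ᶠ[𝓝 x] u := by
    filter_upwards [ho.mem_nhds hx] with z hz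
    exact hU.eq z (hΩN z hz) hz
  have hgr : gradient u x = gradient U x := by
    unfold gradient; rw [heq.fderiv_eq]
  rw [hgr]
  rcases eq_or_ne (gradient U x) 0 with h | h
  · rw [h]; simp only [norm_zero, zero_le_one]
  · have hn : 0 < ‖gradient U x‖ := norm_pos_iff.mpr h
    have h1 := dir_le_one hd hc h0 hhom hU hcl hlap hx (e := ‖gradient U x‖⁻¹ • gradient U x)
      (by rw [norm_smul]; simp only [norm_inv, norm_norm, ne_eq, hn.ne', not_false_eq_true, inv_mul_cancel₀, Std.le_refl])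
    rw [← inner_grad, inner_smul_right, real_inner_self_eq_norm_sq] at h1
    have e1 : ‖gradient U x‖⁻¹ * ‖gradient U x‖ ^ 2 = ‖gradient U x‖ := by field_simp
    rwa [e1] at h1

end Vale.Agent.P098.ModI
end

section

/-! Module I: the gradient bound `|∇u| ≤ 1` and the sign of the curvature of the free boundary
for homogeneous minimizers. -/

open MeasureTheory Set Metric Filter
open scoped ContDiff RealInnerProductSpace Topology NNReal

namespace Vale.Agent.P098

variable {d : ℕ}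

theorem grad_le_one (hd : 2 ≤ d) {u : E d → ℝ} {K : NNReal} (hK : LipschitzWith K u)
    (h0 : ∀ x, 0 ≤ u x) (hmin : LipMin u) (hhom : ∀ r : ℝ, 0 < r → ∀ x, u (r • x) = r * u x)
    (hreg : IsRegularAwayFromZero u) {x : E d} (hx : 0 < u x) : ‖gradient u x‖ ≤ 1 := by
  obtain ⟨N, U, hU, hcl⟩ := ModI.localExt_of_regular hreg
  refine ModI.grad_le_one_core hd hK.continuous h0 hhom hU hcl (fun y hy => ?_) hx
  have hyN : y ∈ N := hcl ⟨subset_closure hy, fun h => by
    rw [mem_singleton_iff.mp h, ModI.hom_zero hhom] at hy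
    exact lt_irrefl _ hy⟩
  exact hU.lap_eq_zero hK h0 hmin hyN hy

theorem curv_nonneg (hd : 2 ≤ d) {u : E d → ℝ} {K : NNReal} (hK : LipschitzWith K u)
    (h0 : ∀ x, 0 ≤ u x) (hmin : LipMin u) (hhom : ∀ r : ℝ, 0 < r → ∀ x, u (r • x) = r * u x)
    (hreg : IsRegularAwayFromZero u) {N : Set (E d)} {U : E d → ℝ} (hU : LocalExt u N U)
    {x : E d} (hx : x ∈ N) (hxf : x ∈ frontier {y | 0 < u y}) : 0 ≤ curv U x :=
  ModI.curv_nonneg_core hK.continuous h0
    (fun _ hy => grad_le_one hd hK h0 hmin hhom hreg hy) hU hx hxf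

end Vale.Agent.P098
end

section

/-! Module M6, first part: auxiliary facts for the reduction theorem. -/

open MeasureTheory Set Metric Filter
open scoped ContDiff RealInnerProductSpace Topology

namespace Vale.Agent.P098

variable {d m : ℕ}

namespace M6

/-- `|D²U|²`. -/
noncomputable def S0 (U : E d → ℝ) (x : E d) : ℝ := ∑ i, ∑ j, P2 U i j x ^ 2

theorem S0_nonneg (U : E d → ℝ) (x : E d) : 0 ≤ S0 U x :=
  Finset.sum_nonneg fun _ _ => Finset.sum_nonneg fun _ _ => sq_nonneg _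

theorem SS_eq (δ : ℝ) (U : E d → ℝ) (x : E d) : SS δ U x = S0 U x + δ := rfl

theorem SS_ge (δ : ℝ) (U : E d → ℝ) (x : E d) : δ ≤ SS δ U x := by
  rw [SS_eq]; linarith [S0_nonneg U x]

theorem FF_pos {δ : ℝ} (hδ : 0 < δ) (U : E d → ℝ) (x : E d) : 0 < FF δ U x :=
  Real.sqrt_pos.2 (hδ.trans_le (SS_ge δ U x))

/-- `F^β = S^(β/2)`. -/
theorem FF_rpow {δ : ℝ} (hδ : 0 < δ) (U : E d → ℝ) (x : E d) (β : ℝ) :
    FF δ U x ^ β = SS δ U x ^ (β / 2) := by
  unfold FF
  have h : 0 ≤ SS δ U x := hδ.le.trans (SS_ge δ U x)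
  rw [Real.sqrt_eq_rpow, ← Real.rpow_mul h, show (1 / 2 : ℝ) * β = β / 2 by ring]

theorem continuousOn_S0 {U : E d → ℝ} {N : Set (E d)} (hN : IsOpen N)
    (hU : ContDiffOn ℝ ∞ U N) : ContinuousOn (S0 U) N := by
  unfold S0
  refine continuousOn_finsetSum _ fun i _ => continuousOn_finsetSum _ fun j _ => ?_
  exact (contDiffOn_P2 hN hU i j).continuousOn.pow 2

theorem continuousOn_FF {U : E d → ℝ} {N : Set (E d)} (hN : IsOpen N)
    (hU : ContDiffOn ℝ ∞ U N) (δ : ℝ) : ContinuousOn (FF δ U) N := by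
  have h := (continuousOn_S0 hN hU).add (continuousOn_const (c := δ))
  exact h.sqrt

theorem vv_le_one (hd : 2 ≤ d) {u : E d → ℝ} {K : NNReal} (hK : LipschitzWith K u)
    (h0 : ∀ x, 0 ≤ u x) (hmin : LipMin u) (hhom : ∀ r : ℝ, 0 < r → ∀ x, u (r • x) = r * u x)
    (hreg : IsRegularAwayFromZero u) {N : Set (E d)} {U : E d → ℝ} (hU : LocalExt u N U)
    (hN : ∀ y, 0 < u y → y ∈ N) {x : E d} (hx : 0 < u x) : vv U x ≤ 1 := by
  have h1 := grad_le_one hd hK h0 hmin hhom hreg hx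
  have ho : IsOpen {y | 0 < u y} := isOpen_lt continuous_const hK.continuous
  have heq : U =ᶠ[𝓝 x] u := by
    filter_upwards [ho.mem_nhds hx] with z hz
    exact hU.eq z (hN z hz) hz
  have hgr : gradient u x = gradient U x := by
    unfold gradient; rw [heq.fderiv_eq]
  rw [hgr] at h1
  have h2 := norm_gradient_sq U x
  unfold vv
  rw [← h2]
  linarith only [mul_nonneg (sub_nonneg.2 h1) (sub_nonneg.2 (norm_nonneg (gradient U x))), mul_nonneg (sub_nonneg.2 h1) (sub_nonneg.2 h1)]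

/-- The lower bound of the certificate for the scalar field. -/
theorem lift_ge {Φ : Fam} {c : ℝ} (hc : ∀ y v : ℝ, 0 ≤ y → y ≤ 1 → 0 ≤ v → v ≤ 1 →
    ∀ lam : Fin m → ℝ, pw lam 1 = 0 → pw lam 2 ≤ 1 → c ≤ Φ.w.g y v (pw lam 3) (pw lam 4))
    {δ : ℝ} (hδ : 0 < δ) {U : E (m + 1) → ℝ} {x : E (m + 1)} {lam ξ : Fin m → ℝ}
    {T : Fin m → Fin m → Fin m → ℝ} (hF : FrameData δ U x lam ξ T) (hUx : 0 ≤ U x)
    (hv : vv U x ≤ 1) : c ≤ lift Φ.w.g δ U x := by
  have hFp := FF_pos hδ U x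
  have h3 : tt U 3 x / FF δ U x ^ 3 = pw lam 3 := by
    rw [hF.ht 3 (by norm_num)]
    (clear * - hFp; field_simp)
  have h4 : tt U 4 x / FF δ U x ^ 4 = pw lam 4 := by
    rw [hF.ht 4 (by norm_num)]
    (clear * - hFp; field_simp)
  unfold lift
  rw [h3, h4]
  have hUF : 0 ≤ U x * FF δ U x := mul_nonneg hUx hFp.le
  refine hc _ _ ?_ ?_ ?_ hv lam hF.lam1 ?_
  · unfold yy; (clear * - hUx hFp; positivity)
  · unfold yy
    rw [div_le_one (by positivity)]
    linarith only [hUF]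
  · unfold vv; (clear * -; positivity)
  · rw [hF.lam2]
    have : 0 ≤ δ / SS δ U x := div_nonneg hδ.le (hδ.le.trans (SS_ge δ U x))
    linarith only [this]

theorem WW_ge {Φ : Fam} {α c : ℝ} (hα : 0 ≤ α) (hc0 : 0 ≤ c)
    {δ : ℝ} (hδ : 0 < δ) {U : E d → ℝ} {x : E d}
    (h : c ≤ lift Φ.w.g δ U x) : δ ^ α * c ≤ WW Φ α δ U x := by
  unfold WW
  rw [FF_rpow hδ, show 2 * α / 2 = α by ring]
  have h1 : δ ^ α ≤ SS δ U x ^ α := Real.rpow_le_rpow hδ.le (SS_ge δ U x) hα
  have h2 : 0 ≤ SS δ U x ^ α := Real.rpow_nonneg (hδ.le.trans (SS_ge δ U x)) _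
  exact mul_le_mul h1 h hc0 h2

theorem delta_rpow_le {α δ : ℝ} (hα : 1 / 2 ≤ α) (hδ : 0 < δ) (hδ1 : δ ≤ 1) :
    δ ^ α ≤ δ ^ (1 / 2 : ℝ) :=
  Real.rpow_le_rpow_of_exponent_ge hδ hδ1 hα

theorem delta_le {δ : ℝ} (hδ : 0 < δ) (hδ1 : δ ≤ 1) : δ ≤ δ ^ (1 / 2 : ℝ) := by
  have := delta_rpow_le (α := 1) (by (clear * -; norm_num)) hδ hδ1
  rwa [Real.rpow_one] at this

theorem num_bound {α δ M S : ℝ} (hα : 1 / 2 ≤ α) (hδ : 0 < δ) (hδ1 : δ ≤ 1) (hS : δ ≤ S)
    (hSM : S ≤ M) (hM : 1 ≤ M) : δ * S ^ (α - 1) ≤ M ^ α * δ ^ (1 / 2 : ℝ) := by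
  have hMα : 1 ≤ M ^ α := Real.one_le_rpow hM (by linarith)
  have hd0 : 0 ≤ δ ^ (1 / 2 : ℝ) := Real.rpow_nonneg hδ.le _
  have hS0 : 0 < S := hδ.trans_le hS
  rcases le_or_gt α 1 with h | h
  · have h1 : S ^ (α - 1) ≤ δ ^ (α - 1) :=
      Real.rpow_le_rpow_of_nonpos hδ hS (by linarith only [h])
    have h2 : δ * δ ^ (α - 1) = δ ^ α := by
      rw [← Real.rpow_one_add' hδ.le (by linarith only [hα]), show 1 + (α - 1) = α by ring]
    calc δ * S ^ (α - 1) ≤ δ * δ ^ (α - 1) := mul_le_mul_of_nonneg_left h1 hδ.le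
      _ = δ ^ α := h2
      _ ≤ δ ^ (1 / 2 : ℝ) := delta_rpow_le hα hδ hδ1
      _ ≤ M ^ α * δ ^ (1 / 2 : ℝ) := le_mul_of_one_le_left hd0 hMα
  · have h1 : S ^ (α - 1) ≤ M ^ (α - 1) := Real.rpow_le_rpow hS0.le hSM (by linarith only [h])
    have h2 : M ^ (α - 1) ≤ M ^ α := Real.rpow_le_rpow_of_exponent_le hM (by linarith only [])
    have h3 : 0 ≤ S ^ (α - 1) := Real.rpow_nonneg hS0.le _
    calc δ * S ^ (α - 1) ≤ δ ^ (1 / 2 : ℝ) * M ^ α :=
          mul_le_mul (delta_le hδ hδ1) (h1.trans h2) h3 hd0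
      _ = M ^ α * δ ^ (1 / 2 : ℝ) := mul_comm _ _

/-- Absorbing the error terms. -/
theorem absorb {ε C0 C1 M1 MU α γ δ M s0 S U n R I : ℝ} (hε : 0 < ε) (hC0 : 0 ≤ C0)
    (hC1 : 0 ≤ C1) (hM1 : 0 ≤ M1)
    (hα : 1 / 2 ≤ α) (hδ : 0 < δ) (hδ1 : δ ≤ 1) (hs0 : 0 ≤ s0) (hS : S = s0 + δ) (hSM : S ≤ M)
    (hM : 1 ≤ M) (hU : |U| ≤ MU) (hR : 0 < R) (hn : 1 / (2 * R) < n)
    (h : ε * S ^ α / n ^ 2 - C0 * δ * (S ^ α + S ^ (α - 1) / n ^ 2)
      - 2 * γ * (C1 * δ * M1) * U / n ^ 2 ≤ I) :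
    ε * s0 ^ α / n ^ 2 - (C0 * M ^ α + C0 * M ^ α * (4 * R ^ 2)
      + 2 * |γ| * (C1 * M1) * MU * (4 * R ^ 2) + C1 * M1) * δ ^ (1 / 2 : ℝ) ≤ I := by
  have hn0 : 0 < n := lt_trans (by positivity) hn
  have hq : 1 / n ^ 2 ≤ 4 * R ^ 2 := by
    rw [div_le_iff₀ (by (clear * - hn0; positivity))]
    have h1 : 1 < n * (2 * R) := by rwa [div_lt_iff₀ (by positivity)] at hn
    linarith only [mul_pos (sub_pos.2 h1) (sub_pos.2 h1), h1]
  have hq0 : 0 ≤ 1 / n ^ 2 := by (clear * - hn0; positivity)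
  have hd0 : 0 ≤ δ ^ (1 / 2 : ℝ) := Real.rpow_nonneg hδ.le _
  have hd1 : δ ≤ δ ^ (1 / 2 : ℝ) := delta_le hδ hδ1
  have hδS : δ ≤ S := by linarith only [hs0, hS]
  have hS0 : 0 < S := by linarith only [hδ, hs0, hS]
  have hMα : 0 ≤ M ^ α := Real.rpow_nonneg (by linarith only [hδ, hs0, hS, hSM]) _
  have hMU : 0 ≤ MU := (abs_nonneg U).trans hU
  have e1 : s0 ^ α ≤ S ^ α := Real.rpow_le_rpow hs0 (by linarith only [hδ, hS]) (by linarith only [hα])
  have e2 : S ^ α ≤ M ^ α := Real.rpow_le_rpow hS0.le hSM (by linarith only [hα])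
  have e3 := num_bound hα hδ hδ1 hδS hSM hM
  have t1 : ε * s0 ^ α / n ^ 2 ≤ ε * S ^ α / n ^ 2 := by
    (clear * - e1 hε hn0; gcongr)
  have t2 : C0 * δ * S ^ α ≤ C0 * M ^ α * δ ^ (1 / 2 : ℝ) := by
    calc C0 * δ * S ^ α = C0 * (S ^ α * δ) := by ring
      _ ≤ C0 * (M ^ α * δ ^ (1 / 2 : ℝ)) := by
          refine mul_le_mul_of_nonneg_left ?_ hC0
          exact mul_le_mul e2 hd1 hδ.le hMα
      _ = _ := by ring
  have t3 : C0 * δ * (S ^ (α - 1) / n ^ 2) ≤ C0 * M ^ α * (4 * R ^ 2) * δ ^ (1 / 2 : ℝ) := by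
    calc C0 * δ * (S ^ (α - 1) / n ^ 2) = C0 * ((δ * S ^ (α - 1)) * (1 / n ^ 2)) := by ring
      _ ≤ C0 * ((M ^ α * δ ^ (1 / 2 : ℝ)) * (4 * R ^ 2)) := by
          refine mul_le_mul_of_nonneg_left ?_ hC0
          exact mul_le_mul e3 hq hq0 (mul_nonneg hMα hd0)
      _ = _ := by ring
  have t4 : 2 * γ * (C1 * δ * M1) * U / n ^ 2 ≤
      2 * |γ| * (C1 * M1) * MU * (4 * R ^ 2) * δ ^ (1 / 2 : ℝ) := by
    have a1 : γ * U ≤ |γ| * MU := by
      calc γ * U ≤ |γ * U| := le_abs_self _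
        _ = |γ| * |U| := abs_mul _ _
        _ ≤ |γ| * MU := mul_le_mul_of_nonneg_left hU (abs_nonneg _)
    have a2 : 0 ≤ |γ| * MU := mul_nonneg (abs_nonneg _) hMU
    have a3 : γ * U * δ ≤ |γ| * MU * δ ^ (1 / 2 : ℝ) := by
      calc γ * U * δ ≤ |γ| * MU * δ := mul_le_mul_of_nonneg_right a1 hδ.le
        _ ≤ _ := mul_le_mul_of_nonneg_left hd1 a2
    have a4 : γ * U * δ * (1 / n ^ 2) ≤ |γ| * MU * δ ^ (1 / 2 : ℝ) * (4 * R ^ 2) := by
      calc γ * U * δ * (1 / n ^ 2) ≤ |γ| * MU * δ ^ (1 / 2 : ℝ) * (1 / n ^ 2) :=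
            mul_le_mul_of_nonneg_right a3 hq0
        _ ≤ _ := mul_le_mul_of_nonneg_left hq (mul_nonneg a2 hd0)
    calc 2 * γ * (C1 * δ * M1) * U / n ^ 2
        = 2 * (C1 * M1) * (γ * U * δ * (1 / n ^ 2)) := by ring
      _ ≤ 2 * (C1 * M1) * (|γ| * MU * δ ^ (1 / 2 : ℝ) * (4 * R ^ 2)) :=
          mul_le_mul_of_nonneg_left a4 (by (clear * - hC1 hM1; positivity))
      _ = _ := by ring
  have t5 : 0 ≤ C1 * M1 * δ ^ (1 / 2 : ℝ) := by (clear * - hC1 hM1 hδ; positivity)
  have e5 : C0 * δ * (S ^ α + S ^ (α - 1) / n ^ 2)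
      = C0 * δ * S ^ α + C0 * δ * (S ^ (α - 1) / n ^ 2) := by ring
  rw [e5] at h
  linarith only [h, t1, t2, t3, t4, t5]

/-- The compact part of the closure of the positivity set. -/
theorem isCompact_ann (Ω : Set (E d)) (a b : ℝ) :
    IsCompact {x : E d | x ∈ closure Ω ∧ a ≤ ‖x‖ ∧ ‖x‖ ≤ b} := by
  refine (isCompact_closedBall (0 : E d) b).of_isClosed_subset ?_ ?_
  · refine isClosed_closure.inter ?_
    exact (isClosed_le continuous_const continuous_norm).inter
      (isClosed_le continuous_norm continuous_const)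
  · rintro x ⟨_, _, h⟩
    simpa only [mem_closedBall, dist_zero_right] using h

/-- A continuous linear map vanishing on the basis vectors is zero. -/
theorem clm_zero {F : Type*} [NormedAddCommGroup F] [NormedSpace ℝ F] {L : E d →L[ℝ] F}
    (h : ∀ i, L (ee i) = 0) : L = 0 := by
  ext w
  have hw : w = ∑ i, w i • (ee i : E d) := by
    ext k
    simp only [ee, WithLp.ofLp_sum, WithLp.ofLp_smul, PiLp.ofLp_single, Finset.sum_apply, Pi.smul_apply, Pi.single_apply, smul_eq_mul, mul_ite, mul_one, mul_zero, Finset.sum_ite_eq, Finset.mem_univ, ↓reduceIte]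
  rw [hw, map_sum]
  simp [map_smul, h]

/-- If `D²U` vanishes in `{u > 0}`, then `D²u` vanishes there. -/
theorem fderiv2_zero {u U : E d → ℝ} (hc : Continuous u) {N : Set (E d)} (hU : LocalExt u N U)
    (hN : ∀ y, 0 < u y → y ∈ N) {x : E d} (hx : 0 < u x)
    (h : ∑ i, ∑ j, P2 U i j x ^ 2 = 0) : fderiv ℝ (fderiv ℝ u) x = 0 := by
  have ho : IsOpen {y | 0 < u y} := isOpen_lt continuous_const hc
  have h1 : fderiv ℝ u =ᶠ[𝓝 x] fderiv ℝ U := by
    filter_upwards [ho.mem_nhds hx] with y hy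
    have heq : u =ᶠ[𝓝 y] U := by
      filter_upwards [ho.mem_nhds hy] with z hz
      exact (hU.eq z (hN z hz) hz).symm
    exact heq.fderiv_eq
  rw [h1.fderiv_eq]
  have h2 : ∀ i j, P2 U i j x = 0 := by
    intro i j
    have h3 := (Finset.sum_eq_zero_iff_of_nonneg (fun i _ =>
      Finset.sum_nonneg fun j _ => sq_nonneg (P2 U i j x))).1 h i (Finset.mem_univ _)
    have h4 := (Finset.sum_eq_zero_iff_of_nonneg (fun j _ =>
      sq_nonneg (P2 U i j x))).1 h3 j (Finset.mem_univ _)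
    exact pow_eq_zero_iff (two_ne_zero) |>.1 h4
  have h3 : ∀ i j, fderiv ℝ (fderiv ℝ U) x (ee j) (ee i) = 0 := by
    intro i j
    rw [← P2_eq_fderiv hU.isOpen hU.smooth (hN x hx)]
    exact h2 i j
  exact clm_zero fun j => clm_zero fun i => h3 i j

/-- Points of the annulus part of the closure lie in the domain of the extension. -/
theorem mem_of_closure {u : E d → ℝ} {N₀ : Set (E d)} (hN₀ : closure {y | 0 < u y} \ {0} ⊆ N₀)
    {x : E d} (hx : x ∈ closure {y | 0 < u y}) (hn : 0 < ‖x‖) : x ∈ N₀ :=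
  hN₀ ⟨hx, fun h => by rw [mem_singleton_iff.mp h, norm_zero] at hn; exact lt_irrefl _ hn⟩

/-- A lower bound on `{u > 0}` passes to the closure. -/
theorem ge_on_closure {u f : E d → ℝ} {c : ℝ} (h : ∀ x, 0 < u x → c ≤ f x) {x : E d}
    (hx : x ∈ closure {y | 0 < u y}) (hf : ContinuousAt f x) : c ≤ f x := by
  have hne : (𝓝[{y | 0 < u y}] x).NeBot := mem_closure_iff_nhdsWithin_neBot.1 hx
  refine ge_of_tendsto (hf.mono_left nhdsWithin_le_nhds : Tendsto f (𝓝[{y | 0 < u y}] x) _) ?_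
  filter_upwards [self_mem_nhdsWithin] with y hy
  exact h y hy

/-- Existence of a bound with all signs. -/
theorem exists_bound {A : Set (E d)} (hA : IsCompact A) {f : E d → ℝ} (hf : ContinuousOn f A) :
    ∃ M : ℝ, 0 ≤ M ∧ ∀ x ∈ A, |f x| ≤ M := by
  obtain ⟨M, hM⟩ := hA.exists_bound_of_continuousOn hf
  exact ⟨max M 0, le_max_right _ _, fun x hx => (hM x hx).trans (le_max_left _ _)⟩

end M6

end Vale.Agent.P098
end

section

open MeasureTheory Set Metric Filter
open scoped ContDiff RealInnerProductSpace Topology Matrix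

namespace Vale.Agent.P098

variable {d m : ℕ}

/-! ### Module M4: the boundary inequality -/

namespace M4

section mat

variable {n : ℕ} {M R : Matrix (Fin n) (Fin n) ℝ} {p : Fin n → ℝ} {h : ℝ}

theorem pow_mulVec (hMp : M *ᵥ p = h • p) (q : ℕ) : (M ^ q) *ᵥ p = h ^ q • p := by
  induction q with
  | zero => simp only [pow_zero, Matrix.one_mulVec, one_smul]
  | succ q ih =>
    rw [pow_succ, ← Matrix.mulVec_mulVec, hMp, Matrix.mulVec_smul, ih, smul_smul, pow_succ]
    congr 1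
    ring

theorem pow_transpose (hMs : M.transpose = M) (q : ℕ) : (M ^ q).transpose = M ^ q := by
  rw [Matrix.transpose_pow, hMs]

theorem pow_dot (hMs : M.transpose = M) (hMp : M *ᵥ p = h • p) (q : ℕ) (w : Fin n → ℝ) :
    ((M ^ q) *ᵥ w) ⬝ᵥ p = h ^ q * (w ⬝ᵥ p) := by
  have h1 : ((M ^ q) *ᵥ w) ⬝ᵥ p = w ⬝ᵥ ((M ^ q) *ᵥ p) := by
    rw [dotProduct_comm, Matrix.dotProduct_mulVec, ← Matrix.mulVec_transpose,
      pow_transpose hMs, dotProduct_comm]
  rw [h1, pow_mulVec hMp, dotProduct_smul, smul_eq_mul]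

/-- If the quadratic form of `R` vanishes on `p^⊥` then `R = w ⊗ p + p ⊗ w - c p ⊗ p`. -/
theorem decomp (hp : p ⬝ᵥ p = 1) (hR : R.transpose = R)
    (hq : ∀ τ : Fin n → ℝ, τ ⬝ᵥ p = 0 → τ ⬝ᵥ (R *ᵥ τ) = 0) :
    R = Matrix.vecMulVec (R *ᵥ p) p + Matrix.vecMulVec p (R *ᵥ p)
      - (p ⬝ᵥ (R *ᵥ p)) • Matrix.vecMulVec p p := by
  set w := R *ᵥ p with hw
  set c := p ⬝ᵥ w with hc
  have hsym : ∀ a b : Fin n → ℝ, a ⬝ᵥ (R *ᵥ b) = b ⬝ᵥ (R *ᵥ a) := by
    intro a b
    rw [Matrix.dotProduct_mulVec, ← Matrix.mulVec_transpose, hR, dotProduct_comm]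
  have hqa : ∀ a : Fin n → ℝ, a ⬝ᵥ (R *ᵥ a) = 2 * ((a ⬝ᵥ w) * (a ⬝ᵥ p)) - c * (a ⬝ᵥ p) ^ 2 := by
    intro a
    have h1 := hq (a - (a ⬝ᵥ p) • p) (by
      rw [sub_dotProduct, smul_dotProduct, hp, smul_eq_mul, mul_one, sub_self])
    rw [Matrix.mulVec_sub, Matrix.mulVec_smul, sub_dotProduct, dotProduct_sub, dotProduct_sub,
      smul_dotProduct, smul_dotProduct, dotProduct_smul, dotProduct_smul, ← hw, hsym p a, ← hw,
      ← hc] at h1
    simp only [smul_eq_mul] at h1
    linarith only [h1]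
  ext j k
  have e1 : ∀ i : Fin n, ∀ v : Fin n → ℝ, (Pi.single i (1 : ℝ)) ⬝ᵥ v = v i := by
    intro i v
    simp only [single_dotProduct, one_mul]
  have e2 : ∀ i j : Fin n, (Pi.single i (1 : ℝ)) ⬝ᵥ (R *ᵥ (Pi.single j 1)) = R i j := by
    intro i j
    rw [e1, Matrix.mulVec_single_one]
    rfl
  have h1 := hqa (Pi.single j 1 + Pi.single k 1)
  have h2 := hqa (Pi.single j 1)
  have h3 := hqa (Pi.single k 1)
  rw [Matrix.mulVec_add, add_dotProduct, dotProduct_add, dotProduct_add, add_dotProduct,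
    add_dotProduct] at h1
  simp only [e2, e1] at h1 h2 h3
  have h4 : R k j = R j k := by
    have := congrFun (congrFun hR j) k
    rwa [Matrix.transpose_apply] at this
  simp only [Matrix.sub_apply, Matrix.add_apply, Matrix.smul_apply, Matrix.vecMulVec_apply,
    smul_eq_mul]
  rw [h4] at h1
  linarith

theorem trace_pow_mul (hMs : M.transpose = M) (hMp : M *ᵥ p = h • p) (hp : p ⬝ᵥ p = 1)
    (hR : R.transpose = R)
    (hq : ∀ τ : Fin n → ℝ, τ ⬝ᵥ p = 0 → τ ⬝ᵥ (R *ᵥ τ) = 0) (q : ℕ) :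
    Matrix.trace (M ^ q * R) = h ^ q * Matrix.trace R := by
  have key : ∀ q, Matrix.trace (M ^ q * R) = h ^ q * (p ⬝ᵥ (R *ᵥ p)) := by
    intro q
    set w := R *ᵥ p with hw
    set c := p ⬝ᵥ w with hc
    rw [decomp hp hR hq, ← hw, ← hc]
    rw [Matrix.mul_sub, Matrix.mul_add, Matrix.mul_smul, Matrix.mul_vecMulVec,
      Matrix.mul_vecMulVec, Matrix.mul_vecMulVec, Matrix.trace_sub, Matrix.trace_add,
      Matrix.trace_smul, Matrix.trace_vecMulVec, Matrix.trace_vecMulVec, Matrix.trace_vecMulVec,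
      pow_dot hMs hMp, pow_mulVec hMp, smul_dotProduct, smul_dotProduct, hp, dotProduct_comm w p,
      ← hc]
    simp only [smul_eq_mul]
    ring
  have h0 := key 0
  rw [pow_zero, pow_zero, Matrix.one_mul, one_mul] at h0
  rw [key, h0]

end mat

theorem zero_of_closure {u : E d → ℝ} {N : Set (E d)} {U : E d → ℝ} (hU : LocalExt u N U)
    {x : E d} (hx : x ∈ N) (hxc : x ∈ closure {y | 0 < u y}) {f : E d → ℝ}
    (hf : ContinuousAt f x) (h : ∀ y ∈ N, 0 < u y → f y = 0) : f x = 0 := by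
  have hmem : x ∈ closure ({y | 0 < u y} ∩ N) := by
    rw [inter_comm]
    exact (hU.isOpen.inter_closure ⟨hx, hxc⟩)
  have hne : (𝓝[{y | 0 < u y} ∩ N] x).NeBot := mem_closure_iff_nhdsWithin_neBot.1 hmem
  have h1 : Tendsto f (𝓝[{y | 0 < u y} ∩ N] x) (𝓝 (f x)) := hf.mono_left nhdsWithin_le_nhds
  have h3 : f =ᶠ[𝓝[{y | 0 < u y} ∩ N] x] fun _ => 0 := by
    filter_upwards [self_mem_nhdsWithin] with y hy
    exact h y hy.2 hy.1
  exact tendsto_nhds_unique (h1.congr' h3) tendsto_const_nhds |>.symm ▸ rfl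

/-- The facts on the jets at a free boundary point. -/
theorem facts {u U : E d → ℝ} (hc : Continuous u) (h0 : ∀ z, 0 ≤ u z)
    (hhom : ∀ r : ℝ, 0 < r → ∀ z, u (r • z) = r * u z) {N : Set (E d)} (hU : LocalExt u N U)
    (hlap : ∀ z ∈ N, 0 < u z → lap U z = 0) {x : E d} (hx : x ∈ N)
    (hxf : x ∈ frontier {y | 0 < u y}) :
    U x = 0 ∧ (∑ i, P1 U i x * x i = 0) ∧ (∀ i, ∑ j, P2 U i j x * x j = 0) ∧ lap U x = 0 ∧
      (∀ k, ∑ i, P3 U i i k x = 0) := by
  have hxc : x ∈ closure {y | 0 < u y} := frontier_subset_closure hxf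
  have hopen : IsOpen {y | 0 < u y} := isOpen_lt continuous_const hc
  have hux : u x = 0 := by
    have h1 : x ∉ {y | 0 < u y} := by
      have := hxf.2
      rwa [hopen.interior_eq] at this
    have h2 : ¬ 0 < u x := h1
    exact le_antisymm (not_lt.1 h2) (h0 x)
  have hUx : U x = 0 := by rw [eq_on_closure hc hU hx hxc, hux]
  have hd0 : ContinuousAt U x := (diffAt_of hU.isOpen hU.smooth hx).continuousAt
  have hd1 : ∀ i, ContinuousAt (P1 U i) x := fun i =>
    (diffAt_P1 hU.isOpen hU.smooth hx i).continuousAt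
  have hd2 : ∀ i j, ContinuousAt (P2 U i j) x := fun i j =>
    (diffAt_P2 hU.isOpen hU.smooth hx i j).continuousAt
  have hd3 : ∀ i j k, ContinuousAt (P3 U i j k) x := fun i j k =>
    (diffAt_P3 hU.isOpen hU.smooth hx i j k).continuousAt
  have hco : ∀ i : Fin d, ContinuousAt (fun y : E d => y i) x := fun i =>
    (diffAt_coord i x).continuousAt
  have hopen2 : IsOpen ({y | 0 < u y} ∩ N) := hopen.inter hU.isOpen
  have hsm : ContDiffOn ℝ ∞ U ({y | 0 < u y} ∩ N) := hU.smooth.mono inter_subset_right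
  refine ⟨hUx, ?_, ?_, ?_, ?_⟩
  · have h1 : (fun y : E d => ∑ i, P1 U i y * y i - U y) x = 0 := by
      refine zero_of_closure (f := fun y : E d => ∑ i, P1 U i y * y i - U y) hU hx hxc ?_ ?_
      · exact (tendsto_finsetSum _ fun i _ => (hd1 i).mul (hco i)).sub hd0
      · intro y hy huy
        show ∑ i, P1 U i y * y i - U y = 0
        rw [← euler1 hhom hU hc hy huy, sub_eq_zero]
        exact Finset.sum_congr rfl fun i _ => mul_comm _ _
    have h2 : ∑ i, P1 U i x * x i - U x = 0 := h1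
    rw [hUx, sub_zero] at h2
    exact h2
  · intro i
    refine zero_of_closure (f := fun y : E d => ∑ j, P2 U i j y * y j) hU hx hxc ?_ ?_
    · exact (tendsto_finsetSum _ fun j _ => (hd2 i j).mul (hco j))
    · intro y hy huy
      exact euler2 hhom hU hc hy huy i
  · refine zero_of_closure (f := lap U) hU hx hxc ?_ ?_
    · exact (tendsto_finsetSum _ fun i _ => (hd2 i i))
    · exact hlap
  · intro k
    refine zero_of_closure (f := fun y : E d => ∑ i, P3 U i i k y) hU hx hxc ?_ ?_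
    · exact (tendsto_finsetSum _ fun i _ => (hd3 i i k))
    · intro y hy huy
      exact P3_trace hopen2 hsm (fun z hz => hlap z hz.2 hz.1) ⟨huy, hy⟩ k

/-- `∑_k ((D²U)^j : D³U)_k p_k` at a free boundary point. -/
theorem GG_p {u U : E d → ℝ} (hc : Continuous u) (h0 : ∀ z, 0 ≤ u z)
    (hhom : ∀ r : ℝ, 0 < r → ∀ z, u (r • z) = r * u z) {N : Set (E d)} (hU : LocalExt u N U)
    (hlap : ∀ z ∈ N, 0 < u z → lap U z = 0) {x : E d} (hx : x ∈ N)
    (hxf : x ∈ frontier {y | 0 < u y}) (j : ℕ) :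
    ∑ k, GG U j k x * P1 U k x =
      (-curv U x) ^ j * tt U 2 x - curv U x * tt U (j + 1) x - tt U (j + 2) x := by
  obtain ⟨hUx, hpx, hMx, hl, hT⟩ := facts hc h0 hhom hU hlap hx hxf
  set H := curv U x with hH
  set M : Matrix (Fin d) (Fin d) ℝ := MM U x with hM
  set p : Fin d → ℝ := fun i => P1 U i x with hp
  set S : Matrix (Fin d) (Fin d) ℝ := Matrix.of fun i l => ∑ k, P3 U i l k x * p k with hS
  have hMs : M.transpose = M := by
    ext i k
    rw [Matrix.transpose_apply]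
    exact P2_symm hU.isOpen hU.smooth hx k i
  have hSs : S.transpose = S := by
    ext i l
    rw [Matrix.transpose_apply, hS, Matrix.of_apply, Matrix.of_apply]
    exact Finset.sum_congr rfl fun k _ => by rw [P3_symm12 hU.isOpen hU.smooth hx l i k]
  have hMp : M *ᵥ p = (-H) • p := by
    ext i
    have h1 := boundary_first hc h0 hU hx hxf i
    rw [Matrix.mulVec, dotProduct, Pi.smul_apply, smul_eq_mul, ← h1]
    refine Finset.sum_congr rfl fun k _ => ?_
    show P2 U i k x * P1 U k x = _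
    rw [P2_symm hU.isOpen hU.smooth hx i k]
  have hpp : p ⬝ᵥ p = 1 := by
    have h1 : ∑ i, P1 U i x ^ 2 = 1 := by
      rw [← norm_gradient_sq, hU.grad x hx hxf]; norm_num
    rw [dotProduct, ← h1]
    exact Finset.sum_congr rfl fun i _ => (pow_two _).symm
  set R : Matrix (Fin d) (Fin d) ℝ := S + H • M + M * M with hR
  have hRs : R.transpose = R := by
    rw [hR, Matrix.transpose_add, Matrix.transpose_add, Matrix.transpose_smul,
      Matrix.transpose_mul, hSs, hMs]
  have hq : ∀ τ : Fin d → ℝ, τ ⬝ᵥ p = 0 → τ ⬝ᵥ (R *ᵥ τ) = 0 := by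
    intro τ hτ
    have h1 := boundary_second hc h0 hU hx hxf (τ := τ) hτ
    have e1 : τ ⬝ᵥ (S *ᵥ τ) = ∑ i, ∑ j, ∑ k, P3 U i j k x * P1 U i x * τ j * τ k := by
      have : τ ⬝ᵥ (S *ᵥ τ) = ∑ j, ∑ k, ∑ i, P3 U i j k x * P1 U i x * τ j * τ k := by
        simp only [dotProduct, Matrix.mulVec, hS, Matrix.of_apply, Finset.sum_mul, Finset.mul_sum]
        refine Finset.sum_congr rfl fun j _ => Finset.sum_congr rfl fun k _ =>
          Finset.sum_congr rfl fun i _ => ?_
        rw [P3_symm12 hU.isOpen hU.smooth hx i j k, P3_symm23 hU.isOpen hU.smooth hx j i k]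
        show τ j * (P3 U j k i x * P1 U i x * τ k) = _
        ring
      rw [this]
      rw [Finset.sum_congr rfl fun j _ => Finset.sum_comm]
      rw [Finset.sum_comm]
    have e2 : τ ⬝ᵥ (M *ᵥ τ) = ∑ j, ∑ k, P2 U j k x * τ j * τ k := by
      simp only [dotProduct, Matrix.mulVec, Finset.mul_sum]
      refine Finset.sum_congr rfl fun j _ => Finset.sum_congr rfl fun k _ => ?_
      show τ j * (P2 U j k x * τ k) = _
      ring
    have e3 : τ ⬝ᵥ ((M * M) *ᵥ τ) = ∑ i, (∑ j, P2 U i j x * τ j) ^ 2 := by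
      rw [← Matrix.mulVec_mulVec, Matrix.dotProduct_mulVec, ← Matrix.mulVec_transpose, hMs,
        dotProduct]
      refine Finset.sum_congr rfl fun i _ => ?_
      rw [pow_two]
      rfl
    rw [hR, Matrix.add_mulVec, Matrix.add_mulVec, Matrix.smul_mulVec, dotProduct_add,
      dotProduct_add, dotProduct_smul, e1, e2, e3, h1, smul_eq_mul]
    ring
  have htr := trace_pow_mul hMs hMp hpp hRs hq j
  have t0 : Matrix.trace S = 0 := by
    have : Matrix.trace S = ∑ k, (∑ i, P3 U i i k x) * p k := by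
      simp only [Matrix.trace, Matrix.diag_apply, hS, Matrix.of_apply, Finset.sum_mul]
      exact Finset.sum_comm
    rw [this]
    simp only [hT, zero_mul, Finset.sum_const_zero]
  have t1 : Matrix.trace M = 0 := hl
  have tR : Matrix.trace R = tt U 2 x := by
    rw [hR, Matrix.trace_add, Matrix.trace_add, Matrix.trace_smul, t0, t1, tt, ← hM, pow_two]
    simp only [smul_eq_mul, mul_zero, add_zero, zero_add]
  have e4 : ∑ k, GG U j k x * P1 U k x = Matrix.trace (M ^ j * S) := by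
    have h1 : Matrix.trace (M ^ j * S) = Matrix.trace (M ^ j * S.transpose) := by rw [hSs]
    rw [h1]
    simp only [GG, Finset.sum_mul, Matrix.trace, hS, Matrix.diag_apply, Matrix.mul_apply, Matrix.transpose_apply, Matrix.of_apply, Finset.mul_sum]
    rw [Finset.sum_comm]
    refine Finset.sum_congr rfl fun i _ => ?_
    rw [Finset.sum_comm]
    refine Finset.sum_congr rfl fun l _ => Finset.sum_congr rfl fun k _ => ?_
    show _ = (M ^ j) i l * (P3 U i l k x * P1 U k x)
    ring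
  have e5 : Matrix.trace (M ^ j * R) = Matrix.trace (M ^ j * S) + H * tt U (j + 1) x
      + tt U (j + 2) x := by
    rw [hR, Matrix.mul_add, Matrix.mul_add, Matrix.trace_add, Matrix.trace_add, Matrix.mul_smul,
      Matrix.trace_smul, ← pow_succ, ← pow_two, ← pow_add, smul_eq_mul]
    rfl
  rw [e4]
  rw [e5, tR] at htr
  linarith only [htr]

end M4

theorem boundary_ineq {α : ℝ} {Φ : Fam} (h : Cert m α Φ) (hm : 2 ≤ m) :
    ∃ C : ℝ, 0 ≤ C ∧ ∀ (δ K : ℝ) (u U : E (m + 1) → ℝ) (N : Set (E (m + 1))) (x : E (m + 1)),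
      0 < δ → δ ≤ 1 → Continuous u → (∀ z, 0 ≤ u z) →
      (∀ r : ℝ, 0 < r → ∀ z, u (r • z) = r * u z) → LocalExt u N U →
      (∀ z ∈ N, 0 < u z → lap U z = 0) → x ∈ N → x ≠ 0 → x ∈ frontier {y | 0 < u y} →
      0 ≤ curv U x →
      K - C * δ * FF δ U x ^ (2 * α - 1)
        ≤ ⟪ZZ Φ α δ K U x, gradient U x⟫ + curv U x * WW Φ α δ U x := by
  obtain ⟨C, hC, hcert⟩ := cert_bdry h hm
  refine ⟨C, hC, ?_⟩
  intro δ K u U N x hδ hδ1 hc h0 hhom hU hlap hx hx0 hxf hHH
  obtain ⟨hUx, hpx, hMx, hl, -⟩ := M4.facts hc h0 hhom hU hlap hx hxf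
  have hGGp := M4.GG_p hc h0 hhom hU hlap hx hxf
  set H := curv U x with hH
  have hMsym : ∀ i j, MM U x i j = MM U x j i := fun i j => P2_symm hU.isOpen hU.smooth hx i j
  have hMs : (MM U x).transpose = MM U x := by
    ext i j
    rw [Matrix.transpose_apply]
    exact hMsym j i
  set p : Fin (m + 1) → ℝ := fun i => P1 U i x with hp
  have hMp : MM U x *ᵥ p = (-H) • p := by
    ext i
    have h1 := boundary_first hc h0 hU hx hxf i
    rw [Matrix.mulVec, dotProduct, Pi.smul_apply, smul_eq_mul, ← h1]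
    refine Finset.sum_congr rfl fun k _ => ?_
    show P2 U i k x * P1 U k x = _
    rw [P2_symm hU.isOpen hU.smooth hx i k]
  have hpp : p ⬝ᵥ p = 1 := by
    have h1 : ∑ i, P1 U i x ^ 2 = 1 := by
      rw [← norm_gradient_sq, hU.grad x hx hxf]; norm_num
    rw [dotProduct, ← h1]
    exact Finset.sum_congr rfl fun i _ => (pow_two _).symm
  obtain ⟨O, μ, hO', hμ0, hO0, heig⟩ := m2_exists_orth (MM U x) hMsym x hx0 hMx
  have hO : O.transpose * O = 1 := mul_eq_one_comm.1 hO'
  have htr : ∀ q, tt U q x = ∑ a, μ a ^ q := fun q => m2_tr hO hO' heig q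
  -- `S = |M|² + δ > 0`
  have hSS : SS δ U x = tt U 2 x + δ := by
    rw [SS, tt]
    congr 1
    rw [Matrix.trace]
    refine Finset.sum_congr rfl fun i _ => ?_
    rw [Matrix.diag_apply, pow_two, Matrix.mul_apply]
    refine Finset.sum_congr rfl fun j _ => ?_
    rw [hMsym j i, ← pow_two]
    rfl
  have hSSpos : 0 < SS δ U x := by
    rw [hSS, htr]
    have : 0 ≤ ∑ a, μ a ^ 2 := Finset.sum_nonneg fun a _ => sq_nonneg _
    linarith only [hδ, this]
  set F : ℝ := FF δ U x with hF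
  have hFpos : 0 < F := Real.sqrt_pos.2 hSSpos
  have hF0 : F ≠ 0 := hFpos.ne'
  have hF2 : SS δ U x = F ^ 2 := (Real.sq_sqrt hSSpos.le).symm
  set lam : Fin m → ℝ := fun k => μ k.succ / F with hlam
  have hμ : ∀ k : Fin m, μ k.succ = F * lam k := by
    intro k
    simp only [hlam]
    (clear * - hF0; field_simp)
  have hpw : ∀ q : ℕ, 1 ≤ q → tt U q x = F ^ q * pw lam q := by
    intro q hq
    rw [htr, Fin.sum_univ_succ, hμ0, zero_pow (by omega), zero_add, pw, Finset.mul_sum]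
    exact Finset.sum_congr rfl fun k _ => by rw [hμ, mul_pow]
  have hlam1 : pw lam 1 = 0 := by
    have h1 := hpw 1 le_rfl
    have h2 : tt U 1 x = 0 := by
      rw [tt, pow_one]
      exact hl
    rw [h2, pow_one] at h1
    exact (mul_eq_zero.1 h1.symm).resolve_left hF0
  have hlam2 : F ^ 2 * (1 - pw lam 2) = δ := by
    have h1 := hpw 2 (by norm_num)
    rw [hF2, h1] at hSS
    linarith only [hSS]
  have hlam2' : pw lam 2 ≤ 1 := by
    by_contra hcon
    push Not at hcon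
    have : F ^ 2 * (1 - pw lam 2) < 0 := mul_neg_of_pos_of_neg (by (clear * - hFpos; positivity)) (by linarith only [hcon])
    linarith only [hδ, hlam2, this]
  -- the index of the direction `p`
  obtain ⟨k, hk⟩ : ∃ k : Fin m, μ k.succ = -H := by
    have hR : ∀ a, μ a * m2R O p a = -H * m2R O p a := by
      intro a
      have h1 : ∑ i, O a i * (MM U x *ᵥ p) i = μ a * m2R O p a := by
        have : ∑ i, O a i * (MM U x *ᵥ p) i = ∑ j, (∑ i, MM U x j i * O a i) * p j := by
          simp only [Matrix.mulVec, dotProduct, Finset.mul_sum, Finset.sum_mul]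
          rw [Finset.sum_comm]
          refine Finset.sum_congr rfl fun j _ => Finset.sum_congr rfl fun i _ => ?_
          rw [hMsym i j]
          ring
        rw [this, m2R, Finset.mul_sum]
        exact Finset.sum_congr rfl fun j _ => by rw [heig a j]; ring
      rw [← h1, hMp, m2R, Finset.mul_sum]
      refine Finset.sum_congr rfl fun i _ => ?_
      rw [Pi.smul_apply, smul_eq_mul]
      ring
    by_contra hcon
    push Not at hcon
    have hz : ∀ a, m2R O p a = 0 := by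
      intro a
      refine Fin.cases ?_ (fun k => ?_) a
      · unfold m2R
        simp only [hO0]
        have h1 : ∀ i, x i / ‖x‖ * p i = (P1 U i x * x i) / ‖x‖ := by
          intro i
          simp only [hp]
          ring
        simp only [h1]
        rw [← Finset.sum_div, hpx, zero_div]
      · by_contra hne
        exact hcon k (mul_right_cancel₀ hne (hR k.succ))
    have h1 := m2_dot hO p p
    simp only [hz, mul_zero, Finset.sum_const_zero] at h1
    have h2 : ∑ k, p k * p k = 1 := hpp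
    rw [h1] at h2
    exact zero_ne_one h2
  have hlk : F * lam k = -H := by rw [← hμ, hk]
  have hlk0 : lam k ≤ 0 := by
    by_contra hcon
    push Not at hcon
    have := mul_pos hFpos hcon
    linarith only [hHH, hlk, this]
  -- values of the coefficient functions
  have hyy : yy δ U x = 1 := by rw [yy, hUx]; norm_num
  have hvv : vv U x = 1 := by
    rw [vv, ← norm_gradient_sq, hU.grad x hx hxf]; norm_num
  have hlift : ∀ g, lift g δ U x = g 1 1 (pw lam 3) (pw lam 4) := by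
    intro g
    have h3 : tt U 3 x / F ^ 3 = pw lam 3 := by
      rw [hpw 3 (by norm_num)]
      (clear * - hF0; field_simp)
    have h4 : tt U 4 x / F ^ 4 = pw lam 4 := by
      rw [hpw 4 (by norm_num)]
      (clear * - hF0; field_simp)
    rw [lift, hyy, hvv, ← hF, h3, h4]
  -- scalar products with `p`
  have eG : ∀ j, ∑ i, GG U j i x * p i
      = F ^ (j + 2) * (lam k ^ j * pw lam 2 + lam k * pw lam (j + 1) - pw lam (j + 2)) := by
    intro j
    have h1 := hGGp j
    rw [hpw 2 (by norm_num), hpw (j + 1) (by omega), hpw (j + 2) (by omega), ← hlk, mul_pow] at h1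
    have h2 : H = -(F * lam k) := by rw [hlk]; ring
    rw [h1, h2]
    ring
  have eQ : ∀ j, ∑ i, QQ U j i x * p i = F ^ j * lam k ^ j := by
    intro j
    have h1 := M4.pow_dot hMs hMp j p
    rw [hpp, mul_one, ← hlk, mul_pow] at h1
    exact h1
  have eM : ∀ a j, ∑ i, MG U a j i x * p i = F ^ a * lam k ^ a * ∑ i, GG U j i x * p i := by
    intro a j
    have h1 := M4.pow_dot hMs hMp a (fun l => GG U j l x)
    rw [← hlk, mul_pow] at h1
    exact h1
  have eE : ∀ a j, ∑ i, EE U a j i x * p i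
      = F ^ (a + j + 2) * (lam k ^ a * (lam k * pw lam (j + 1) - pw lam (j + 2))
        - lam k ^ j * (lam k * pw lam (a + 1) - pw lam (a + 2))) := by
    intro a j
    have h1 : ∑ i, EE U a j i x * p i = ∑ i, MG U a j i x * p i - ∑ i, MG U j a i x * p i := by
      rw [← Finset.sum_sub_distrib]
      exact Finset.sum_congr rfl fun i _ => by rw [EE]; ring
    rw [h1, eM, eM, eG, eG]
    ring
  have hrp : ∀ (β : ℝ) (n : ℕ), F ^ β * F ^ n = F ^ (β + n) := by
    intro β n
    rw [← Real.rpow_natCast, ← Real.rpow_add hFpos]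
  -- the identity
  have hid : ⟪ZZ Φ α δ K U x, gradient U x⟫ + H * WW Φ α δ U x
      = F ^ (2 * α + 1) * formN Φ lam k + K := by
    have hin : ⟪ZZ Φ α δ K U x, gradient U x⟫
        = (∑ j ∈ Finset.range Φ.na, F ^ (2 * α - 2 - j) * (Φ.a j).g 1 1 (pw lam 3) (pw lam 4)
            * ∑ i, GG U (j + 1) i x * p i)
          + (∑ q ∈ Finset.range Φ.ne, F ^ (2 * α - 1 - Φ.ea q - Φ.ej q)
            * (Φ.e q).g 1 1 (pw lam 3) (pw lam 4) * ∑ i, EE U (Φ.ea q) (Φ.ej q) i x * p i)
          - (∑ j ∈ Finset.range Φ.nf, F ^ (2 * α + 1 - j)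
            * (Φ.f j).g 1 1 (pw lam 3) (pw lam 4) * ∑ i, QQ U j i x * p i)
          + K * ∑ i, p i * p i := by
      rw [m2_inner_eq]
      have h1 : ∀ i, (ZZ Φ α δ K U x) i * (gradient U x) i
          = (∑ j ∈ Finset.range Φ.na, F ^ (2 * α - 2 - j) * (Φ.a j).g 1 1 (pw lam 3) (pw lam 4)
              * (GG U (j + 1) i x * p i))
            + (∑ q ∈ Finset.range Φ.ne, F ^ (2 * α - 1 - Φ.ea q - Φ.ej q)
              * (Φ.e q).g 1 1 (pw lam 3) (pw lam 4) * (EE U (Φ.ea q) (Φ.ej q) i x * p i))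
            - (∑ j ∈ Finset.range Φ.nf, F ^ (2 * α + 1 - j)
              * (Φ.f j).g 1 1 (pw lam 3) (pw lam 4) * (QQ U j i x * p i))
            + K * (p i * p i) := by
        intro i
        rw [gradient_apply, ZZ]
        simp only [← hF, hlift]
        rw [add_mul, sub_mul, add_mul, Finset.sum_mul, Finset.sum_mul, Finset.sum_mul]
        simp only [mul_assoc, hp]
      simp only [h1]
      rw [Finset.sum_add_distrib, Finset.sum_sub_distrib, Finset.sum_add_distrib]
      rw [Finset.sum_comm, Finset.sum_comm (f := fun i q => F ^ (2 * α - 1 - Φ.ea q - Φ.ej q)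
              * (Φ.e q).g 1 1 (pw lam 3) (pw lam 4) * (EE U (Φ.ea q) (Φ.ej q) i x * p i)),
        Finset.sum_comm (f := fun i (j : ℕ) => F ^ (2 * α + 1 - j)
              * (Φ.f j).g 1 1 (pw lam 3) (pw lam 4) * (QQ U j i x * p i))]
      simp only [← Finset.mul_sum]
    have hpp' : ∑ i, p i * p i = 1 := hpp
    rw [hin, hpp', mul_one, WW, hlift, ← hF]
    simp only [eG, eQ, eE]
    have hH' : H = -(F * lam k) := by rw [hlk]; ring
    have s1 : ∀ j : ℕ, F ^ (2 * α - 2 - j) * (Φ.a j).g 1 1 (pw lam 3) (pw lam 4)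
        * (F ^ (j + 1 + 2) * (lam k ^ (j + 1) * pw lam 2 + lam k * pw lam (j + 1 + 1)
          - pw lam (j + 1 + 2)))
        = F ^ (2 * α + 1) * ((Φ.a j).g 1 1 (pw lam 3) (pw lam 4)
          * (lam k ^ (j + 1) * pw lam 2 + lam k * pw lam (j + 2) - pw lam (j + 3))) := by
      intro j
      have h1 := hrp (2 * α - 2 - j) (j + 1 + 2)
      have h2 : 2 * α - 2 - (j : ℝ) + ((j + 1 + 2 : ℕ) : ℝ) = 2 * α + 1 := by push_cast; ring
      rw [h2] at h1
      rw [← h1]
      ring
    have s2 : ∀ q : ℕ, F ^ (2 * α - 1 - Φ.ea q - Φ.ej q) * (Φ.e q).g 1 1 (pw lam 3) (pw lam 4)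
        * (F ^ (Φ.ea q + Φ.ej q + 2)
          * (lam k ^ Φ.ea q * (lam k * pw lam (Φ.ej q + 1) - pw lam (Φ.ej q + 2))
            - lam k ^ Φ.ej q * (lam k * pw lam (Φ.ea q + 1) - pw lam (Φ.ea q + 2))))
        = F ^ (2 * α + 1) * ((Φ.e q).g 1 1 (pw lam 3) (pw lam 4)
          * (lam k ^ Φ.ea q * (lam k * pw lam (Φ.ej q + 1) - pw lam (Φ.ej q + 2))
            - lam k ^ Φ.ej q * (lam k * pw lam (Φ.ea q + 1) - pw lam (Φ.ea q + 2)))) := by
      intro q
      have h1 := hrp (2 * α - 1 - Φ.ea q - Φ.ej q) (Φ.ea q + Φ.ej q + 2)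
      have h2 : 2 * α - 1 - (Φ.ea q : ℝ) - (Φ.ej q : ℝ) + ((Φ.ea q + Φ.ej q + 2 : ℕ) : ℝ)
          = 2 * α + 1 := by push_cast; ring
      rw [h2] at h1
      rw [← h1]
      ring
    have s3 : ∀ j : ℕ, F ^ (2 * α + 1 - j) * (Φ.f j).g 1 1 (pw lam 3) (pw lam 4)
        * (F ^ j * lam k ^ j)
        = F ^ (2 * α + 1) * ((Φ.f j).g 1 1 (pw lam 3) (pw lam 4) * lam k ^ j) := by
      intro j
      have h1 := hrp (2 * α + 1 - j) j
      have h2 : 2 * α + 1 - (j : ℝ) + (j : ℝ) = 2 * α + 1 := by ring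
      rw [h2] at h1
      rw [← h1]
      ring
    have s4 : H * (F ^ (2 * α) * Φ.w.g 1 1 (pw lam 3) (pw lam 4))
        = - (F ^ (2 * α + 1) * (Φ.w.g 1 1 (pw lam 3) (pw lam 4) * lam k)) := by
      have h1 := hrp (2 * α) 1
      rw [pow_one, Nat.cast_one] at h1
      rw [← h1, hH']
      ring
    simp only [s1, s2, s3]
    rw [s4, formN, ← Finset.mul_sum, ← Finset.mul_sum, ← Finset.mul_sum]
    ring
  rw [hid]
  have hcer := hcert lam hlam1 hlam2' k hlk0
  have hFa : 0 ≤ F ^ (2 * α + 1) := Real.rpow_nonneg hFpos.le _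
  have h5 : F ^ (2 * α + 1) * (1 - pw lam 2) = δ * F ^ (2 * α - 1) := by
    have h1 := hrp (2 * α - 1) 2
    have h2 : 2 * α - 1 + ((2 : ℕ) : ℝ) = 2 * α + 1 := by push_cast; ring
    rw [h2] at h1
    rw [← h1, mul_assoc, hlam2]
    ring
  have h6 := mul_le_mul_of_nonneg_left hcer hFa
  have h7 : F ^ (2 * α + 1) * (-C * (1 - pw lam 2)) = - (C * δ * F ^ (2 * α - 1)) := by
    calc F ^ (2 * α + 1) * (-C * (1 - pw lam 2)) = -C * (F ^ (2 * α + 1) * (1 - pw lam 2)) := by
          ring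
      _ = _ := by rw [h5]; ring
  rw [h7] at h6
  linarith only [h6]

end Vale.Agent.P098
end
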