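import Mathlib
import Vale.Agent.P098.Bdl.B17
import Vale.Agent.P098.Bdl.B15
import Vale.Agent.P098.Bdl.B18

set_option linter.all false

section

/-! # M7a: derivative of Weiss' energy

Let `θ(t) = max(1-t,0)³` (`C²`), `θ' = -3 max(1-t,0)²`, `k(y) = -2θ'(|y|²) = 6 max(1-|y|²,0)²`,
`f = |∇u|² + χ_{u>0}`. `weiss u r = a(r) - b(r)` with
`a(r) = ∫ f(ry) θ(|y|²) dy = r^{-d} ∫ f(x) θ(|x|²/r²) dx`, `b(r) = ∫ (u(ry)/r)² k(y) dy`.

`b'(r) = 2 r⁻³ ∫ k(y) u(ry) (ry·∇u(ry) - u(ry)) dy`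
(`hasDerivAt_integral_of_dominated_loc_of_lip`; `u` is Lipschitz, differentiable at `r y` for a.e.
`y`).
`a'(r) = -r^{-d-1} ∫ f(x) (dθ + 2θ'|x|²/r²) dx` (differentiate the `x`-integral; arguments
`|x|²/r²`). With `ξ(x) = θ(|x|²/r²) x`, `div ξ = dθ + 2θ'|x|²/r²` and
`∇u·Dξ∇u = θ|∇u|² + 2θ'(x·∇u)²/r²`, so `inner_variation` gives
`a'(r) = -2 r^{-d-1} ∫ [θ|∇u|² + 2θ'(x·∇u)²/r²] dx`. By `MinL.weak` with `ζ = u θ(|x|²/r²)`:
`∫ θ|∇u|² = -∫ u ∇u·∇[θ(|x|²/r²)] = -∫ 2θ' u (x·∇u)/r²`. Hence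
`a'(r) = 2 r^{-d-3} ∫ (-2θ')(x·∇u)(x·∇u - u) dx = 2r⁻³ ∫ k(y) (ry·∇u(ry)) (ry·∇u(ry) - u(ry)) dy`
and `(weiss u)'(r) = 2 r⁻³ ∫ k(y) (ry·∇u(ry) - u(ry))² dy`. -/

open MeasureTheory Set Metric Filter
open scoped ContDiff RealInnerProductSpace Topology NNReal

namespace Vale.Agent.P098

variable {d : ℕ}

theorem rM7a_ae_smul {p : E d → Prop} (h : ∀ᵐ x : E d, p x) {r : ℝ} (hr : 0 < r) :
    ∀ᵐ y : E d, p (r • y) := by
  have h1 : Measure.QuasiMeasurePreserving (fun y : E d => r • y) volume volume := by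
    refine ⟨measurable_const_smul r, ?_⟩
    rw [Measure.map_addHaar_smul volume hr.ne']
    exact Measure.smul_absolutelyContinuous
  exact h1.ae h

theorem rM7a_B {L : ℝ≥0} {u : E d → ℝ} (hu : MinL L u) {r : ℝ} (hr : 0 < r) :
    HasDerivAt (fun r => ∫ y : E d, (u (r • y) / r) ^ 2 * (6 * max (1 - ‖y‖ ^ 2) 0 ^ 2))
      (2 / r ^ 3 * ∫ y : E d, 6 * max (1 - ‖y‖ ^ 2) 0 ^ 2 *
        (u (r • y) * fderiv ℝ u (r • y) (r • y) - u (r • y) ^ 2)) r := by
  have muc : Continuous u := hu.lip.continuous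
  have mq := rM7a_meas_q u
  set H : ℝ := (|u 0| + L * (2 * r)) / (r / 2) with hH
  set D : ℝ := L / (r / 2) + (|u 0| + L * (2 * r)) / (r ^ 2 / 4) with hD
  have hH0 : 0 ≤ H := by (clear * - hr; positivity)
  have hD0 : 0 ≤ D := by (clear * - hr; positivity)
  -- bounds for `h(ρ) = u(ρ y)/ρ`
  have hb : ∀ y : E d, ‖y‖ ≤ 1 → ∀ ρ ∈ Ioo (r / 2) (2 * r), |u (ρ • y)| ≤ |u 0| + L * (2 * r) := by
    intro y hy ρ hρ
    have h1 := rM7a_u_le hu.lip (ρ • y)
    have h2 : ‖ρ • y‖ ≤ 2 * r := by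
      rw [norm_smul, Real.norm_eq_abs, abs_of_pos (by linarith only [hr, hρ.1])]
      calc ρ * ‖y‖ ≤ 2 * r * 1 := mul_le_mul hρ.2.le hy (norm_nonneg _) (by linarith only [hr])
        _ = 2 * r := mul_one _
    refine h1.trans ?_
    (clear * - h2; gcongr)
  have hb2 : ∀ y : E d, ‖y‖ ≤ 1 → ∀ ρ ∈ Ioo (r / 2) (2 * r), |u (ρ • y) / ρ| ≤ H := by
    intro y hy ρ hρ
    have hρ0 : 0 < ρ := by linarith only [hr, hρ.1]
    rw [abs_div, abs_of_pos hρ0]
    exact div_le_div₀ (by (clear * - hr; positivity)) (hb y hy ρ hρ) (by linarith only [hr]) hρ.1.le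
  have hb3 : ∀ y : E d, ‖y‖ ≤ 1 → ∀ ρ ∈ Ioo (r / 2) (2 * r), ∀ σ ∈ Ioo (r / 2) (2 * r),
      |u (ρ • y) / ρ - u (σ • y) / σ| ≤ D * |ρ - σ| := by
    intro y hy ρ hρ σ hσ
    have hρ0 : 0 < ρ := by linarith only [hr, hρ.1]
    have hσ0 : 0 < σ := by linarith only [hr, hσ.1]
    have e0 : u (ρ • y) / ρ - u (σ • y) / σ =
        (u (ρ • y) - u (σ • y)) / ρ + u (σ • y) * ((σ - ρ) / (ρ * σ)) := by
      field_simp
      ring
    rw [e0]
    have e1 : |u (ρ • y) - u (σ • y)| ≤ L * |ρ - σ| := by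
      have := hu.lip.dist_le_mul (ρ • y) (σ • y)
      rw [Real.dist_eq, dist_eq_norm, ← sub_smul, norm_smul, Real.norm_eq_abs] at this
      refine this.trans (mul_le_mul_of_nonneg_left ?_ L.2)
      calc |ρ - σ| * ‖y‖ ≤ |ρ - σ| * 1 := by (clear * - hy; gcongr)
        _ = _ := mul_one _
    refine (abs_add_le _ _).trans ?_
    rw [abs_div, abs_of_pos hρ0, abs_mul, abs_div, abs_of_pos (mul_pos hρ0 hσ0), abs_sub_comm σ ρ,
      hD, add_mul]
    refine add_le_add ?_ ?_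
    · calc |u (ρ • y) - u (σ • y)| / ρ ≤ (L * |ρ - σ|) / (r / 2) :=
          div_le_div₀ (by (clear * -; positivity)) e1 (by linarith only [hr]) hρ.1.le
        _ = L / (r / 2) * |ρ - σ| := by ring
    · calc |u (σ • y)| * (|ρ - σ| / (ρ * σ)) ≤
          (|u 0| + L * (2 * r)) * (|ρ - σ| / (r ^ 2 / 4)) := by
            refine mul_le_mul (hb y hy σ hσ) ?_ (by (clear * - hρ0 hσ0; positivity)) (by (clear * - hr; positivity))
            refine div_le_div_of_nonneg_left (abs_nonneg _) (by positivity) ?_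
            nlinarith only [hr, hρ.1, hσ.1]
        _ = _ := by ring
  have hk : ∀ y : E d, 0 ≤ 6 * max (1 - ‖y‖ ^ 2) 0 ^ 2 := fun y => by (clear * -; positivity)
  have hk6 : ∀ y : E d, 6 * max (1 - ‖y‖ ^ 2) 0 ^ 2 ≤ 6 := by
    intro y
    have h1 : max (1 - ‖y‖ ^ 2) 0 ≤ 1 := max_le (by nlinarith only []) zero_le_one
    have h2 : max (1 - ‖y‖ ^ 2) 0 ^ 2 ≤ 1 := pow_le_one₀ (le_max_right _ _) h1
    linarith only [h2]
  have hk0 : ∀ y : E d, 1 < ‖y‖ → 6 * max (1 - ‖y‖ ^ 2) 0 ^ 2 = 0 := by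
    intro y hy
    rw [max_eq_right (by nlinarith only [hy])]
    norm_num
  have key := hasDerivAt_integral_of_dominated_loc_of_lip (μ := (volume : Measure (E d)))
    (s := Ioo (r / 2) (2 * r)) (x₀ := r)
    (F := fun ρ y => (u (ρ • y) / ρ) ^ 2 * (6 * max (1 - ‖y‖ ^ 2) 0 ^ 2))
    (F' := fun y => 2 / r ^ 3 * (6 * max (1 - ‖y‖ ^ 2) 0 ^ 2 *
        (u (r • y) * fderiv ℝ u (r • y) (r • y) - u (r • y) ^ 2)))
    (bound := (closedBall (0 : E d) 1).indicator fun _ => 2 * H * D * 6)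
    (Ioo_mem_nhds (by linarith only [hr] : r / 2 < r) (by linarith only [hr] : r < 2 * r)) ?_ ?_ ?_ ?_ ?_ ?_
  · rw [← integral_const_mul]
    exact key.2
  · refine Eventually.of_forall fun ρ => Continuous.aestronglyMeasurable ?_
    have : Continuous fun y : E d => u (ρ • y) := muc.comp (continuous_const_smul ρ)
    fun_prop
  · refine rM7a_int (r := 1) (C := H ^ 2 * 6) ?_ ?_ ?_
    · refine Continuous.aestronglyMeasurable ?_
      have : Continuous fun y : E d => u (r • y) := muc.comp (continuous_const_smul r)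
      (clear * - muc; fun_prop)
    · intro y hy
      rw [abs_mul, abs_pow, abs_of_nonneg (hk y)]
      refine mul_le_mul ?_ (hk6 y) (hk y) (by (clear * -; positivity))
      exact pow_le_pow_left₀ (abs_nonneg _) (hb2 y hy r ⟨by linarith only [hr], by linarith only [hr]⟩) 2
    · intro y hy
      rw [hk0 y hy, mul_zero]
  · refine Measurable.aestronglyMeasurable ?_
    have m1 : Measurable fun y : E d => u (r • y) := (muc.comp (continuous_const_smul r)).measurable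
    have m2 : Measurable fun y : E d => fderiv ℝ u (r • y) (r • y) :=
      mq.comp (measurable_const_smul r)
    (clear * - muc m2; fun_prop)
  · refine Eventually.of_forall fun y => ?_
    rcases le_or_gt ‖y‖ 1 with hy | hy
    · have hym : y ∈ closedBall (0 : E d) 1 := by simpa only [mem_closedBall, dist_zero_right] using hy
      rw [indicator_of_mem hym]
      refine LipschitzOnWith.of_dist_le_mul fun ρ hρ σ hσ => ?_
      have hR : ((Real.nnabs (2 * H * D * 6) : ℝ≥0) : ℝ) = 2 * H * D * 6 := by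
        rw [Real.coe_nnabs, abs_of_nonneg (by (clear * - hr; positivity))]
      rw [Real.dist_eq, Real.dist_eq, hR, ← sub_mul, abs_mul, abs_of_nonneg (hk y)]
      have e1 : (u (ρ • y) / ρ) ^ 2 - (u (σ • y) / σ) ^ 2 =
          (u (ρ • y) / ρ + u (σ • y) / σ) * (u (ρ • y) / ρ - u (σ • y) / σ) := by ring
      rw [e1, abs_mul]
      have e2 : |u (ρ • y) / ρ + u (σ • y) / σ| ≤ 2 * H := by
        refine (abs_add_le _ _).trans ?_
        linarith only [hb2 y hy ρ hρ, hb2 y hy σ hσ]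
      have e3 := hb3 y hy ρ hρ σ hσ
      calc _ ≤ (2 * H * (D * |ρ - σ|)) * 6 := by
            refine mul_le_mul ?_ (hk6 y) (hk y) (by (clear * - hr; (clear * - hr; positivity)))
            exact mul_le_mul e2 e3 (abs_nonneg _) (by (clear * - hr; positivity))
        _ = _ := by ring
    · have hF : (fun ρ : ℝ => (u (ρ • y) / ρ) ^ 2 * (6 * max (1 - ‖y‖ ^ 2) 0 ^ 2)) =
          fun _ => 0 := by
        funext ρ
        rw [hk0 y hy, mul_zero]
      rw [hF]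
      exact (LipschitzWith.const (0 : ℝ)).lipschitzOnWith.weaken (by (clear * -; positivity))
  · rw [integrable_indicator_iff measurableSet_closedBall]
    exact integrableOn_const (measure_closedBall_lt_top.ne)
  · filter_upwards [rM7a_ae_smul (mb_ae_diff hu.lip) hr] with y hy
    have h1 : HasDerivAt (fun ρ : ℝ => ρ • y) y r := by
      simpa using (hasDerivAt_id r).smul_const y
    have h2 : HasDerivAt (fun ρ : ℝ => u (ρ • y)) (fderiv ℝ u (r • y) y) r :=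
      hy.hasFDerivAt.comp_hasDerivAt r h1
    have h3 : HasDerivAt (fun ρ : ℝ => u (ρ • y) / ρ)
        ((fderiv ℝ u (r • y) y * r - u (r • y) * 1) / r ^ 2) r :=
      h2.div (hasDerivAt_id r) hr.ne'
    have h4 : HasDerivAt (fun ρ : ℝ => (u (ρ • y) / ρ) ^ 2)
        (2 * (u (r • y) / r) * ((fderiv ℝ u (r • y) y * r - u (r • y) * 1) / r ^ 2)) r := by
      simpa only [mul_one, Nat.cast_ofNat, Nat.add_one_sub_one, pow_one] using h3.fun_pow 2
    refine (h4.mul_const (6 * max (1 - ‖y‖ ^ 2) 0 ^ 2)).congr_deriv ?_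
    rw [map_smul, smul_eq_mul]
    (clear * - hr; field_simp)

theorem rM7a_fin {U Q : E d → ℝ} (mU : Measurable U) (mQ : Measurable Q) {A B : ℝ} (hA : 0 ≤ A)
    (hU : ∀ y : E d, ‖y‖ ≤ 1 → |U y| ≤ A) (hQ : ∀ y : E d, ‖y‖ ≤ 1 → |Q y| ≤ B) :
    (∫ y : E d, 6 * max (1 - ‖y‖ ^ 2) 0 ^ 2 * (Q y ^ 2 - U y * Q y)) -
      (∫ y : E d, 6 * max (1 - ‖y‖ ^ 2) 0 ^ 2 * (U y * Q y - U y ^ 2)) =
      ∫ y : E d, 6 * max (1 - ‖y‖ ^ 2) 0 ^ 2 * (Q y - U y) ^ 2 := by
  have hk : ∀ y : E d, 0 ≤ 6 * max (1 - ‖y‖ ^ 2) 0 ^ 2 := fun y => by (clear * -; positivity)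
  have hk6 : ∀ y : E d, 6 * max (1 - ‖y‖ ^ 2) 0 ^ 2 ≤ 6 := by
    intro y
    have h1 : max (1 - ‖y‖ ^ 2) 0 ≤ 1 := max_le (by nlinarith only []) zero_le_one
    have h2 : max (1 - ‖y‖ ^ 2) 0 ^ 2 ≤ 1 := pow_le_one₀ (le_max_right _ _) h1
    linarith only [h2]
  have hk0 : ∀ y : E d, 1 < ‖y‖ → 6 * max (1 - ‖y‖ ^ 2) 0 ^ 2 = 0 := by
    intro y hy
    rw [max_eq_right (by nlinarith only [hy])]
    norm_num
  have i1 : Integrable fun y : E d => 6 * max (1 - ‖y‖ ^ 2) 0 ^ 2 *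
        (Q y ^ 2 - U y * Q y) := by
    refine rM7a_int (r := 1) (C := 6 * (B ^ 2 + A * B))
      (Measurable.aestronglyMeasurable (by fun_prop)) ?_ ?_
    · intro y hy
      rw [abs_mul, abs_of_nonneg (hk y)]
      refine mul_le_mul (hk6 y) ?_ (abs_nonneg _) (by norm_num)
      refine (abs_sub _ _).trans (add_le_add ?_ ?_)
      · rw [abs_pow]; exact pow_le_pow_left₀ (abs_nonneg _) (hQ y hy) 2
      · rw [abs_mul]
        exact mul_le_mul (hU y hy) (hQ y hy) (abs_nonneg _) hA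
    · intro y hy
      rw [hk0 y hy, zero_mul]
  have i2 : Integrable fun y : E d => 6 * max (1 - ‖y‖ ^ 2) 0 ^ 2 *
        (U y * Q y - U y ^ 2) := by
    refine rM7a_int (r := 1) (C := 6 * (A * B + A ^ 2))
      (Measurable.aestronglyMeasurable (by fun_prop)) ?_ ?_
    · intro y hy
      rw [abs_mul, abs_of_nonneg (hk y)]
      refine mul_le_mul (hk6 y) ?_ (abs_nonneg _) (by norm_num)
      refine (abs_sub _ _).trans (add_le_add ?_ ?_)
      · rw [abs_mul]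
        exact mul_le_mul (hU y hy) (hQ y hy) (abs_nonneg _) hA
      · rw [abs_pow]; exact pow_le_pow_left₀ (abs_nonneg _) (hU y hy) 2
    · intro y hy
      rw [hk0 y hy, zero_mul]
  rw [← integral_sub i1 i2]
  refine integral_congr_ae (Eventually.of_forall fun y => ?_)
  simp only
  ring

theorem weiss_deriv {L : ℝ≥0} {u : E d → ℝ} (hu : MinL L u) {r : ℝ} (hr : 0 < r) :
    HasDerivAt (weiss u) (2 / r ^ 3 * ∫ y : E d, 6 * max (1 - ‖y‖ ^ 2) 0 ^ 2
      * (fderiv ℝ u (r • y) (r • y) - u (r • y)) ^ 2) r := by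
  have h := (rM7a_A hu hr).sub (rM7a_B hu hr)
  have m1 : Measurable fun y : E d => u (r • y) :=
    (hu.lip.continuous.comp (continuous_const_smul r)).measurable
  have m2 : Measurable fun y : E d => fderiv ℝ u (r • y) (r • y) :=
    (rM7a_meas_q u).comp (measurable_const_smul r)
  have hU : ∀ y : E d, ‖y‖ ≤ 1 → |u (r • y)| ≤ |u 0| + L * r := by
    intro y hy
    refine (rM7a_u_le hu.lip (r • y)).trans ?_
    rw [norm_smul, Real.norm_eq_abs, abs_of_pos hr]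
    have : r * ‖y‖ ≤ r := by linarith only [mul_nonneg (le_of_lt (sub_pos.2 hr)) (sub_nonneg.2 hy)]
    (clear * - this; gcongr)
  have hQ : ∀ y : E d, ‖y‖ ≤ 1 → |fderiv ℝ u (r • y) (r • y)| ≤ L * r := by
    intro y hy
    refine (rM7a_q_le hu.lip (r • y)).trans ?_
    rw [norm_smul, Real.norm_eq_abs, abs_of_pos hr]
    have : r * ‖y‖ ≤ r := by linarith [mul_nonneg (le_of_lt (sub_pos.2 hr)) (sub_nonneg.2 hy)]
    (clear * - this; gcongr)
  have h2 := rM7a_fin m1 m2 (A := |u 0| + L * r) (B := L * r) (by (clear * - hr; positivity)) hU hQ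
  rw [← mul_sub, h2] at h
  exact h

end Vale.Agent.P098
end

section

/-! # M7: monotonicity and rigidity for Weiss' energy

Uses `weiss_deriv`. `weiss_mono`: monotone. `hom_of_weiss_const`: the derivative vanishes for all
`r`, so `x·∇u(x) = u(x)` for a.e. `x`. For a fixed continuous `ψ` with compact support,
`J(r) = ∫ u(ry) ψ(y) dy` satisfies `J'(r) = J(r)/r`, so `J(r)/r` is constant; take
`ψ(y) = (u(ry)/r - u(y)) max(R - |y|, 0)`. -/

open MeasureTheory Set Metric Filter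
open scoped ContDiff RealInnerProductSpace Topology NNReal

namespace Vale.Agent.P098

variable {d : ℕ}

theorem weiss_mono {L : ℝ≥0} {u : E d → ℝ} (hu : MinL L u) {s t : ℝ} (hs : 0 < s) (hst : s ≤ t) :
    weiss u s ≤ weiss u t := by
  have hd : ∀ r ∈ Ioi (0 : ℝ), HasDerivAt (weiss u) _ r := fun r hr => weiss_deriv hu hr
  refine monotoneOn_of_deriv_nonneg (convex_Ioi (0 : ℝ))
    (fun r hr => (hd r hr).continuousAt.continuousWithinAt)
    (fun r hr => ?_) (fun r hr => ?_) hs (lt_of_lt_of_le hs hst) hst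
  · rw [interior_Ioi] at hr
    exact (hd r hr).differentiableAt.differentiableWithinAt
  · rw [interior_Ioi] at hr
    rw [(hd r hr).deriv]
    have hr' : (0 : ℝ) < r := hr
    refine mul_nonneg (by positivity) (integral_nonneg fun y => ?_)
    (clear * -; positivity)

/-- scaling of a.e. statements -/
theorem rM7_ae_smul {p : E d → Prop} (h : ∀ᵐ x : E d, p x) {r : ℝ} (hr : r ≠ 0) :
    ∀ᵐ y : E d, p (r • y) :=
  (Measure.quasiMeasurePreserving_smul (volume : Measure (E d)) hr).ae h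

/-- derivative of `J(r) = ∫ u(ry) ψ(y) dy` -/
theorem rM7_deriv {L : ℝ≥0} {u : E d → ℝ} (hu : LipschitzWith L u)
    (h : ∀ᵐ x : E d, fderiv ℝ u x x = u x) {ψ : E d → ℝ} (hψ : Continuous ψ)
    (hc : HasCompactSupport ψ) {s : ℝ} (hs : 0 < s) :
    HasDerivAt (fun r : ℝ => ∫ y : E d, u (r • y) * ψ y) ((∫ y : E d, u (s • y) * ψ y) / s) s := by
  have hcont : ∀ r : ℝ, Continuous fun y : E d => u (r • y) * ψ y := fun r =>
    (hu.continuous.comp (continuous_const_smul r)).mul hψ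
  have hint : ∀ r : ℝ, Integrable fun y : E d => u (r • y) * ψ y := fun r =>
    (hcont r).integrable_of_hasCompactSupport hc.mul_left
  have hb : Integrable fun y : E d => (L : ℝ) * ‖y‖ * |ψ y| := by
    refine Continuous.integrable_of_hasCompactSupport (by fun_prop) ?_
    exact HasCompactSupport.mul_left (hc.abs)
  have key := hasDerivAt_integral_of_dominated_loc_of_lip (μ := (volume : Measure (E d)))
    (F := fun (r : ℝ) (y : E d) => u (r • y) * ψ y)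
    (F' := fun y => u (s • y) * ψ y / s) (x₀ := s) (s := univ)
    (bound := fun y => (L : ℝ) * ‖y‖ * |ψ y|) univ_mem
    (Eventually.of_forall fun r => (hcont r).aestronglyMeasurable) (hint s)
    ((hcont s).div_const s).aestronglyMeasurable ?_ hb ?_
  · have := key.2
    rwa [integral_div] at this
  · refine Eventually.of_forall fun y => ?_
    rw [lipschitzOnWith_univ]
    refine LipschitzWith.of_dist_le_mul fun r r' => ?_
    rw [Real.coe_nnabs, Real.dist_eq, Real.dist_eq, ← sub_mul, abs_mul]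
    have h1 := hu.dist_le_mul (r • y) (r' • y)
    rw [Real.dist_eq, dist_eq_norm, ← sub_smul, norm_smul, Real.norm_eq_abs] at h1
    rw [abs_of_nonneg (by (clear * -; positivity) : (0 : ℝ) ≤ (L : ℝ) * ‖y‖ * |ψ y|)]
    calc |u (r • y) - u (r' • y)| * |ψ y| ≤ (L : ℝ) * (|r - r'| * ‖y‖) * |ψ y| :=
          mul_le_mul_of_nonneg_right h1 (abs_nonneg _)
      _ = (L : ℝ) * ‖y‖ * |ψ y| * |r - r'| := by ring
  · filter_upwards [rM7_ae_smul (hu.ae_differentiableAt (μ := volume)) hs.ne', rM7_ae_smul h hs.ne']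
      with y hy1 hy2
    have h1 : HasDerivAt (fun r : ℝ => r • y) y s := by
      simpa using (hasDerivAt_id s).smul_const y
    have h2 := (hy1.hasFDerivAt.comp_hasDerivAt s h1).mul_const (ψ y)
    have h3 : fderiv ℝ u (s • y) y = u (s • y) / s := by
      rw [map_smul, smul_eq_mul] at hy2
      rw [eq_div_iff hs.ne', mul_comm]
      exact hy2
    rw [h3, div_mul_eq_mul_div] at h2
    exact h2

theorem rM7_hom_of_ae {L : ℝ≥0} {u : E d → ℝ} (hu : LipschitzWith L u)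
    (h : ∀ᵐ x : E d, fderiv ℝ u x x = u x) : Hom1 u := by
  intro r hr x
  set R : ℝ := ‖x‖ + 1 with hR
  set ψ : E d → ℝ := fun y => (u (r • y) / r - u y) * max (R - ‖y‖) 0 with hψdef
  have hψ : Continuous ψ := by
    have h1 : Continuous fun y : E d => u (r • y) := hu.continuous.comp (continuous_const_smul r)
    have h2 := hu.continuous
    fun_prop
  have hcut : HasCompactSupport fun y : E d => max (R - ‖y‖) 0 := by
    refine HasCompactSupport.intro (isCompact_closedBall (0 : E d) R) fun y hy => ?_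
    rw [mem_closedBall_zero_iff, not_le] at hy
    exact max_eq_right (by linarith only [hy])
  have hc : HasCompactSupport ψ := hcut.mul_left
  have hd : ∀ s ∈ Ioi (0 : ℝ), HasDerivAt
      (fun s : ℝ => (∫ y : E d, u (s • y) * ψ y) / s) 0 s := by
    intro s hs
    have h1 := (rM7_deriv hu h hψ hc hs).div (hasDerivAt_id s) (ne_of_gt hs)
    have h2 : ((∫ y : E d, u (s • y) * ψ y) / s * id s - (∫ y : E d, u (s • y) * ψ y) * 1) /
        id s ^ 2 = 0 := by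
      rw [id, div_mul_cancel₀ _ (ne_of_gt hs), mul_one, sub_self, zero_div]
    rw [h2] at h1
    exact h1
  have hconst := isOpen_Ioi.is_const_of_deriv_eq_zero (isPreconnected_Ioi)
    (fun s hs => (hd s hs).differentiableAt.differentiableWithinAt)
    (fun s hs => (hd s hs).deriv) (mem_Ioi.2 hr) (mem_Ioi.2 one_pos)
  have hint : ∀ r : ℝ, Integrable fun y : E d => u (r • y) * ψ y := fun r =>
    ((hu.continuous.comp (continuous_const_smul r)).mul hψ).integrable_of_hasCompactSupport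
      hc.mul_left
  have h0 : ∫ y : E d, (u (r • y) / r - u y) ^ 2 * max (R - ‖y‖) 0 = 0 := by
    have h1 : (fun y : E d => (u (r • y) / r - u y) ^ 2 * max (R - ‖y‖) 0) =
        fun y => u (r • y) * ψ y / r - u ((1 : ℝ) • y) * ψ y / 1 := by
      funext y
      simp only [hψdef, one_smul]
      ring
    rw [h1, integral_sub ((hint r).div_const r) ((hint 1).div_const 1), integral_div, integral_div]
    exact sub_eq_zero.2 hconst
  by_contra hne
  have hcont : Continuous fun y : E d => (u (r • y) / r - u y) ^ 2 * max (R - ‖y‖) 0 := by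
    have h1 : Continuous fun y : E d => u (r • y) := hu.continuous.comp (continuous_const_smul r)
    have h2 := hu.continuous
    fun_prop
  have hpos := hcont.integral_pos_of_hasCompactSupport_nonneg_nonzero
    (μ := (volume : Measure (E d))) (x := x) hcut.mul_left (fun y => by (clear * -; positivity)) ?_
  · exact hpos.ne' h0
  · have h1 : u (r • x) / r - u x ≠ 0 := by
      rw [sub_ne_zero, ne_eq, div_eq_iff hr.ne', mul_comm]
      exact hne
    have h2 : max (R - ‖x‖) 0 ≠ 0 := by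
      rw [hR]
      have : ‖x‖ + 1 - ‖x‖ = 1 := by ring
      rw [this]
      norm_num
    exact mul_ne_zero (pow_ne_zero 2 h1) h2

theorem rM7_meas (u : E d → ℝ) : Measurable fun x : E d => fderiv ℝ u x x :=
  (isBoundedBilinearMap_apply (𝕜 := ℝ) (E := E d) (F := ℝ)).continuous.measurable.comp
    ((measurable_fderiv ℝ u).prodMk measurable_id)

theorem rM7_ae_of_weiss {L : ℝ≥0} {u : E d → ℝ} (hu : MinL L u)
    (h : ∀ r : ℝ, 0 < r → weiss u r = weiss u 1) {r : ℝ} (hr : 0 < r) :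
    ∀ᵐ y : E d, ‖y‖ < 1 → fderiv ℝ u (r • y) (r • y) = u (r • y) := by
  have h1 := weiss_deriv hu hr
  have h2 : HasDerivAt (weiss u) 0 r :=
    (hasDerivAt_const r (weiss u 1)).congr_of_eventuallyEq (by
      filter_upwards [Ioi_mem_nhds hr] with s hs
      exact h s hs)
  have h3 := h1.unique h2
  have h4 : ∫ y : E d, 6 * max (1 - ‖y‖ ^ 2) 0 ^ 2
      * (fderiv ℝ u (r • y) (r • y) - u (r • y)) ^ 2 = 0 := by
    rcases mul_eq_zero.1 h3 with h5 | h5
    · exact absurd h5 (by positivity)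
    · exact h5
  have hmeas : Measurable fun y : E d => 6 * max (1 - ‖y‖ ^ 2) 0 ^ 2
      * (fderiv ℝ u (r • y) (r • y) - u (r • y)) ^ 2 := by
    have m1 : Measurable fun y : E d => fderiv ℝ u (r • y) (r • y) :=
      (rM7_meas u).comp (measurable_const_smul r)
    have m2 : Measurable fun y : E d => u (r • y) :=
      hu.lip.continuous.measurable.comp (measurable_const_smul r)
    have m3 : Continuous fun y : E d => 6 * max (1 - ‖y‖ ^ 2) 0 ^ 2 := by fun_prop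
    exact m3.measurable.mul ((m1.sub m2).pow_const 2)
  have hint : Integrable fun y : E d => 6 * max (1 - ‖y‖ ^ 2) 0 ^ 2
      * (fderiv ℝ u (r • y) (r • y) - u (r • y)) ^ 2 := by
    set C : ℝ := ((L : ℝ) * r + (|u 0| + L * r)) ^ 2
    have hg : Integrable fun y : E d => 6 * max (1 - ‖y‖ ^ 2) 0 ^ 2 * C := by
      refine Continuous.integrable_of_hasCompactSupport (by fun_prop) ?_
      refine HasCompactSupport.intro (isCompact_closedBall (0 : E d) 1) fun y hy => ?_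
      rw [mem_closedBall_zero_iff, not_le] at hy
      have : max (1 - ‖y‖ ^ 2) 0 = 0 := max_eq_right (by nlinarith only [hy])
      rw [this]
      ring
    refine hg.mono' hmeas.aestronglyMeasurable (Eventually.of_forall fun y => ?_)
    rw [Real.norm_eq_abs, abs_of_nonneg (by (clear * -; positivity))]
    rcases le_or_gt ‖y‖ 1 with hy | hy
    · refine mul_le_mul_of_nonneg_left ?_ (by (clear * -; positivity))
      have e1 : |fderiv ℝ u (r • y) (r • y)| ≤ L * r := by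
        have := (fderiv ℝ u (r • y)).le_opNorm (r • y)
        rw [Real.norm_eq_abs] at this
        refine this.trans ?_
        have e2 : ‖fderiv ℝ u (r • y)‖ ≤ L := norm_fderiv_le_of_lipschitz ℝ hu.lip
        have e3 : ‖r • y‖ ≤ r := by
          rw [norm_smul, Real.norm_eq_abs, abs_of_pos hr]
          linarith only [mul_nonneg (le_of_lt (sub_pos.2 hr)) (sub_nonneg.2 hy)]
        exact mul_le_mul e2 e3 (norm_nonneg _) L.2
      have e4 : |u (r • y)| ≤ |u 0| + L * r := by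
        have := hu.lip.dist_le_mul (r • y) 0
        rw [Real.dist_eq, dist_zero_right] at this
        have e3 : ‖r • y‖ ≤ r := by
          rw [norm_smul, Real.norm_eq_abs, abs_of_pos hr]
          nlinarith only [hr, hy]
        have e5 : (L : ℝ) * ‖r • y‖ ≤ L * r := mul_le_mul_of_nonneg_left e3 L.2
        have e6 := abs_sub_abs_le_abs_sub (u (r • y)) (u 0)
        linarith only [this, e5, e6]
      have e7 : |fderiv ℝ u (r • y) (r • y) - u (r • y)| ≤ (L : ℝ) * r + (|u 0| + L * r) :=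
        (abs_sub _ _).trans (add_le_add e1 e4)
      rw [← sq_abs]
      exact pow_le_pow_left₀ (abs_nonneg _) e7 2
    · have : max (1 - ‖y‖ ^ 2) 0 = 0 := max_eq_right (by nlinarith only [hy])
      rw [this]
      simp only [ne_eq, OfNat.ofNat_ne_zero, not_false_eq_true, zero_pow, mul_zero, map_smul, smul_eq_mul, zero_mul, Std.le_refl]
  have h5 := (integral_eq_zero_iff_of_nonneg (fun y => by (clear * -; positivity)) hint).1 h4
  filter_upwards [h5] with y hy hy1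
  have h6 : 0 < max (1 - ‖y‖ ^ 2) 0 := lt_max_of_lt_left (by nlinarith only [hy1, norm_nonneg y])
  have h7 : 6 * max (1 - ‖y‖ ^ 2) 0 ^ 2 ≠ 0 := by (clear * - h6; positivity)
  have h8 := (mul_eq_zero.1 hy).resolve_left h7
  have h9 := pow_eq_zero_iff (two_ne_zero) |>.1 h8
  linarith only [h9]

theorem hom_of_weiss_const {L : ℝ≥0} {u : E d → ℝ} (hu : MinL L u)
    (h : ∀ r : ℝ, 0 < r → weiss u r = weiss u 1) : Hom1 u := by
  refine rM7_hom_of_ae hu.lip ?_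
  have h1 : ∀ n : ℕ, ∀ᵐ x : E d, ‖((n : ℝ) + 1)⁻¹ • x‖ < 1 → fderiv ℝ u x x = u x := by
    intro n
    have hn : (0 : ℝ) < (n : ℝ) + 1 := by positivity
    have h2 := rM7_ae_smul (rM7_ae_of_weiss hu h hn) (inv_ne_zero hn.ne')
    filter_upwards [h2] with x hx hx1
    have h3 := hx hx1
    rwa [smul_inv_smul₀ hn.ne'] at h3
  filter_upwards [ae_all_iff.2 h1] with x hx
  obtain ⟨n, hn⟩ := exists_nat_gt ‖x‖
  refine hx n ?_
  have hn1 : (0 : ℝ) < (n : ℝ) + 1 := by positivity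
  rw [norm_smul, Real.norm_eq_abs, abs_of_pos (inv_pos.2 hn1), inv_mul_lt_iff₀ hn1]
  linarith

end Vale.Agent.P098
end

section

open MeasureTheory Set Metric Filter
open scoped ContDiff RealInnerProductSpace Topology

namespace Vale.Agent.P098

variable {d m : ℕ}

theorem m3_kappa {δ : ℝ} (hδ : 0 < δ) (U : E d → ℝ) {x : E d} (hx : x ≠ 0) :
    (U x / ‖x‖) ^ 2 = (U x * FF δ U x) ^ 2 * (1 / (‖x‖ ^ 2 * SS δ U x)) := by
  obtain ⟨_, h2, h3⟩ := m3_FF_sq hδ U x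
  have hn : 0 < ‖x‖ := norm_pos_iff.2 hx
  rw [mul_pow, h2]
  field_simp

/-- the inner sum -/
theorem m3_inner_sum {δ : ℝ} {U : E (m + 1) → ℝ} {x : E (m + 1)} {lam ξ : Fin m → ℝ}
    {T : Fin m → Fin m → Fin m → ℝ} (D : FrameData δ U x lam ξ T) (j : ℕ) :
    (∑ a ∈ Finset.range (j - 1), ∑ k, GG U (a + 1) k x * QQ U (j - 2 - a) k x) =
      FF δ U x ^ (j + 1) * ((∑ a ∈ Finset.range (j - 1), ∑ k, XX lam (fun l => T l l k) (a + 1)
          * lam k ^ (j - 2 - a) * ξ k) - (if 2 ≤ j then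
            1 / (‖x‖ ^ 2 * SS δ U x) * (U x * FF δ U x) * pw lam j else 0)) := by
  rcases Nat.lt_or_ge j 2 with hj | hj
  · have h0 : j - 1 = 0 := by omega
    have h2 : ¬ 2 ≤ j := by omega
    simp only [h0, Finset.range_zero, Finset.sum_empty, h2, ↓reduceIte, sub_self, mul_zero]
  · obtain ⟨n, rfl⟩ : ∃ n, j = n + 2 := ⟨j - 2, by omega⟩
    have h0 : n + 2 - 1 = n + 1 := by omega
    rw [h0, if_pos hj, Finset.sum_range_succ, Finset.sum_range_succ]
    have e1 : n + 2 - 2 - n = 0 := by omega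
    rw [e1]
    have e2 : ∑ k, GG U (n + 1) k x * QQ U 0 k x = ∑ k, GG U (n + 1) k x * P1 U k x :=
      Finset.sum_congr rfl fun k _ => by rw [m3_QQ_zero]
    rw [e2, D.hGp (n + 1) (by omega)]
    have e3 : ∀ a ∈ Finset.range n, ∑ k, GG U (a + 1) k x * QQ U (n + 2 - 2 - a) k x =
        FF δ U x ^ (n + 2 + 1) * ∑ k, XX lam (fun l => T l l k) (a + 1)
          * lam k ^ (n + 2 - 2 - a) * ξ k := by
      intro a ha
      have ha' := Finset.mem_range.1 ha
      rw [D.hGQ (a + 1) (n + 2 - 2 - a) (by omega) (by omega)]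
      congr 2
      omega
    rw [Finset.sum_congr rfl e3, ← Finset.mul_sum]
    simp only [pow_zero, mul_one]
    have q : pw lam (n + 1 + 1) = pw lam (n + 2) := rfl
    rw [q]
    ring

/-- one `f`-term -/
theorem m3_div_f {U : E (m + 1) → ℝ} {N : Set (E (m + 1))} (hN : IsOpen N)
    (hU : ContDiffOn ℝ ∞ U N) (hlap : ∀ x ∈ N, lap U x = 0) (f : SF) {α δ : ℝ} (hδ : 0 < δ)
    (h1 : ∀ x ∈ N, 0 < 1 + U x * FF δ U x) {x : E (m + 1)} (hx : x ∈ N) (hx0 : x ≠ 0)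
    {lam ξ : Fin m → ℝ}
    {T : Fin m → Fin m → Fin m → ℝ} (D : FrameData δ U x lam ξ T) (j : ℕ) :
    ∑ k, P1 (fun y => FF δ U y ^ (2 * α + 1 - j) * lift f.g δ U y * QQ U j k y) k x =
      FF δ U x ^ (2 * α + 2) * m3_Df f α (1 / (‖x‖ ^ 2 * SS δ U x)) (U x * FF δ U x)
        (yy δ U x) (vv U x) lam ξ T j := by
  obtain ⟨hF, -, -⟩ := m3_FF_sq hδ U x
  -- the inner products in a uniform form
  have g1 : ∀ i, 1 ≤ i → ∑ k, GG U i k x * QQ U j k x = FF δ U x ^ (i + j + 2) *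
      ((∑ k, XX lam (fun l => T l l k) i * lam k ^ j * ξ k) - if j = 0 then
        1 / (‖x‖ ^ 2 * SS δ U x) * (U x * FF δ U x) * pw lam (i + 1) else 0) := by
    intro i hi
    by_cases hj : j = 0
    · subst hj
      have e2 : ∑ k, GG U i k x * QQ U 0 k x = ∑ k, GG U i k x * P1 U k x :=
        Finset.sum_congr rfl fun k _ => by rw [m3_QQ_zero]
      rw [e2, D.hGp i hi]
      simp only [one_div, mul_inv_rev, add_zero, pow_zero, mul_one, ↓reduceIte]
    · rw [D.hGQ i j hi (by omega), if_neg hj, sub_zero]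
  have g2 : ∑ k, P1 U k x * QQ U j k x = FF δ U x ^ j *
      ((∑ k, lam k ^ j * ξ k ^ 2) + if j = 0 then (U x * FF δ U x) ^ 2
        * (1 / (‖x‖ ^ 2 * SS δ U x)) else 0) := by
    by_cases hj : j = 0
    · subst hj
      have e2 : ∑ k, P1 U k x * QQ U 0 k x = vv U x := by
        unfold vv
        exact Finset.sum_congr rfl fun k _ => by rw [m3_QQ_zero, sq]
      rw [e2, D.hv, m3_kappa hδ U hx0]
      simp only [one_div, mul_inv_rev, pow_zero, one_mul, ↓reduceIte]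
    · rw [D.hpQ j (by omega), if_neg hj, add_zero]
  have g3 : ∑ k, QQ U 1 k x * QQ U j k x = FF δ U x ^ (1 + j) *
      ∑ k, lam k ^ (j + 1) * ξ k ^ 2 := by
    by_cases hj : j = 0
    · subst hj
      have e2 : ∑ k, QQ U 1 k x * QQ U 0 k x = ∑ k, P1 U k x * QQ U 1 k x :=
        Finset.sum_congr rfl fun k _ => by rw [m3_QQ_zero, mul_comm]
      rw [e2, D.hpQ 1 le_rfl]
    · rw [D.hQQ 1 j le_rfl (by omega), add_comm 1 j]
  rw [div_lift_QQ hN hU hlap f hδ h1 hx j, g1 1 le_rfl, g2, g3, g1 2 (by norm_num),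
    g1 3 (by norm_num), m3_inner_sum D j, D.ht (j + 1) (by omega),
    m3_lift hδ D, m3_lift hδ D, m3_lift hδ D, m3_lift hδ D, m3_lift hδ D, m3_lift hδ D]
  unfold m3_Df
  have q1 : pw lam (1 + 1) = pw lam 2 := rfl
  have q3 : pw lam (2 + 1) = pw lam 3 := rfl
  have q4 : pw lam (3 + 1) = pw lam 4 := rfl
  rw [q1, q3, q4]
  generalize 1 / (‖x‖ ^ 2 * SS δ U x) = κ
  generalize U x * FF δ U x = z
  generalize yy δ U x = y
  generalize vv U x = v
  generalize f.g y v (pw lam 3) (pw lam 4) = g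
  generalize f.zd y v (pw lam 3) (pw lam 4) = zd
  generalize f.gz y v (pw lam 3) (pw lam 4) = gz
  generalize f.gv y v (pw lam 3) (pw lam 4) = gv
  generalize f.gt y v (pw lam 3) (pw lam 4) = gt
  generalize f.gi y v (pw lam 3) (pw lam 4) = gi
  generalize ((∑ k, XX lam (fun l => T l l k) 1 * lam k ^ j * ξ k)
        - if j = 0 then κ * z * pw lam 2 else 0) = S1
  generalize ((∑ k, lam k ^ j * ξ k ^ 2) + if j = 0 then z ^ 2 * κ else 0) = S2
  generalize (∑ k, lam k ^ (j + 1) * ξ k ^ 2) = S3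
  generalize ((∑ k, XX lam (fun l => T l l k) 2 * lam k ^ j * ξ k)
        - if j = 0 then κ * z * pw lam 3 else 0) = S4
  generalize ((∑ k, XX lam (fun l => T l l k) 3 * lam k ^ j * ξ k)
        - if j = 0 then κ * z * pw lam 4 else 0) = S5
  generalize ((∑ a ∈ Finset.range (j - 1), ∑ k, XX lam (fun l => T l l k) (a + 1)
          * lam k ^ (j - 2 - a) * ξ k) - (if 2 ≤ j then κ * z * pw lam j else 0)) = S6
  have p1 : FF δ U x ^ (2 * α + 1 - (j : ℝ) - 2) * FF δ U x ^ (1 + j + 2)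
      = FF δ U x ^ (2 * α + 2) := m3_pow hF (by push_cast; ring)
  have p2 : FF δ U x ^ (2 * α + 1 - (j : ℝ) + 1) * FF δ U x ^ j
      = FF δ U x ^ (2 * α + 2) := m3_pow hF (by ring)
  have p3 : FF δ U x ^ (2 * α + 1 - (j : ℝ)) * FF δ U x ^ (1 + j)
      = FF δ U x ^ (2 * α + 2) := m3_pow hF (by push_cast; ring)
  have p4 : FF δ U x ^ (2 * α + 1 - (j : ℝ) - 3) * FF δ U x ^ (2 + j + 2)
      = FF δ U x ^ (2 * α + 2) := m3_pow hF (by push_cast; ring)
  have p5 : FF δ U x ^ (2 * α + 1 - (j : ℝ) - 4) * FF δ U x ^ (3 + j + 2)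
      = FF δ U x ^ (2 * α + 2) := m3_pow hF (by push_cast; ring)
  have p6 : FF δ U x ^ (2 * α + 1 - (j : ℝ)) * FF δ U x ^ (j + 1)
      = FF δ U x ^ (2 * α + 2) := m3_pow hF (by push_cast; ring)
  linear_combination (((2 * α + 1 - j) * g + zd) * S1) * p1 + (gz * S2) * p2 + (2 * gv * S3) * p3
    + (3 * gt * S4) * p4 + (4 * gi * S5) * p5 + (g * (S6 + pw lam (j + 1))) * p6

/-- the inner sum of the `e`-terms -/
theorem m3_inner_sum_e {δ : ℝ} {U : E (m + 1) → ℝ} {x : E (m + 1)} {lam ξ : Fin m → ℝ}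
    {T : Fin m → Fin m → Fin m → ℝ} (D : FrameData δ U x lam ξ T) {a j : ℕ} (ha : 1 ≤ a)
    (hj : 1 ≤ j) :
    (∑ b ∈ Finset.range (a - 1), ∑ l, GG U (b + 1) l x * MG U (a - 2 - b) j l x) =
      FF δ U x ^ (a + j + 3) * ((∑ b ∈ Finset.range (a - 1), ∑ k, XX lam (fun l => T l l k) (b + 1)
          * lam k ^ (a - 2 - b) * XX lam (fun l => T l l k) j) + (if a = 1 then 0 else
            1 / (‖x‖ ^ 2 * SS δ U x) * (pw lam a * pw lam (j + 1)))) := by
  by_cases h1 : a = 1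
  · subst h1
    simp only [tsub_self, Finset.range_zero, Nat.one_le_ofNat, Nat.sub_eq_zero_of_le, zero_tsub, Finset.sum_empty, pow_zero, mul_one, ↓reduceIte, add_zero, mul_zero]
  · obtain ⟨n, rfl⟩ : ∃ n, a = n + 2 := ⟨a - 2, by omega⟩
    have h0 : n + 2 - 1 = n + 1 := by omega
    rw [h0, if_neg h1, Finset.sum_range_succ, Finset.sum_range_succ]
    have e1 : n + 2 - 2 - n = 0 := by omega
    rw [e1]
    have e2 : ∑ l, GG U (n + 1) l x * MG U 0 j l x = ∑ l, GG U (n + 1) l x * GG U j l x :=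
      Finset.sum_congr rfl fun k _ => by rw [m3_MG_zero]
    rw [e2, D.hGG (n + 1) j (by omega) hj]
    have e3 : ∀ b ∈ Finset.range n, ∑ l, GG U (b + 1) l x * MG U (n + 2 - 2 - b) j l x =
        FF δ U x ^ (n + 2 + j + 3) * ∑ k, XX lam (fun l => T l l k) (b + 1)
          * lam k ^ (n + 2 - 2 - b) * XX lam (fun l => T l l k) j := by
      intro b hb
      have hb' := Finset.mem_range.1 hb
      rw [D.hGM (b + 1) (n + 2 - 2 - b) j (by omega) (by omega) hj]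
      congr 2
      omega
    rw [Finset.sum_congr rfl e3, ← Finset.mul_sum]
    simp only [pow_zero, mul_one]
    have q : pw lam (n + 1 + 1) = pw lam (n + 2) := rfl
    have q2 : FF δ U x ^ (n + 1 + j + 4) = FF δ U x ^ (n + 2 + j + 3) := by
      congr 1; omega
    rw [q, q2]
    ring

/-- one `e`-term -/
theorem m3_div_e {U : E (m + 1) → ℝ} {N : Set (E (m + 1))} (hN : IsOpen N)
    (hU : ContDiffOn ℝ ∞ U N) (hlap : ∀ x ∈ N, lap U x = 0) (f : SF) {α δ : ℝ} (hδ : 0 < δ)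
    (h1 : ∀ x ∈ N, 0 < 1 + U x * FF δ U x) {x : E (m + 1)} (hx : x ∈ N)
    {lam ξ : Fin m → ℝ}
    {T : Fin m → Fin m → Fin m → ℝ} (D : FrameData δ U x lam ξ T) {a j : ℕ} (ha : 1 ≤ a)
    (hj : 1 ≤ j) :
    ∑ k, P1 (fun y => FF δ U y ^ (2 * α - 1 - a - j) * lift f.g δ U y * EE U a j k y) k x =
      FF δ U x ^ (2 * α + 2) * m3_De f α (1 / (‖x‖ ^ 2 * SS δ U x))
        (yy δ U x) (vv U x) lam ξ T a j := by
  obtain ⟨hF, -, -⟩ := m3_FF_sq hδ U x
  -- inner products with the antisymmetric field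
  have g1 : ∀ i, 1 ≤ i → ∑ k, GG U i k x * EE U a j k x = FF δ U x ^ (i + a + j + 4) *
      ∑ k, XX lam (fun l => T l l k) i * XE lam (fun l => T l l k) k a j := by
    intro i hi
    have e1 : ∑ k, GG U i k x * EE U a j k x = (∑ k, GG U i k x * MG U a j k x)
        - ∑ k, GG U i k x * MG U j a k x := by
      rw [← Finset.sum_sub_distrib]
      exact Finset.sum_congr rfl fun k _ => by unfold EE; ring
    have q2 : FF δ U x ^ (i + j + a + 4) = FF δ U x ^ (i + a + j + 4) := by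
      congr 1; omega
    rw [e1, D.hGM i a j hi ha hj, D.hGM i j a hi hj ha, q2, ← mul_sub, ← Finset.sum_sub_distrib]
    congr 1
    exact Finset.sum_congr rfl fun k _ => by unfold XE; ring
  have g2 : ∀ i, ∑ k, QQ U i k x * EE U a j k x = FF δ U x ^ (i + a + j + 2) *
      ∑ k, lam k ^ i * ξ k * XE lam (fun l => T l l k) k a j := by
    intro i
    have e1 : ∑ k, QQ U i k x * EE U a j k x = (∑ k, QQ U i k x * MG U a j k x)
        - ∑ k, QQ U i k x * MG U j a k x := by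
      rw [← Finset.sum_sub_distrib]
      exact Finset.sum_congr rfl fun k _ => by unfold EE; ring
    have q2 : FF δ U x ^ (i + j + a + 2) = FF δ U x ^ (i + a + j + 2) := by
      congr 1; omega
    rw [e1, D.hQM i a j ha hj, D.hQM i j a hj ha, q2, ← mul_sub, ← Finset.sum_sub_distrib]
    congr 1
    exact Finset.sum_congr rfl fun k _ => by unfold XE; ring
  have g3 : ∑ k, P1 U k x * EE U a j k x = FF δ U x ^ (0 + a + j + 2) *
      ∑ k, ξ k * XE lam (fun l => T l l k) k a j := by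
    have e1 : ∑ k, P1 U k x * EE U a j k x = ∑ k, QQ U 0 k x * EE U a j k x :=
      Finset.sum_congr rfl fun k _ => by rw [m3_QQ_zero]
    rw [e1, g2 0]
    simp only [zero_add, pow_zero, one_mul]
  have gD : DT U a j x - DT U j a x = FF δ U x ^ (a + j + 3) *
      ((∑ i, ∑ l, ∑ k, lam k ^ a * hh j (lam i) (lam l) * T i l k ^ 2)
          - (∑ i, ∑ l, ∑ k, lam k ^ j * hh a (lam i) (lam l) * T i l k ^ 2)) := by
    have q2 : j + a + 3 = a + j + 3 := by omega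
    have q3 : pw lam (j + a + 1) = pw lam (a + j + 1) := by congr 1; omega
    rw [D.hDT a j ha hj, D.hDT j a hj ha, q2, q3]
    ring
  have q0 : FF δ U x ^ (j + a + 3) = FF δ U x ^ (a + j + 3) := by congr 1; omega
  rw [div_lift_EE hN hU hlap f hδ h1 hx ha hj, g1 1 le_rfl, g3, g2 1, g1 2 (by norm_num),
    g1 3 (by norm_num), add_sub_assoc, gD, m3_inner_sum_e D ha hj, m3_inner_sum_e D hj ha, q0,
    m3_lift hδ D, m3_lift hδ D, m3_lift hδ D, m3_lift hδ D, m3_lift hδ D, m3_lift hδ D]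
  unfold m3_De
  generalize 1 / (‖x‖ ^ 2 * SS δ U x) = κ
  generalize yy δ U x = y
  generalize vv U x = v
  generalize f.g y v (pw lam 3) (pw lam 4) = g
  generalize f.zd y v (pw lam 3) (pw lam 4) = zd
  generalize f.gz y v (pw lam 3) (pw lam 4) = gz
  generalize f.gv y v (pw lam 3) (pw lam 4) = gv
  generalize f.gt y v (pw lam 3) (pw lam 4) = gt
  generalize f.gi y v (pw lam 3) (pw lam 4) = gi
  have hs3 : ∑ k, lam k ^ 1 * ξ k * XE lam (fun l => T l l k) k a j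
      = ∑ k, lam k * ξ k * XE lam (fun l => T l l k) k a j :=
    Finset.sum_congr rfl fun k _ => by rw [pow_one]
  rw [hs3]
  have hi1 : (if a = 1 then 0 else κ * (pw lam a * pw lam (j + 1)))
      = κ * (if a = 1 then 0 else pw lam a * pw lam (j + 1)) := by split_ifs <;> ring
  have hi2 : (if j = 1 then 0 else κ * (pw lam j * pw lam (a + 1)))
      = κ * (if j = 1 then 0 else pw lam j * pw lam (a + 1)) := by split_ifs <;> ring
  rw [hi1, hi2]
  generalize (∑ k, XX lam (fun l => T l l k) 1 * XE lam (fun l => T l l k) k a j) = S1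
  generalize (∑ k, ξ k * XE lam (fun l => T l l k) k a j) = S2
  generalize (∑ k, lam k * ξ k * XE lam (fun l => T l l k) k a j) = S3
  generalize (∑ k, XX lam (fun l => T l l k) 2 * XE lam (fun l => T l l k) k a j) = S4
  generalize (∑ k, XX lam (fun l => T l l k) 3 * XE lam (fun l => T l l k) k a j) = S5
  generalize ((∑ i, ∑ l, ∑ k, lam k ^ a * hh j (lam i) (lam l) * T i l k ^ 2)
          - (∑ i, ∑ l, ∑ k, lam k ^ j * hh a (lam i) (lam l) * T i l k ^ 2)) = S6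
  generalize (∑ b ∈ Finset.range (a - 1), ∑ k, XX lam (fun l => T l l k) (b + 1)
            * lam k ^ (a - 2 - b) * XX lam (fun l => T l l k) j) = S7
  generalize (∑ b ∈ Finset.range (j - 1), ∑ k, XX lam (fun l => T l l k) (b + 1)
            * lam k ^ (j - 2 - b) * XX lam (fun l => T l l k) a) = S8
  generalize (if a = 1 then 0 else pw lam a * pw lam (j + 1)) = S9
  generalize (if j = 1 then 0 else pw lam j * pw lam (a + 1)) = S10
  have p1 : FF δ U x ^ (2 * α - 1 - a - j - 2) * FF δ U x ^ (1 + a + j + 4)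
      = FF δ U x ^ (2 * α + 2) := m3_pow hF (by push_cast; ring)
  have p2 : FF δ U x ^ (2 * α - 1 - a - j + 1) * FF δ U x ^ (0 + a + j + 2)
      = FF δ U x ^ (2 * α + 2) := m3_pow hF (by push_cast; ring)
  have p3 : FF δ U x ^ (2 * α - 1 - (a : ℝ) - j) * FF δ U x ^ (1 + a + j + 2)
      = FF δ U x ^ (2 * α + 2) := m3_pow hF (by push_cast; ring)
  have p4 : FF δ U x ^ (2 * α - 1 - (a : ℝ) - j - 3) * FF δ U x ^ (2 + a + j + 4)
      = FF δ U x ^ (2 * α + 2) := m3_pow hF (by push_cast; ring)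
  have p5 : FF δ U x ^ (2 * α - 1 - (a : ℝ) - j - 4) * FF δ U x ^ (3 + a + j + 4)
      = FF δ U x ^ (2 * α + 2) := m3_pow hF (by push_cast; ring)
  have p6 : FF δ U x ^ (2 * α - 1 - (a : ℝ) - j) * FF δ U x ^ (a + j + 3)
      = FF δ U x ^ (2 * α + 2) := m3_pow hF (by push_cast; ring)
  linear_combination (((2 * α - 1 - a - j) * g + zd) * S1) * p1 + (gz * S2) * p2
    + (2 * gv * S3) * p3 + (3 * gt * S4) * p4 + (4 * gi * S5) * p5
    + (g * (S6 + S7 - S8 + κ * (S9 - S10))) * p6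

theorem m3_P1_WW {U : E (m + 1) → ℝ} {N : Set (E (m + 1))} (hN : IsOpen N)
    (hU : ContDiffOn ℝ ∞ U N) (Φ : Fam) {α δ : ℝ} (hδ : 0 < δ)
    (h1 : ∀ x ∈ N, 0 < 1 + U x * FF δ U x) {x : E (m + 1)} (hx : x ∈ N)
    {lam ξ : Fin m → ℝ} {T : Fin m → Fin m → Fin m → ℝ} (D : FrameData δ U x lam ξ T)
    (k : Fin (m + 1)) :
    P1 (WW Φ α δ U) k x =
      FF δ U x ^ (2 * α - 2) * (2 * α * Φ.w.g (yy δ U x) (vv U x) (pw lam 3) (pw lam 4)
          + Φ.w.zd (yy δ U x) (vv U x) (pw lam 3) (pw lam 4)) * GG U 1 k x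
        + FF δ U x ^ (2 * α + 1) * Φ.w.gz (yy δ U x) (vv U x) (pw lam 3) (pw lam 4) * P1 U k x
        + 2 * FF δ U x ^ (2 * α) * Φ.w.gv (yy δ U x) (vv U x) (pw lam 3) (pw lam 4) * QQ U 1 k x
        + 3 * FF δ U x ^ (2 * α - 3) * Φ.w.gt (yy δ U x) (vv U x) (pw lam 3) (pw lam 4)
          * GG U 2 k x
        + 4 * FF δ U x ^ (2 * α - 4) * Φ.w.gi (yy δ U x) (vv U x) (pw lam 3) (pw lam 4)
          * GG U 3 k x := by
  have h := P1_lift hN hU Φ.w (β := 2 * α) hδ hx (h1 x hx) k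
  rw [m3_lift hδ D, m3_lift hδ D, m3_lift hδ D, m3_lift hδ D, m3_lift hδ D, m3_lift hδ D] at h
  exact h

/-- the squared gradient of `W` -/
theorem m3_gradW_sq {U : E (m + 1) → ℝ} {N : Set (E (m + 1))} (hN : IsOpen N)
    (hU : ContDiffOn ℝ ∞ U N) (Φ : Fam) {α δ : ℝ} (hδ : 0 < δ)
    (h1 : ∀ x ∈ N, 0 < 1 + U x * FF δ U x) {x : E (m + 1)} (hx : x ∈ N) (hx0 : x ≠ 0)
    {lam ξ : Fin m → ℝ} {T : Fin m → Fin m → Fin m → ℝ} (D : FrameData δ U x lam ξ T) :
    ‖gradient (WW Φ α δ U) x‖ ^ 2 = (FF δ U x ^ (2 * α + 1)) ^ 2 *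
      ((∑ k, m3_Aw Φ.w α (yy δ U x) (vv U x) lam ξ T k ^ 2) + (1 / (‖x‖ ^ 2 * SS δ U x))
        * m3_bw Φ.w α (U x * FF δ U x) (yy δ U x) (vv U x) lam ^ 2) := by
  obtain ⟨hF, -, -⟩ := m3_FF_sq hδ U x
  rw [m3_norm_gradient_sq, Finset.sum_congr rfl fun k _ =>
    congrArg (· ^ 2) (m3_P1_WW hN hU Φ (α := α) hδ h1 hx D k)]
  have hGG := fun i j hi hj => D.hGG i j hi hj
  have hGp := fun j hj => D.hGp j hj
  have hGQ := fun i hi => D.hGQ i 1 hi le_rfl
  have hpQ := D.hpQ 1 le_rfl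
  have hQQ := D.hQQ 1 1 le_rfl le_rfl
  have hpp : ∑ k, P1 U k x * P1 U k x = (∑ k, ξ k ^ 2) + (U x * FF δ U x) ^ 2
        * (1 / (‖x‖ ^ 2 * SS δ U x)) := by
    rw [← m3_kappa hδ U hx0, ← D.hv]
    unfold vv
    exact Finset.sum_congr rfl fun k _ => (sq _).symm
  unfold m3_Aw m3_bw
  generalize 1 / (‖x‖ ^ 2 * SS δ U x) = κ at *
  generalize U x * FF δ U x = z at *
  generalize yy δ U x = y
  generalize vv U x = v
  generalize Φ.w.g y v (pw lam 3) (pw lam 4) = g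
  generalize Φ.w.zd y v (pw lam 3) (pw lam 4) = zd
  generalize Φ.w.gz y v (pw lam 3) (pw lam 4) = gz
  generalize Φ.w.gv y v (pw lam 3) (pw lam 4) = gv
  generalize Φ.w.gt y v (pw lam 3) (pw lam 4) = gt
  generalize Φ.w.gi y v (pw lam 3) (pw lam 4) = gi
  generalize 2 * α * g + zd = e1
  have p1 : FF δ U x ^ (2 * α - 2) * FF δ U x ^ 3 = FF δ U x ^ (2 * α + 1) :=
    m3_pow hF (by push_cast; ring)
  have p3 : FF δ U x ^ (2 * α) * FF δ U x ^ 1 = FF δ U x ^ (2 * α + 1) :=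
    m3_pow hF (by push_cast; ring)
  have p4 : FF δ U x ^ (2 * α - 3) * FF δ U x ^ 4 = FF δ U x ^ (2 * α + 1) :=
    m3_pow hF (by push_cast; ring)
  have p5 : FF δ U x ^ (2 * α - 4) * FF δ U x ^ 5 = FF δ U x ^ (2 * α + 1) :=
    m3_pow hF (by push_cast; ring)
  generalize FF δ U x ^ (2 * α + 1) = P at *
  generalize FF δ U x ^ (2 * α - 2) = a1 at *
  generalize FF δ U x ^ (2 * α - 3) = a4 at *
  generalize FF δ U x ^ (2 * α - 4) = a5 at *
  generalize FF δ U x ^ (2 * α) = a3 at *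
  -- expand the left side
  have L : ∑ k, (a1 * e1 * GG U 1 k x + P * gz * P1 U k x + 2 * a3 * gv * QQ U 1 k x
      + 3 * a4 * gt * GG U 2 k x + 4 * a5 * gi * GG U 3 k x) ^ 2 =
      (a1 * e1) ^ 2 * (∑ k, GG U 1 k x * GG U 1 k x)
      + (P * gz) ^ 2 * (∑ k, P1 U k x * P1 U k x)
      + (2 * a3 * gv) ^ 2 * (∑ k, QQ U 1 k x * QQ U 1 k x)
      + (3 * a4 * gt) ^ 2 * (∑ k, GG U 2 k x * GG U 2 k x)
      + (4 * a5 * gi) ^ 2 * (∑ k, GG U 3 k x * GG U 3 k x)
      + 2 * (a1 * e1) * (P * gz) * (∑ k, GG U 1 k x * P1 U k x)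
      + 2 * (a1 * e1) * (2 * a3 * gv) * (∑ k, GG U 1 k x * QQ U 1 k x)
      + 2 * (a1 * e1) * (3 * a4 * gt) * (∑ k, GG U 1 k x * GG U 2 k x)
      + 2 * (a1 * e1) * (4 * a5 * gi) * (∑ k, GG U 1 k x * GG U 3 k x)
      + 2 * (P * gz) * (2 * a3 * gv) * (∑ k, P1 U k x * QQ U 1 k x)
      + 2 * (P * gz) * (3 * a4 * gt) * (∑ k, GG U 2 k x * P1 U k x)
      + 2 * (P * gz) * (4 * a5 * gi) * (∑ k, GG U 3 k x * P1 U k x)
      + 2 * (2 * a3 * gv) * (3 * a4 * gt) * (∑ k, GG U 2 k x * QQ U 1 k x)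
      + 2 * (2 * a3 * gv) * (4 * a5 * gi) * (∑ k, GG U 3 k x * QQ U 1 k x)
      + 2 * (3 * a4 * gt) * (4 * a5 * gi) * (∑ k, GG U 2 k x * GG U 3 k x) := by
    simp only [Finset.mul_sum, ← Finset.sum_add_distrib]
    exact Finset.sum_congr rfl fun k _ => by ring
  have R : ∑ k, (e1 * XX lam (fun l => T l l k) 1 + 3 * gt * XX lam (fun l => T l l k) 2
      + 4 * gi * XX lam (fun l => T l l k) 3 + (gz + 2 * lam k * gv) * ξ k) ^ 2 =
      e1 ^ 2 * (∑ k, XX lam (fun l => T l l k) 1 * XX lam (fun l => T l l k) 1)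
      + gz ^ 2 * (∑ k, ξ k ^ 2)
      + 4 * gv ^ 2 * (∑ k, lam k ^ (1 + 1) * ξ k ^ 2)
      + 9 * gt ^ 2 * (∑ k, XX lam (fun l => T l l k) 2 * XX lam (fun l => T l l k) 2)
      + 16 * gi ^ 2 * (∑ k, XX lam (fun l => T l l k) 3 * XX lam (fun l => T l l k) 3)
      + 2 * e1 * gz * (∑ k, XX lam (fun l => T l l k) 1 * ξ k)
      + 4 * e1 * gv * (∑ k, XX lam (fun l => T l l k) 1 * lam k ^ 1 * ξ k)
      + 6 * e1 * gt * (∑ k, XX lam (fun l => T l l k) 1 * XX lam (fun l => T l l k) 2)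
      + 8 * e1 * gi * (∑ k, XX lam (fun l => T l l k) 1 * XX lam (fun l => T l l k) 3)
      + 4 * gz * gv * (∑ k, lam k ^ 1 * ξ k ^ 2)
      + 6 * gz * gt * (∑ k, XX lam (fun l => T l l k) 2 * ξ k)
      + 8 * gz * gi * (∑ k, XX lam (fun l => T l l k) 3 * ξ k)
      + 12 * gv * gt * (∑ k, XX lam (fun l => T l l k) 2 * lam k ^ 1 * ξ k)
      + 16 * gv * gi * (∑ k, XX lam (fun l => T l l k) 3 * lam k ^ 1 * ξ k)
      + 24 * gt * gi * (∑ k, XX lam (fun l => T l l k) 2 * XX lam (fun l => T l l k) 3) := by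
    simp only [Finset.mul_sum, ← Finset.sum_add_distrib]
    exact Finset.sum_congr rfl fun k _ => by ring
  rw [L, R, hGG 1 1 le_rfl le_rfl, hpp, hQQ, hGG 2 2 (by norm_num) (by norm_num),
    hGG 3 3 (by norm_num) (by norm_num), hGp 1 le_rfl, hGQ 1 le_rfl, hGG 1 2 le_rfl (by norm_num),
    hGG 1 3 le_rfl (by norm_num), hpQ, hGp 2 (by norm_num), hGp 3 (by norm_num),
    hGQ 2 (by norm_num), hGQ 3 (by norm_num), hGG 2 3 (by norm_num) (by norm_num)]
  have q1 : pw lam (1 + 1) = pw lam 2 := rfl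
  have q3 : pw lam (2 + 1) = pw lam 3 := rfl
  have q4 : pw lam (3 + 1) = pw lam 4 := rfl
  rw [q1, q3, q4]
  generalize (∑ k, XX lam (fun l => T l l k) 1 * XX lam (fun l => T l l k) 1) = s11
  generalize (∑ k, XX lam (fun l => T l l k) 1 * XX lam (fun l => T l l k) 2) = s12
  generalize (∑ k, XX lam (fun l => T l l k) 1 * XX lam (fun l => T l l k) 3) = s13
  generalize (∑ k, XX lam (fun l => T l l k) 2 * XX lam (fun l => T l l k) 2) = s22
  generalize (∑ k, XX lam (fun l => T l l k) 2 * XX lam (fun l => T l l k) 3) = s23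
  generalize (∑ k, XX lam (fun l => T l l k) 3 * XX lam (fun l => T l l k) 3) = s33
  generalize (∑ k, XX lam (fun l => T l l k) 1 * ξ k) = r1
  generalize (∑ k, XX lam (fun l => T l l k) 2 * ξ k) = r2
  generalize (∑ k, XX lam (fun l => T l l k) 3 * ξ k) = r3
  generalize (∑ k, XX lam (fun l => T l l k) 1 * lam k ^ 1 * ξ k) = t1
  generalize (∑ k, XX lam (fun l => T l l k) 2 * lam k ^ 1 * ξ k) = t2
  generalize (∑ k, XX lam (fun l => T l l k) 3 * lam k ^ 1 * ξ k) = t3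
  generalize (∑ k, ξ k ^ 2) = x0
  generalize (∑ k, lam k ^ 1 * ξ k ^ 2) = x1
  generalize (∑ k, lam k ^ (1 + 1) * ξ k ^ 2) = x2
  generalize pw lam 2 = P2
  generalize pw lam 3 = P3
  generalize pw lam 4 = P4
  generalize FF δ U x = F at *
  have c1 : a1 = a5 * F ^ 2 := by
    have : a1 * F ^ 3 = a5 * F ^ 2 * F ^ 3 := by rw [p1, ← p5]; ring
    exact mul_right_cancel₀ (pow_ne_zero 3 hF.ne') this
  have c3 : a3 = a5 * F ^ 4 := by
    have : a3 * F ^ 1 = a5 * F ^ 4 * F ^ 1 := by rw [p3, ← p5]; ring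
    exact mul_right_cancel₀ (pow_ne_zero 1 hF.ne') this
  have c4 : a4 = a5 * F := by
    have : a4 * F ^ 4 = a5 * F * F ^ 4 := by rw [p4, ← p5]; ring
    exact mul_right_cancel₀ (pow_ne_zero 4 hF.ne') this
  rw [c1, c3, c4, ← p5]
  ring

end Vale.Agent.P098
end

section

open MeasureTheory Set Metric Filter
open scoped ContDiff RealInnerProductSpace Topology

namespace Vale.Agent.P098

variable {d m : ℕ}

/-! ### Module M3: the interior inequality -/

theorem m3_W_radial {U : E (m + 1) → ℝ} {N : Set (E (m + 1))} (hN : IsOpen N)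
    (hU : ContDiffOn ℝ ∞ U N) (Φ : Fam) {α δ : ℝ} (hδ : 0 < δ)
    (h1 : ∀ x ∈ N, 0 < 1 + U x * FF δ U x) {x : E (m + 1)} (hx : x ∈ N)
    {lam ξ : Fin m → ℝ} {T : Fin m → Fin m → Fin m → ℝ} (D : FrameData δ U x lam ξ T) :
    ∑ k, P1 (WW Φ α δ U) k x * x k = FF δ U x ^ (2 * α)
      * m3_bw Φ.w α (U x * FF δ U x) (yy δ U x) (vv U x) lam := by
  obtain ⟨hF, -, -⟩ := m3_FF_sq hδ U x
  rw [Finset.sum_congr rfl fun k _ =>
    congrArg (· * x k) (m3_P1_WW hN hU Φ (α := α) hδ h1 hx D k)]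
  have g1 := D.hxG 1 le_rfl
  have g2 := D.hxG 2 (by norm_num)
  have g3 := D.hxG 3 (by norm_num)
  have g4 := D.hxQ 1 le_rfl
  have g5 := D.hxp
  rw [D.ht (1 + 1) (by norm_num)] at g1
  rw [D.ht (2 + 1) (by norm_num)] at g2
  rw [D.ht (3 + 1) (by norm_num)] at g3
  unfold m3_bw
  generalize yy δ U x = y
  generalize vv U x = v
  generalize Φ.w.g y v (pw lam 3) (pw lam 4) = g
  generalize Φ.w.zd y v (pw lam 3) (pw lam 4) = zd
  generalize Φ.w.gz y v (pw lam 3) (pw lam 4) = gz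
  generalize Φ.w.gv y v (pw lam 3) (pw lam 4) = gv
  generalize Φ.w.gt y v (pw lam 3) (pw lam 4) = gt
  generalize Φ.w.gi y v (pw lam 3) (pw lam 4) = gi
  generalize 2 * α * g + zd = e1
  have q1 : pw lam (1 + 1) = pw lam 2 := rfl
  have q3 : pw lam (2 + 1) = pw lam 3 := rfl
  have q4 : pw lam (3 + 1) = pw lam 4 := rfl
  rw [q1] at g1
  rw [q3] at g2
  rw [q4] at g3
  have p1 : FF δ U x ^ (2 * α - 2) * FF δ U x ^ (1 + 1) = FF δ U x ^ (2 * α) :=
    m3_pow hF (by push_cast; ring)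
  have p3 : FF δ U x ^ (2 * α) * FF δ U x ^ 1 = FF δ U x ^ (2 * α + 1) :=
    m3_pow hF (by push_cast; ring)
  have p4 : FF δ U x ^ (2 * α - 3) * FF δ U x ^ (2 + 1) = FF δ U x ^ (2 * α) :=
    m3_pow hF (by push_cast; ring)
  have p5 : FF δ U x ^ (2 * α - 4) * FF δ U x ^ (3 + 1) = FF δ U x ^ (2 * α) :=
    m3_pow hF (by push_cast; ring)
  have L : ∑ k, (FF δ U x ^ (2 * α - 2) * e1 * GG U 1 k x
        + FF δ U x ^ (2 * α + 1) * gz * P1 U k x
        + 2 * FF δ U x ^ (2 * α) * gv * QQ U 1 k x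
        + 3 * FF δ U x ^ (2 * α - 3) * gt * GG U 2 k x
        + 4 * FF δ U x ^ (2 * α - 4) * gi * GG U 3 k x) * x k =
      FF δ U x ^ (2 * α - 2) * e1 * (∑ k, GG U 1 k x * x k)
        + FF δ U x ^ (2 * α + 1) * gz * (∑ k, P1 U k x * x k)
        + 2 * FF δ U x ^ (2 * α) * gv * (∑ k, QQ U 1 k x * x k)
        + 3 * FF δ U x ^ (2 * α - 3) * gt * (∑ k, GG U 2 k x * x k)
        + 4 * FF δ U x ^ (2 * α - 4) * gi * (∑ k, GG U 3 k x * x k) := by
    simp only [Finset.mul_sum, ← Finset.sum_add_distrib]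
    exact Finset.sum_congr rfl fun k _ => by ring
  rw [L, g1, g2, g3, g4, g5]
  linear_combination (- e1 * pw lam 2) * p1 - (gz * U x) * p3 - (3 * gt * pw lam 3) * p4
    - (4 * gi * pw lam 4) * p5

theorem m3_Z_radial {U : E (m + 1) → ℝ} (Φ : Fam) {α δ K : ℝ} (hδ : 0 < δ) {x : E (m + 1)}
    {lam ξ : Fin m → ℝ} {T : Fin m → Fin m → Fin m → ℝ} (D : FrameData δ U x lam ξ T) :
    ∑ k, ZZ Φ α δ K U x k * x k = - (FF δ U x ^ (2 * α) * ((∑ j ∈ Finset.range Φ.na,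
        (Φ.a j).g (yy δ U x) (vv U x) (pw lam 3) (pw lam 4) * pw lam (j + 2))
      + ∑ j ∈ Finset.range Φ.nf, (Φ.f j).g (yy δ U x) (vv U x) (pw lam 3) (pw lam 4)
          * (if j = 0 then U x * FF δ U x else 0))) + K * U x := by
  obtain ⟨hF, -, -⟩ := m3_FF_sq hδ U x
  have e0 : ∀ k, ZZ Φ α δ K U x k =
    (∑ j ∈ Finset.range Φ.na,
      FF δ U x ^ (2 * α - 2 - j) * lift (Φ.a j).g δ U x * GG U (j + 1) k x)
    + (∑ q ∈ Finset.range Φ.ne,
      FF δ U x ^ (2 * α - 1 - Φ.ea q - Φ.ej q) * lift (Φ.e q).g δ U x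
        * EE U (Φ.ea q) (Φ.ej q) k x)
    - (∑ j ∈ Finset.range Φ.nf,
      FF δ U x ^ (2 * α + 1 - j) * lift (Φ.f j).g δ U x * QQ U j k x)
    + K * P1 U k x := fun _ => rfl
  have e1 : ∑ k, ZZ Φ α δ K U x k * x k =
      (∑ j ∈ Finset.range Φ.na, FF δ U x ^ (2 * α - 2 - j) * lift (Φ.a j).g δ U x
        * ∑ k, GG U (j + 1) k x * x k)
      + (∑ q ∈ Finset.range Φ.ne, FF δ U x ^ (2 * α - 1 - Φ.ea q - Φ.ej q)
        * lift (Φ.e q).g δ U x * ∑ k, EE U (Φ.ea q) (Φ.ej q) k x * x k)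
      - (∑ j ∈ Finset.range Φ.nf, FF δ U x ^ (2 * α + 1 - j) * lift (Φ.f j).g δ U x
        * ∑ k, QQ U j k x * x k)
      + K * ∑ k, P1 U k x * x k := by
    simp only [e0, Finset.mul_sum]
    rw [Finset.sum_comm (s := Finset.range Φ.na), Finset.sum_comm (s := Finset.range Φ.ne),
      Finset.sum_comm (s := Finset.range Φ.nf), ← Finset.sum_add_distrib,
      ← Finset.sum_sub_distrib, ← Finset.sum_add_distrib]
    refine Finset.sum_congr rfl fun k _ => ?_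
    rw [add_mul, sub_mul, add_mul, Finset.sum_mul, Finset.sum_mul, Finset.sum_mul]
    simp only [mul_assoc]
  have ee : ∀ q ∈ Finset.range Φ.ne, FF δ U x ^ (2 * α - 1 - Φ.ea q - Φ.ej q)
        * lift (Φ.e q).g δ U x * ∑ k, EE U (Φ.ea q) (Φ.ej q) k x * x k = 0 := by
    intro q _
    have e2 : ∑ k, EE U (Φ.ea q) (Φ.ej q) k x * x k = (∑ k, MG U (Φ.ea q) (Φ.ej q) k x * x k)
        - ∑ k, MG U (Φ.ej q) (Φ.ea q) k x * x k := by
      rw [← Finset.sum_sub_distrib]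
      exact Finset.sum_congr rfl fun k _ => by unfold EE; ring
    rw [e2, D.hxM _ _ (Φ.hea q) (Φ.hej q), D.hxM _ _ (Φ.hej q) (Φ.hea q), sub_zero, mul_zero]
  rw [e1, D.hxp, Finset.sum_eq_zero ee, add_zero]
  have ea : ∀ j ∈ Finset.range Φ.na, FF δ U x ^ (2 * α - 2 - j) * lift (Φ.a j).g δ U x
        * ∑ k, GG U (j + 1) k x * x k = - (FF δ U x ^ (2 * α) *
        ((Φ.a j).g (yy δ U x) (vv U x) (pw lam 3) (pw lam 4) * pw lam (j + 2))) := by
    intro j _
    rw [D.hxG (j + 1) (by omega), D.ht (j + 1 + 1) (by omega), m3_lift hδ D]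
    have p1 : FF δ U x ^ (2 * α - 2 - (j : ℝ)) * FF δ U x ^ (j + 1 + 1) = FF δ U x ^ (2 * α) :=
      m3_pow hF (by push_cast; ring)
    have q : pw lam (j + 1 + 1) = pw lam (j + 2) := rfl
    rw [q]
    linear_combination (- (Φ.a j).g (yy δ U x) (vv U x) (pw lam 3) (pw lam 4)
      * pw lam (j + 2)) * p1
  have ef : ∀ j ∈ Finset.range Φ.nf, FF δ U x ^ (2 * α + 1 - j) * lift (Φ.f j).g δ U x
        * ∑ k, QQ U j k x * x k = FF δ U x ^ (2 * α) *
        ((Φ.f j).g (yy δ U x) (vv U x) (pw lam 3) (pw lam 4)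
          * (if j = 0 then U x * FF δ U x else 0)) := by
    intro j _
    rw [m3_lift hδ D]
    by_cases hj : j = 0
    · subst hj
      have e2 : ∑ k, QQ U 0 k x * x k = U x := by
        rw [← D.hxp]
        exact Finset.sum_congr rfl fun k _ => by rw [m3_QQ_zero]
      have p3 : FF δ U x ^ (2 * α) * FF δ U x ^ 1 = FF δ U x ^ (2 * α + 1 - ((0 : ℕ) : ℝ)) :=
        m3_pow hF (by push_cast; ring)
      rw [e2, if_pos rfl, ← p3]
      ring
    · rw [D.hxQ j (by omega), if_neg hj]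
      ring
  rw [Finset.sum_congr rfl ea, Finset.sum_congr rfl ef, Finset.sum_neg_distrib,
    ← Finset.mul_sum, ← Finset.mul_sum]
  ring

theorem m3_total {α γ : ℝ} (Φ : Fam) {δ K : ℝ} {U : E (m + 1) → ℝ} {N : Set (E (m + 1))}
    {x : E (m + 1)} {lam ξ : Fin m → ℝ} {T : Fin m → Fin m → Fin m → ℝ} (hδ : 0 < δ)
    (hN : IsOpen N) (hU : ContDiffOn ℝ ∞ U N) (hlap : ∀ z ∈ N, lap U z = 0)
    (h1 : ∀ z ∈ N, 0 < 1 + U z * FF δ U z) (hx : x ∈ N) (hx0 : x ≠ 0)
    (D : FrameData δ U x lam ξ T)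
    (hw : 0 < Φ.w.g (yy δ U x) (vv U x) (pw lam 3) (pw lam 4)) :
    divg (ZZ Φ α δ K U) x - ‖gradient (WW Φ α δ U) x‖ ^ 2 / (4 * WW Φ α δ U x)
        + 2 * γ / ‖x‖ ^ 2 * ⟪(1 / 2 : ℝ) • gradient (WW Φ α δ U) x - ZZ Φ α δ K U x, x⟫
        - γ ^ 2 * WW Φ α δ U x / ‖x‖ ^ 2 =
      FF δ U x ^ (2 * α + 2) * m3_TOT Φ α γ (1 / (‖x‖ ^ 2 * SS δ U x)) (U x * FF δ U x)
        (yy δ U x) (vv U x) lam ξ T - 2 * γ * K * U x / ‖x‖ ^ 2 := by
  obtain ⟨hF, hF2, hS⟩ := m3_FF_sq hδ U x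
  have hn : 0 < ‖x‖ := norm_pos_iff.2 hx0
  have hdiv : divg (ZZ Φ α δ K U) x = FF δ U x ^ (2 * α + 2) *
      ((∑ j ∈ Finset.range Φ.na, m3_Da (Φ.a j) α (1 / (‖x‖ ^ 2 * SS δ U x)) (U x * FF δ U x)
        (yy δ U x) (vv U x) lam ξ T j)
      + (∑ q ∈ Finset.range Φ.ne, m3_De (Φ.e q) α (1 / (‖x‖ ^ 2 * SS δ U x))
        (yy δ U x) (vv U x) lam ξ T (Φ.ea q) (Φ.ej q))
      - ∑ j ∈ Finset.range Φ.nf, m3_Df (Φ.f j) α (1 / (‖x‖ ^ 2 * SS δ U x)) (U x * FF δ U x)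
        (yy δ U x) (vv U x) lam ξ T j) := by
    rw [m3_divg_ZZ hN hU hlap Φ hδ h1 hx,
      Finset.sum_congr rfl fun j _ => m3_div_a hN hU hlap (Φ.a j) hδ h1 hx D j,
      Finset.sum_congr rfl fun j _ => m3_div_f hN hU hlap (Φ.f j) hδ h1 hx hx0 D j,
      Finset.sum_congr rfl fun q _ => m3_div_e hN hU hlap (Φ.e q) hδ h1 hx D (Φ.hea q) (Φ.hej q),
      ← Finset.mul_sum, ← Finset.mul_sum, ← Finset.mul_sum]
    ring
  have hWx : WW Φ α δ U x = FF δ U x ^ (2 * α)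
      * Φ.w.g (yy δ U x) (vv U x) (pw lam 3) (pw lam 4) := by
    unfold WW
    rw [m3_lift hδ D]
  have hin : ⟪(1 / 2 : ℝ) • gradient (WW Φ α δ U) x - ZZ Φ α δ K U x, x⟫ =
      1 / 2 * (∑ k, P1 (WW Φ α δ U) k x * x k) - ∑ k, ZZ Φ α δ K U x k * x k := by
    rw [m3_inner, Finset.mul_sum, ← Finset.sum_sub_distrib]
    refine Finset.sum_congr rfl fun k _ => ?_
    simp only [PiLp.sub_apply, PiLp.smul_apply, smul_eq_mul, m3_gradient_apply]
    ring
  rw [hin, hdiv, m3_gradW_sq hN hU Φ hδ h1 hx hx0 D, m3_W_radial hN hU Φ hδ h1 hx D,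
    m3_Z_radial Φ hδ D, hWx]
  unfold m3_TOT
  have hκ : 1 / ‖x‖ ^ 2 = 1 / (‖x‖ ^ 2 * SS δ U x) * FF δ U x ^ 2 := by
    rw [hF2]; (clear * - hS hx0; field_simp)
  have hx2 : ∀ r : ℝ, r / ‖x‖ ^ 2 = r * (1 / (‖x‖ ^ 2 * SS δ U x) * FF δ U x ^ 2) := by
    intro r
    rw [← hκ]; ring
  rw [hx2, hx2, hx2]
  have p0 : FF δ U x ^ (2 * α) * FF δ U x ^ 2 = FF δ U x ^ (2 * α + 2) :=
    m3_pow hF (by push_cast; ring)
  have p1 : FF δ U x ^ (2 * α) * FF δ U x ^ 1 = FF δ U x ^ (2 * α + 1) :=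
    m3_pow hF (by push_cast; ring)
  rw [← p0, ← p1]
  have hA0 : 0 < FF δ U x ^ (2 * α) := Real.rpow_pos_of_pos hF _
  generalize FF δ U x ^ (2 * α) = A at hA0 ⊢
  generalize 1 / (‖x‖ ^ 2 * SS δ U x) = κ
  generalize U x * FF δ U x = z
  generalize yy δ U x = y at hw ⊢
  generalize vv U x = v at hw ⊢
  generalize FF δ U x = F at hF ⊢
  generalize Φ.w.g y v (pw lam 3) (pw lam 4) = g at hw ⊢
  generalize m3_bw Φ.w α z y v lam = b
  generalize (∑ k, m3_Aw Φ.w α y v lam ξ T k ^ 2) = SA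
  generalize (∑ j ∈ Finset.range Φ.na, m3_Da (Φ.a j) α κ z y v lam ξ T j) = S1
  generalize (∑ j ∈ Finset.range Φ.nf, m3_Df (Φ.f j) α κ z y v lam ξ T j) = S2
  generalize (∑ q ∈ Finset.range Φ.ne, m3_De (Φ.e q) α κ y v lam ξ T (Φ.ea q) (Φ.ej q)) = S5
  generalize (∑ j ∈ Finset.range Φ.na, (Φ.a j).g y v (pw lam 3) (pw lam 4) * pw lam (j + 2))
    = S3
  generalize (∑ j ∈ Finset.range Φ.nf, (Φ.f j).g y v (pw lam 3) (pw lam 4)
    * (if j = 0 then z else 0)) = S4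
  have hq : (A * F ^ 1) ^ 2 * (SA + κ * b ^ 2) / (4 * (A * g)) =
      A * F ^ 2 * ((SA + κ * b ^ 2) / (4 * g)) := by
    (clear * - hw hF hA0; field_simp)
  rw [hq]
  ring

theorem interior_ineq {α γ : ℝ} {Φ : Fam} (h : Cert m α Φ) (hm : 2 ≤ m)
    (hγ : γ = (m - 1 : ℝ) / 2 - α) :
    ∃ ε C : ℝ, 0 < ε ∧ 0 ≤ C ∧ ∀ (δ K : ℝ) (U : E (m + 1) → ℝ) (N : Set (E (m + 1)))
      (x : E (m + 1)) (lam ξ : Fin m → ℝ) (T : Fin m → Fin m → Fin m → ℝ),
      0 < δ → δ ≤ 1 → IsOpen N → ContDiffOn ℝ ∞ U N → (∀ z ∈ N, lap U z = 0) →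
      (∀ z ∈ N, 0 < 1 + U z * FF δ U z) → x ∈ N → x ≠ 0 → 0 < U x → vv U x ≤ 1 →
      FrameData δ U x lam ξ T →
      ε * FF δ U x ^ (2 * α) / ‖x‖ ^ 2
        - C * δ * (FF δ U x ^ (2 * α) + FF δ U x ^ (2 * α - 2) / ‖x‖ ^ 2)
        - 2 * γ * K * U x / ‖x‖ ^ 2
      ≤ divg (ZZ Φ α δ K U) x - ‖gradient (WW Φ α δ U) x‖ ^ 2 / (4 * WW Φ α δ U x)
        + 2 * γ / ‖x‖ ^ 2 * ⟪(1 / 2 : ℝ) • gradient (WW Φ α δ U) x - ZZ Φ α δ K U x, x⟫
        - γ ^ 2 * WW Φ α δ U x / ‖x‖ ^ 2 := by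
  obtain ⟨ε, C, hε, hC, H⟩ := m3_TOT_lower h hm hγ
  refine ⟨ε, C, hε, hC, ?_⟩
  intro δ K U N x lam ξ T hδ _ hN hU hlap h1 hx hx0 hUx hv1 D
  obtain ⟨hF, hF2, hS⟩ := m3_FF_sq hδ U x
  have hn : 0 < ‖x‖ := norm_pos_iff.2 hx0
  have hz : 0 < U x * FF δ U x := mul_pos hUx hF
  have hyz : yy δ U x = 1 / (1 + U x * FF δ U x) := rfl
  have hκ : 0 < 1 / (‖x‖ ^ 2 * SS δ U x) := by (clear * - hx0 hS; positivity)
  have hvv : vv U x = ∑ k, ξ k ^ 2 + (U x * FF δ U x) ^ 2 * (1 / (‖x‖ ^ 2 * SS δ U x)) := by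
    rw [← m3_kappa hδ U hx0, ← D.hv]
  have hl2 : pw lam 2 ≤ 1 := by
    rw [D.lam2]
    have : 0 < δ / SS δ U x := by (clear * - hδ hS; positivity)
    linarith only [this]
  have hv0 : 0 ≤ vv U x := Finset.sum_nonneg fun i _ => sq_nonneg _
  have hy0 : 0 ≤ yy δ U x := by rw [hyz]; (clear * - hUx hF; positivity)
  have hy1 : yy δ U x ≤ 1 := by
    rw [hyz, div_le_one (by linarith only [hz])]; linarith only [hz]
  have hw := h.w_pos _ _ hy0 hy1 hv0 hv1 lam D.lam1 hl2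
  have hT := H _ _ _ _ lam ξ T hκ hz hyz hv1 hvv D.T12 D.T23 D.Ttr D.lam1 hl2
  rw [m3_total Φ hδ hN hU hlap h1 hx hx0 D hw]
  have hP : 0 < FF δ U x ^ (2 * α + 2) := Real.rpow_pos_of_pos hF _
  have hT2 := mul_le_mul_of_nonneg_left hT hP.le
  refine le_trans (le_of_eq ?_) (sub_le_sub_right hT2 _)
  rw [D.lam2]
  have p0 : FF δ U x ^ (2 * α) * FF δ U x ^ 2 = FF δ U x ^ (2 * α + 2) :=
    m3_pow hF (by push_cast; ring)
  have p2 : FF δ U x ^ (2 * α - 2) * FF δ U x ^ 2 = FF δ U x ^ (2 * α) :=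
    m3_pow hF (by push_cast; ring)
  rw [← p0, ← p2, ← hF2]
  generalize FF δ U x ^ (2 * α - 2) = B
  field_simp
  ring

end Vale.Agent.P098
end
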