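import Mathlib
import Vale.Agent.P098.Bdl.B21
import Vale.Agent.P098.Bdl.B5
import Vale.Agent.P098.Bdl.B12
import Vale.Agent.P098.Bdl.B16
import Vale.Agent.P098.Bdl.B15
import Vale.Agent.P098.Bdl.B3

set_option linter.all false

section

/-! # M4: the free boundary is a null set

Let `x ∈ frontier (pos u)` and `r > 0`. By `NonDeg.closure` there is `y ∈ closedBall x (r/2)` with
`u y ≥ c r / 4`; by the Lipschitz bound `u > 0` on `ball y (κ r)`, `κ = c / (8 (L+1))` (and
`κ ≤ 1/2` wlog), so `ball y (κ r) ⊆ ball x r` is disjoint from `frontier (pos u)` (as `pos u` is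
open). Hence `vol(frontier ∩ ball x r) ≤ (1 - κ^d) vol(ball x r)` for all `r`; by the Lebesgue
density theorem the closed set `frontier (pos u)` is null. -/

set_option linter.all false

open MeasureTheory Set Metric Filter
open scoped ContDiff RealInnerProductSpace Topology NNReal

namespace Vale.Agent.P098

variable {d : ℕ}

theorem null_frontier {L : ℝ≥0} {u : E d → ℝ} (hL : LipschitzWith L u) (h0 : ∀ x, 0 ≤ u x)
    {c : ℝ} (hc : 0 < c) (hnd : NonDeg c u) : volume (frontier (pos u)) = 0 := by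
  have hopen : IsOpen (pos u) := isOpen_lt continuous_const hL.continuous
  set s : Set (E d) := frontier (pos u) with hs
  have hsm : MeasurableSet s := isClosed_frontier.measurableSet
  have hL0 : (0 : ℝ) ≤ L := L.coe_nonneg
  obtain ⟨κ, hκ0, hκ1, hκ2⟩ : ∃ κ : ℝ, 0 < κ ∧ κ ≤ 1 / 2 ∧ L * κ < c / 4 := by
    refine ⟨min (1 / 2) (c / (8 * (L + 1))), lt_min (by norm_num) (by (clear * - hc; positivity)),
      min_le_left _ _, ?_⟩
    have h1 : (L : ℝ) * min (1 / 2) (c / (8 * (L + 1))) ≤ L * (c / (8 * (L + 1))) :=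
      mul_le_mul_of_nonneg_left (min_le_right _ _) hL0
    have h2 : (L : ℝ) * (c / (8 * (L + 1))) ≤ c / 8 := by
      rw [mul_div_assoc', div_le_div_iff₀ (by positivity) (by norm_num)]
      linarith
    linarith only [h2, h1, hc]
  -- the key estimate
  set q : ENNReal := ENNReal.ofReal (κ ^ d) with hq
  have hq0 : q ≠ 0 := by
    rw [hq, Ne, ENNReal.ofReal_eq_zero, not_le]
    positivity
  have key : ∀ x ∈ s, ∀ r : ℝ, 0 < r →
      volume (s ∩ closedBall x r) / volume (closedBall x r) + q ≤ 1 := by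
    intro x hx r hr
    obtain ⟨y, hy, hyu⟩ := hnd.closure hc (frontier_subset_closure hx) (half_pos hr)
    have hsub : closedBall y (κ * r) ⊆ closedBall x r := by
      intro w hw
      rw [mem_closedBall] at hw
      rw [mem_closedBall] at hy ⊢
      have : κ * r ≤ r / 2 := by linarith only [mul_nonneg (sub_nonneg.2 hκ1) (le_of_lt (sub_pos.2 hr))]
      linarith only [hy, hw, this, dist_triangle w y x]
    have hdisj : Disjoint (s ∩ closedBall x r) (closedBall y (κ * r)) := by
      rw [Set.disjoint_left]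
      rintro w ⟨hws, -⟩ hw
      rw [mem_closedBall] at hw
      have h1 : |u w - u y| ≤ L * dist w y := by
        have := hL.dist_le_mul w y
        rwa [Real.dist_eq] at this
      have h2 : (L : ℝ) * dist w y ≤ L * (κ * r) := mul_le_mul_of_nonneg_left hw hL0
      have h3 : (L : ℝ) * (κ * r) < c / 4 * r := by
        rw [← mul_assoc]
        exact mul_lt_mul_of_pos_right hκ2 hr
      have h4 : 0 < u w := by
        have := (abs_le.1 h1).1
        linarith only [this, h3, h2, hyu]
      have h5 : w ∈ interior (pos u) := by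
        rw [hopen.interior_eq]
        exact h4
      exact hws.2 h5
    have hV0 : volume (closedBall x r) ≠ 0 := (measure_closedBall_pos volume x hr).ne'
    have hVt : volume (closedBall x r) ≠ ⊤ := measure_closedBall_lt_top.ne
    have hball : volume (closedBall y (κ * r)) = q * volume (closedBall x r) := by
      rw [Measure.addHaar_closedBall_mul_of_pos volume y hκ0,
        finrank_euclideanSpace_fin, Measure.addHaar_closedBall_center volume x]
    have hsum : volume (s ∩ closedBall x r) + q * volume (closedBall x r)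
        ≤ volume (closedBall x r) := by
      rw [← hball, ← measure_union hdisj measurableSet_closedBall]
      exact measure_mono (union_subset inter_subset_right hsub)
    calc volume (s ∩ closedBall x r) / volume (closedBall x r) + q
        = (volume (s ∩ closedBall x r) + q * volume (closedBall x r))
            / volume (closedBall x r) := by
          rw [ENNReal.add_div, ENNReal.mul_div_cancel_right hV0 hVt]
      _ ≤ 1 := ENNReal.div_le_of_le_mul (by rw [one_mul]; exact hsum)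
  have hae := Besicovitch.ae_tendsto_measure_inter_div_of_measurableSet
    (volume : Measure (E d)) hsm
  have hnot : ∀ᵐ x : E d, x ∉ s := by
    filter_upwards [hae] with x hx hxs
    rw [indicator_of_mem hxs] at hx
    have h1 : Tendsto (fun r => volume (s ∩ closedBall x r) / volume (closedBall x r) + q)
        (𝓝[>] 0) (𝓝 (1 + q)) := hx.add_const q
    have h2 : (1 : ENNReal) + q ≤ 1 := by
      apply le_of_tendsto h1
      filter_upwards [self_mem_nhdsWithin] with r hr
      exact key x hxs r hr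
    have h3 : (1 : ENNReal) + q ≤ 1 + 0 := by rwa [add_zero]
    have h4 := (ENNReal.add_le_add_iff_left ENNReal.one_ne_top).1 h3
    exact hq0 (le_zero_iff.1 h4)
  have := (measure_eq_zero_iff_ae_notMem (μ := (volume : Measure (E d))) (s := s)).2 hnot
  exact this

end Vale.Agent.P098
end

section

/-! # M5a: elementary limits

`exists_subseq`: Arzela-Ascoli (or: diagonal subsequence on a countable dense set and
equicontinuity). `unif_on_balls`: finite `ε`-net of the ball and the Lipschitz bound.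
`lim_nonDeg`: if `0 < g x` then `0 < f n x` for large `n`, get `y_n ∈ closedBall x r` with
`c r ≤ f n y_n`; a cluster point `y` has `c r ≤ g y` (by `unif_on_balls`); the closed ball is
compact. `lim_closure`: use `NonDeg.closure` for `f n` at `x` with radius `r`: points `y_n` with
`f n y_n ≥ c r / 2`, cluster point `y ∈ closedBall x r` with `g y > 0`; `r` arbitrary.
`lim_pos`: pointwise convergence of the indicators off `frontier (pos g)` (null by
`null_frontier`, using `lim_nonDeg`): if `g x > 0` clear; if `x ∉ closure (pos g)`, `g = 0` on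
`closedBall x s`; if `f n x > 0` then `NonDeg` gives `y_n ∈ closedBall x s` with `f n y_n ≥ c s`,
impossible for large `n`. Then dominated convergence on the ball. -/

open MeasureTheory Set Metric Filter
open scoped ContDiff RealInnerProductSpace Topology NNReal

namespace Vale.Agent.P098

variable {d : ℕ}

theorem rM5a_lip {L : ℝ≥0} {f : ℕ → E d → ℝ} {g : E d → ℝ} (hf : ∀ n, LipschitzWith L (f n))
    (hlim : ∀ x, Tendsto (fun n => f n x) atTop (𝓝 (g x))) : LipschitzWith L g := by
  refine LipschitzWith.of_dist_le_mul fun x y => ?_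
  exact le_of_tendsto ((hlim x).dist (hlim y))
    (Eventually.of_forall fun n => (hf n).dist_le_mul x y)

theorem rM5a_abs {L : ℝ≥0} {f : E d → ℝ} (hf : LipschitzWith L f) (x y : E d) :
    |f x - f y| ≤ L * dist x y := by
  have := hf.dist_le_mul x y
  rwa [Real.dist_eq] at this

theorem exists_subseq {L : ℝ≥0} {f : ℕ → E d → ℝ} (hf : ∀ n, LipschitzWith L (f n)) {C : ℝ}
    (h0 : ∀ n, |f n 0| ≤ C) : ∃ φ : ℕ → ℕ, StrictMono φ ∧ ∃ g : E d → ℝ, LipschitzWith L g ∧
      ∀ x, Tendsto (fun n => f (φ n) x) atTop (𝓝 (g x)) := by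
  set D : ℕ → E d := TopologicalSpace.denseSeq (E d) with hD
  have hb : ∀ n k, f n (D k) ∈ Icc (-(C + L * ‖D k‖)) (C + L * ‖D k‖) := by
    intro n k
    have h1 := rM5a_abs (hf n) (D k) 0
    rw [dist_zero_right] at h1
    have h2 := h0 n
    rw [mem_Icc, ← abs_le]
    have h3 : |f n (D k)| ≤ |f n (D k) - f n 0| + |f n 0| := by
      have := abs_add_le (f n (D k) - f n 0) (f n 0)
      simpa only [ge_iff_le, sub_add_cancel] using this
    linarith only [h1, h2, h3]
  have hK : IsCompact (Set.pi univ fun k => Icc (-(C + L * ‖D k‖)) (C + L * ‖D k‖)) :=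
    isCompact_univ_pi fun k => isCompact_Icc
  obtain ⟨g0, -, φ, hφ, hlim⟩ := hK.tendsto_subseq (x := fun n k => f n (D k))
    (fun n k _ => hb n k)
  rw [tendsto_pi_nhds] at hlim
  have hc : ∀ x, ∃ l, Tendsto (fun n => f (φ n) x) atTop (𝓝 l) := by
    intro x
    refine cauchySeq_tendsto_of_complete ?_
    rw [Metric.cauchySeq_iff]
    intro ε hε
    have hL1 : (0 : ℝ) < 3 * ((L : ℝ) + 1) := by (clear * -; positivity)
    obtain ⟨k, hk⟩ := (TopologicalSpace.denseRange_denseSeq (E d)).exists_dist_lt x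
      (div_pos hε hL1)
    have hk' : (L : ℝ) * dist x (D k) ≤ ε / 3 := by
      have h1 : dist x (D k) ≤ ε / (3 * ((L : ℝ) + 1)) := hk.le
      calc (L : ℝ) * dist x (D k) ≤ ((L : ℝ) + 1) * (ε / (3 * ((L : ℝ) + 1))) := by
            apply mul_le_mul _ h1 dist_nonneg (by positivity)
            linarith only []
        _ = ε / 3 := by (clear * - hε; field_simp)
    have hk3 := (hlim k).cauchySeq
    rw [Metric.cauchySeq_iff] at hk3
    obtain ⟨N, hN⟩ := hk3 (ε / 3) (by positivity)
    refine ⟨N, fun m hm n hn => ?_⟩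
    have h1 := hN m hm n hn
    have h2 := (hf (φ m)).dist_le_mul x (D k)
    have h3 := (hf (φ n)).dist_le_mul (D k) x
    rw [dist_comm (D k) x] at h3
    simp only [Function.comp] at h1
    calc dist (f (φ m) x) (f (φ n) x)
        ≤ dist (f (φ m) x) (f (φ m) (D k)) + dist (f (φ m) (D k)) (f (φ n) (D k))
          + dist (f (φ n) (D k)) (f (φ n) x) := dist_triangle4 _ _ _ _
      _ < ε := by linarith only [hk', h1, h2, h3]
  choose g hg using hc
  exact ⟨φ, hφ, g, rM5a_lip (fun n => hf (φ n)) hg, hg⟩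

theorem unif_on_balls {L : ℝ≥0} {f : ℕ → E d → ℝ} {g : E d → ℝ}
    (hf : ∀ n, LipschitzWith L (f n)) (hlim : ∀ x, Tendsto (fun n => f n x) atTop (𝓝 (g x)))
    (R : ℝ) {ε : ℝ} (hε : 0 < ε) : ∀ᶠ n in atTop, ∀ x ∈ closedBall (0 : E d) R,
      |f n x - g x| ≤ ε := by
  have hg := rM5a_lip hf hlim
  have hL1 : (0 : ℝ) < 3 * ((L : ℝ) + 1) := by (clear * -; positivity)
  obtain ⟨t, -, htf, hcov⟩ := (isCompact_closedBall (0 : E d) R).finite_cover_balls
    (div_pos hε hL1)
  have hev : ∀ᶠ n in atTop, ∀ y ∈ t, |f n y - g y| ≤ ε / 3 := by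
    rw [eventually_all_finite htf]
    intro y _
    have := (hlim y)
    rw [Metric.tendsto_atTop] at this
    obtain ⟨N, hN⟩ := this (ε / 3) (by positivity)
    filter_upwards [eventually_ge_atTop N] with n hn
    have := hN n hn
    rw [Real.dist_eq] at this
    exact this.le
  filter_upwards [hev] with n hn x hx
  have hx' := hcov hx
  simp only [mem_iUnion, mem_ball, exists_prop] at hx'
  obtain ⟨y, hy, hxy⟩ := hx'
  have hk' : (L : ℝ) * dist x y ≤ ε / 3 := by
    calc (L : ℝ) * dist x y ≤ ((L : ℝ) + 1) * (ε / (3 * ((L : ℝ) + 1))) := by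
          apply mul_le_mul _ hxy.le dist_nonneg (by (clear * -; positivity))
          linarith only []
      _ = ε / 3 := by (clear * - hε; field_simp)
  have h1 := rM5a_abs (hf n) x y
  have h2 := rM5a_abs hg y x
  rw [dist_comm y x] at h2
  have h3 := hn y hy
  have h4 : f n x - g x = (f n x - f n y) + (f n y - g y) + (g y - g x) := by ring
  rw [h4]
  calc |(f n x - f n y) + (f n y - g y) + (g y - g x)|
      ≤ |f n x - f n y| + |f n y - g y| + |g y - g x| := abs_add_three _ _ _
    _ ≤ ε := by linarith only [hk', h1, h2, h3]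

theorem rM5a_sub (x : E d) (r : ℝ) : closedBall x r ⊆ closedBall (0 : E d) (‖x‖ + r) := by
  apply closedBall_subset_closedBall'
  rw [dist_zero_right]
  linarith

theorem rM5a_nonneg {L : ℝ≥0} {f : ℕ → E d → ℝ} {g : E d → ℝ} (hf : ∀ n, MinL L (f n))
    (hlim : ∀ x, Tendsto (fun n => f n x) atTop (𝓝 (g x))) (x : E d) : 0 ≤ g x :=
  ge_of_tendsto (hlim x) (Eventually.of_forall fun n => (hf n).nonneg x)

theorem lim_nonDeg {L : ℝ≥0} {f : ℕ → E d → ℝ} {g : E d → ℝ} (hf : ∀ n, MinL L (f n))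
    (hlim : ∀ x, Tendsto (fun n => f n x) atTop (𝓝 (g x))) {c : ℝ} (hc : 0 < c)
    (hnd : ∀ n, NonDeg c (f n)) : NonDeg c g := by
  intro x hx r hr
  have hg := rM5a_lip (fun n => (hf n).lip) hlim
  obtain ⟨y0, hy0, hmax⟩ := (isCompact_closedBall x r).exists_isMaxOn
    ⟨x, mem_closedBall_self hr.le⟩ hg.continuous.continuousOn
  refine ⟨y0, hy0, ?_⟩
  by_contra hcon
  push Not at hcon
  have hδ : 0 < (c * r - g y0) / 2 := by linarith
  have h1 := unif_on_balls (fun n => (hf n).lip) hlim (‖x‖ + r) hδ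
  have h2 : ∀ᶠ n in atTop, 0 < f n x := (hlim x).eventually (lt_mem_nhds hx)
  obtain ⟨n, hn1, hn2⟩ := (h1.and h2).exists
  obtain ⟨y, hy, hyc⟩ := hnd n x hn2 r hr
  have h3 := hn1 y (rM5a_sub x r hy)
  have h4 : g y ≤ g y0 := hmax hy
  have h5 := (abs_le.1 h3).2
  linarith only [hcon, hyc, h4, h5]

theorem lim_closure {L : ℝ≥0} {f : ℕ → E d → ℝ} {g : E d → ℝ} (hf : ∀ n, MinL L (f n))
    (hlim : ∀ x, Tendsto (fun n => f n x) atTop (𝓝 (g x))) {c : ℝ} (hc : 0 < c)
    (hnd : ∀ n, NonDeg c (f n)) {x : E d} (hx : ∀ n, x ∈ closure (pos (f n))) :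
    x ∈ closure (pos g) := by
  rw [mem_closure_iff_nhds_basis nhds_basis_closedBall]
  intro r hr
  by_contra hcon
  push Not at hcon
  have hz : ∀ y ∈ closedBall x r, g y ≤ 0 := by
    intro y hy
    by_contra h
    exact hcon y (not_le.1 h) hy
  have hδ : 0 < c * r / 4 := by positivity
  obtain ⟨n, hn⟩ := (unif_on_balls (fun n => (hf n).lip) hlim (‖x‖ + r) hδ).exists
  obtain ⟨y, hy, hyc⟩ := (hnd n).closure hc (hx n) hr
  have h3 := hn y (rM5a_sub x r hy)
  have h5 := (abs_le.1 h3).2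
  have h6 := hz y hy
  linarith only [h6, h5, hyc, hδ]

theorem rM5a_ind {u : E d → ℝ} (x : E d) :
    (pos u).indicator (fun _ => (1 : ℝ)) x = if 0 < u x then 1 else 0 := by
  by_cases h : 0 < u x
  · rw [indicator_of_mem (show x ∈ pos u from h), if_pos h]
  · rw [indicator_of_notMem (show x ∉ pos u from h), if_neg h]

theorem rM5a_ind_bound {u v : E d → ℝ} (x : E d) :
    |(pos u).indicator (fun _ => (1 : ℝ)) x - (pos v).indicator (fun _ => (1 : ℝ)) x| ≤ 1 := by
  rw [rM5a_ind, rM5a_ind]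
  split_ifs <;> norm_num

theorem lim_pos {L : ℝ≥0} {f : ℕ → E d → ℝ} {g : E d → ℝ} (hf : ∀ n, MinL L (f n))
    (hlim : ∀ x, Tendsto (fun n => f n x) atTop (𝓝 (g x))) {c : ℝ} (hc : 0 < c)
    (hnd : ∀ n, NonDeg c (f n)) (R : ℝ) :
    Tendsto (fun n => ∫ x in ball (0 : E d) R, |(pos (f n)).indicator (fun _ => (1 : ℝ)) x
      - (pos g).indicator (fun _ => (1 : ℝ)) x|) atTop (𝓝 0) := by
  have hg := rM5a_lip (fun n => (hf n).lip) hlim
  have hgn := rM5a_nonneg hf hlim
  have hnull := null_frontier hg hgn hc (lim_nonDeg hf hlim hc hnd)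
  have hmeas : ∀ u : E d → ℝ, Continuous u → MeasurableSet (pos u) := fun u hu =>
    (isOpen_lt continuous_const hu).measurableSet
  have key : Tendsto (fun n => ∫ x in ball (0 : E d) R,
      |(pos (f n)).indicator (fun _ => (1 : ℝ)) x - (pos g).indicator (fun _ => (1 : ℝ)) x|)
      atTop (𝓝 (∫ x in ball (0 : E d) R, (0 : ℝ))) := by
    refine tendsto_integral_of_dominated_convergence (fun _ => (1 : ℝ)) ?_ ?_ ?_ ?_
    · intro n
      have h1 : Measurable ((pos (f n)).indicator (fun _ => (1 : ℝ))) :=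
        measurable_const.indicator (hmeas _ (hf n).lip.continuous)
      have h2 : Measurable ((pos g).indicator (fun _ => (1 : ℝ))) :=
        measurable_const.indicator (hmeas _ hg.continuous)
      exact ((h1.sub h2).abs).aestronglyMeasurable
    · exact integrableOn_const measure_ball_lt_top.ne
    · intro n
      refine Eventually.of_forall fun x => ?_
      rw [Real.norm_eq_abs, abs_abs]
      exact rM5a_ind_bound x
    · have hae : ∀ᵐ x ∂(volume.restrict (ball (0 : E d) R)), x ∉ frontier (pos g) :=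
        ae_restrict_of_ae (measure_eq_zero_iff_ae_notMem.1 hnull)
      filter_upwards [hae] with x hx
      by_cases hgx : 0 < g x
      · have h2 : ∀ᶠ n in atTop, 0 < f n x := (hlim x).eventually (lt_mem_nhds hgx)
        refine Tendsto.congr' ?_ tendsto_const_nhds
        filter_upwards [h2] with n hn
        rw [rM5a_ind, rM5a_ind, if_pos hn, if_pos hgx]
        simp
      · have hcl : x ∉ closure (pos g) := by
          intro hcl
          apply hx
          rw [frontier, (isOpen_lt continuous_const hg.continuous).interior_eq]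
          exact ⟨hcl, hgx⟩
        rw [mem_closure_iff_nhds_basis nhds_basis_closedBall] at hcl
        push Not at hcl
        obtain ⟨s, hs, hs2⟩ := hcl
        have hz : ∀ y ∈ closedBall x s, g y ≤ 0 := by
          intro y hy
          by_contra h
          exact hs2 y (not_le.1 h) hy
        have hδ : 0 < c * s / 2 := by (clear * - hc hs; positivity)
        refine Tendsto.congr' ?_ tendsto_const_nhds
        filter_upwards [unif_on_balls (fun n => (hf n).lip) hlim (‖x‖ + s) hδ] with n hn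
        have hfn : ¬ 0 < f n x := by
          intro hpos
          obtain ⟨y, hy, hyc⟩ := hnd n x hpos s hs
          have h3 := hn y (rM5a_sub x s hy)
          have h5 := (abs_le.1 h3).2
          have h6 := hz y hy
          linarith only [h6, h5, hyc, hδ]
        rw [rM5a_ind, rM5a_ind, if_neg hfn, if_neg hgx]
        simp
  simpa only [integral_zero] using key

end Vale.Agent.P098
end

section

/-! # M5b: strong convergence of the gradients

Let `φ ≥ 0` be a smooth cutoff, `φ = 1` on `ball 0 R`, `ε = sup_{supp φ} |f n - g|`. By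
`MinL.subharm` applied to `ζ = (ε + f n - g) φ ≥ 0`,
`∫ φ ∇f_n·(∇f_n - ∇g) ≤ - ∫ (ε + f n - g) ∇f_n·∇φ ≤ 2 ε L ∫ |∇φ|`, so that
`∫ φ |∇f_n - ∇g|² ≤ 2 ε L ∫ |∇φ| - ∫ ∇(f_n - g)·(φ ∇g)`, and the last term tends to `0` because
`∇(f_n - g)` tends weakly to `0` (approximate `φ ∇g` in `L¹` by smooth compactly supported
fields and integrate by parts). -/

open MeasureTheory Set Metric Filter
open scoped ContDiff RealInnerProductSpace Topology NNReal

namespace Vale.Agent.P098

variable {d : ℕ}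

theorem rM5b_continuous_divg {V : E d → E d} (hV : ContDiff ℝ 1 V) : Continuous (divg V) := by
  have := hV.continuous_fderiv (by simp)
  unfold divg
  (clear * - hV; fun_prop)

theorem rM5b_divg_zero {V : E d → E d} {x : E d} (hx : x ∉ tsupport V) : divg V x = 0 := by
  have h : fderiv ℝ V x = 0 :=
    image_eq_zero_of_notMem_tsupport (fun h' => hx (tsupport_fderiv_subset ℝ h'))
  unfold divg
  simp only [h, zero_apply, PiLp.zero_apply, Finset.sum_const_zero]

theorem rM5b_weak_smooth {K : ℝ≥0} {w : ℕ → E d → ℝ} (hw : ∀ n, LipschitzWith K (w n))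
    (h0 : ∀ x, Tendsto (fun n => w n x) atTop (𝓝 0)) {V : E d → E d} (hV : ContDiff ℝ 1 V)
    (hVc : HasCompactSupport V) :
    Tendsto (fun n => ∫ x, ⟪gradient (w n) x, V x⟫) atTop (𝓝 0) := by
  have h1 : ∀ n, ∫ x, ⟪gradient (w n) x, V x⟫ = - ∫ x, w n x * divg V x := by
    intro n
    rw [MC.integral_mul_divg (hw n) hV hVc, neg_neg]
  simp_rw [h1]
  have key : Tendsto (fun n => ∫ x, w n x * divg V x) atTop (𝓝 (∫ _x : E d, (0 : ℝ))) := by
    obtain ⟨C, hC⟩ := (h0 0).norm.bddAbove_range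
    have hC' : ∀ n, |w n 0| ≤ C := fun n => hC ⟨n, rfl⟩
    refine tendsto_integral_of_dominated_convergence
      (fun x => (C + K * ‖x‖) * |divg V x|) ?_ ?_ ?_ ?_
    · intro n
      exact ((hw n).continuous.mul (rM5b_continuous_divg hV)).aestronglyMeasurable
    · have hcont : Continuous fun x : E d => (C + K * ‖x‖) * |divg V x| := by
        have := rM5b_continuous_divg hV
        fun_prop
      refine hcont.integrable_of_hasCompactSupport ?_
      refine HasCompactSupport.intro hVc.isCompact fun x hx => ?_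
      rw [rM5b_divg_zero hx]
      simp
    · intro n
      refine Eventually.of_forall fun x => ?_
      rw [Real.norm_eq_abs, abs_mul]
      refine mul_le_mul_of_nonneg_right ?_ (abs_nonneg _)
      have h2 := (hw n).dist_le_mul x 0
      rw [Real.dist_eq, dist_zero_right] at h2
      have h3 : |w n x| ≤ |w n 0| + |w n x - w n 0| := by
        have := abs_add_le (w n 0) (w n x - w n 0)
        simpa only [ge_iff_le, add_sub_cancel] using this
      linarith [hC' n]
    · refine Eventually.of_forall fun x => ?_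
      have := (h0 x).mul_const (divg V x)
      simpa only [zero_mul] using this
  have := key.neg
  simpa using this

theorem rM5b_weak {K : ℝ≥0} {w : ℕ → E d → ℝ} (hw : ∀ n, LipschitzWith K (w n))
    (h0 : ∀ x, Tendsto (fun n => w n x) atTop (𝓝 0)) {H : E d → E d} (hH : Integrable H) :
    Tendsto (fun n => ∫ x, ⟪gradient (w n) x, H x⟫) atTop (𝓝 0) := by
  rw [Metric.tendsto_atTop]
  intro ε hε
  have hδ : 0 < ε / (2 * (K + 1)) := by positivity
  obtain ⟨V, hVc, hV, hle⟩ := (memLp_one_iff_integrable.2 hH).exist_eLpNorm_sub_le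
    (by simp) le_rfl hδ
  have hV1 : ContDiff ℝ 1 V := hV.of_le (by exact_mod_cast le_top)
  have hVi : Integrable V := hV.continuous.integrable_of_hasCompactSupport hVc
  have hHV : Integrable fun x => H x - V x := hH.sub hVi
  have hd : ∫ x, ‖H x - V x‖ ≤ ε / (2 * (K + 1)) := by
    have h1 : ENNReal.ofReal (∫ x, ‖H x - V x‖) ≤ ENNReal.ofReal (ε / (2 * (K + 1))) := by
      rw [ofReal_integral_norm_eq_lintegral_enorm hHV]
      rw [eLpNorm_one_eq_lintegral_enorm] at hle
      exact hle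
    exact (ENNReal.ofReal_le_ofReal_iff hδ.le).1 h1
  obtain ⟨N, hN⟩ := (Metric.tendsto_atTop.1 (rM5b_weak_smooth hw h0 hV1 hVc)) (ε / 2) (by positivity)
  refine ⟨N, fun n hn => ?_⟩
  have h2 := hN n hn
  rw [Real.dist_eq, sub_zero] at h2 ⊢
  have hint : ∀ {G : E d → E d}, Integrable G → Integrable fun x => ⟪gradient (w n) x, G x⟫ := by
    intro G hG
    refine (hG.norm.const_mul (K : ℝ)).mono'
      ((mb_measurable_gradient (w n)).aestronglyMeasurable.inner hG.aestronglyMeasurable) ?_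
    refine Eventually.of_forall fun x => ?_
    rw [Real.norm_eq_abs]
    exact (abs_real_inner_le_norm _ _).trans
      (mul_le_mul_of_nonneg_right (mb_gradient_le (hw n) x) (norm_nonneg _))
  have h3 : ∫ x, ⟪gradient (w n) x, H x⟫ =
      (∫ x, ⟪gradient (w n) x, V x⟫) + ∫ x, ⟪gradient (w n) x, H x - V x⟫ := by
    rw [← integral_add (hint hVi) (hint hHV)]
    refine integral_congr_ae (Eventually.of_forall fun x => ?_)
    simp only
    rw [← inner_add_right]
    congr 1
    abel
  have h4 : |∫ x, ⟪gradient (w n) x, H x - V x⟫| ≤ K * (ε / (2 * (K + 1))) := by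
    have h5 : |∫ x, ⟪gradient (w n) x, H x - V x⟫| ≤ ∫ x, K * ‖H x - V x‖ := by
      rw [← Real.norm_eq_abs]
      refine norm_integral_le_of_norm_le (hHV.norm.const_mul (K : ℝ)) ?_
      refine Eventually.of_forall fun x => ?_
      rw [Real.norm_eq_abs]
      exact (abs_real_inner_le_norm _ _).trans
        (mul_le_mul_of_nonneg_right (mb_gradient_le (hw n) x) (norm_nonneg _))
    rw [integral_const_mul] at h5
    exact h5.trans (mul_le_mul_of_nonneg_left hd K.coe_nonneg)
  have h6 : (K : ℝ) * (ε / (2 * (K + 1))) ≤ ε / 2 := by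
    have hK : (0 : ℝ) ≤ K := K.coe_nonneg
    rw [mul_div_assoc', div_le_div_iff₀ (by (clear * -; positivity)) (by positivity)]
    linarith only [hε]
  rw [h3]
  have h7 := abs_add_le (∫ x, ⟪gradient (w n) x, V x⟫) (∫ x, ⟪gradient (w n) x, H x - V x⟫)
  linarith only [h2, h4, h6, h7]

theorem rM5b_gradient_mul {f g : E d → ℝ} {x : E d} (hf : DifferentiableAt ℝ f x)
    (hg : DifferentiableAt ℝ g x) :
    gradient (fun y => f y * g y) x = f x • gradient g x + g x • gradient f x := by
  unfold gradient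
  rw [fderiv_fun_mul hf hg, map_add, map_smulₛₗ, map_smulₛₗ]
  simp only [Real.ringHom_apply]

theorem rM5b_key {L : ℝ≥0} {u v : E d → ℝ} (hu : MinL L u) (hv : LipschitzWith L v)
    {φ : E d → ℝ} {K : ℝ≥0} (hφ : LipschitzWith K φ) (hφc : HasCompactSupport φ)
    (hφ0 : ∀ x, 0 ≤ φ x) {ε : ℝ} (hε : 0 ≤ ε) (h : ∀ x, φ x ≠ 0 → |u x - v x| ≤ ε) :
    ∫ x, φ x * ‖gradient u x - gradient v x‖ ^ 2 ≤ 2 * ε * L * (∫ x, ‖gradient φ x‖)
      - ∫ x, ⟪gradient (fun y => u y - v y) x, φ x • gradient v x⟫ := by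
  obtain ⟨M, hM⟩ := hφc.exists_bound_of_continuous hφ.continuous
  have hM' : ∀ x, |φ x| ≤ M := hM
  have hM0 : 0 ≤ M := (abs_nonneg _).trans (hM' 0)
  set t : E d → ℝ := fun x => ε + max (min (u x - v x) ε) (-ε) with ht
  have htL : LipschitzWith (L + L) t := by
    have h1 : LipschitzWith (L + L) fun x => u x - v x := hu.lip.sub hv
    have h2 : LipschitzWith (L + L) fun x => max (min (u x - v x) ε) (-ε) :=
      (h1.min_const ε).max_const (-ε)
    have h3 := (LipschitzWith.const (α := E d) ε).add h2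
    rwa [zero_add] at h3
  have htb : ∀ x, |t x| ≤ 2 * ε := by
    intro x
    have h1 : max (min (u x - v x) ε) (-ε) ≤ ε := max_le (min_le_right _ _) (by linarith)
    have h2 : -ε ≤ max (min (u x - v x) ε) (-ε) := le_max_right _ _
    rw [abs_le]
    simp only [ht]
    constructor <;> linarith
  have ht0 : ∀ x, 0 ≤ t x := by
    intro x
    have h2 : -ε ≤ max (min (u x - v x) ε) (-ε) := le_max_right _ _
    simp only [ht]
    linarith
  have hteq : ∀ x, φ x ≠ 0 → t x = ε + (u x - v x) := by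
    intro x hx
    have h1 := abs_le.1 (h x hx)
    simp only [ht]
    rw [min_eq_left h1.2, max_eq_left h1.1]
  set ζ : E d → ℝ := fun x => t x * φ x with hζ
  obtain ⟨K', hζL⟩ := MC.lip_mul htL hφ htb hM'
  have hζc : HasCompactSupport ζ := hφc.mul_left
  have hζ0 : ∀ x, 0 ≤ ζ x := fun x => mul_nonneg (ht0 x) (hφ0 x)
  have hsub := hu.subharm hζL hζc hζ0
  have hma := mb_measurable_gradient u
  have hmb := mb_measurable_gradient v
  have hmp := mb_measurable_gradient φ
  have hmz := mb_measurable_gradient ζ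
  have hmw := mb_measurable_gradient (fun y => u y - v y)
  have hwL : LipschitzWith (L + L) fun y => u y - v y := hu.lip.sub hv
  have i1 : Integrable fun x => ⟪gradient u x, gradient ζ x⟫ := by
    refine mb_integrable (hma.inner hmz).aestronglyMeasurable (C := L * K') ?_
      hζc.isCompact ?_
    · intro x
      exact (abs_real_inner_le_norm _ _).trans
        (mul_le_mul (mb_gradient_le hu.lip x) (mb_gradient_le hζL x) (norm_nonneg _) L.coe_nonneg)
    · intro x hx
      rw [mb_gradient_zero_of_notMem hx, inner_zero_right]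
  have i2 : Integrable fun x => ‖gradient φ x‖ := by
    refine mb_integrable hmp.norm.aestronglyMeasurable (C := K) ?_ hφc.isCompact ?_
    · intro x
      rw [abs_of_nonneg (norm_nonneg _)]
      exact mb_gradient_le hφ x
    · intro x hx
      rw [mb_gradient_zero_of_notMem hx, norm_zero]
  have i3 : Integrable fun x => ⟪gradient (fun y => u y - v y) x, φ x • gradient v x⟫ := by
    refine mb_integrable (hmw.inner (hφ.continuous.measurable.smul hmb)).aestronglyMeasurable
      (C := (L + L) * (M * L)) ?_ hφc.isCompact ?_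
    · intro x
      refine (abs_real_inner_le_norm _ _).trans ?_
      refine mul_le_mul (mb_gradient_le hwL x) ?_ (norm_nonneg _) (by (clear * -; positivity))
      rw [norm_smul]
      exact mul_le_mul (hM x) (mb_gradient_le hv x) (norm_nonneg _) hM0
    · intro x hx
      rw [image_eq_zero_of_notMem_tsupport hx, zero_smul, inner_zero_right]
  have i4 : Integrable fun x => φ x * ‖gradient u x - gradient v x‖ ^ 2 := by
    refine mb_integrable (hφ.continuous.measurable.mul
      ((hma.sub hmb).norm.pow_const 2)).aestronglyMeasurable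
      (C := M * (L + L) ^ 2) ?_ hφc.isCompact ?_
    · intro x
      rw [abs_mul, abs_of_nonneg (a := ‖gradient u x - gradient v x‖ ^ 2) (by (clear * -; positivity))]
      have h1 : ‖gradient u x - gradient v x‖ ≤ L + L := (norm_sub_le _ _).trans
        (add_le_add (mb_gradient_le hu.lip x) (mb_gradient_le hv x))
      have := hM' x
      (clear * - this h1 hM0; gcongr)
    · intro x hx
      rw [image_eq_zero_of_notMem_tsupport hx, zero_mul]
  have i12 : Integrable fun x => ⟪gradient u x, gradient ζ x⟫ + 2 * ε * L * ‖gradient φ x‖ :=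
    i1.add (i2.const_mul _)
  have hle : ∫ x, φ x * ‖gradient u x - gradient v x‖ ^ 2 ≤
      ∫ x, (⟪gradient u x, gradient ζ x⟫ + 2 * ε * L * ‖gradient φ x‖
        - ⟪gradient (fun y => u y - v y) x, φ x • gradient v x⟫) := by
    refine integral_mono_ae i4 (i12.sub i3) ?_
    filter_upwards [mb_ae_diff hu.lip, mb_ae_diff hv, mb_ae_diff hφ] with x hx1 hx2 hx3
    rw [mb_gradient_sub hx1 hx2]
    by_cases hφx : φ x = 0
    · rw [hφx, zero_mul, zero_smul, inner_zero_right, sub_zero]
      have e1 : gradient ζ x = 0 := mb_gradient_zero_of_min hζ0 (by simp only [hζ, hφx, mul_zero])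
      rw [e1, inner_zero_right, zero_add]
      (clear * - hε; positivity)
    · have hev : ζ =ᶠ[𝓝 x] fun y => (ε + (u y - v y)) * φ y := by
        filter_upwards [hφ.continuous.continuousAt.eventually_ne hφx] with y hy
        simp only [hζ]
        rw [hteq y hy]
      have hdiff : DifferentiableAt ℝ (fun y => ε + (u y - v y)) x :=
        (hx1.sub hx2).const_add ε
      have hg1 : gradient (fun y => ε + (u y - v y)) x = gradient u x - gradient v x := by
        have : gradient (fun y => ε + (u y - v y)) x = gradient (fun y => u y - v y) x := by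
          unfold gradient
          rw [fderiv_const_add]
        rw [this, mb_gradient_sub hx1 hx2]
      rw [mb_gradient_congr hev, rM5b_gradient_mul hdiff hx3, hg1]
      have h1 := abs_le.1 (h x hφx)
      have h2 : |⟪gradient u x, gradient φ x⟫| ≤ L * ‖gradient φ x‖ :=
        (abs_real_inner_le_norm _ _).trans
          (mul_le_mul_of_nonneg_right (mb_gradient_le hu.lip x) (norm_nonneg _))
      have h3 : -(2 * ε * L * ‖gradient φ x‖) ≤
          (ε + (u x - v x)) * ⟪gradient u x, gradient φ x⟫ := by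
        have h4 : |(ε + (u x - v x)) * ⟪gradient u x, gradient φ x⟫| ≤
            (2 * ε) * (L * ‖gradient φ x‖) := by
          rw [abs_mul]
          refine mul_le_mul ?_ h2 (abs_nonneg _) (by (clear * - hε; positivity))
          rw [abs_le]
          constructor <;> linarith only [h1]
        have h5 := (abs_le.1 h4).1
        linarith only [h5]
      rw [inner_add_right, inner_smul_right, inner_smul_right, inner_smul_right,
        ← real_inner_self_eq_norm_sq, inner_sub_left, inner_sub_right, inner_sub_right,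
        inner_sub_left, real_inner_comm (gradient v x) (gradient u x)]
      linarith
  rw [integral_sub i12 i3, integral_add i1 (i2.const_mul _),
    integral_const_mul] at hle
  linarith only [hsub, hle]

theorem lim_grad {L : ℝ≥0} {f : ℕ → E d → ℝ} {g : E d → ℝ} (hf : ∀ n, MinL L (f n))
    (hlim : ∀ x, Tendsto (fun n => f n x) atTop (𝓝 (g x))) (R : ℝ) :
    Tendsto (fun n => ∫ x in ball (0 : E d) R, ‖fderiv ℝ (f n) x - fderiv ℝ g x‖ ^ 2) atTop
      (𝓝 0) := by
  have hg : LipschitzWith L g := by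
    refine LipschitzWith.of_dist_le_mul fun x y => ?_
    exact le_of_tendsto ((hlim x).dist (hlim y))
      (Eventually.of_forall fun n => (hf n).lip.dist_le_mul x y)
  obtain ⟨φ, hφs, hφc, hφN, hφ0, hφ1, O, hO, hKO, hO1⟩ := MC.exists_cutoff
    (isCompact_closedBall (0 : E d) R) (isOpen_ball (x := (0 : E d)) (ε := R + 1))
    (closedBall_subset_ball (by linarith only []))
  obtain ⟨K, hφ⟩ := hφs.lipschitzWith_of_hasCompactSupport hφc (by simp)
  set w : ℕ → E d → ℝ := fun n y => f n y - g y with hw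
  have hwL : ∀ n, LipschitzWith (L + L) (w n) := fun n => (hf n).lip.sub hg
  have hw0 : ∀ x, Tendsto (fun n => w n x) atTop (𝓝 0) := by
    intro x
    have := (hlim x).sub_const (g x)
    simpa [hw] using this
  have hmb := mb_measurable_gradient g
  have hH : Integrable fun x => φ x • gradient g x := by
    have h1 : Integrable fun x => ‖φ x‖ * (L : ℝ) :=
      ((hφ.continuous.integrable_of_hasCompactSupport hφc).norm).mul_const _
    refine h1.mono' (hφ.continuous.measurable.smul hmb).aestronglyMeasurable ?_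
    refine Eventually.of_forall fun x => ?_
    rw [norm_smul]
    exact mul_le_mul_of_nonneg_left (mb_gradient_le hg x) (norm_nonneg _)
  have hweak := rM5b_weak hwL hw0 hH
  have hA : 0 ≤ ∫ x, ‖gradient φ x‖ := integral_nonneg fun x => norm_nonneg _
  have hnorm : ∀ n x, ‖fderiv ℝ (f n) x - fderiv ℝ g x‖ = ‖gradient (f n) x - gradient g x‖ := by
    intro n x
    unfold gradient
    rw [← map_sub, LinearIsometryEquiv.norm_map]
  have i4 : ∀ n, Integrable fun x => φ x * ‖gradient (f n) x - gradient g x‖ ^ 2 := by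
    intro n
    refine mb_integrable (hφ.continuous.measurable.mul
      (((mb_measurable_gradient (f n)).sub hmb).norm.pow_const 2)).aestronglyMeasurable
      (C := 1 * (L + L) ^ 2) ?_ hφc.isCompact ?_
    · intro x
      rw [abs_mul, abs_of_nonneg (a := ‖gradient (f n) x - gradient g x‖ ^ 2) (by (clear * -; positivity)),
        abs_of_nonneg (hφ0 x)]
      have h1 : ‖gradient (f n) x - gradient g x‖ ≤ L + L := (norm_sub_le _ _).trans
        (add_le_add (mb_gradient_le (hf n).lip x) (mb_gradient_le hg x))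
      have := hφ1 x
      gcongr
    · intro x hx
      rw [image_eq_zero_of_notMem_tsupport hx, zero_mul]
  have hle : ∀ n, ∫ x in ball (0 : E d) R, ‖fderiv ℝ (f n) x - fderiv ℝ g x‖ ^ 2 ≤
      ∫ x, φ x * ‖gradient (f n) x - gradient g x‖ ^ 2 := by
    intro n
    have h1 : ∫ x in ball (0 : E d) R, ‖fderiv ℝ (f n) x - fderiv ℝ g x‖ ^ 2 =
        ∫ x in ball (0 : E d) R, φ x * ‖gradient (f n) x - gradient g x‖ ^ 2 := by
      refine setIntegral_congr_fun measurableSet_ball fun x hx => ?_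
      rw [hO1 x (hKO (ball_subset_closedBall hx)), one_mul, hnorm]
    rw [h1]
    exact setIntegral_le_integral (i4 n) (Eventually.of_forall fun x =>
      mul_nonneg (hφ0 x) (by (clear * -; positivity)))
  rw [Metric.tendsto_atTop]
  intro η hη
  set ε : ℝ := η / (4 * (L * (∫ x, ‖gradient φ x‖) + 1)) with hε
  have hD : 0 < 4 * (L * (∫ x, ‖gradient φ x‖) + 1) := by (clear * -; positivity)
  have hεpos : 0 < ε := div_pos hη hD
  obtain ⟨N1, hN1⟩ := eventually_atTop.1
    (unif_on_balls (fun n => (hf n).lip) hlim (R + 1) hεpos)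
  obtain ⟨N2, hN2⟩ := Metric.tendsto_atTop.1 hweak (η / 2) (by (clear * - hη; positivity))
  refine ⟨max N1 N2, fun n hn => ?_⟩
  have h1 := hN1 n ((le_max_left _ _).trans hn)
  have h2 := hN2 n ((le_max_right _ _).trans hn)
  rw [Real.dist_eq, sub_zero] at h2 ⊢
  have hkey := rM5b_key (hf n) hg hφ hφc hφ0 hεpos.le (fun x hx => h1 x
    (ball_subset_closedBall (hφN (subset_tsupport φ hx))))
  have h3 : 0 ≤ ∫ x in ball (0 : E d) R, ‖fderiv ℝ (f n) x - fderiv ℝ g x‖ ^ 2 :=
    integral_nonneg fun x => by (clear * -; positivity)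
  rw [abs_of_nonneg h3]
  have h4 := hle n
  have h5 : 2 * ε * L * (∫ x, ‖gradient φ x‖) ≤ η / 2 := by
    have : ε * (4 * (L * (∫ x, ‖gradient φ x‖) + 1)) = η := by
      rw [hε]
      (clear * - hη; field_simp)
    linarith only [this, hεpos]
  have h6 := (abs_lt.1 h2).1
  simp only [hw] at h6
  linarith only [hkey, h4, h5, h6]

end Vale.Agent.P098
end

section

/-! # M5c: limits of minimizers are minimizers

`g` is `L`-Lipschitz and `≥ 0`. Let `v ≥ 0` be Lipschitz with `v - g` supported in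
`closedBall 0 R`. Let `η` be a Lipschitz cutoff, `η = 1` on `ball 0 (R+1)`, `η = 0` off
`ball 0 (R+2)`, `0 ≤ η ≤ 1`, and `v_n = v + (1 - η)(f_n - g)`. Then `v_n = v` on `ball 0 (R+1)`; off
`closedBall 0 R`, `v = g` and `v_n = η g + (1 - η) f_n ≥ 0`; `v_n = f_n` off `ball 0 (R+2)`.
So `v_n` is an admissible competitor of `f_n`:
`0 ≤ ∫ (|∇v_n|² - |∇f_n|²) + (χ_{v_n>0} - χ_{f_n>0})`, everything supported in `ball 0 (R+2)`.
As `∇f_n → ∇g` in `L²(ball 0 (R+2))` (`lim_grad`) and `f_n → g` uniformly there,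
`∇v_n → ∇v` in `L²`, so `∫ |∇v_n|² - |∇f_n|² → ∫ |∇v|² - |∇g|²`. And
`χ_{v_n>0} - χ_{f_n>0} ≤ χ_{v>0} - χ_{g>0} + |χ_{g>0} - χ_{f_n>0}|` a.e. (on `ball 0 R` equality
`v_n = v`; off it `{v_n > 0} ⊆ {g>0} ∪ {f_n>0}`), and `lim_pos`. Let `n → ∞`. (`nondeg` provides
`c`; for `d = 0` the statement is trivial, or assume `1 ≤ d`.) -/

open MeasureTheory Set Metric Filter
open scoped ContDiff RealInnerProductSpace Topology NNReal

namespace Vale.Agent.P098

variable {d : ℕ}

/-- the energy density difference -/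
noncomputable def rM5c_I (v g : E d → ℝ) (x : E d) : ℝ :=
  (‖fderiv ℝ v x‖ ^ 2 - ‖fderiv ℝ g x‖ ^ 2) +
    ({y | 0 < v y}.indicator (fun _ => (1 : ℝ)) x - {y | 0 < g y}.indicator (fun _ => (1 : ℝ)) x)

theorem rM5c_ind_abs (s : Set (E d)) (x : E d) :
    |s.indicator (fun _ => (1 : ℝ)) x| ≤ 1 := by
  by_cases h : x ∈ s
  · simp [h]
  · simp only [h, not_false_eq_true, indicator_of_notMem, abs_zero, zero_le_one]

theorem rM5c_eq_zero {v g : E d → ℝ} {R : ℝ} (h : ∀ x, R < ‖x‖ → v x = g x) {x : E d}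
    (hx : R < ‖x‖) : rM5c_I v g x = 0 := by
  have h1 : v =ᶠ[𝓝 x] g := by
    have h2 : {y : E d | R < ‖y‖} ∈ 𝓝 x := (isOpen_lt continuous_const continuous_norm).mem_nhds hx
    filter_upwards [h2] with y hy using h y hy
  have h3 : {y | 0 < v y}.indicator (fun _ => (1 : ℝ)) x
      = {y | 0 < g y}.indicator (fun _ => (1 : ℝ)) x := by
    simp only [indicator_apply, mem_ofPred_eq, h x hx]
  rw [rM5c_I, h1.fderiv_eq, h3]
  ring

theorem rM5c_integrable {v g : E d → ℝ} {K L : ℝ≥0} (hv : LipschitzWith K v)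
    (hg : LipschitzWith L g) (r : ℝ) : IntegrableOn (rM5c_I v g) (ball (0 : E d) r) := by
  have hm : Measurable (rM5c_I v g) := by
    have h1 : Measurable fun x => ‖fderiv ℝ v x‖ ^ 2 := (measurable_fderiv ℝ v).norm.pow_const 2
    have h2 : Measurable fun x => ‖fderiv ℝ g x‖ ^ 2 := (measurable_fderiv ℝ g).norm.pow_const 2
    have h3 : Measurable ({y : E d | 0 < v y}.indicator fun _ => (1 : ℝ)) :=
      measurable_const.indicator (measurableSet_lt measurable_const hv.continuous.measurable)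
    have h4 : Measurable ({y : E d | 0 < g y}.indicator fun _ => (1 : ℝ)) :=
      measurable_const.indicator (measurableSet_lt measurable_const hg.continuous.measurable)
    exact (h1.sub h2).add (h3.sub h4)
  refine Measure.integrableOn_of_bounded (M := (K : ℝ) ^ 2 + (L : ℝ) ^ 2 + 2)
    measure_ball_lt_top.ne hm.aestronglyMeasurable ?_
  refine Eventually.of_forall fun x => ?_
  have h1 : ‖fderiv ℝ v x‖ ≤ K := norm_fderiv_le_of_lipschitz ℝ hv
  have h2 : ‖fderiv ℝ g x‖ ≤ L := norm_fderiv_le_of_lipschitz ℝ hg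
  have h3 : ‖fderiv ℝ v x‖ ^ 2 ≤ (K : ℝ) ^ 2 := pow_le_pow_left₀ (norm_nonneg _) h1 2
  have h4 : ‖fderiv ℝ g x‖ ^ 2 ≤ (L : ℝ) ^ 2 := pow_le_pow_left₀ (norm_nonneg _) h2 2
  have h5 := abs_le.1 (rM5c_ind_abs {y | 0 < v y} x)
  have h6 := abs_le.1 (rM5c_ind_abs {y | 0 < g y} x)
  have h7 : 0 ≤ ‖fderiv ℝ v x‖ ^ 2 := sq_nonneg _
  have h8 : 0 ≤ ‖fderiv ℝ g x‖ ^ 2 := sq_nonneg _
  rw [Real.norm_eq_abs, rM5c_I, abs_le]
  constructor <;> linarith only [h3, h4, h5, h6, h7, h8]

/-- the cutoff -/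
noncomputable def rM5c_eta (R : ℝ) (x : E d) : ℝ := max 0 (min 1 (R + 2 - ‖x‖))

theorem rM5c_eta_nonneg (R : ℝ) (x : E d) : 0 ≤ rM5c_eta R x := le_max_left _ _

theorem rM5c_eta_le (R : ℝ) (x : E d) : rM5c_eta R x ≤ 1 :=
  max_le zero_le_one (min_le_left _ _)

theorem rM5c_eta_one {R : ℝ} {x : E d} (h : ‖x‖ ≤ R + 1) : rM5c_eta R x = 1 := by
  rw [rM5c_eta, min_eq_left (by linarith only [h]), max_eq_right zero_le_one]

theorem rM5c_eta_zero {R : ℝ} {x : E d} (h : R + 2 ≤ ‖x‖) : rM5c_eta R x = 0 := by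
  rw [rM5c_eta, max_eq_left]
  exact (min_le_right _ _).trans (by linarith)

theorem rM5c_eta_lip (R : ℝ) : LipschitzWith 1 (rM5c_eta R : E d → ℝ) := by
  have h1 : LipschitzWith 1 (fun x : E d => R + 2 - ‖x‖) := by
    refine LipschitzWith.of_dist_le_mul fun x y => ?_
    rw [Real.dist_eq, NNReal.coe_one, one_mul, dist_eq_norm]
    have h2 : R + 2 - ‖x‖ - (R + 2 - ‖y‖) = ‖y‖ - ‖x‖ := by ring
    rw [h2, abs_sub_comm]
    exact abs_norm_sub_norm_le x y
  exact (h1.const_min 1).const_max 0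

/-- the competitor `η v + (1 - η) f` -/
noncomputable def rM5c_comp (R : ℝ) (v f : E d → ℝ) (x : E d) : ℝ :=
  f x + rM5c_eta R x * (v x - f x)

theorem rM5c_comp_lip {R : ℝ} {v f : E d → ℝ} {K L : ℝ≥0} (hv : LipschitzWith K v)
    (hf : LipschitzWith L f) : ∃ M : ℝ≥0, LipschitzWith M (rM5c_comp R v f) := by
  have hh : LipschitzWith (K + L) fun x => v x - f x := hv.sub hf
  obtain ⟨C, hC⟩ : ∃ C : ℝ, ∀ x ∈ closedBall (0 : E d) (R + 2), ‖v x - f x‖ ≤ C :=
    (isCompact_closedBall (0 : E d) (R + 2)).exists_bound_of_continuousOn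
      hh.continuous.continuousOn
  have h1 : ∀ x y : E d, x ∈ closedBall (0 : E d) (R + 2) →
      dist (rM5c_eta R x * (v x - f x)) (rM5c_eta R y * (v y - f y)) ≤
        (max C 0 + (K + L : ℝ≥0)) * dist x y := by
    intro x y hx
    have e1 : rM5c_eta R x * (v x - f x) - rM5c_eta R y * (v y - f y) =
        (rM5c_eta R x - rM5c_eta R y) * (v x - f x) +
          rM5c_eta R y * ((v x - f x) - (v y - f y)) := by ring
    rw [Real.dist_eq, e1]
    have e2 : |rM5c_eta R x - rM5c_eta R y| ≤ dist x y := by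
      have := (rM5c_eta_lip (d := d) R).dist_le_mul x y
      rwa [Real.dist_eq, NNReal.coe_one, one_mul] at this
    have e3 : |(v x - f x) - (v y - f y)| ≤ (K + L : ℝ≥0) * dist x y := by
      have := hh.dist_le_mul x y
      rwa [Real.dist_eq] at this
    have e4 : |v x - f x| ≤ max C 0 := (hC x hx).trans (le_max_left _ _)
    calc |(rM5c_eta R x - rM5c_eta R y) * (v x - f x) +
          rM5c_eta R y * ((v x - f x) - (v y - f y))|
        ≤ |(rM5c_eta R x - rM5c_eta R y) * (v x - f x)| +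
          |rM5c_eta R y * ((v x - f x) - (v y - f y))| := abs_add_le _ _
      _ ≤ dist x y * max C 0 + 1 * ((K + L : ℝ≥0) * dist x y) := by
          rw [abs_mul, abs_mul]
          refine add_le_add ?_ ?_
          · exact mul_le_mul e2 e4 (abs_nonneg _) dist_nonneg
          · refine mul_le_mul ?_ e3 (abs_nonneg _) zero_le_one
            rw [abs_of_nonneg (rM5c_eta_nonneg R y)]
            exact rM5c_eta_le R y
      _ = (max C 0 + (K + L : ℝ≥0)) * dist x y := by ring
  have h2 : LipschitzWith (Real.toNNReal (max C 0) + (K + L))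
      fun x => rM5c_eta R x * (v x - f x) := by
    refine LipschitzWith.of_dist_le_mul fun x y => ?_
    have h3 : ((Real.toNNReal (max C 0) + (K + L) : ℝ≥0) : ℝ) =
        max C 0 + (K + L : ℝ≥0) := by
      rw [NNReal.coe_add, Real.coe_toNNReal _ (le_max_right _ _)]
    rw [h3]
    by_cases hx : x ∈ closedBall (0 : E d) (R + 2)
    · exact h1 x y hx
    · by_cases hy : y ∈ closedBall (0 : E d) (R + 2)
      · rw [dist_comm, dist_comm x y]
        exact h1 y x hy
      · rw [mem_closedBall_zero_iff, not_le] at hx hy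
        rw [rM5c_eta_zero hx.le, rM5c_eta_zero hy.le, zero_mul, zero_mul, dist_self]
        have h4 : (0 : ℝ) ≤ max C 0 := le_max_right _ _
        (clear * -; positivity)
  exact ⟨_, hf.add h2⟩

theorem rM5c_comp_nonneg {R : ℝ} {v f : E d → ℝ} (hv : ∀ x, 0 ≤ v x) (hf : ∀ x, 0 ≤ f x)
    (x : E d) : 0 ≤ rM5c_comp R v f x := by
  have h1 : rM5c_comp R v f x = rM5c_eta R x * v x + (1 - rM5c_eta R x) * f x := by
    rw [rM5c_comp]; ring
  rw [h1]
  have h2 := rM5c_eta_nonneg R x
  have h3 := rM5c_eta_le R x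
  exact add_nonneg (mul_nonneg h2 (hv x)) (mul_nonneg (by linarith) (hf x))

theorem rM5c_comp_far {R : ℝ} {v f : E d → ℝ} {x : E d} (hx : R + 2 < ‖x‖) :
    rM5c_comp R v f x = f x := by
  rw [rM5c_comp, rM5c_eta_zero hx.le, zero_mul, add_zero]

theorem rM5c_comp_eq {R : ℝ} {v f g : E d → ℝ} (h : ∀ x, R < ‖x‖ → v x = g x) (x : E d) :
    rM5c_comp R v f x = v x + (1 - rM5c_eta R x) * (f x - g x) := by
  by_cases hx : ‖x‖ ≤ R + 1
  · rw [rM5c_comp, rM5c_eta_one hx]; ring
  · rw [rM5c_comp, h x (by linarith)]; ring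

theorem rM5c_ind_le {R : ℝ} {v f g : E d → ℝ} (h : ∀ x, R < ‖x‖ → v x = g x)
    (hf : ∀ x, 0 ≤ f x) (hg : ∀ x, 0 ≤ g x) (x : E d) :
    {y | 0 < rM5c_comp R v f y}.indicator (fun _ => (1 : ℝ)) x -
      {y | 0 < f y}.indicator (fun _ => (1 : ℝ)) x ≤
    {y | 0 < v y}.indicator (fun _ => (1 : ℝ)) x - {y | 0 < g y}.indicator (fun _ => (1 : ℝ)) x +
      |{y | 0 < f y}.indicator (fun _ => (1 : ℝ)) x
        - {y | 0 < g y}.indicator (fun _ => (1 : ℝ)) x| := by
  by_cases hx : ‖x‖ ≤ R + 1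
  · have h1 : rM5c_comp R v f x = v x := by rw [rM5c_comp, rM5c_eta_one hx]; ring
    have h2 : {y | 0 < rM5c_comp R v f y}.indicator (fun _ => (1 : ℝ)) x =
        {y | 0 < v y}.indicator (fun _ => (1 : ℝ)) x := by
      simp only [indicator_apply, mem_ofPred_eq, h1]
    rw [h2]
    have h3 := neg_abs_le ({y | 0 < f y}.indicator (fun _ => (1 : ℝ)) x
        - {y | 0 < g y}.indicator (fun _ => (1 : ℝ)) x)
    linarith only [h3]
  · have h1 : v x = g x := h x (by linarith)
    have h2 : {y | 0 < v y}.indicator (fun _ => (1 : ℝ)) x =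
        {y | 0 < g y}.indicator (fun _ => (1 : ℝ)) x := by
      simp only [indicator_apply, mem_ofPred_eq, h1]
    rw [h2, sub_self, zero_add]
    simp only [indicator_apply, mem_ofPred_eq]
    by_cases hfx : 0 < f x
    · rw [if_pos hfx]
      have : (if 0 < rM5c_comp R v f x then (1 : ℝ) else 0) ≤ 1 := by split_ifs <;> norm_num
      have h3 := abs_nonneg ((1 : ℝ) - if 0 < g x then (1 : ℝ) else 0)
      linarith only [this, h3]
    · have hf0 : f x = 0 := le_antisymm (not_lt.1 hfx) (hf x)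
      rw [if_neg hfx]
      by_cases hgx : 0 < g x
      · rw [if_pos hgx]
        have : (if 0 < rM5c_comp R v f x then (1 : ℝ) else 0) ≤ 1 := by split_ifs <;> norm_num
        norm_num
        exact this
      · have hg0 : g x = 0 := le_antisymm (not_lt.1 hgx) (hg x)
        have h3 : ¬ 0 < rM5c_comp R v f x := by
          rw [rM5c_comp, hf0, h1, hg0]; simp
        rw [if_neg hgx, if_neg h3]
        simp

/-- The pointwise comparison. -/
theorem rM5c_pointwise {R : ℝ} {v f g : E d → ℝ} {K L : ℝ≥0} (h : ∀ x, R < ‖x‖ → v x = g x)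
    (hv : LipschitzWith K v) (hf : LipschitzWith L f) (hg : LipschitzWith L g)
    (hf0 : ∀ x, 0 ≤ f x) (hg0 : ∀ x, 0 ≤ g x) {δ : ℝ} (hδ : 0 < δ) (hδ1 : δ ≤ 1) {x : E d}
    (hfg : |f x - g x| ≤ δ) (dv : DifferentiableAt ℝ v x) (df : DifferentiableAt ℝ f x)
    (dg : DifferentiableAt ℝ g x) (de : DifferentiableAt ℝ (rM5c_eta R) x) :
    rM5c_I (rM5c_comp R v f) f x ≤ rM5c_I v g x +
      (2 * K + 4 * L + 1) * (2 * δ + ‖fderiv ℝ f x - fderiv ℝ g x‖ ^ 2 / δ) +
      |(pos f).indicator (fun _ => (1 : ℝ)) x - (pos g).indicator (fun _ => (1 : ℝ)) x| := by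
  have hfun : rM5c_comp R v f = fun x => v x + (1 - rM5c_eta R x) * (f x - g x) :=
    funext (rM5c_comp_eq h)
  have hd1 : HasFDerivAt (rM5c_comp R v f)
      (fderiv ℝ v x + ((1 - rM5c_eta R x) • (fderiv ℝ f x - fderiv ℝ g x) +
        (f x - g x) • (0 - fderiv ℝ (rM5c_eta R) x))) x := by
    rw [hfun]
    exact dv.hasFDerivAt.add
      (((hasFDerivAt_const (1 : ℝ) x).sub de.hasFDerivAt).mul (df.hasFDerivAt.sub dg.hasFDerivAt))
  have hd2 := hd1.fderiv
  set t := ‖fderiv ℝ f x - fderiv ℝ g x‖ with ht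
  have ht0 : 0 ≤ t := norm_nonneg _
  have k1 : ‖fderiv ℝ v x‖ ≤ K := norm_fderiv_le_of_lipschitz ℝ hv
  have k2 : ‖fderiv ℝ f x‖ ≤ L := norm_fderiv_le_of_lipschitz ℝ hf
  have k3 : ‖fderiv ℝ g x‖ ≤ L := norm_fderiv_le_of_lipschitz ℝ hg
  have k4 : ‖fderiv ℝ (rM5c_eta R) x‖ ≤ (1 : ℝ≥0) :=
    norm_fderiv_le_of_lipschitz ℝ (rM5c_eta_lip R)
  rw [NNReal.coe_one] at k4
  have k5 : ‖fderiv ℝ (rM5c_comp R v f) x - fderiv ℝ v x‖ ≤ t + δ := by
    rw [hd2, add_sub_cancel_left]
    refine (norm_add_le _ _).trans (add_le_add ?_ ?_)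
    · rw [norm_smul, Real.norm_eq_abs, abs_of_nonneg (by linarith only [rM5c_eta_le R x])]
      have : 1 - rM5c_eta R x ≤ 1 := by linarith only [rM5c_eta_nonneg R x]
      calc (1 - rM5c_eta R x) * t ≤ 1 * t := mul_le_mul_of_nonneg_right this ht0
        _ = t := one_mul t
    · rw [norm_smul, Real.norm_eq_abs, zero_sub, norm_neg]
      calc |f x - g x| * ‖fderiv ℝ (rM5c_eta R) x‖ ≤ δ * 1 :=
            mul_le_mul hfg k4 (norm_nonneg _) hδ.le
        _ = δ := mul_one δ
  have k6 : t ≤ 2 * L := by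
    have := norm_sub_le (fderiv ℝ f x) (fderiv ℝ g x)
    linarith only [k2, k3, this]
  have k7 : ‖fderiv ℝ (rM5c_comp R v f) x‖ ≤ K + 2 * L + 1 := by
    have e1 : fderiv ℝ (rM5c_comp R v f) x =
        fderiv ℝ v x + (fderiv ℝ (rM5c_comp R v f) x - fderiv ℝ v x) := by abel
    rw [e1]
    refine (norm_add_le _ _).trans ?_
    linarith only [hδ1, k1, k5, k6]
  have k8 : ‖fderiv ℝ (rM5c_comp R v f) x‖ ^ 2 - ‖fderiv ℝ v x‖ ^ 2 ≤
      (t + δ) * (2 * K + 2 * L + 1) := by
    have e1 : ‖fderiv ℝ (rM5c_comp R v f) x‖ - ‖fderiv ℝ v x‖ ≤ t + δ :=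
      (norm_sub_norm_le _ _).trans k5
    have e2 : 0 ≤ ‖fderiv ℝ (rM5c_comp R v f) x‖ + ‖fderiv ℝ v x‖ := by (clear * -; positivity)
    have e3 : ‖fderiv ℝ (rM5c_comp R v f) x‖ + ‖fderiv ℝ v x‖ ≤ 2 * K + 2 * L + 1 := by
      linarith only [k1, k7]
    calc ‖fderiv ℝ (rM5c_comp R v f) x‖ ^ 2 - ‖fderiv ℝ v x‖ ^ 2
        = (‖fderiv ℝ (rM5c_comp R v f) x‖ - ‖fderiv ℝ v x‖) *
          (‖fderiv ℝ (rM5c_comp R v f) x‖ + ‖fderiv ℝ v x‖) := by ring
      _ ≤ (t + δ) * (‖fderiv ℝ (rM5c_comp R v f) x‖ + ‖fderiv ℝ v x‖) :=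
          mul_le_mul_of_nonneg_right e1 e2
      _ ≤ (t + δ) * (2 * K + 2 * L + 1) := mul_le_mul_of_nonneg_left e3 (by linarith only [hδ, ht0])
  have k9 : ‖fderiv ℝ g x‖ ^ 2 - ‖fderiv ℝ f x‖ ^ 2 ≤ t * (2 * L) := by
    have e1 : ‖fderiv ℝ g x‖ - ‖fderiv ℝ f x‖ ≤ t := by
      rw [ht, norm_sub_rev]; exact norm_sub_norm_le _ _
    have e2 : 0 ≤ ‖fderiv ℝ g x‖ + ‖fderiv ℝ f x‖ := by (clear * -; positivity)
    have e3 : ‖fderiv ℝ g x‖ + ‖fderiv ℝ f x‖ ≤ 2 * L := by linarith only [k2, k3]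
    calc ‖fderiv ℝ g x‖ ^ 2 - ‖fderiv ℝ f x‖ ^ 2
        = (‖fderiv ℝ g x‖ - ‖fderiv ℝ f x‖) * (‖fderiv ℝ g x‖ + ‖fderiv ℝ f x‖) := by ring
      _ ≤ t * (‖fderiv ℝ g x‖ + ‖fderiv ℝ f x‖) := mul_le_mul_of_nonneg_right e1 e2
      _ ≤ t * (2 * L) := mul_le_mul_of_nonneg_left e3 ht0
  have k10 : t + δ ≤ 2 * δ + t ^ 2 / δ := by
    have e1 : t ≤ δ + t ^ 2 / δ := by
      rw [← sub_le_iff_le_add', le_div_iff₀ hδ]
      nlinarith only [sq_nonneg δ]
    linarith only [e1]
  have k11 : (0 : ℝ) ≤ 2 * K + 4 * L + 1 := by (clear * -; positivity)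
  have k12 := rM5c_ind_le h hf0 hg0 x
  have k13 : (t + δ) * (2 * K + 2 * L + 1) + t * (2 * L) ≤
      (2 * K + 4 * L + 1) * (2 * δ + t ^ 2 / δ) := by
    calc (t + δ) * (2 * K + 2 * L + 1) + t * (2 * L)
        ≤ (t + δ) * (2 * K + 2 * L + 1) + (t + δ) * (2 * L) := by
          have : t * (2 * (L : ℝ)) ≤ (t + δ) * (2 * L) :=
            mul_le_mul_of_nonneg_right (by linarith only [hδ]) (by (clear * -; positivity))
          linarith only [this]
      _ = (2 * K + 4 * L + 1) * (t + δ) := by ring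
      _ ≤ (2 * K + 4 * L + 1) * (2 * δ + t ^ 2 / δ) := mul_le_mul_of_nonneg_left k10 k11
  rw [rM5c_I, rM5c_I]
  change _ ≤ _ + _ + |{y | 0 < f y}.indicator (fun _ => (1 : ℝ)) x
        - {y | 0 < g y}.indicator (fun _ => (1 : ℝ)) x|
  linarith only [k13, k12, k9, k8]

theorem lim_minL (hd : 1 ≤ d) {L : ℝ≥0} {f : ℕ → E d → ℝ} {g : E d → ℝ} (hf : ∀ n, MinL L (f n))
    (hlim : ∀ x, Tendsto (fun n => f n x) atTop (𝓝 (g x))) : MinL L g := by
  obtain ⟨c, hc, hnd⟩ := nondeg d hd
  have hg : LipschitzWith L g := by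
    refine LipschitzWith.of_dist_le_mul fun x y => ?_
    exact le_of_tendsto ((hlim x).dist (hlim y))
      (Eventually.of_forall fun n => (hf n).lip.dist_le_mul x y)
  have hg0 : ∀ x, 0 ≤ g x := fun x => ge_of_tendsto' (hlim x) fun n => (hf n).nonneg x
  refine ⟨hg, hg0, ?_⟩
  rintro v ⟨K, hK⟩ hv0 hcs
  obtain ⟨R, hR0, hR⟩ : ∃ R : ℝ, 0 < R ∧ ∀ x, R < ‖x‖ → v x = g x := by
    obtain ⟨R, hR0, hR⟩ := hcs.isCompact.isBounded.subset_ball_lt 0 0
    refine ⟨R, hR0, fun x hx => ?_⟩
    have h1 : x ∉ tsupport fun x => v x - g x := fun h => by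
      have := mem_ball_zero_iff.1 (hR h)
      linarith only [hx, this]
    have h2 := image_eq_zero_of_notMem_tsupport (f := fun x => v x - g x) (x := x) h1
    exact sub_eq_zero.1 h2
  set B := ball (0 : E d) (R + 3) with hB
  have hBm : MeasurableSet B := measurableSet_ball
  have hBf : volume B ≠ ⊤ := measure_ball_lt_top.ne
  have hfar : ∀ x, x ∉ B → R + 2 < ‖x‖ := by
    intro x hx
    rw [hB, mem_ball_zero_iff, not_lt] at hx
    linarith only [hx]
  change 0 ≤ ∫ x, rM5c_I v g x
  have hI : ∫ x, rM5c_I v g x = ∫ x in B, rM5c_I v g x :=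
    (setIntegral_eq_integral_of_forall_compl_eq_zero fun x hx =>
      rM5c_eq_zero hR (by linarith only [hfar x hx])).symm
  rw [hI]
  set M : ℝ := 2 * K + 4 * L + 1 with hM
  have hM0 : 0 ≤ M := by (clear * -; positivity)
  set V : ℝ := (volume B).toReal with hV
  -- the estimate for fixed δ
  have key : ∀ δ : ℝ, 0 < δ → δ ≤ 1 → 0 ≤ (∫ x in B, rM5c_I v g x) + M * (2 * δ * V) := by
    intro δ hδ hδ1
    have hA := lim_grad hf hlim (R + 3)
    have hPn := lim_pos hf hlim hc (fun n => hnd L (f n) (hf n)) (R + 3)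
    have hu := unif_on_balls (fun n => (hf n).lip) hlim (R + 3) hδ
    have hlimit : Tendsto (fun n => (∫ x in B, rM5c_I v g x) + M * (2 * δ * V +
        (∫ x in ball (0 : E d) (R + 3), ‖fderiv ℝ (f n) x - fderiv ℝ g x‖ ^ 2) / δ) +
        ∫ x in ball (0 : E d) (R + 3), |(pos (f n)).indicator (fun _ => (1 : ℝ)) x
          - (pos g).indicator (fun _ => (1 : ℝ)) x|) atTop
        (𝓝 ((∫ x in B, rM5c_I v g x) + M * (2 * δ * V + 0 / δ) + 0)) := by
      exact (tendsto_const_nhds.add (tendsto_const_nhds.mul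
        (tendsto_const_nhds.add (hA.div_const δ)))).add hPn
    rw [zero_div, add_zero, add_zero] at hlimit
    refine ge_of_tendsto hlimit ?_
    filter_upwards [hu] with n hn
    have hfn := hf n
    obtain ⟨Mn, hMn⟩ := rM5c_comp_lip (R := R) hK hfn.lip
    have hcomp : 0 ≤ ∫ x, rM5c_I (rM5c_comp R v (f n)) (f n) x := by
      refine hfn.min _ ⟨Mn, hMn⟩ (rM5c_comp_nonneg hv0 hfn.nonneg) ?_
      refine HasCompactSupport.of_support_subset_isCompact
        (isCompact_closedBall (0 : E d) (R + 2)) fun x hx => ?_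
      rw [mem_closedBall_zero_iff]
      by_contra hx2
      rw [not_le] at hx2
      refine hx ?_
      change rM5c_comp R v (f n) x - f n x = 0
      rw [rM5c_comp_far hx2, sub_self]
    have hI2 : ∫ x, rM5c_I (rM5c_comp R v (f n)) (f n) x =
        ∫ x in B, rM5c_I (rM5c_comp R v (f n)) (f n) x :=
      (setIntegral_eq_integral_of_forall_compl_eq_zero fun x hx =>
        rM5c_eq_zero (R := R + 2) (fun y hy => rM5c_comp_far hy) (hfar x hx)).symm
    rw [hI2] at hcomp
    refine hcomp.trans ?_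
    have i1 : IntegrableOn (rM5c_I v g) B := rM5c_integrable hK hg _
    have i2 : IntegrableOn (rM5c_I (rM5c_comp R v (f n)) (f n)) B :=
      rM5c_integrable hMn hfn.lip _
    have i3 : IntegrableOn (fun x => ‖fderiv ℝ (f n) x - fderiv ℝ g x‖ ^ 2) B := by
      refine Measure.integrableOn_of_bounded (M := (2 * (L : ℝ)) ^ 2) hBf
        (((measurable_fderiv ℝ (f n)).sub (measurable_fderiv ℝ g)).norm.pow_const
          2).aestronglyMeasurable ?_
      refine Eventually.of_forall fun x => ?_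
      have e1 := norm_sub_le (fderiv ℝ (f n) x) (fderiv ℝ g x)
      have e2 : ‖fderiv ℝ (f n) x‖ ≤ L := norm_fderiv_le_of_lipschitz ℝ hfn.lip
      have e3 : ‖fderiv ℝ g x‖ ≤ L := norm_fderiv_le_of_lipschitz ℝ hg
      rw [Real.norm_eq_abs, abs_of_nonneg (sq_nonneg _)]
      exact pow_le_pow_left₀ (norm_nonneg _) (by linarith only [e1, e2, e3]) 2
    have i4 : IntegrableOn (fun x => |(pos (f n)).indicator (fun _ => (1 : ℝ)) x
          - (pos g).indicator (fun _ => (1 : ℝ)) x|) B := by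
      have m1 : Measurable ((pos (f n)).indicator fun _ => (1 : ℝ)) :=
        measurable_const.indicator (measurableSet_lt measurable_const hfn.lip.continuous.measurable)
      have m2 : Measurable ((pos g).indicator fun _ => (1 : ℝ)) :=
        measurable_const.indicator (measurableSet_lt measurable_const hg.continuous.measurable)
      refine Measure.integrableOn_of_bounded (M := 2) hBf
        (continuous_abs.measurable.comp (m1.sub m2)).aestronglyMeasurable ?_
      refine Eventually.of_forall fun x => ?_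
      have e1 := rM5c_ind_abs (pos (f n)) x
      have e2 := rM5c_ind_abs (pos g) x
      rw [Real.norm_eq_abs, abs_abs]
      exact (abs_sub _ _).trans (by linarith only [e1, e2])
    have hle : ∫ x in B, rM5c_I (rM5c_comp R v (f n)) (f n) x ≤
        ∫ x in B, (rM5c_I v g x + M * (2 * δ + ‖fderiv ℝ (f n) x - fderiv ℝ g x‖ ^ 2 / δ) +
          |(pos (f n)).indicator (fun _ => (1 : ℝ)) x
            - (pos g).indicator (fun _ => (1 : ℝ)) x|) := by
      have i5 : IntegrableOn (fun _ : E d => 2 * δ) B := integrableOn_const hBf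
      refine setIntegral_mono_ae_restrict i2
        ((i1.add ((i5.add (i3.div_const δ)).const_mul M)).add i4) ?_
      rw [EventuallyLE, ae_restrict_iff' hBm]
      filter_upwards [hK.ae_differentiableAt, hfn.lip.ae_differentiableAt,
        hg.ae_differentiableAt, (rM5c_eta_lip (d := d) R).ae_differentiableAt] with x h1 h2 h3 h4 hx
      exact rM5c_pointwise hR hK hfn.lip hg hfn.nonneg hg0 hδ hδ1
        (hn x (ball_subset_closedBall hx)) h1 h2 h3 h4
    refine hle.trans (le_of_eq ?_)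
    have i5 : IntegrableOn (fun _ : E d => 2 * δ) B := integrableOn_const hBf
    have i6 : IntegrableOn (fun x => M * (2 * δ + ‖fderiv ℝ (f n) x - fderiv ℝ g x‖ ^ 2 / δ)) B :=
      (i5.add (i3.div_const δ)).const_mul M
    have j1 : ∫ x in B, (rM5c_I v g x +
          M * (2 * δ + ‖fderiv ℝ (f n) x - fderiv ℝ g x‖ ^ 2 / δ) +
          |(pos (f n)).indicator (fun _ => (1 : ℝ)) x
            - (pos g).indicator (fun _ => (1 : ℝ)) x|) =
        (∫ x in B, (rM5c_I v g x + M * (2 * δ + ‖fderiv ℝ (f n) x - fderiv ℝ g x‖ ^ 2 / δ))) +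
        ∫ x in B, |(pos (f n)).indicator (fun _ => (1 : ℝ)) x
            - (pos g).indicator (fun _ => (1 : ℝ)) x| := integral_add (i1.add i6) i4
    have j2 : ∫ x in B, (rM5c_I v g x +
          M * (2 * δ + ‖fderiv ℝ (f n) x - fderiv ℝ g x‖ ^ 2 / δ)) =
        (∫ x in B, rM5c_I v g x) +
          ∫ x in B, M * (2 * δ + ‖fderiv ℝ (f n) x - fderiv ℝ g x‖ ^ 2 / δ) :=
      integral_add i1 i6
    have j3 : ∫ x in B, M * (2 * δ + ‖fderiv ℝ (f n) x - fderiv ℝ g x‖ ^ 2 / δ) =
        M * (2 * δ * V + (∫ x in B, ‖fderiv ℝ (f n) x - fderiv ℝ g x‖ ^ 2) / δ) := by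
      rw [integral_const_mul]
      congr 1
      have e1 : ∫ x in B, (2 * δ + ‖fderiv ℝ (f n) x - fderiv ℝ g x‖ ^ 2 / δ) =
          (∫ _ in B, 2 * δ) + ∫ x in B, ‖fderiv ℝ (f n) x - fderiv ℝ g x‖ ^ 2 / δ :=
        integral_add i5 (i3.div_const δ)
      rw [e1, integral_div, setIntegral_const, smul_eq_mul, Measure.real, mul_comm V]
    rw [j1, j2, j3]
  -- δ → 0
  refine le_of_forall_pos_le_add fun ε hε => ?_
  have hV0 : 0 ≤ V := ENNReal.toReal_nonneg
  have hD : 0 < 2 * M * V + 1 := by (clear * -; positivity)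
  have hδ0 : 0 < min 1 (ε / (2 * M * V + 1)) := lt_min one_pos (div_pos hε hD)
  have h1 := key _ hδ0 (min_le_left _ _)
  have h2 : M * (2 * min 1 (ε / (2 * M * V + 1)) * V) ≤ ε := by
    calc M * (2 * min 1 (ε / (2 * M * V + 1)) * V)
        = (2 * M * V) * min 1 (ε / (2 * M * V + 1)) := by ring
      _ ≤ (2 * M * V) * (ε / (2 * M * V + 1)) :=
          mul_le_mul_of_nonneg_left (min_le_right _ _) (by (clear * -; positivity))
      _ = ε * ((2 * M * V) / (2 * M * V + 1)) := by ring
      _ ≤ ε * 1 := by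
          refine mul_le_mul_of_nonneg_left ?_ hε.le
          rw [div_le_one hD]
          linarith only []
      _ = ε := mul_one ε
  linarith only [h1, h2]

end Vale.Agent.P098
end

section

/-!
# The condition `kappa` of the certificate for `m = 5`, part K2
-/

set_option linter.style.longLine false

namespace Vale.Agent.P098.S5.Kap

open Vale.Agent.P098.K Vale.Agent.P098.N

/-- Group A1. -/
def gK2A1 : Grp where
  comps := cK2A1.map fun c => [c]
  blks := [N.R8.bkS (.v 1) 34 [1, 1, 4, 0, 0, 0] csK2A1_00 rK2A1_00,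
    N.R8.bkS (.sub (.c 1) (.v 1)) 35 [1, 1, 4, 0, 0, 0] csK2A1_01 rK2A1_01,
    N.R8.bkS (.mul (.mul (.v 0) (.sub (.c 1) (.v 0))) (.v 1)) 32 [0, 1, 4, 0, 0, 0] csK2A1_10 rK2A1_10,
    N.R8.bkS (.mul (.mul (.v 0) (.sub (.c 1) (.v 0))) (.sub (.c 1) (.v 1))) 32 [0, 1, 4, 0, 0, 0] csK2A1_11 rK2A1_11]

/-- Group E. -/
def gK2E : Grp where
  comps := cK2E.map fun c => [c]
  blks := [N.R8.bkS (.v 1) 33 [1, 1, 2, 0, 0, 0] csK2E_00 rK2E_00,
    N.R8.bkS (.sub (.c 1) (.v 1)) 33 [1, 1, 2, 0, 0, 0] csK2E_01 rK2E_01,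
    N.R8.bkS (.mul (.mul (.v 0) (.sub (.c 1) (.v 0))) (.v 1)) 32 [0, 1, 2, 0, 0, 0] csK2E_10 rK2E_10,
    N.R8.bkS (.mul (.mul (.v 0) (.sub (.c 1) (.v 0))) (.sub (.c 1) (.v 1))) 31 [0, 1, 2, 0, 0, 0] csK2E_11 rK2E_11]

/-- Group T1. -/
def gK2T1 : Grp where
  comps := cK2T1.map fun c => [c]
  blks := [N.R8.bkS (.v 1) 34 [1, 1, 1, 0, 0, 0] csK2T1_00 rK2T1_00,
    N.R8.bkS (.sub (.c 1) (.v 1)) 34 [1, 1, 1, 0, 0, 0] csK2T1_01 rK2T1_01,
    N.R8.bkS (.mul (.mul (.v 0) (.sub (.c 1) (.v 0))) (.v 1)) 32 [0, 1, 1, 0, 0, 0] csK2T1_10 rK2T1_10,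
    N.R8.bkS (.mul (.mul (.v 0) (.sub (.c 1) (.v 0))) (.sub (.c 1) (.v 1))) 32 [0, 1, 1, 0, 0, 0] csK2T1_11 rK2T1_11]

/-- Group V. -/
def gK2V : Grp where
  comps := cK2V.map fun c => [c]
  blks := [N.R8.bkS (.v 1) 34 [1, 1, 3, 0, 0, 0] csK2V_00 rK2V_00,
    N.R8.bkS (.sub (.c 1) (.v 1)) 35 [1, 1, 3, 0, 0, 0] csK2V_01 rK2V_01,
    N.R8.bkS (.mul (.mul (.v 0) (.sub (.c 1) (.v 0))) (.v 1)) 32 [0, 1, 3, 0, 0, 0] csK2V_10 rK2V_10,
    N.R8.bkS (.mul (.mul (.v 0) (.sub (.c 1) (.v 0))) (.sub (.c 1) (.v 1))) 32 [0, 1, 3, 0, 0, 0] csK2V_11 rK2V_11]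

/-- The certificate. -/
def cdK2 : N.Cd where
  B := 2 ^ 136
  h := 2 ^ 135
  bE := 48
  grps := [gK2A1, gK2E, gK2T1, gK2V]

theorem chkK2 : cdK2.chk (N.R8.K2E 4 phi5 hKa hKb ((2 ^ 42 : ℕ) : ℤ)) ((72057594037928 : ℕ) : ℤ)
    558583277252633165824 0 0 = true := by (clear * -; decide +kernel)

theorem stdK2 : ∀ g ∈ cdK2.grps, R8.sclr g := by
  intro g hg b hb
  simp only [cdK2, List.mem_cons, List.not_mem_nil, or_false] at hg
  rcases hg with rfl | rfl | rfl | rfl <;>
  · simp only [gK2A1, gK2E, gK2T1, gK2V, List.mem_cons, List.not_mem_nil, or_false] at hb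
    rcases hb with rfl | rfl | rfl | rfl <;>
    exact ⟨_, _, _, _, _, by repeat constructor, rfl⟩

end Vale.Agent.P098.S5.Kap
end
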