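import Mathlib
import Vale.Agent.P098.Bdl.B10
import Vale.Agent.P098.Bdl.B3
import Vale.Agent.P098.Bdl.B20
import Vale.Agent.P098.Bdl.B19
import Vale.Agent.P098.Bdl.B5
import Vale.Agent.P098.Bdl.B17
import Vale.Agent.P098.Bdl.B6
import Vale.Agent.P098.Bdl.B16
import Vale.Agent.P098.Bdl.B12
import Vale.Agent.P098.Bdl.B15

set_option linter.all false

section

/-! # S1: truncation

Step 1 (chain rule): if `F : ℝ → ℝ` is `C¹` with bounded derivative, `F 0 = 0` (or the ball is
bounded, so constants are in `L²`), then `MemH1 B v g → MemH1 B (F∘v) (F'(v) g)`. Proof: let `φ` be a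
test function in the ball `B`; on a slightly smaller ball containing `tsupport φ`, mollifications
`v_ε → v`, `∇v_ε = g_ε → g` in `L²`; `∫ F(v_ε) ∂_e φ = -∫ F'(v_ε)⟪g_ε,e⟫ φ`; pass to the limit along
a subsequence with `v_ε → v` a.e. (`F` Lipschitz; `F'(v_ε) → F'(v)` boundedly a.e.,
`g_ε → g` in `L²`). Step 2: `F_ε(t) = √(t²+ε²) - ε` for `t > 0`, `0` for `t ≤ 0` (`C¹`,
`|F_ε'| ≤ 1`), `F_ε(v) → max v 0`, `F_ε'(v) → 1_{v>0}` pointwise, dominated convergence. -/

open MeasureTheory Set Metric Filter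
open scoped ContDiff RealInnerProductSpace Topology NNReal

namespace Vale.Agent.P098

variable {d : ℕ}

/-- Cauchy-Schwarz with a bound for the first factor. -/
theorem rS1_cs_le {X : Type*} [MeasurableSpace X] {μ : Measure X} {f g : X → ℝ} (hf : MemLp f 2 μ)
    (hg : MemLp g 2 μ) {τ : ℝ} (hτ : 0 ≤ τ) (h : ∫ x, f x ^ 2 ∂μ ≤ τ ^ 2) :
    ∫ x, |f x| * |g x| ∂μ ≤ τ * √(∫ x, g x ^ 2 ∂μ) := by
  refine (rS1_cs hf hg).trans ?_
  gcongr
  calc √(∫ x, f x ^ 2 ∂μ) ≤ √(τ ^ 2) := Real.sqrt_le_sqrt h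
    _ = τ := Real.sqrt_sq hτ

/-- The chain rule for a `C^{1,1}` function. -/
theorem rS1_chain {x₀ : E d} {R : ℝ} {v : E d → ℝ} {g : E d → E d} (h : MemH1 (ball x₀ R) v g)
    {F F' : ℝ → ℝ} {M : ℝ} (hF : ∀ t, HasDerivAt F (F' t) t) (hF1 : ∀ t, |F' t| ≤ 1)
    (hM : ∀ s t, |F' s - F' t| ≤ M * |s - t|) :
    IsWeakGrad (ball x₀ R) (fun x => F (v x)) (fun x => F' (v x) • g x) := by
  intro φ hφ hc hs e
  set K := tsupport φ with hK
  have hKc : IsCompact K := hc
  have hM0 : 0 ≤ M := by
    have := hM 1 0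
    have h2 := abs_nonneg (F' 1 - F' 0)
    simp only [sub_zero, abs_one, mul_one] at this
    linarith only [h2, this]
  have hfin : IsFiniteMeasure ((volume : Measure (E d)).restrict K) :=
    ⟨by rw [Measure.restrict_apply_univ]; exact hKc.measure_lt_top⟩
  have hFlip : ∀ s t, |F s - F t| ≤ |s - t| := by
    intro s t
    have := Convex.norm_image_sub_le_of_norm_hasDerivWithin_le (f := F) (f' := F') (s := univ)
      (x := t) (y := s) (C := 1) (fun x _ => (hF x).hasDerivWithinAt)
      (fun x _ => hF1 x) convex_univ (mem_univ _) (mem_univ _)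
    simpa only [ge_iff_le, Real.norm_eq_abs, one_mul] using this
  have hFc : Continuous F := continuous_iff_continuousAt.2 fun t => (hF t).continuousAt
  have hF'c : Continuous F' := by
    have : LipschitzWith (Real.toNNReal M) F' := by
      apply LipschitzWith.of_dist_le_mul
      intro s t
      rw [Real.dist_eq, Real.dist_eq, Real.coe_toNNReal _ hM0]
      exact hM s t
    exact this.continuous
  have hv : MemLp v 2 (volume.restrict K) := h.1.mono_measure (Measure.restrict_mono hs le_rfl)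
  have hg : MemLp g 2 (volume.restrict K) := h.2.1.mono_measure (Measure.restrict_mono hs le_rfl)
  have hge : MemLp (fun x => ⟪g x, e⟫) 2 (volume.restrict K) := by
    refine (hg.norm.mul_const ‖e‖).of_le ?_ (Eventually.of_forall fun x => ?_)
    · exact hg.1.inner aestronglyMeasurable_const
    · rw [Real.norm_eq_abs, norm_mul, norm_norm, norm_norm]
      exact abs_real_inner_le_norm _ _
  have hFv : MemLp (fun x => F (v x)) 2 (volume.restrict K) := by
    refine ((memLp_const |F 0|).add hv.abs).of_le (hFc.comp_aestronglyMeasurable hv.1)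
      (Eventually.of_forall fun x => ?_)
    rw [Pi.add_apply, Real.norm_eq_abs, Real.norm_eq_abs]
    have h1 := hFlip (v x) 0
    rw [sub_zero] at h1
    calc |F (v x)| = |F 0 + (F (v x) - F 0)| := by ring_nf
      _ ≤ |F 0| + |F (v x) - F 0| := abs_add_le _ _
      _ ≤ |F 0| + |v x| := by linarith only [h1]
      _ ≤ |(|F 0| + |v x|)| := le_abs_self _
  have hF'g : MemLp (fun x => F' (v x) * ⟪g x, e⟫) 2 (volume.restrict K) := by
    refine hge.of_le ((hF'c.comp_aestronglyMeasurable hv.1).mul hge.1)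
      (Eventually.of_forall fun x => ?_)
    rw [norm_mul, Real.norm_eq_abs]
    calc |F' (v x)| * ‖⟪g x, e⟫‖ ≤ 1 * ‖⟪g x, e⟫‖ := by gcongr; exact hF1 _
      _ = _ := one_mul _
  have hdφc : Continuous (fun x => fderiv ℝ φ x e) :=
    (hφ.continuous_fderiv (by norm_num)).clm_apply continuous_const
  have hdφs : HasCompactSupport (fun x => fderiv ℝ φ x e) := hc.fderiv_apply ℝ e
  have hdφ : MemLp (fun x => fderiv ℝ φ x e) 2 (volume.restrict K) :=
    (hdφc.memLp_of_hasCompactSupport hdφs).restrict K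
  have hφL : MemLp φ 2 (volume.restrict K) :=
    (hφ.continuous.memLp_of_hasCompactSupport hc).restrict K
  have hφb : ∃ C, ∀ x, ‖φ x‖ ≤ C := hc.exists_bound_of_continuous hφ.continuous
  obtain ⟨C, hC⟩ := hφb
  have hgφ : MemLp (fun x => M * (⟪g x, e⟫ * φ x)) 2 (volume.restrict K) := by
    refine MemLp.const_mul ?_ M
    refine (hge.norm.mul_const C).of_le (hge.1.mul hφL.1) (Eventually.of_forall fun x => ?_)
    rw [norm_mul, norm_mul, norm_norm]
    gcongr
    exact (hC x).trans (le_abs_self _)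
  have heφ : MemLp (fun x => ‖e‖ * φ x) 2 (volume.restrict K) := hφL.const_mul _
  have hI1 : Integrable (fun x => F (v x) * fderiv ℝ φ x e) (volume.restrict K) :=
    rS1_integrable_mul hFv hdφ
  have hI2 : Integrable (fun x => F' (v x) * ⟪g x, e⟫ * φ x) (volume.restrict K) :=
    rS1_integrable_mul hF'g hφL
  have hA : ∫ x in ball x₀ R, F (v x) * fderiv ℝ φ x e = ∫ x in K, F (v x) * fderiv ℝ φ x e := by
    refine setIntegral_eq_of_subset_of_forall_sdiff_eq_zero measurableSet_ball hs fun x hx => ?_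
    rw [fderiv_of_notMem_tsupport ℝ hx.2]
    simp
  have hB : ∫ x in ball x₀ R, ⟪F' (v x) • g x, e⟫ * φ x
      = ∫ x in K, F' (v x) * ⟪g x, e⟫ * φ x := by
    have : ∀ x, ⟪F' (v x) • g x, e⟫ * φ x = F' (v x) * ⟪g x, e⟫ * φ x := fun x => by
      rw [real_inner_smul_left]
    simp_rw [this]
    refine setIntegral_eq_of_subset_of_forall_sdiff_eq_zero measurableSet_ball hs fun x hx => ?_
    rw [image_eq_zero_of_notMem_tsupport hx.2, mul_zero]
  rw [hA, hB]
  set C1 := √(∫ x in K, (fderiv ℝ φ x e) ^ 2) with hC1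
  set C2 := √(∫ x in K, (M * (⟪g x, e⟫ * φ x)) ^ 2) with hC2
  set C3 := √(∫ x in K, (‖e‖ * φ x) ^ 2) with hC3
  have key : ∀ τ : ℝ, 0 < τ → |(∫ x in K, F (v x) * fderiv ℝ φ x e)
      + ∫ x in K, F' (v x) * ⟪g x, e⟫ * φ x| ≤ (C1 + C2 + C3) * τ := by
    intro τ hτ
    obtain ⟨ψ, hψ, hψ1, hψ2, hψ3, hψ4⟩ := rS1_approx h hKc hs hτ
    have hψd : Differentiable ℝ ψ := hψ.differentiable (by norm_num)
    have hFψ : ∀ x, HasFDerivAt (fun x => F (ψ x)) (F' (ψ x) • fderiv ℝ ψ x) x := fun x =>
      (hF (ψ x)).comp_hasFDerivAt x (hψd x).hasFDerivAt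
    have hJ1 : Integrable (fun x => F (ψ x) * fderiv ℝ φ x e) :=
      ((hFc.comp hψ.continuous).mul hdφc).integrable_of_hasCompactSupport hdφs.mul_left
    have hdψc : Continuous (fun x => fderiv ℝ ψ x e) :=
      (hψ.continuous_fderiv (by norm_num)).clm_apply continuous_const
    have hJ2 : Integrable (fun x => F' (ψ x) * fderiv ℝ ψ x e * φ x) :=
      (((hF'c.comp hψ.continuous).mul hdψc).mul hφ.continuous).integrable_of_hasCompactSupport
        hc.mul_left
    have hJ3 : Integrable (fun x => F (ψ x) * φ x) :=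
      ((hFc.comp hψ.continuous).mul hφ.continuous).integrable_of_hasCompactSupport hc.mul_left
    have hfd : ∀ x, fderiv ℝ (fun x => F (ψ x)) x e = F' (ψ x) * fderiv ℝ ψ x e := fun x => by
      rw [(hFψ x).fderiv]; rfl
    have hibp := integral_mul_fderiv_eq_neg_fderiv_mul_of_integrable (μ := (volume : Measure (E d)))
      (f := fun x => F (ψ x)) (g := φ) (v := e) (by simp_rw [hfd]; exact hJ2) hJ1 hJ3
      (fun x _ => (hFψ x).differentiableAt) (fun x _ => hφ.differentiable (by norm_num) x)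
    simp_rw [hfd] at hibp
    have hibp1 : ∫ x in K, F (ψ x) * fderiv ℝ φ x e = ∫ x, F (ψ x) * fderiv ℝ φ x e := by
      refine setIntegral_eq_integral_of_forall_compl_eq_zero fun x hx => ?_
      rw [fderiv_of_notMem_tsupport ℝ hx]
      simp
    have hibp2 : ∫ x in K, F' (ψ x) * fderiv ℝ ψ x e * φ x
        = ∫ x, F' (ψ x) * fderiv ℝ ψ x e * φ x := by
      refine setIntegral_eq_integral_of_forall_compl_eq_zero fun x hx => ?_
      rw [image_eq_zero_of_notMem_tsupport hx, mul_zero]
    have hz : (∫ x in K, F (ψ x) * fderiv ℝ φ x e)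
        + ∫ x in K, F' (ψ x) * fderiv ℝ ψ x e * φ x = 0 := by
      rw [hibp1, hibp2, hibp]; ring
    have hD : (∫ x in K, F (v x) * fderiv ℝ φ x e) + ∫ x in K, F' (v x) * ⟪g x, e⟫ * φ x
        = ∫ x in K, ((F (v x) * fderiv ℝ φ x e + F' (v x) * ⟪g x, e⟫ * φ x)
          - (F (ψ x) * fderiv ℝ φ x e + F' (ψ x) * fderiv ℝ ψ x e * φ x)) := by
      have hI12 : Integrable (fun x => F (v x) * fderiv ℝ φ x e + F' (v x) * ⟪g x, e⟫ * φ x)
        (volume.restrict K) := hI1.add hI2
      have hJ12 : Integrable (fun x => F (ψ x) * fderiv ℝ φ x e +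
        F' (ψ x) * fderiv ℝ ψ x e * φ x) (volume.restrict K) :=
        (hJ1.integrableOn (s := K)).add (hJ2.integrableOn (s := K))
      rw [integral_sub hI12 hJ12,
        integral_add hI1 hI2, integral_add hJ1.integrableOn hJ2.integrableOn, hz, sub_zero]
    have hn : MemLp (fun x => ‖fderiv ℝ ψ x - InnerProductSpace.toDual ℝ (E d) (g x)‖) 2
        (volume.restrict K) := hψ2.norm
    have hψ4' : ∫ x in K, ‖fderiv ℝ ψ x - InnerProductSpace.toDual ℝ (E d) (g x)‖ ^ 2 ≤ τ ^ 2 :=
      hψ4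
    have b1 := rS1_cs_le hψ1 hdφ hτ.le hψ3
    have b2 := rS1_cs_le hψ1 hgφ hτ.le hψ3
    have b3 := rS1_cs_le hn heφ hτ.le hψ4'
    have i1 : Integrable (fun x => |ψ x - v x| * |fderiv ℝ φ x e|) (volume.restrict K) :=
      rS1_integrable_mul hψ1.abs hdφ.abs
    have i2 : Integrable (fun x => |ψ x - v x| * |M * (⟪g x, e⟫ * φ x)|) (volume.restrict K) :=
      rS1_integrable_mul hψ1.abs hgφ.abs
    have i3 : Integrable (fun x => |‖fderiv ℝ ψ x - InnerProductSpace.toDual ℝ (E d) (g x)‖| *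
        |‖e‖ * φ x|) (volume.restrict K) := rS1_integrable_mul hn.abs heφ.abs
    rw [hD]
    have hbound := norm_integral_le_of_norm_le ((i1.add i2).add i3)
      (f := fun x => (F (v x) * fderiv ℝ φ x e + F' (v x) * ⟪g x, e⟫ * φ x)
          - (F (ψ x) * fderiv ℝ φ x e + F' (ψ x) * fderiv ℝ ψ x e * φ x))
      (Eventually.of_forall fun x => ?_)
    · rw [Real.norm_eq_abs] at hbound
      refine hbound.trans ?_
      simp only [Pi.add_apply]
      have i12 : Integrable (fun x => |ψ x - v x| * |fderiv ℝ φ x e| +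
        |ψ x - v x| * |M * (⟪g x, e⟫ * φ x)|) (volume.restrict K) := i1.add i2
      rw [integral_add i12 i3, integral_add i1 i2]
      linarith only [b1, b2, b3]
    · simp only [Pi.add_apply]
      have e1 : F (v x) * fderiv ℝ φ x e + F' (v x) * ⟪g x, e⟫ * φ x
          - (F (ψ x) * fderiv ℝ φ x e + F' (ψ x) * fderiv ℝ ψ x e * φ x)
          = (F (v x) - F (ψ x)) * fderiv ℝ φ x e + (F' (v x) - F' (ψ x)) * (⟪g x, e⟫ * φ x)
            + F' (ψ x) * ((⟪g x, e⟫ - fderiv ℝ ψ x e) * φ x) := by ring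
      have e2 : |⟪g x, e⟫ - fderiv ℝ ψ x e| ≤
          ‖fderiv ℝ ψ x - InnerProductSpace.toDual ℝ (E d) (g x)‖ * ‖e‖ := by
        have := (fderiv ℝ ψ x - InnerProductSpace.toDual ℝ (E d) (g x)).le_opNorm e
        rw [ContinuousLinearMap.sub_apply, InnerProductSpace.toDual_apply_apply,
          Real.norm_eq_abs, abs_sub_comm] at this
        exact this
      rw [e1, Real.norm_eq_abs]
      refine (abs_add_le _ _).trans (add_le_add ((abs_add_le _ _).trans (add_le_add ?_ ?_)) ?_)
      · rw [abs_mul]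
        refine mul_le_mul_of_nonneg_right ?_ (abs_nonneg _)
        rw [abs_sub_comm (ψ x)]
        exact hFlip _ _
      · rw [abs_mul, abs_mul M, abs_of_nonneg hM0, abs_sub_comm (ψ x)]
        calc |F' (v x) - F' (ψ x)| * |⟪g x, e⟫ * φ x|
            ≤ (M * |v x - ψ x|) * |⟪g x, e⟫ * φ x| := by gcongr; exact hM _ _
          _ = _ := by ring
      · rw [abs_mul, abs_mul, abs_norm, abs_mul, abs_norm]
        calc |F' (ψ x)| * (|⟪g x, e⟫ - fderiv ℝ ψ x e| * |φ x|)
            ≤ 1 * ((‖fderiv ℝ ψ x - InnerProductSpace.toDual ℝ (E d) (g x)‖ * ‖e‖) * |φ x|) := by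
              gcongr
              exact hF1 _
          _ = _ := by ring
  have hzero : (∫ x in K, F (v x) * fderiv ℝ φ x e)
      + ∫ x in K, F' (v x) * ⟪g x, e⟫ * φ x = 0 := by
    by_contra hne
    have hpos := abs_pos.2 hne
    have hC0 : 0 ≤ C1 + C2 + C3 := by (clear * -; (clear * -; positivity))
    have := key (|(∫ x in K, F (v x) * fderiv ℝ φ x e)
      + ∫ x in K, F' (v x) * ⟪g x, e⟫ * φ x| / (C1 + C2 + C3 + 1)) (by (clear * - hne; (clear * - hne; positivity)))
    have h2 : (C1 + C2 + C3) * (|(∫ x in K, F (v x) * fderiv ℝ φ x e)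
      + ∫ x in K, F' (v x) * ⟪g x, e⟫ * φ x| / (C1 + C2 + C3 + 1)) < |(∫ x in K, F (v x) *
        fderiv ℝ φ x e) + ∫ x in K, F' (v x) * ⟪g x, e⟫ * φ x| := by
      rw [← mul_div_assoc, div_lt_iff₀ (by (clear * -; positivity))]
      linarith only [hpos]
    linarith only [this, h2]
  linarith only [hzero]

theorem rS1_hasDerivAt_sq (t : ℝ) : HasDerivAt (fun t : ℝ => (max t 0) ^ 2) (2 * max t 0) t := by
  rcases lt_trichotomy t 0 with h | h | h
  · rw [max_eq_right h.le, mul_zero]
    refine (hasDerivAt_const t (0 : ℝ)).congr_of_eventuallyEq ?_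
    filter_upwards [Iio_mem_nhds h] with s hs
    rw [max_eq_right (le_of_lt hs)]
    norm_num
  · subst h
    rw [max_self, mul_zero]
    have h1 : (fun t : ℝ => (max t 0) ^ 2) =O[𝓝 0] fun x => ‖x - 0‖ ^ 2 := by
      refine Asymptotics.IsBigO.of_bound 1 (Eventually.of_forall fun x => ?_)
      rw [sub_zero, one_mul, norm_pow, norm_pow, norm_norm]
      gcongr
      rw [Real.norm_eq_abs, Real.norm_eq_abs, abs_of_nonneg (le_max_right _ _)]
      exact max_le (le_abs_self _) (abs_nonneg _)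
    have h2 := h1.hasFDerivAt (𝕜 := ℝ) (by norm_num)
    simpa only [zero_apply] using h2.hasDerivAt
  · rw [max_eq_left h.le]
    have h1 : HasDerivAt (fun t : ℝ => t ^ 2) (2 * t) t := by
      simpa only [Nat.cast_ofNat, Nat.add_one_sub_one, pow_one] using hasDerivAt_pow 2 t
    refine h1.congr_of_eventuallyEq ?_
    filter_upwards [Ioi_mem_nhds h] with s hs
    rw [max_eq_left (le_of_lt hs)]

theorem rS1_max_sub {a t : ℝ} (ha : 0 ≤ a) :
    0 ≤ max t 0 - max (t - a) 0 ∧ max t 0 - max (t - a) 0 ≤ a := by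
  constructor
  · have : max (t - a) 0 ≤ max t 0 := max_le_max (by linarith only [ha]) le_rfl
    linarith only [this]
  · have : max t 0 ≤ max (t - a) 0 + a := by
      refine max_le ?_ ?_
      · linarith only [le_max_left (t - a) 0]
      · linarith only [ha, le_max_right (t - a) 0]
    linarith only [this]

theorem rS1_approx_pos {N : ℝ} (hN : 0 < N) (t : ℝ) :
    |N / 2 * ((max t 0) ^ 2 - (max (t - 1 / N) 0) ^ 2) - max t 0| ≤ 1 / N := by
  have hN1 : 0 < 1 / N := by positivity
  have hNN : N * (1 / N) = 1 := by (clear * - hN; field_simp)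
  rcases le_total t 0 with h | h
  · rw [max_eq_right h, max_eq_right (by linarith only [hN1, h])]
    simpa only [ne_eq, OfNat.ofNat_ne_zero, not_false_eq_true, zero_pow, sub_self, mul_zero, abs_zero, one_div,     inv_nonneg, ge_iff_le] using hN.le
  · rw [max_eq_left h]
    rcases le_total t (1 / N) with h1 | h1
    · rw [max_eq_right (by linarith only [h1])]
      have h2 : N * t ≤ 1 := by
        calc N * t ≤ N * (1 / N) := by gcongr
          _ = 1 := hNN
      rw [abs_le]
      constructor <;> nlinarith only [h1, hN, hNN, hN1, h]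
    · rw [max_eq_left (by linarith only [h1])]
      have : N / 2 * (t ^ 2 - (t - 1 / N) ^ 2) - t = - (1 / N / 2) := by
        field_simp
        ring
      rw [this, abs_neg, abs_of_nonneg (by positivity)]
      linarith only [hN1]

theorem MemH1.posPart {x₀ : E d} {r : ℝ} {v : E d → ℝ} {g : E d → E d}
    (h : MemH1 (ball x₀ r) v g) :
    MemH1 (ball x₀ r) (fun x => max (v x) 0)
      (fun x => ({y | 0 < v y} : Set (E d)).indicator g x) := by
  have hfin : IsFiniteMeasure ((volume : Measure (E d)).restrict (ball x₀ r)) :=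
    ⟨by rw [Measure.restrict_apply_univ]; exact measure_ball_lt_top⟩
  have hnull : NullMeasurableSet {y | 0 < v y} (volume.restrict (ball x₀ r)) :=
    nullMeasurableSet_lt aemeasurable_const h.1.1.aemeasurable
  have hind : AEStronglyMeasurable (fun x => ({y | 0 < v y} : Set (E d)).indicator g x)
      (volume.restrict (ball x₀ r)) := h.2.1.1.indicator₀ hnull
  refine ⟨h.1.pos_part,
    h.2.1.of_le hind (Eventually.of_forall fun x => norm_indicator_le_norm_self _ _), ?_⟩
  intro φ hφ hc hs e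
  have hdφc : Continuous (fun x => fderiv ℝ φ x e) :=
    (hφ.continuous_fderiv (by norm_num)).clm_apply continuous_const
  have hdφs : HasCompactSupport (fun x => fderiv ℝ φ x e) := hc.fderiv_apply ℝ e
  have hdφ : MemLp (fun x => fderiv ℝ φ x e) 2 (volume.restrict (ball x₀ r)) :=
    (hdφc.memLp_of_hasCompactSupport hdφs).restrict _
  have hφL : MemLp φ 2 (volume.restrict (ball x₀ r)) :=
    (hφ.continuous.memLp_of_hasCompactSupport hc).restrict _
  have hge : MemLp (fun x => ⟪g x, e⟫) 2 (volume.restrict (ball x₀ r)) := by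
    refine (h.2.1.norm.mul_const ‖e‖).of_le ?_ (Eventually.of_forall fun x => ?_)
    · exact h.2.1.1.inner aestronglyMeasurable_const
    · rw [Real.norm_eq_abs, norm_mul, norm_norm, norm_norm]
      exact abs_real_inner_le_norm _ _
  -- the approximations
  set F : ℕ → ℝ → ℝ := fun n t => ((n : ℝ) + 1) / 2 *
    ((max t 0) ^ 2 - (max (t - 1 / ((n : ℝ) + 1)) 0) ^ 2) with hF
  set F' : ℕ → ℝ → ℝ := fun n t => ((n : ℝ) + 1) *
    (max t 0 - max (t - 1 / ((n : ℝ) + 1)) 0) with hF'
  have hN : ∀ n : ℕ, 0 < (n : ℝ) + 1 := fun n => by positivity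
  have hder : ∀ n t, HasDerivAt (F n) (F' n t) t := by
    intro n t
    have h1 := rS1_hasDerivAt_sq t
    have h2 := (rS1_hasDerivAt_sq (t - 1 / ((n : ℝ) + 1))).comp_sub_const t (1 / ((n : ℝ) + 1))
    have h3 := (h1.sub h2).const_mul (((n : ℝ) + 1) / 2)
    refine h3.congr_deriv ?_
    simp only [hF']
    ring
  have hb : ∀ n t, |F' n t| ≤ 1 := by
    intro n t
    obtain ⟨h1, h2⟩ := rS1_max_sub (a := 1 / ((n : ℝ) + 1)) (t := t) (by (clear * -; positivity))
    simp only [hF']
    rw [abs_of_nonneg (mul_nonneg (hN n).le h1)]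
    calc ((n : ℝ) + 1) * (max t 0 - max (t - 1 / ((n : ℝ) + 1)) 0)
        ≤ ((n : ℝ) + 1) * (1 / ((n : ℝ) + 1)) := by (clear * - h2; gcongr)
      _ = 1 := by have := hN n; (clear * -; field_simp)
  have hLip : ∀ n s t, |F' n s - F' n t| ≤ (2 * ((n : ℝ) + 1)) * |s - t| := by
    intro n s t
    simp only [hF']
    have h1 := abs_max_sub_max_le_abs s t 0
    have h2 := abs_max_sub_max_le_abs (s - 1 / ((n : ℝ) + 1)) (t - 1 / ((n : ℝ) + 1)) 0
    rw [sub_sub_sub_cancel_right] at h2
    rw [← mul_sub, abs_mul, abs_of_nonneg (hN n).le]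
    have h3 : |max s 0 - max (s - 1 / ((n : ℝ) + 1)) 0 -
        (max t 0 - max (t - 1 / ((n : ℝ) + 1)) 0)| ≤ 2 * |s - t| := by
      calc _ = |(max s 0 - max t 0) - (max (s - 1 / ((n : ℝ) + 1)) 0 -
            max (t - 1 / ((n : ℝ) + 1)) 0)| := by ring_nf
        _ ≤ |max s 0 - max t 0| + |max (s - 1 / ((n : ℝ) + 1)) 0 -
            max (t - 1 / ((n : ℝ) + 1)) 0| := abs_sub _ _
        _ ≤ _ := by linarith only [h1, h2]
    calc _ ≤ ((n : ℝ) + 1) * (2 * |s - t|) := by (clear * - h3; gcongr)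
      _ = _ := by ring
  have hident : ∀ n, ∫ x in ball x₀ r, F n (v x) * fderiv ℝ φ x e
      = - ∫ x in ball x₀ r, ⟪F' n (v x) • g x, e⟫ * φ x := fun n =>
    rS1_chain h (hder n) (hb n) (hLip n) φ hφ hc hs e
  -- limits
  have hFc : ∀ n, Continuous (F n) := fun n =>
    continuous_iff_continuousAt.2 fun t => (hder n t).continuousAt
  have hF'c : ∀ n, Continuous (F' n) := fun n => by
    simp only [hF']
    fun_prop
  have hinv : ∀ n : ℕ, 1 / ((n : ℝ) + 1) ≤ 1 := fun n => by
    rw [div_le_one (hN n)]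
    have : (0 : ℝ) ≤ n := n.cast_nonneg
    linarith only []
  have lim1 : Tendsto (fun n => ∫ x in ball x₀ r, F n (v x) * fderiv ℝ φ x e) atTop
      (𝓝 (∫ x in ball x₀ r, max (v x) 0 * fderiv ℝ φ x e)) := by
    refine tendsto_integral_of_dominated_convergence
      (fun x => (|v x| + 1) * |fderiv ℝ φ x e|) (fun n => ?_) ?_ (fun n => ?_) ?_
    · exact ((hFc n).comp_aestronglyMeasurable h.1.1).mul hdφ.1
    · exact rS1_integrable_mul (h.1.abs.add (memLp_const 1)) hdφ.abs
    · refine Eventually.of_forall fun x => ?_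
      rw [norm_mul, Real.norm_eq_abs, Real.norm_eq_abs]
      gcongr
      have h1 := rS1_approx_pos (hN n) (v x)
      calc |F n (v x)| = |(F n (v x) - max (v x) 0) + max (v x) 0| := by ring_nf
        _ ≤ |F n (v x) - max (v x) 0| + |max (v x) 0| := abs_add_le _ _
        _ ≤ 1 + |v x| := by
            refine add_le_add (h1.trans (hinv n)) ?_
            rw [abs_of_nonneg (le_max_right _ _)]
            exact max_le (le_abs_self _) (abs_nonneg _)
        _ = |v x| + 1 := add_comm _ _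
    · refine Eventually.of_forall fun x => ?_
      refine Tendsto.mul_const _ ?_
      rw [tendsto_iff_dist_tendsto_zero]
      refine squeeze_zero (fun n => dist_nonneg) (fun n => ?_) tendsto_one_div_add_atTop_nhds_zero_nat
      rw [Real.dist_eq]
      exact rS1_approx_pos (hN n) (v x)
  have lim2 : Tendsto (fun n => ∫ x in ball x₀ r, ⟪F' n (v x) • g x, e⟫ * φ x) atTop
      (𝓝 (∫ x in ball x₀ r, ⟪({y | 0 < v y} : Set (E d)).indicator g x, e⟫ * φ x)) := by
    refine tendsto_integral_of_dominated_convergence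
      (fun x => |⟪g x, e⟫| * |φ x|) (fun n => ?_) ?_ (fun n => ?_) ?_
    · exact ((((hF'c n).comp_aestronglyMeasurable h.1.1).smul h.2.1.1).inner
        aestronglyMeasurable_const).mul hφL.1
    · exact rS1_integrable_mul hge.abs hφL.abs
    · refine Eventually.of_forall fun x => ?_
      rw [norm_mul, Real.norm_eq_abs, Real.norm_eq_abs, real_inner_smul_left, abs_mul]
      calc |F' n (v x)| * |⟪g x, e⟫| * |φ x| ≤ 1 * |⟪g x, e⟫| * |φ x| := by
            gcongr
            exact hb n _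
        _ = _ := by ring
    · refine Eventually.of_forall fun x => ?_
      refine Tendsto.mul_const _ ?_
      by_cases hx : 0 < v x
      · rw [indicator_of_mem (show x ∈ {y | 0 < v y} from hx)]
        refine tendsto_const_nhds.congr' ?_
        obtain ⟨n₀, hn₀⟩ := exists_nat_one_div_lt hx
        filter_upwards [eventually_ge_atTop n₀] with n hn
        have h1 : 1 / ((n : ℝ) + 1) ≤ v x := by
          refine le_trans ?_ hn₀.le
          have : (n₀ : ℝ) ≤ n := by exact_mod_cast hn
          (clear * - this; gcongr)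
        have h2 : F' n (v x) = 1 := by
          simp only [hF']
          rw [max_eq_left hx.le, max_eq_left (by linarith only [h1])]
          have := hN n
          field_simp
          ring
        rw [h2, one_smul]
      · rw [indicator_of_notMem (show x ∉ {y | 0 < v y} from hx)]
        refine tendsto_const_nhds.congr fun n => ?_
        have h2 : F' n (v x) = 0 := by
          have : 0 < 1 / ((n : ℝ) + 1) := by have := hN n; (clear * -; positivity)
          simp only [hF']
          rw [max_eq_right (not_lt.1 hx), max_eq_right (by linarith only [hx, this])]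
          ring
        rw [h2, zero_smul]
  simp_rw [hident] at lim1
  exact tendsto_nhds_unique lim1 lim2.neg

end Vale.Agent.P098
end

section

/-! # S4: minimizers are close to harmonic functions on every ball

Let `u, g` be as in `IsGlobalMinimizer`, `w, p` from `exists_replacement` on `ball x₀ r` for `g`, and
`v = max (u - w) 0` with gradient `1_{u-w>0}(g - p)`; `MemH1 (ball x₀ (2r)) v _` by `memH10_extend`
and `MemH1.posPart`; `v = u` off `ball x₀ r` (as `u ≥ 0`; the gradients agree a.e. there: on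
`{u = 0}` the weak gradient of `u = max u 0` is `0` a.e. by `MemH1.posPart` and uniqueness of weak
gradients), and `v - u ∈ H¹₀(ball x₀ (2r))` by `memH10_of_support` (after changing the gradient on a
null set). Minimality on `ball x₀ (2r)`:
`∫_{B_r} |g|² + χ_{u>0} ≤ ∫_{B_r} |g-p|² + 1`, hence
`∫_{B_r}|p|² = ∫|g|² - |g-p|² ≤ vol(B_r)` by orthogonality. So `∫ w² ≤ 4r² vol(B_r) ≤ C r^{d+2}`.
`u - w` satisfies `∫ (u-w)Δφ = -∫⟪g-p,∇φ⟫ = 0`; `weyl` gives `h` harmonic with `u - w = h` a.e. -/

open MeasureTheory Set Metric Filter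
open scoped ContDiff RealInnerProductSpace Topology NNReal

namespace Vale.Agent.P098

variable {d : ℕ}

theorem rS4_int {x₀ : E d} {r : ℝ} {v : E d → ℝ} (hv : MemLp v 2 (volume.restrict (ball x₀ r)))
    {f : E d → ℝ} (hf : Continuous f) (hfc : HasCompactSupport f) :
    Integrable (fun x => v x * f x) (volume.restrict (ball x₀ r)) := by
  have hfin : IsFiniteMeasure (volume.restrict (ball x₀ r)) := ⟨by simpa only [MeasurableSet.univ, Measure.restrict_apply, univ_inter] using measure_ball_lt_top⟩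
  obtain ⟨C, hC⟩ := hfc.exists_bound_of_continuous hf
  exact (hv.integrable (by norm_num)).mul_bdd hf.aestronglyMeasurable
    (by filter_upwards with x using hC x)

theorem rS4_sub {x₀ : E d} {r : ℝ} {v w : E d → ℝ} {g p : E d → E d}
    (hv : MemH1 (ball x₀ r) v g) (hw : MemH1 (ball x₀ r) w p) :
    MemH1 (ball x₀ r) (fun x => v x - w x) (fun x => g x - p x) := by
  refine ⟨hv.1.sub hw.1, hv.2.1.sub hw.2.1, ?_⟩
  intro φ hφ hφc hφB e
  have hc1 : Continuous (fun x => fderiv ℝ φ x e) :=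
    (hφ.continuous_fderiv (by simp)).clm_apply continuous_const
  have hc2 : HasCompactSupport (fun x => fderiv ℝ φ x e) := by
    refine (hφc.fderiv (𝕜 := ℝ)).comp_left (g := fun L : E d →L[ℝ] ℝ => L e) ?_
    simp
  have i1 := rS4_int hv.1 hc1 hc2
  have i2 := rS4_int hw.1 hc1 hc2
  have i3 := rS4_int (hv.2.1.inner_const (𝕜 := ℝ) e) hφ.continuous hφc
  have i4 := rS4_int (hw.2.1.inner_const (𝕜 := ℝ) e) hφ.continuous hφc
  have e1 : ∀ x, (v x - w x) * fderiv ℝ φ x e = v x * fderiv ℝ φ x e - w x * fderiv ℝ φ x e :=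
    fun x => sub_mul _ _ _
  have e2 : ∀ x, ⟪g x - p x, e⟫ * φ x = ⟪g x, e⟫ * φ x - ⟪p x, e⟫ * φ x := by
    intro x
    rw [inner_sub_left, sub_mul]
  simp_rw [e1, e2]
  rw [integral_sub i1 i2, integral_sub i3 i4, hv.2.2 φ hφ hφc hφB e, hw.2.2 φ hφ hφc hφB e]
  ring

theorem rS4_lap {x₀ : E d} {r : ℝ} {v : E d → ℝ} {g : E d → E d}
    (hv : MemH1 (ball x₀ r) v g) {φ : E d → ℝ} (hφ : ContDiff ℝ ∞ φ) (hφc : HasCompactSupport φ)
    (hφB : tsupport φ ⊆ ball x₀ r) :
    ∫ x in ball x₀ r, v x * lap φ x = - ∫ x in ball x₀ r, ⟪g x, gradient φ x⟫ := by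
  have hψ : ∀ i : Fin d, ContDiff ℝ ∞ (P1 φ i) := fun i =>
    (hφ.fderiv_right (m := ∞) (by simp)).clm_apply contDiff_const
  have hψc : ∀ i : Fin d, HasCompactSupport (P1 φ i) := fun i =>
    (hφc.fderiv (𝕜 := ℝ)).comp_left (g := fun L : E d →L[ℝ] ℝ => L (ee i)) (by simp)
  have hψB : ∀ i : Fin d, tsupport (P1 φ i) ⊆ ball x₀ r := by
    intro i
    refine (closure_mono ?_).trans ((tsupport_fderiv_subset ℝ (f := φ)).trans hφB)
    intro x hx
    rw [Function.mem_support] at hx ⊢
    intro h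
    apply hx
    simp [P1, h]
  have key : ∀ i : Fin d, ∫ x in ball x₀ r, v x * P2 φ i i x =
      - ∫ x in ball x₀ r, ⟪g x, ee i⟫ * P1 φ i x := fun i =>
    hv.2.2 (P1 φ i) (hψ i) (hψc i) (hψB i) (ee i)
  have j1 : ∀ i : Fin d, Integrable (fun x => v x * P2 φ i i x)
      (volume.restrict (ball x₀ r)) := by
    intro i
    refine rS4_int hv.1 ?_ ?_
    · exact (((hψ i).continuous_fderiv (by simp)).clm_apply continuous_const)
    · exact ((hψc i).fderiv (𝕜 := ℝ)).comp_left (g := fun L : E d →L[ℝ] ℝ => L (ee i)) (by simp only [zero_apply])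
  have j2 : ∀ i : Fin d, Integrable (fun x => ⟪g x, ee i⟫ * P1 φ i x)
      (volume.restrict (ball x₀ r)) := fun i =>
    rS4_int (hv.2.1.inner_const (𝕜 := ℝ) (ee i)) (hψ i).continuous (hψc i)
  have e1 : ∀ x, v x * lap φ x = ∑ i, v x * P2 φ i i x := by
    intro x
    rw [lap, Finset.mul_sum]
  have e2 : ∀ x, ⟪g x, gradient φ x⟫ = ∑ i, ⟪g x, ee i⟫ * P1 φ i x := by
    intro x
    have h1 : g x = ∑ i, (g x i) • (ee i : E d) := by
      ext j
      simp only [WithLp.ofLp_sum, WithLp.ofLp_smul, PiLp.ofLp_single, Finset.sum_apply, Pi.smul_apply, Pi.single_apply, smul_eq_mul, mul_ite, mul_one, mul_zero, Finset.sum_ite_eq, Finset.mem_univ, ↓reduceIte]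
    have h2 : ∀ i, ⟪g x, ee i⟫ = g x i := by
      intro i
      simp [EuclideanSpace.inner_single_right]
    rw [real_inner_comm, ModA.inner_gradient]
    conv_lhs => rw [h1]
    rw [map_sum]
    refine Finset.sum_congr rfl fun i _ => ?_
    rw [h2, map_smul, smul_eq_mul, P1]
  simp_rw [e1, e2]
  rw [integral_finsetSum _ fun i _ => j1 i, integral_finsetSum _ fun i _ => j2 i,
    ← Finset.sum_neg_distrib]
  exact Finset.sum_congr rfl fun i _ => key i

theorem rS4_ind {x₀ : E d} {r : ℝ} {v : E d → ℝ} (hv : MemLp v 2 (volume.restrict (ball x₀ r))) :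
    Integrable ({y | 0 < v y}.indicator (fun _ => (1 : ℝ))) (volume.restrict (ball x₀ r)) := by
  have hfin : IsFiniteMeasure (volume.restrict (ball x₀ r)) := ⟨by simpa only [MeasurableSet.univ, Measure.restrict_apply, univ_inter] using measure_ball_lt_top⟩
  refine (integrable_const (1 : ℝ)).indicator₀ ?_
  exact nullMeasurableSet_lt aemeasurable_const hv.aestronglyMeasurable.aemeasurable

theorem rS4_sq {x₀ : E d} {r : ℝ} {g : E d → E d}
    (hg : MemLp g 2 (volume.restrict (ball x₀ r))) :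
    Integrable (fun x => ‖g x‖ ^ 2) (volume.restrict (ball x₀ r)) := hg.norm.integrable_sq

theorem exists_harm_approx (hd : 1 ≤ d) {u : E d → ℝ} (hu : IsGlobalMinimizer u) :
    ∃ C : ℝ, 0 ≤ C ∧ ∀ (x₀ : E d) (r : ℝ), 0 < r → ∃ h : E d → ℝ, Harm (ball x₀ r) h ∧
      MemLp (fun x => u x - h x) 2 (volume.restrict (ball x₀ r)) ∧
      ∫ x in ball x₀ r, (u x - h x) ^ 2 ≤ C * r ^ (d + 2) := by
  classical
  obtain ⟨hu0, g, hg⟩ := hu
  refine ⟨4 * (volume (ball (0 : E d) 1)).toReal, by positivity, fun x₀ r hr => ?_⟩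
  obtain ⟨hgr, -⟩ := hg x₀ r hr
  obtain ⟨hg2, hmin⟩ := hg x₀ (2 * r) (by positivity)
  obtain ⟨w, p, hw, hw0, horth, hpp, hpoin⟩ := exists_replacement hd x₀ hr hgr.2.1
  have hw2 : MemH10 (ball x₀ (2 * r)) w p := memH10_extend (by linarith only [hr]) hw hw0
  have hfin : IsFiniteMeasure (volume.restrict (ball x₀ r)) := ⟨by simpa only [MeasurableSet.univ, Measure.restrict_apply, univ_inter] using measure_ball_lt_top⟩
  have hball : ball x₀ r ⊆ ball x₀ (2 * r) := ball_subset_ball (by linarith only [hr])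
  -- the competitor
  set v : E d → ℝ := fun x => max (u x - w x) 0 with hv
  set G : E d → E d := fun x => ({y | 0 < u y - w y} : Set (E d)).indicator
    (fun x => g x - p x) x with hG
  set gv : E d → E d := (ball x₀ r).piecewise G g with hgv
  have hpos : MemH1 (ball x₀ (2 * r)) v G := MemH1.posPart (rS4_sub hg2 hw2.1)
  have hupos : MemH1 (ball x₀ (2 * r)) u
      (fun x => ({y | 0 < u y} : Set (E d)).indicator g x) := by
    have h1 := MemH1.posPart hg2
    have h2 : (fun x => max (u x) 0) = u := by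
      funext x
      exact max_eq_left (hu0 x)
    rwa [h2] at h1
  have hgz := ModA.weakGrad_unique hg2 hupos
  have hgG : ∀ᵐ x ∂(volume.restrict (ball x₀ (2 * r))), G x = gv x := by
    filter_upwards [hgz] with x hx
    by_cases hxb : x ∈ ball x₀ r
    · rw [hgv, piecewise_eq_of_mem _ _ _ hxb]
    · rw [hgv, piecewise_eq_of_notMem _ _ _ hxb, hx]
      obtain ⟨h1, h2⟩ := hw0 x hxb
      simp only [hG, indicator, mem_ofPred_eq, h1, h2, sub_zero]
  have hvH : MemH1 (ball x₀ (2 * r)) v gv := ModA.memH1_congr hgG hpos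
  have hdiff : MemH10 (ball x₀ (2 * r)) (fun x => v x - u x) (fun x => gv x - g x) := by
    refine memH10_of_support (r := r) (by linarith only [hr]) (rS4_sub hvH hg2) ?_
    intro x _ hx
    have hxb : x ∉ ball x₀ r := fun h => hx (ball_subset_closedBall h)
    obtain ⟨h1, h2⟩ := hw0 x hxb
    constructor
    · simp only [hv, h1, sub_zero]
      rw [max_eq_left (hu0 x), sub_self]
    · rw [hgv, piecewise_eq_of_notMem _ _ _ hxb, sub_self]
  have hE := hmin v gv (fun x => le_max_right _ _) hvH hdiff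
  -- the energy comparison
  have i1 : Integrable (fun x => ‖g x‖ ^ 2 + {y | 0 < u y}.indicator (fun _ => (1 : ℝ)) x)
      (volume.restrict (ball x₀ (2 * r))) := (rS4_sq hg2.2.1).add (rS4_ind hg2.1)
  have i2 : Integrable (fun x => ‖gv x‖ ^ 2 + {y | 0 < v y}.indicator (fun _ => (1 : ℝ)) x)
      (volume.restrict (ball x₀ (2 * r))) := (rS4_sq hvH.2.1).add (rS4_ind hvH.1)
  have i3 : IntegrableOn (fun x => ‖g x - p x‖ ^ 2 - ‖g x‖ ^ 2 + 1) (ball x₀ r) :=
    ((rS4_sq (hgr.2.1.sub hw.1.2.1)).sub (rS4_sq hgr.2.1)).add (integrable_const _)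
  have hcmp : 0 ≤ ∫ x in ball x₀ r, (‖g x - p x‖ ^ 2 - ‖g x‖ ^ 2 + 1) := by
    have h1 : 0 ≤ ∫ x in ball x₀ (2 * r),
        ((‖gv x‖ ^ 2 + {y | 0 < v y}.indicator (fun _ => (1 : ℝ)) x) -
          (‖g x‖ ^ 2 + {y | 0 < u y}.indicator (fun _ => (1 : ℝ)) x)) := by
      rw [integral_sub i2 i1]
      exact sub_nonneg.2 hE
    refine h1.trans ?_
    have h2 : ∫ x in ball x₀ (2 * r), (ball x₀ r).indicator
        (fun x => ‖g x - p x‖ ^ 2 - ‖g x‖ ^ 2 + 1) x =
        ∫ x in ball x₀ r, (‖g x - p x‖ ^ 2 - ‖g x‖ ^ 2 + 1) := by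
      rw [integral_indicator measurableSet_ball, Measure.restrict_restrict measurableSet_ball,
        inter_eq_left.2 hball]
    rw [← h2]
    refine integral_mono_ae (i2.sub i1) ?_ ?_
    · refine (integrable_indicator_iff measurableSet_ball).2 ?_
      rw [IntegrableOn, Measure.restrict_restrict measurableSet_ball, inter_eq_left.2 hball]
      exact i3
    · filter_upwards with x
      by_cases hxb : x ∈ ball x₀ r
      · rw [indicator_of_mem hxb, hgv, piecewise_eq_of_mem _ _ _ hxb]
        have h3 : ‖G x‖ ^ 2 ≤ ‖g x - p x‖ ^ 2 := by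
          by_cases h4 : 0 < u x - w x
          · simp only [hG, indicator, mem_ofPred_eq, h4, if_true]
            exact le_rfl
          · simp only [hG, indicator, mem_ofPred_eq, h4, if_false]
            simp only [norm_zero, ne_eq, OfNat.ofNat_ne_zero, not_false_eq_true, zero_pow, norm_nonneg, pow_succ_nonneg]
        have h5 : {y | 0 < v y}.indicator (fun _ => (1 : ℝ)) x ≤ 1 :=
          indicator_le_self' (fun _ _ => zero_le_one) x
        have h6 : 0 ≤ {y | 0 < u y}.indicator (fun _ => (1 : ℝ)) x :=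
          indicator_nonneg (fun _ _ => zero_le_one) x
        linarith only [h3, h5, h6]
      · rw [indicator_of_notMem hxb, hgv, piecewise_eq_of_notMem _ _ _ hxb]
        obtain ⟨h1, -⟩ := hw0 x hxb
        have h3 : v x = u x := by
          simp only [hv, h1, sub_zero]
          exact max_eq_left (hu0 x)
        have h4 : {y | 0 < v y}.indicator (fun _ => (1 : ℝ)) x =
            {y | 0 < u y}.indicator (fun _ => (1 : ℝ)) x := by
          simp only [indicator, mem_ofPred_eq, h3]
        rw [h4, sub_self]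
  have hp2 : ∫ x in ball x₀ r, ‖p x‖ ^ 2 ≤ (volume (ball x₀ r)).toReal := by
    have j1 : Integrable (fun x => ‖g x - p x‖ ^ 2) (volume.restrict (ball x₀ r)) :=
      rS4_sq (hgr.2.1.sub hw.1.2.1)
    have j2 := rS4_sq hgr.2.1
    have j3 := rS4_sq hw.1.2.1
    have j12 : Integrable (fun x => ‖g x‖ ^ 2 - ‖g x - p x‖ ^ 2) (volume.restrict (ball x₀ r)) :=
      j2.sub j1
    have j21 : Integrable (fun x => ‖g x - p x‖ ^ 2 - ‖g x‖ ^ 2) (volume.restrict (ball x₀ r)) :=
      j1.sub j2
    have h1 : ∀ x, ⟪g x - p x, p x⟫ = (‖g x‖ ^ 2 - ‖g x - p x‖ ^ 2 - ‖p x‖ ^ 2) / 2 := by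
      intro x
      have h2 := norm_add_sq_real (g x - p x) (p x)
      rw [sub_add_cancel] at h2
      linarith
    have h2 : ∫ x in ball x₀ r, (‖g x‖ ^ 2 - ‖g x - p x‖ ^ 2 - ‖p x‖ ^ 2) / 2 = 0 := by
      rw [← hpp]
      exact integral_congr_ae (by filter_upwards with x using (h1 x).symm)
    rw [integral_div, integral_sub j12 j3, integral_sub j2 j1] at h2
    rw [integral_add j21 (integrable_const _), integral_sub j1 j2] at hcmp
    have h3 : ∫ x in ball x₀ r, (1 : ℝ) = (volume (ball x₀ r)).toReal := by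
      simp only [integral_const, Measure.real, MeasurableSet.univ, Measure.restrict_apply, univ_inter, smul_eq_mul, mul_one]
    rw [h3] at hcmp
    linarith only [hcmp, h2]
  have hvol : (volume (ball x₀ r)).toReal = r ^ d * (volume (ball (0 : E d) 1)).toReal := by
    rw [Measure.addHaar_ball_of_pos volume x₀ hr, ENNReal.toReal_mul, ENNReal.toReal_ofReal
      (by positivity)]
    simp only [finrank_euclideanSpace, Fintype.card_fin]
  -- the harmonic function
  have hint : IntegrableOn (fun x => u x - w x) (ball x₀ r) :=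
    (hgr.1.sub hw.1.1).integrable (by norm_num)
  obtain ⟨h, hh, hhe⟩ := weyl (f := fun x => u x - w x) isOpen_ball
    hint.locallyIntegrableOn (by
      intro φ hφ hφc hφB
      have h1 : ∫ x, (u x - w x) * lap φ x = ∫ x in ball x₀ r, (u x - w x) * lap φ x := by
        symm
        apply setIntegral_eq_integral_of_forall_compl_eq_zero
        intro x hx
        have h2 : lap φ x = 0 := by
          have h3 : x ∉ tsupport φ := fun h => hx (hφB h)
          have h4 : ∀ i, P1 φ i =ᶠ[𝓝 x] fun _ => 0 := by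
            intro i
            filter_upwards [(isClosed_tsupport φ).isOpen_compl.mem_nhds h3] with y hy
            have : fderiv ℝ φ y = 0 :=
              image_eq_zero_of_notMem_tsupport (fun h' => hy (tsupport_fderiv_subset ℝ h'))
            simp [P1, this]
          have h5 : ∀ i, P2 φ i i x = 0 := by
            intro i
            rw [P2, (h4 i).fderiv_eq]
            simp only [fderiv_fun_const, Pi.zero_apply, zero_apply]
          simp only [lap, h5, Finset.sum_const_zero]
        rw [h2, mul_zero]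
      rw [h1, rS4_lap (rS4_sub hgr hw.1) hφ hφc hφB, horth φ hφ hφc hφB, neg_zero])
  have hw' : ∀ᵐ x ∂(volume.restrict (ball x₀ r)), w x = u x - h x := by
    filter_upwards [hhe] with x hx
    rw [← hx]
    ring
  refine ⟨h, hh, (memLp_congr_ae hw').1 hw.1.1, ?_⟩
  have h1 : ∫ x in ball x₀ r, (u x - h x) ^ 2 = ∫ x in ball x₀ r, w x ^ 2 := by
    apply integral_congr_ae
    filter_upwards [hw'] with x hx
    rw [hx]
  rw [h1]
  calc ∫ x in ball x₀ r, w x ^ 2 ≤ (2 * r) ^ 2 * ∫ x in ball x₀ r, ‖p x‖ ^ 2 := hpoin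
    _ ≤ (2 * r) ^ 2 * (r ^ d * (volume (ball (0 : E d) 1)).toReal) := by
        rw [← hvol]
        exact mul_le_mul_of_nonneg_left hp2 (by positivity)
    _ = 4 * (volume (ball (0 : E d) 1)).toReal * r ^ (d + 2) := by ring

end Vale.Agent.P098
end

section

/-! # S6: Lipschitz continuity

Let `I = ∫ mk`. Let `v x > 0`, `ρ = dist(x, {v = 0}) > 0` (finite as `v 0 = 0`), `z` a nearest zero:
`|x - z| = ρ`. For `w ∈ ball x (ρ/2)` one has `mk((p-w)/(ρ/4)) ≤ mk((p-z)/(4ρ))` for all `p`, so
`v w = av v (ρ/4) w ≤ 16^d av v (4ρ) z ≤ 16^d 4 C ρ`, and `harm_deriv_bound` (`k = 1`, `r = ρ/2`)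
gives `‖fderiv v x‖ ≤ K` on `pos v`. Lipschitz: on a segment contained in `pos v` by the mean value
inequality; if a segment `[x,y]` hits `{v = 0}` then `v x ≤ K dist(x, {v = 0}) ≤ K |x - y|`. -/

open MeasureTheory Set Metric Filter
open scoped ContDiff RealInnerProductSpace Topology NNReal

namespace Vale.Agent.P098

variable {d : ℕ}

/-- change of variables `p = w + s y` -/
theorem rS6_cov (Φ : E d → ℝ) (w : E d) {s : ℝ} (hs : 0 < s) :
    ∫ y : E d, Φ (w + s • y) = (s ^ d)⁻¹ * ∫ p : E d, Φ p := by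
  have h1 := Measure.integral_comp_smul (volume : Measure (E d)) (fun y => Φ (w + y)) s
  rw [h1, finrank_euclideanSpace, Fintype.card_fin, smul_eq_mul, integral_add_left_eq_self Φ w,
    abs_of_pos (by positivity)]

/-- averages in small balls are controlled by averages in large balls -/
theorem rS6_av_le {v : E d → ℝ} (hc : Continuous v) (h0 : ∀ x, 0 ≤ v x) {w z : E d} {s t : ℝ}
    (hs : 0 < s) (ht : 0 < t) (hst : dist w z + s ≤ t / 2) :
    av v s w ≤ (t / s) ^ d * av v t z := by
  have hmkc : Continuous (mk : E d → ℝ) := mk_contDiff.continuous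
  have e1 : ∀ (x : E d) {r : ℝ}, 0 < r → ∫ y : E d, mk y * v (x + r • y) =
      (r ^ d)⁻¹ * ∫ p : E d, mk (r⁻¹ • (p - x)) * v p := by
    intro x r hr
    rw [← rS6_cov _ x hr]
    congr 1
    funext y
    rw [add_sub_cancel_left, inv_smul_smul₀ hr.ne']
  have hint : ∀ (x : E d) {r : ℝ}, 0 < r → Integrable fun p : E d => mk (r⁻¹ • (p - x)) * v p := by
    intro x r hr
    refine Continuous.integrable_of_hasCompactSupport
      ((hmkc.comp ((continuous_id.sub continuous_const).const_smul r⁻¹)).mul hc) ?_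
    refine HasCompactSupport.intro (isCompact_closedBall x r) fun p hp => ?_
    rw [mem_closedBall, not_le, dist_eq_norm] at hp
    rw [mk_eq_zero, zero_mul]
    rw [norm_smul, Real.norm_eq_abs, abs_of_pos (inv_pos.2 hr), le_inv_mul_iff₀ hr]
    linarith only [hp]
  have e2 : ∫ p : E d, mk (s⁻¹ • (p - w)) * v p ≤ ∫ p : E d, mk (t⁻¹ • (p - z)) * v p := by
    refine integral_mono (hint w hs) (hint z ht) fun p => ?_
    refine mul_le_mul_of_nonneg_right ?_ (h0 p)
    rcases le_or_gt s (dist p w) with h | h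
    · rw [mk_eq_zero]
      · exact mk_nonneg _
      · rw [norm_smul, Real.norm_eq_abs, abs_of_pos (inv_pos.2 hs), le_inv_mul_iff₀ hs,
          ← dist_eq_norm]
        linarith only [h]
    · rw [mk_eq_one (y := t⁻¹ • (p - z))]
      · exact mk_le_one _
      · have h1 : ‖t⁻¹ • (p - z)‖ ≤ 1 / 2 := by
          rw [norm_smul, Real.norm_eq_abs, abs_of_pos (inv_pos.2 ht), inv_mul_le_iff₀ ht,
            ← dist_eq_norm]
          have := dist_triangle p w z
          linarith only [hst, h, this]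
        have h2 := norm_nonneg (t⁻¹ • (p - z))
        nlinarith only [h1, h2]
  have hI := mk_integral_pos (d := d)
  unfold av
  rw [e1 w hs, e1 z ht, ← mul_div_assoc]
  refine div_le_div_of_nonneg_right ?_ hI.le
  rw [div_pow, ← mul_assoc]
  have h3 : t ^ d / s ^ d * (t ^ d)⁻¹ = (s ^ d)⁻¹ := by
    (clear * - ht hs; field_simp)
  rw [h3]
  exact mul_le_mul_of_nonneg_left e2 (by positivity)

theorem lipschitz_of_av (hd : 1 ≤ d) {v : E d → ℝ} (hc : Continuous v) (h0 : ∀ x, 0 ≤ v x)
    (hh : Harm (pos v) v) {C : ℝ} (hav : ∀ (x : E d) (r : ℝ), 0 < r → |av v r x - v x| ≤ C * r)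
    (hz : v 0 = 0) : ∃ K : ℝ≥0, LipschitzWith K v := by
  have _ := hd
  obtain ⟨C₁, hC₁, hb⟩ := harm_deriv_bound d 1
  have hC : 0 ≤ C := by
    have := (abs_nonneg _).trans (hav 0 1 one_pos)
    linarith only [this]
  set Z : Set (E d) := {x | v x = 0} with hZ
  have hZc : IsClosed Z := isClosed_eq hc continuous_const
  have hZn : Z.Nonempty := ⟨0, hz⟩
  set A : ℝ := 16 ^ d * (4 * C) with hA
  have hA0 : 0 ≤ A := by (clear * - hC; positivity)
  -- the main estimate
  have main : ∀ x, 0 < v x → 0 < infDist x Z ∧ ball x (infDist x Z) ⊆ pos v ∧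
      ∀ w ∈ ball x (infDist x Z / 2), v w ≤ A * infDist x Z := by
    intro x hx
    have hxZ : x ∉ Z := fun h => hx.ne' h
    have hρ : 0 < infDist x Z := (hZc.notMem_iff_infDist_pos hZn).1 hxZ
    have hsub : ball x (infDist x Z) ⊆ pos v := by
      intro y hy
      refine lt_of_le_of_ne (h0 y) fun h => ?_
      have h1 : infDist x Z ≤ dist x y := infDist_le_dist_of_mem h.symm
      rw [mem_ball, dist_comm] at hy
      linarith only [hy, h1]
    refine ⟨hρ, hsub, fun w hw => ?_⟩
    obtain ⟨z, hzZ, hzd⟩ := hZc.exists_infDist_eq_dist hZn x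
    set ρ := infDist x Z with hρd
    have hw' : dist w x < ρ / 2 := hw
    have hharm : Harm (ball w (ρ / 2)) v := by
      have hs : ball w (ρ / 2) ⊆ pos v := (ball_subset_ball' (by linarith only [hw'])).trans hsub
      exact ⟨hh.1.mono hs, fun y hy => hh.2 y (hs hy)⟩
    have h1 : av v (ρ / 4) w = v w := hharm.av_eq (by (clear * - hρ; positivity)) (by linarith only [hρ])
    have h2 := rS6_av_le hc h0 (w := w) (z := z) (s := ρ / 4) (t := 4 * ρ) (by (clear * - hρ; positivity))
      (by (clear * - hρ; positivity)) (by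
        have := dist_triangle w x z
        linarith only [hρ, hzd, hw', this])
    have h3 : (4 * ρ) / (ρ / 4) = 16 := by
      field_simp
      norm_num
    rw [h1, h3] at h2
    have h4 := hav z (4 * ρ) (by (clear * - hρ; positivity))
    have h5 : v z = 0 := hzZ
    rw [h5, sub_zero] at h4
    have h6 := (le_abs_self _).trans h4
    calc v w ≤ 16 ^ d * av v (4 * ρ) z := h2
      _ ≤ 16 ^ d * (C * (4 * ρ)) := mul_le_mul_of_nonneg_left h6 (by positivity)
      _ = A * ρ := by rw [hA]; ring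
  have hder : ∀ x, 0 < v x → DifferentiableAt ℝ v x ∧ ‖fderiv ℝ v x‖ ≤ C₁ * (2 * A) := by
    intro x hx
    obtain ⟨hρ, hsub, hM⟩ := main x hx
    have hopen : IsOpen (pos v) := isOpen_lt continuous_const hc
    refine ⟨(hh.1.contDiffAt (hopen.mem_nhds hx)).differentiableAt (by simp), ?_⟩
    have hharm : Harm (ball x (infDist x Z / 2)) v := by
      have hs : ball x (infDist x Z / 2) ⊆ pos v := (ball_subset_ball (by linarith only [hρ])).trans hsub
      exact ⟨hh.1.mono hs, fun y hy => hh.2 y (hs hy)⟩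
    have h1 := hb v x (infDist x Z / 2) (A * infDist x Z) (by (clear * - hρ; positivity)) hharm
      (fun y hy => by rw [abs_of_nonneg (h0 y)]; exact hM y hy) x
      (mem_ball_self (by (clear * - hρ; positivity)))
    rw [norm_iteratedFDeriv_one, pow_one] at h1
    refine h1.trans (le_of_eq ?_)
    (clear * - hρ hC₁; field_simp)
  refine ⟨⟨max (C₁ * (2 * A)) A, le_max_of_le_right hA0⟩, LipschitzWith.of_dist_le_mul
    fun x y => ?_⟩
  change dist (v x) (v y) ≤ max (C₁ * (2 * A)) A * dist x y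
  by_cases hseg : segment ℝ x y ⊆ pos v
  · have h1 := Convex.norm_image_sub_le_of_norm_fderiv_le (𝕜 := ℝ) (f := v) (s := segment ℝ x y)
      (C := C₁ * (2 * A)) (fun p hp => (hder p (hseg hp)).1) (fun p hp => (hder p (hseg hp)).2)
      (convex_segment x y) (left_mem_segment ℝ x y) (right_mem_segment ℝ x y)
    rw [dist_comm, dist_comm x y, dist_eq_norm, dist_eq_norm]
    exact h1.trans (mul_le_mul_of_nonneg_right (le_max_left _ _) (norm_nonneg _))
  · rw [not_subset] at hseg
    obtain ⟨p, hp, hpv⟩ := hseg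
    have hp0 : p ∈ Z := le_antisymm (not_lt.1 hpv) (h0 p)
    have hdist := dist_add_dist_of_mem_segment hp
    have hbd : ∀ q, dist q p ≤ dist x y → v q ≤ max (C₁ * (2 * A)) A * dist x y := by
      intro q hq
      rcases (h0 q).eq_or_lt with h | h
      · rw [← h]
        have h1 : 0 ≤ max (C₁ * (2 * A)) A := le_max_of_le_right hA0
        exact mul_nonneg h1 dist_nonneg
      · obtain ⟨hρ, _, hM⟩ := main q h
        have h1 := hM q (mem_ball_self (by positivity))
        have h2 : infDist q Z ≤ dist q p := infDist_le_dist_of_mem hp0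
        exact h1.trans (mul_le_mul (le_max_right _ _) (h2.trans hq) hρ.le
          (le_max_of_le_right hA0))
    have hx := hbd x (by linarith only [dist_nonneg (x := p) (y := y), hdist])
    have hy := hbd y (by rw [dist_comm y p]; linarith only [hdist, dist_nonneg (x := x) (y := p)])
    rw [Real.dist_eq, abs_le]
    constructor
    · linarith only [hy, h0 x]
    · linarith only [hx, h0 y]

end Vale.Agent.P098
end

section

/-! # S7: one-homogeneous global minimizers have a Lipschitz representative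

`v` from `exists_cont_rep`. `v ≥ 0` (continuous, `u ≥ 0`); `IsGlobalMinimizer v` (all conditions only
depend on the a.e. class, the same `g`); `Hom1 v` (`hom_everywhere` of `ModM0`, as `v` is a.e.
homogeneous); `v 0 = 0`. `v` is harmonic on `pos v`: for a test function `φ` with
`tsupport φ ⊆ pos v`, `v ≥ c > 0` on `tsupport φ`, so for small `|t|` the function `v + tφ ≥ 0` is a
competitor with `{v + tφ > 0} = {v > 0}`; so `0 ≤ 2t∫⟪g,∇φ⟫ + t²∫|∇φ|²`, hence
`∫⟪g,∇φ⟫ = 0`, i.e. `∫ vΔφ = 0`; `weyl` and continuity. Now `lipschitz_of_av`. -/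

open MeasureTheory Set Metric Filter
open scoped ContDiff RealInnerProductSpace Topology NNReal

namespace Vale.Agent.P098

variable {d : ℕ}

lemma rS7_memH1_congr {B : Set (E d)} {v w : E d → ℝ} {g : E d → E d}
    (h : ∀ᵐ x ∂(volume.restrict B), v x = w x) (H : MemH1 B v g) : MemH1 B w g := by
  refine ⟨(memLp_congr_ae h).mp H.1, H.2.1, ?_⟩
  intro φ hφ hφc hφB e
  rw [← H.2.2 φ hφ hφc hφB e]
  apply integral_congr_ae
  filter_upwards [h] with x hx
  rw [hx]

lemma rS7_memH10_congr {B : Set (E d)} {v w : E d → ℝ} {g : E d → E d}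
    (h : ∀ᵐ x ∂(volume.restrict B), v x = w x) (H : MemH10 B v g) : MemH10 B w g := by
  refine ⟨rS7_memH1_congr h H.1, ?_⟩
  intro ε hε
  obtain ⟨φ, h1, h2, h3, h4⟩ := H.2 ε hε
  refine ⟨φ, h1, h2, h3, ?_⟩
  have : ∫ x in B, (w x - φ x) ^ 2 = ∫ x in B, (v x - φ x) ^ 2 := by
    apply integral_congr_ae
    filter_upwards [h] with x hx
    rw [hx]
  rw [this]
  exact h4

lemma rS7_energy_congr {B : Set (E d)} {v w : E d → ℝ} {g : E d → E d}
    (h : ∀ᵐ x ∂(volume.restrict B), v x = w x) : energy B v g = energy B w g := by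
  unfold energy
  apply integral_congr_ae
  filter_upwards [h] with x hx
  simp only [indicator_apply, mem_ofPred_eq, hx]

lemma rS7_min_congr {u v : E d → ℝ} (h : u =ᵐ[volume] v) (hv : ∀ x, 0 ≤ v x)
    (hu : IsGlobalMinimizer u) : IsGlobalMinimizer v := by
  obtain ⟨-, g, hg⟩ := hu
  refine ⟨hv, g, fun x₀ r hr => ?_⟩
  obtain ⟨h1, h2⟩ := hg x₀ r hr
  have hB : ∀ᵐ x ∂(volume.restrict (ball x₀ r)), u x = v x := ae_restrict_of_ae h
  refine ⟨rS7_memH1_congr hB h1, ?_⟩
  intro w gw hw0 hw hwv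
  rw [← rS7_energy_congr hB]
  refine h2 w gw hw0 hw (rS7_memH10_congr ?_ hwv)
  filter_upwards [hB] with x hx
  rw [hx]

lemma rS7_ae_smul {p : E d → Prop} (h : ∀ᵐ x : E d, p x) {r : ℝ} (hr : r ≠ 0) :
    ∀ᵐ x : E d, p (r • x) := by
  rw [ae_iff] at h ⊢
  have : {a : E d | ¬p (r • a)} = (fun x => r • x) ⁻¹' {a | ¬p a} := rfl
  rw [this, Measure.addHaar_preimage_smul volume hr, h, mul_zero]

lemma rS7_hom_congr {u v : E d → ℝ} (h : u =ᵐ[volume] v) (hu : IsOneHomogeneous u) :
    IsOneHomogeneous v := by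
  intro r hr
  filter_upwards [hu r hr, h, rS7_ae_smul h hr.ne'] with x h1 h2 h3
  rw [← h3, h1, h2]

lemma rS7_memH1_add {B : Set (E d)} (hB : volume B < ⊤) {v w : E d → ℝ} {g h : E d → E d}
    (H₁ : MemH1 B v g) (H₂ : MemH1 B w h) :
    MemH1 B (fun x => v x + w x) (fun x => g x + h x) := by
  have hfin : IsFiniteMeasure (volume.restrict B) := ⟨by simpa only [MeasurableSet.univ, Measure.restrict_apply, univ_inter] using hB⟩
  refine ⟨H₁.1.add H₂.1, H₁.2.1.add H₂.2.1, ?_⟩
  intro φ hφ hφc hφB e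
  obtain ⟨C, hC⟩ := hφc.exists_bound_of_continuous hφ.continuous
  have hd : Continuous (fun x => fderiv ℝ φ x e) :=
    (hφ.continuous_fderiv (by simp)).clm_apply continuous_const
  have hdc : HasCompactSupport (fun x => fderiv ℝ φ x e) := hφc.fderiv_apply ℝ e
  obtain ⟨C', hC'⟩ := hdc.exists_bound_of_continuous hd
  have iv : Integrable v (volume.restrict B) := H₁.1.integrable (by norm_num)
  have iw : Integrable w (volume.restrict B) := H₂.1.integrable (by norm_num)
  have ig : Integrable (fun x => ⟪g x, e⟫) (volume.restrict B) :=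
    (H₁.2.1.integrable (by norm_num)).inner_const e
  have ih : Integrable (fun x => ⟪h x, e⟫) (volume.restrict B) :=
    (H₂.2.1.integrable (by norm_num)).inner_const e
  have e₁ := H₁.2.2 φ hφ hφc hφB e
  have e₂ := H₂.2.2 φ hφ hφc hφB e
  have j₁ : Integrable (fun x => v x * fderiv ℝ φ x e) (volume.restrict B) :=
    iv.mul_bdd hd.aestronglyMeasurable (by filter_upwards with x using hC' x)
  have j₂ : Integrable (fun x => w x * fderiv ℝ φ x e) (volume.restrict B) :=
    iw.mul_bdd hd.aestronglyMeasurable (by filter_upwards with x using hC' x)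
  have j₃ : Integrable (fun x => ⟪g x, e⟫ * φ x) (volume.restrict B) :=
    ig.mul_bdd hφ.continuous.aestronglyMeasurable (by filter_upwards with x using hC x)
  have j₄ : Integrable (fun x => ⟪h x, e⟫ * φ x) (volume.restrict B) :=
    ih.mul_bdd hφ.continuous.aestronglyMeasurable (by filter_upwards with x using hC x)
  simp only [add_mul, inner_add_left]
  rw [integral_add j₁ j₂, integral_add j₃ j₄, e₁, e₂]
  ring

lemma rS7_zero_of_quad {A B t₀ : ℝ} (ht : 0 < t₀) (hB : 0 ≤ B)
    (h : ∀ t, |t| ≤ t₀ → 0 ≤ 2 * t * A + t ^ 2 * B) : A = 0 := by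
  by_contra hA
  have hA' : 0 < |A| := abs_pos.mpr hA
  set s := min t₀ (|A| / (B + 1)) with hs
  have hs0 : 0 < s := lt_min ht (by (clear * - hA hB; positivity))
  have hs1 : s ≤ t₀ := min_le_left _ _
  have hs2 : s * (B + 1) ≤ |A| := by
    have : s ≤ |A| / (B + 1) := min_le_right _ _
    rwa [le_div_iff₀ (by positivity)] at this
  rcases lt_or_gt_of_ne hA with h1 | h1
  · have := h s (by rw [abs_of_pos hs0]; exact hs1)
    rw [abs_of_neg h1] at hs2
    linarith only [this, mul_pos (sub_pos.2 hs0) (sub_pos.2 hs0), mul_nonneg (le_of_lt (sub_pos.2 hs0)) (sub_nonneg.2 hs2), mul_pos (sub_pos.2 hs0) (sub_pos.2 h1)]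
  · have := h (-s) (by rw [abs_neg, abs_of_pos hs0]; exact hs1)
    rw [abs_of_pos h1] at hs2
    linarith only [this, mul_nonneg (sq_nonneg (-s : ℝ)) (sub_nonneg.2 hB), mul_pos (sub_pos.2 hs0) (sub_pos.2 hs0), mul_nonneg (le_of_lt (sub_pos.2 hs0)) (sub_nonneg.2 hs2)]

/-- first variation in the positivity set -/
lemma rS7_weak {v : E d → ℝ} (hc : Continuous v) {g : E d → E d} (h0 : ∀ x, 0 ≤ v x)
    {R : ℝ} (hH : MemH1 (ball 0 R) v g)
    (hmin : ∀ (w : E d → ℝ) (gw : E d → E d), (∀ x, 0 ≤ w x) → MemH1 (ball 0 R) w gw →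
      MemH10 (ball 0 R) (fun x => w x - v x) (fun x => gw x - g x) →
      energy (ball 0 R) v g ≤ energy (ball 0 R) w gw)
    {φ : E d → ℝ} (hφ : ContDiff ℝ ∞ φ) (hφc : HasCompactSupport φ) (hφp : tsupport φ ⊆ pos v)
    (hφB : tsupport φ ⊆ ball 0 R) : ∫ x in ball (0 : E d) R, ⟪g x, gradient φ x⟫ = 0 := by
  have hfin : IsFiniteMeasure (volume.restrict (ball (0 : E d) R)) :=
    ⟨by simpa only [MeasurableSet.univ, Measure.restrict_apply, univ_inter] using measure_ball_lt_top⟩
  obtain ⟨c, hc0, hcl⟩ : ∃ c, 0 < c ∧ ∀ x ∈ tsupport φ, c ≤ v x :=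
    hφc.isCompact.exists_forall_le' hc.continuousOn (fun x hx => hφp hx)
  obtain ⟨M, hM⟩ := hφc.exists_bound_of_continuous hφ.continuous
  have hM0 : 0 ≤ M := (norm_nonneg _).trans (hM 0)
  obtain ⟨K, hK⟩ := hφ.lipschitzWith_of_hasCompactSupport hφc (by simp)
  have hgφ : MemLp (gradient φ) 2 (volume.restrict (ball (0 : E d) R)) :=
    ModA.memLp_gradient hK 0 R
  have hi1 : Integrable (fun x => ⟪g x, gradient φ x⟫) (volume.restrict (ball (0 : E d) R)) :=
    (hH.2.1.norm.integrable_mul hgφ.norm).mono' (hH.2.1.1.inner hgφ.1)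
      (Eventually.of_forall fun x => norm_inner_le_norm _ _)
  have hi2 : Integrable (fun x => ‖gradient φ x‖ ^ 2) (volume.restrict (ball (0 : E d) R)) :=
    hgφ.integrable_norm_pow (by norm_num)
  have hi3 : Integrable (fun x => ‖g x‖ ^ 2) (volume.restrict (ball (0 : E d) R)) :=
    hH.2.1.integrable_norm_pow (by norm_num)
  have hmeas : MeasurableSet {y : E d | 0 < v y} := measurableSet_lt measurable_const hc.measurable
  have hi4 : Integrable (fun x => {y : E d | 0 < v y}.indicator (fun _ => (1 : ℝ)) x)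
      (volume.restrict (ball (0 : E d) R)) :=
    (integrable_const (1 : ℝ)).indicator hmeas
  apply rS7_zero_of_quad (t₀ := c / (2 * (M + 1))) (B := ∫ x in ball (0 : E d) R, ‖gradient φ x‖ ^ 2)
    (by positivity) (integral_nonneg fun x => by (clear * -; positivity))
  intro t ht
  have htφ : ∀ x, |t * φ x| ≤ c / 2 := by
    intro x
    rw [abs_mul]
    calc |t| * |φ x| ≤ c / (2 * (M + 1)) * (M + 1) := by
          apply mul_le_mul ht ((hM x).trans (by linarith only [])) (abs_nonneg _) (by (clear * - hc0 hM0; positivity))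
      _ = c / 2 := by (clear * - hM0 hc0; field_simp)
  set w : E d → ℝ := fun x => v x + t * φ x with hw
  have hwpos : ∀ x, x ∈ tsupport φ → 0 < w x := by
    intro x hx
    have h1 := hcl x hx
    have h2 := (abs_le.mp (htφ x)).1
    simp only [hw]
    linarith only [hc0, h1, h2]
  have hwout : ∀ x, x ∉ tsupport φ → w x = v x := by
    intro x hx
    simp only [hw, image_eq_zero_of_notMem_tsupport hx, mul_zero, add_zero]
  have hw0 : ∀ x, 0 ≤ w x := by
    intro x
    by_cases hx : x ∈ tsupport φ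
    · exact (hwpos x hx).le
    · rw [hwout x hx]; exact h0 x
  have hset : {y | 0 < w y} = {y | 0 < v y} := by
    ext x
    by_cases hx : x ∈ tsupport φ
    · simp only [mem_ofPred_eq]
      exact ⟨fun _ => hφp hx, fun _ => hwpos x hx⟩
    · simp only [mem_ofPred_eq, hwout x hx]
  have hψ : ContDiff ℝ ∞ (fun x => t * φ x) := contDiff_const.mul hφ
  have hψc : HasCompactSupport (fun x => t * φ x) := hφc.mul_left
  have hψB : tsupport (fun x => t * φ x) ⊆ ball 0 R := by
    refine (closure_mono ?_).trans hφB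
    intro x hx
    simp only [Function.mem_support] at hx ⊢
    exact fun h => hx (by rw [h, mul_zero])
  obtain ⟨K', hK'⟩ := hψ.lipschitzWith_of_hasCompactSupport hψc (by simp)
  have hgψ : gradient (fun x => t * φ x) = fun x => t • gradient φ x := by
    ext1 x
    have hd : DifferentiableAt ℝ φ x := (hφ.differentiable (by simp)) x
    have : HasGradientAt (fun x => t * φ x) (t • gradient φ x) x := by
      rw [hasGradientAt_iff_hasFDerivAt, map_smul]
      exact hd.hasGradientAt.hasFDerivAt.const_mul t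
    exact this.gradient
  have H10 : MemH10 (ball (0 : E d) R) (fun x => t * φ x) (fun x => t • gradient φ x) := by
    rw [← hgψ]
    exact ModA.memH10_of_lipschitz hK' hψc 0 R hψB
  have key := hmin w (fun x => g x + t • gradient φ x) hw0
    (rS7_memH1_add measure_ball_lt_top hH H10.1) (by
      simpa only [hw, add_sub_cancel_left] using H10)
  unfold energy at key
  rw [hset] at key
  have i5 : Integrable (fun x => ‖g x + t • gradient φ x‖ ^ 2)
      (volume.restrict (ball (0 : E d) R)) :=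
    (hH.2.1.add (hgφ.const_smul t)).integrable_norm_pow (by norm_num)
  rw [integral_add hi3 hi4, integral_add i5 hi4] at key
  have e1 : ∀ x, ‖g x + t • gradient φ x‖ ^ 2 =
      ‖g x‖ ^ 2 + (2 * t * ⟪g x, gradient φ x⟫ + t ^ 2 * ‖gradient φ x‖ ^ 2) := by
    intro x
    rw [norm_add_sq_real, inner_smul_right, norm_smul, mul_pow, Real.norm_eq_abs, sq_abs]
    ring
  simp_rw [e1] at key
  have j1 : Integrable (fun x => 2 * t * ⟪g x, gradient φ x⟫)
      (volume.restrict (ball (0 : E d) R)) := hi1.const_mul _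
  have j2 : Integrable (fun x => t ^ 2 * ‖gradient φ x‖ ^ 2)
      (volume.restrict (ball (0 : E d) R)) := hi2.const_mul _
  have j3 : Integrable (fun x => 2 * t * ⟪g x, gradient φ x⟫ + t ^ 2 * ‖gradient φ x‖ ^ 2)
      (volume.restrict (ball (0 : E d) R)) := j1.add j2
  rw [integral_add hi3 j3, integral_add j1 j2, integral_const_mul, integral_const_mul] at key
  linarith only [key]

lemma rS7_harm {v : E d → ℝ} (hc : Continuous v) (hv : IsGlobalMinimizer v) : Harm (pos v) v := by
  obtain ⟨h0, g, hg⟩ := hv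
  have hopen : IsOpen (pos v) := isOpen_lt continuous_const hc
  have hw : ∀ φ : E d → ℝ, ContDiff ℝ ∞ φ → HasCompactSupport φ → tsupport φ ⊆ pos v →
      ∫ x, v x * lap φ x = 0 := by
    intro φ hφ hφc hφp
    obtain ⟨R, hR0, hR⟩ : ∃ r : ℝ, 0 < r ∧ tsupport φ ⊆ ball 0 r := by
      obtain ⟨r, hr⟩ := hφc.isCompact.isBounded.subset_ball (0 : E d)
      exact ⟨max r 1, lt_max_of_lt_right one_pos, hr.trans (ball_subset_ball (le_max_left _ _))⟩
    obtain ⟨hH, hmin⟩ := hg 0 R hR0
    have hfin : IsFiniteMeasure (volume.restrict (ball (0 : E d) R)) :=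
      ⟨by simpa only [MeasurableSet.univ, Measure.restrict_apply, univ_inter] using measure_ball_lt_top⟩
    have hA := rS7_weak hc h0 hH hmin hφ hφc hφp hR
    have hP1 : ∀ i, ContDiff ℝ ∞ (P1 φ i) := fun i =>
      (hφ.fderiv_right (by simp)).clm_apply contDiff_const
    have hP1c : ∀ i, HasCompactSupport (P1 φ i) := fun i => hφc.fderiv_apply ℝ (ee i)
    have hP1B : ∀ i, tsupport (P1 φ i) ⊆ tsupport φ := fun i =>
      tsupport_fderiv_apply_subset ℝ (ee i)
    have hP2 : ∀ i, Continuous (P2 φ i i) := fun i =>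
      ((hP1 i).continuous_fderiv (by simp)).clm_apply continuous_const
    have hP2c : ∀ i, HasCompactSupport (P2 φ i i) := fun i => (hP1c i).fderiv_apply ℝ (ee i)
    have iv : Integrable v (volume.restrict (ball (0 : E d) R)) := hH.1.integrable (by norm_num)
    have ig : ∀ i : Fin d, Integrable (fun x => ⟪g x, (ee i : E d)⟫)
        (volume.restrict (ball (0 : E d) R)) := fun i =>
      (hH.2.1.integrable (by norm_num)).inner_const _
    have h1 : ∫ x, v x * lap φ x = ∫ x in ball (0 : E d) R, v x * lap φ x := by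
      symm
      apply setIntegral_eq_integral_of_forall_compl_eq_zero
      intro x hx
      have : lap φ x = 0 := by
        unfold lap
        apply Finset.sum_eq_zero
        intro i _
        have : x ∉ tsupport (P1 φ i) := fun h => hx (hR (hP1B i h))
        have h2 : x ∉ tsupport (P2 φ i i) := fun h =>
          this (tsupport_fderiv_apply_subset ℝ (ee i) h)
        exact image_eq_zero_of_notMem_tsupport h2
      rw [this, mul_zero]
    rw [h1]
    have h2 : ∫ x in ball (0 : E d) R, v x * lap φ x =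
        ∑ i, ∫ x in ball (0 : E d) R, v x * P2 φ i i x := by
      unfold lap
      simp_rw [Finset.mul_sum]
      apply integral_finsetSum
      intro i _
      obtain ⟨C, hC⟩ := (hP2c i).exists_bound_of_continuous (hP2 i)
      exact iv.mul_bdd (hP2 i).aestronglyMeasurable (by filter_upwards with x using hC x)
    have h3 : ∀ i, ∫ x in ball (0 : E d) R, v x * P2 φ i i x =
        - ∫ x in ball (0 : E d) R, ⟪g x, (ee i : E d)⟫ * P1 φ i x := fun i =>
      hH.2.2 (P1 φ i) (hP1 i) (hP1c i) ((hP1B i).trans hR) (ee i)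
    rw [h2, Finset.sum_congr rfl (fun i _ => h3 i), Finset.sum_neg_distrib,
      ← integral_finsetSum]
    · rw [neg_eq_zero, ← hA]
      apply integral_congr_ae
      filter_upwards with x
      rw [PiLp.inner_apply]
      apply Finset.sum_congr rfl
      intro i _
      simp only [P1, ModA.gradient_coord, EuclideanSpace.inner_single_right]
      simp only [Real.ringHom_apply, one_mul, RCLike.inner_apply, mul_comm]
    · intro i _
      obtain ⟨C, hC⟩ := (hP1c i).exists_bound_of_continuous (hP1 i).continuous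
      exact (ig i).mul_bdd (hP1 i).continuous.aestronglyMeasurable
        (by filter_upwards with x using hC x)
  obtain ⟨f, hf, hfv⟩ := weyl hopen (hc.locallyIntegrable.locallyIntegrableOn _) hw
  have heq : EqOn v f (pos v) :=
    Measure.eqOn_open_of_ae_eq hfv hopen hc.continuousOn hf.1.continuousOn
  refine ⟨hf.1.congr heq, fun x hx => ?_⟩
  rw [← hf.2 x hx]
  have hev : v =ᶠ[𝓝 x] f := heq.eventuallyEq_of_mem (hopen.mem_nhds hx)
  unfold lap
  apply Finset.sum_congr rfl
  intro i _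
  unfold P2
  have h1 : P1 v i =ᶠ[𝓝 x] P1 f i := by
    filter_upwards [hev.fderiv (𝕜 := ℝ)] with y hy
    unfold P1
    rw [hy]
  rw [h1.fderiv_eq]

theorem exists_lipschitz_rep (hd : 1 ≤ d) {u : E d → ℝ} (hu : IsGlobalMinimizer u)
    (hh : IsOneHomogeneous u) : ∃ (v : E d → ℝ) (K : ℝ≥0), LipschitzWith K v ∧ u =ᵐ[volume] v ∧
      IsGlobalMinimizer v ∧ Hom1 v ∧ ∀ x, 0 ≤ v x := by
  obtain ⟨C, hC0, hC⟩ := exists_harm_approx hd hu
  have hloc : LocallyIntegrable u := by
    intro x
    obtain ⟨h0, g, hg⟩ := hu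
    have h1 := (hg x 1 one_pos).1.1
    have hfin : IsFiniteMeasure (volume.restrict (ball x 1)) :=
      ⟨by simpa only [MeasurableSet.univ, Measure.restrict_apply, univ_inter] using measure_ball_lt_top⟩
    exact ⟨ball x 1, ball_mem_nhds x one_pos, h1.integrable (by norm_num)⟩
  obtain ⟨C', v, hvc, huv, hav⟩ := exists_cont_rep hd hloc hC
  have hv0 : ∀ x, 0 ≤ v x := by
    have hcl : IsClosed {x | 0 ≤ v x} := isClosed_le continuous_const hvc
    have hae : ∀ᵐ x, x ∈ {x | 0 ≤ v x} := by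
      filter_upwards [huv] with x hx
      show 0 ≤ v x
      rw [← hx]
      exact hu.1 x
    have hdense : Dense {x | 0 ≤ v x} := Measure.dense_of_ae hae
    intro x
    have := hcl.closure_eq ▸ hdense.closure_eq
    have hx : x ∈ (univ : Set (E d)) := mem_univ x
    rw [← this] at hx
    exact hx
  have hvm : IsGlobalMinimizer v := rS7_min_congr huv hv0 hu
  have hhom : Hom1 v := hom_everywhere hvc (rS7_hom_congr huv hh)
  have hz : v 0 = 0 := by
    have := hhom 2 two_pos 0
    rw [smul_zero] at this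
    linarith only [this]
  obtain ⟨K, hK⟩ := lipschitz_of_av hd hvc hv0 (rS7_harm hvc hvm) hav hz
  exact ⟨v, K, hK, huv, hvm, hhom, hv0⟩

end Vale.Agent.P098
end

section

/-!
# The condition `kappa` of the certificate for `m = 5`, part K1
-/

set_option linter.style.longLine false

namespace Vale.Agent.P098.S5.Kap

open Vale.Agent.P098.K Vale.Agent.P098.N

/-- Group A1. -/
def gK1A1 : Grp where
  comps := cK1A1.map fun c => [c]
  blks := [N.R8.bkS (.c 1) 36 [2, 1, 4, 0, 0, 0] csK1A1_00 rK1A1_00,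
    N.R8.bkS (.mul (.v 1) (.sub (.c 1) (.v 1))) 36 [2, 0, 4, 0, 0, 0] csK1A1_01 rK1A1_01,
    N.R8.bkS (.mul (.v 0) (.sub (.c 1) (.v 0))) 34 [1, 1, 4, 0, 0, 0] csK1A1_10 rK1A1_10,
    N.R8.bkS (.mul (.mul (.v 0) (.sub (.c 1) (.v 0))) (.mul (.v 1) (.sub (.c 1) (.v 1)))) 34 [1, 0, 4, 0, 0, 0] csK1A1_11 rK1A1_11]

/-- Group E. -/
def gK1E : Grp where
  comps := cK1E.map fun c => [c]
  blks := [N.R8.bkS (.c 1) 34 [2, 1, 2, 0, 0, 0] csK1E_00 rK1E_00,
    N.R8.bkS (.mul (.v 1) (.sub (.c 1) (.v 1))) 34 [2, 0, 2, 0, 0, 0] csK1E_01 rK1E_01,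
    N.R8.bkS (.mul (.v 0) (.sub (.c 1) (.v 0))) 33 [1, 1, 2, 0, 0, 0] csK1E_10 rK1E_10,
    N.R8.bkS (.mul (.mul (.v 0) (.sub (.c 1) (.v 0))) (.mul (.v 1) (.sub (.c 1) (.v 1)))) 33 [1, 0, 2, 0, 0, 0] csK1E_11 rK1E_11]

/-- Group T1. -/
def gK1T1 : Grp where
  comps := cK1T1.map fun c => [c]
  blks := [N.R8.bkS (.c 1) 35 [2, 1, 1, 0, 0, 0] csK1T1_00 rK1T1_00,
    N.R8.bkS (.mul (.v 1) (.sub (.c 1) (.v 1))) 34 [2, 0, 1, 0, 0, 0] csK1T1_01 rK1T1_01,
    N.R8.bkS (.mul (.v 0) (.sub (.c 1) (.v 0))) 34 [1, 1, 1, 0, 0, 0] csK1T1_10 rK1T1_10,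
    N.R8.bkS (.mul (.mul (.v 0) (.sub (.c 1) (.v 0))) (.mul (.v 1) (.sub (.c 1) (.v 1)))) 34 [1, 0, 1, 0, 0, 0] csK1T1_11 rK1T1_11]

/-- Group V. -/
def gK1V : Grp where
  comps := cK1V.map fun c => [c]
  blks := [N.R8.bkS (.c 1) 35 [2, 1, 3, 0, 0, 0] csK1V_00 rK1V_00,
    N.R8.bkS (.mul (.v 1) (.sub (.c 1) (.v 1))) 35 [2, 0, 3, 0, 0, 0] csK1V_01 rK1V_01,
    N.R8.bkS (.mul (.v 0) (.sub (.c 1) (.v 0))) 34 [1, 1, 3, 0, 0, 0] csK1V_10 rK1V_10,
    N.R8.bkS (.mul (.mul (.v 0) (.sub (.c 1) (.v 0))) (.mul (.v 1) (.sub (.c 1) (.v 1)))) 34 [1, 0, 3, 0, 0, 0] csK1V_11 rK1V_11]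

/-- The certificate. -/
def cdK1 : N.R8.Cd where
  B := 2 ^ 136
  h := 2 ^ 135
  bE := 48
  grps := [gK1A1, gK1E, gK1T1, gK1V]

theorem chkK1 : cdK1.chk (N.R8.K1E 8 phi5 hKa hKb ((2 ^ 42 : ℕ) : ℤ)) ((90071992547410 : ℕ) : ℤ)
    1019050026682782842880 0 0 = true := by decide +kernel

theorem stdK1 : ∀ g ∈ cdK1.grps, R8.sclr g := by
  intro g hg b hb
  simp only [cdK1, List.mem_cons, List.not_mem_nil, or_false] at hg
  rcases hg with rfl | rfl | rfl | rfl <;>
  · simp only [gK1A1, gK1E, gK1T1, gK1V, List.mem_cons, List.not_mem_nil, or_false] at hb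
    rcases hb with rfl | rfl | rfl | rfl <;>
    exact ⟨_, _, _, _, _, by repeat constructor, rfl⟩

end Vale.Agent.P098.S5.Kap
end
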