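import Mathlib
import Vale.Agent.P098.Bdl.B12
import Vale.Agent.P098.Bdl.B18
import Vale.Agent.P098.Bdl.B15
import Vale.Agent.P098.Bdl.B4
import Vale.Agent.P098.Bdl.B9

set_option linter.all false


section

/-!
# The conditions `bdry` and `triple` for `m = 5` from the checkers
-/

namespace Vale.Agent.P098.N

open Vale.Agent.P098.K

variable {rs : List ℕ} {X : ℕ → ℝ}

/-! ### Polynomials at `y = v = 1` -/

/-- Insert a monomial in `τ, ι`. -/
def insT (c : ℤ) (t i : ℕ) : List (ℤ × ℕ × ℕ) → List (ℤ × ℕ × ℕ)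
  | [] => [(c, t, i)]
  | q :: l => bif Nat.beq q.2.1 t && Nat.beq q.2.2 i then (q.1 + c, t, i) :: l
      else q :: insT c t i l

/-- The polynomial at `y = v = 1`. -/
def colT : List Mo → List (ℤ × ℕ × ℕ)
  | [] => []
  | q :: l => insT q.1 q.2.2.2.1 q.2.2.2.2 (colT l)

/-- Expression of a polynomial in `τ, ι`. -/
def ptE (G : Crd) (m : ℕ) : List (ℤ × ℕ × ℕ) → Ex
  | [] => .c 0
  | q :: l => .add (.mul (.mul (.c q.1) (powE (pwE G m 3) q.2.1)) (powE (pwE G m 4) q.2.2))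
      (ptE G m l)

theorem evE_insT (G : Crd) (m : ℕ) (c : ℤ) (t i : ℕ) (l : List (ℤ × ℕ × ℕ)) :
    evE rs X (ptE G m (insT c t i l)) = c * evE rs X (pwE G m 3) ^ t * evE rs X (pwE G m 4) ^ i
      + evE rs X (ptE G m l) := by
  induction l with
  | nil => simp only [insT, ptE, evE_add, evE_mul, evE_c, evE_pow, Int.cast_zero, add_zero]
  | cons q l ih =>
    rw [insT]
    cases hq : Nat.beq q.2.1 t && Nat.beq q.2.2 i with
    | true =>
      rw [Bool.and_eq_true] at hq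
      have h1 := Nat.eq_of_beq_eq_true hq.1
      have h2 := Nat.eq_of_beq_eq_true hq.2
      simp only [cond_true, ptE, evE_add, evE_mul, evE_c, evE_pow, ← h1, ← h2]
      push_cast
      ring
    | false =>
      simp only [cond_false, ptE, evE_add, ih]
      ring

theorem evE_colT (G : Crd) (m : ℕ) (l : List Mo) :
    evE rs X (ptE G m (colT l)) = pe l 1 1 (evE rs X (pwE G m 3)) (evE rs X (pwE G m 4)) := by
  induction l with
  | nil => simp only [colT, ptE, evE_c, Int.cast_zero, pe]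
  | cons q l ih => rw [colT, evE_insT, ih, pe, me]; simp only [one_pow, mul_one]

/-! ### The boundary form -/

/-- `s D` times `formN`, `k = 0`. -/
def NE (G : Crd) (F : FD) (m : ℕ) (s : ℤ) : Ex :=
  nE s (.sub (.sub (.add
    (sumE (fun j => .mul (ptE G m (colT (F.a.getD j [])))
      (.sub (.add (.mul (powE (G.lam 0) (j + 1)) (pwE G m 2)) (.mul (G.lam 0) (pwE G m (j + 2))))
        (pwE G m (j + 3)))) F.na)
    (sumE (fun q => .mul (ptE G m (colT (F.e.getD q [])))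
      (.sub (.mul (powE (G.lam 0) (F.ea q)) (.sub (.mul (G.lam 0) (pwE G m (F.ej q + 1)))
          (pwE G m (F.ej q + 2))))
        (.mul (powE (G.lam 0) (F.ej q)) (.sub (.mul (G.lam 0) (pwE G m (F.ea q + 1)))
          (pwE G m (F.ea q + 2)))))) F.ne))
    (.mul (ptE G m (colT F.w)) (G.lam 0)))
    (sumE (fun j => .mul (ptE G m (colT (F.f.getD j []))) (powE (G.lam 0) j)) F.nf))

theorem evE_g1 {G : Crd} {m : ℕ} {y v : ℝ} {lam : Fin (m + 1) → ℝ} (h : PtX G rs X y v lam)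
    {D : ℕ} (hD : D ≠ 0) (l : List Mo) :
    evE rs X (ptE G (m + 1) (colT l)) = D * (sf D l).g 1 1 (pw lam 3) (pw lam 4) := by
  have hD' : (D : ℝ) ≠ 0 := by exact_mod_cast hD
  rw [evE_colT, h.pw, h.pw]
  simp only [sf]
  (clear * - hD'; field_simp)

theorem evE_N {G : Crd} {m : ℕ} {y v : ℝ} {lam : Fin (m + 1) → ℝ} (h : PtX G rs X y v lam)
    (F : FD) (hD : F.D ≠ 0) (s : ℤ) :
    evE rs X (NE G F (m + 1) s) = s * F.D * formN F.fam lam 0 := by
  simp only [NE, evE_nE, evE_sub, evE_add, evE_sum, evE_mul, evE_pow, h.pw, h.lam0,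
    evE_g1 h hD, formN]
  have e1 : ∀ j, F.fam.a j = sf F.D (F.a.getD j []) := fun _ => rfl
  have e2 : ∀ j, F.fam.e j = sf F.D (F.e.getD j []) := fun _ => rfl
  have e3 : ∀ j, F.fam.f j = sf F.D (F.f.getD j []) := fun _ => rfl
  have e4 : F.fam.w = sf F.D F.w := rfl
  have e5 : F.fam.na = F.na := rfl
  have e6 : F.fam.ne = F.ne := rfl
  have e7 : F.fam.nf = F.nf := rfl
  have e8 : F.fam.ea = F.ea := rfl
  have e9 : F.fam.ej = F.ej := rfl
  rw [e5, e6, e7, e4]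
  simp only [e1, e2, e3, e8, e9]
  simp only [mul_assoc, ← Finset.mul_sum]
  ring

/-- The condition `bdry` if the form passes the check. The blocks have the multiplier `1` or
`-4 l`. -/
theorem bdry5_of {F : FD} (hD : 0 < F.D) {c : Cd} {s : ℕ} (hs : 0 < s) {ε Δ : ℕ}
    (hε : Δ ≤ ε * 2 ^ 24) (hchk : c.chk (NE crd5 F 5 s) (ε : ℤ) Δ 0 0 = true)
    (hst : ∀ g ∈ c.grps, ∀ b ∈ g.blks, (b.m = .c 1 ∨ b.m = nE (-4) (.v 2)) ∧ b.t00 = .c 1
      ∧ b.t01 = .c 1 ∧ b.t11 = .c 1) :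
    ∀ lam : Fin 5 → ℝ, pw lam 1 = 0 → pw lam 2 = 1 → lam 0 ≤ 0 → 0 ≤ formN F.fam lam 0 := by
  intro lam hl1 hl2 hl0
  obtain ⟨hX, hsph⟩ := pt5_ok (y := 1) (v := 1) zero_le_one le_rfl zero_le_one le_rfl hl1 hl2.le
  rw [hl2] at hsph
  have hm := Cd.main (c := c) hX hsph (n := 1) (T := fun _ _ => NE crd5 F 5 s) (ε := ε) (Δ := Δ)
    (by
      intro i hi j hj _
      have hi' : i = 0 := by omega
      have hj' : j = 0 := by omega
      subst hi' hj'
      exact hchk)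
    (fun _ _ _ _ => rfl) (ρ := 1) (by simp)
    (by
      intro g hg b hb
      obtain ⟨h1, h2, h3, h4⟩ := hst g hg b hb
      refine ⟨?_, 1, 1, ?_, ?_, ?_⟩
      · rcases h1 with h1 | h1
        · rw [h1]; simp only [evE_c, Int.cast_one, zero_le_one]
        · rw [h1, evE_nE, evE_v]
          simp only [pt5_2, pt5_0, pt5_1]
          push_cast
          linarith only [hl0]
      · rw [h2]; simp
      · rw [h3]; simp
      · rw [h4]; simp) (fun _ => 1)
  rw [evE_N (ptX5 hl1) F hD.ne' s] at hm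
  simp only [Finset.sum_range_one, one_pow, mul_one, wgt, if_true, Nat.cast_one, one_mul] at hm
  have h1 : (0 : ℝ) ≤ (ε : ℝ) - Δ / 2 ^ 24 := by
    have : (Δ : ℝ) ≤ ((ε * 2 ^ 24 : ℕ) : ℝ) := by exact_mod_cast hε
    rw [Nat.cast_mul, Nat.cast_pow, Nat.cast_ofNat] at this
    rw [sub_nonneg, div_le_iff₀ (by positivity)]
    exact this
  have h2 : (0 : ℝ) ≤ (s : ℤ) * F.D * formN F.fam lam 0 := h1.trans hm
  have h3 : (0 : ℝ) < (s : ℤ) * F.D := by
    push_cast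
    positivity
  exact nonneg_of_mul_nonneg_right h2 h3

/-! ### The triple condition -/

/-- `s D` times the expression in `triple` for the indices `1, 2, 3`. -/
def TrE (G : Crd) (F : FD) (m : ℕ) (s : ℤ) : Ex :=
  nE s (.add
    (sumE (fun q => .mul (peE G m (F.a.getD q []))
      (.add (.add (hhE (q + 1) (G.lam 1) (G.lam 2)) (hhE (q + 1) (G.lam 2) (G.lam 3)))
        (hhE (q + 1) (G.lam 1) (G.lam 3)))) F.na)
    (sumE (fun q => .mul (peE G m (F.e.getD q []))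
      (.sub (.add (.sub (.add (.sub
        (.mul (powE (G.lam 1) (F.ea q)) (hhE (F.ej q) (G.lam 2) (G.lam 3)))
        (.mul (powE (G.lam 1) (F.ej q)) (hhE (F.ea q) (G.lam 2) (G.lam 3))))
        (.mul (powE (G.lam 2) (F.ea q)) (hhE (F.ej q) (G.lam 1) (G.lam 3))))
        (.mul (powE (G.lam 2) (F.ej q)) (hhE (F.ea q) (G.lam 1) (G.lam 3))))
        (.mul (powE (G.lam 3) (F.ea q)) (hhE (F.ej q) (G.lam 1) (G.lam 2))))
        (.mul (powE (G.lam 3) (F.ej q)) (hhE (F.ea q) (G.lam 1) (G.lam 2))))) F.ne))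

/-- The expression in the condition `triple`. -/
noncomputable def trip (Φ : Fam) (y v : ℝ) {m : ℕ} (lam : Fin m → ℝ) (i j k : Fin m) : ℝ :=
  (∑ q ∈ Finset.range Φ.na, (Φ.a q).g y v (pw lam 3) (pw lam 4)
        * (hh (q + 1) (lam i) (lam j) + hh (q + 1) (lam j) (lam k) + hh (q + 1) (lam i) (lam k)))
        + (∑ q ∈ Finset.range Φ.ne, (Φ.e q).g y v (pw lam 3) (pw lam 4)
        * (lam i ^ Φ.ea q * hh (Φ.ej q) (lam j) (lam k) - lam i ^ Φ.ej q * hh (Φ.ea q) (lam j) (lam k)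
          + lam j ^ Φ.ea q * hh (Φ.ej q) (lam i) (lam k) - lam j ^ Φ.ej q * hh (Φ.ea q) (lam i) (lam k)
          + lam k ^ Φ.ea q * hh (Φ.ej q) (lam i) (lam j)
          - lam k ^ Φ.ej q * hh (Φ.ea q) (lam i) (lam j)))

theorem evE_hhE (j : ℕ) (a b : Ex) : evE rs X (hhE j a b) = hh j (evE rs X a) (evE rs X b) := by
  simp only [hhE, evE_sum, evE_mul, evE_pow, hh]

theorem evE_Tr {y v : ℝ} {lam : Fin 5 → ℝ} (h : PtX crd5 rs X y v lam)
    (F : FD) (hD : F.D ≠ 0) (s : ℤ) :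
    evE rs X (TrE crd5 F 5 s) = s * F.D * trip F.fam y v lam 1 2 3 := by
  have l1 : evE rs X (crd5.lam 1) = lam 1 := h.lm 1
  have l2 : evE rs X (crd5.lam 2) = lam 2 := h.lm 2
  have l3 : evE rs X (crd5.lam 3) = lam 3 := h.lm 3
  have hg : ∀ l : List Mo, evE rs X (peE crd5 5 l)
      = F.D * (sf F.D l).g y v (pw lam 3) (pw lam 4) := by
    intro l
    have hD' : (F.D : ℝ) ≠ 0 := by exact_mod_cast hD
    rw [evE_pe (m := 4) h]
    simp only [sf]
    (clear * - hD'; field_simp)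
  simp only [TrE, evE_nE, evE_add, evE_sum, evE_mul, hg, evE_hhE, l1, l2, l3, evE_sub, evE_pow, trip]
  have e1 : ∀ j, F.fam.a j = sf F.D (F.a.getD j []) := fun _ => rfl
  have e2 : ∀ j, F.fam.e j = sf F.D (F.e.getD j []) := fun _ => rfl
  have e5 : F.fam.na = F.na := rfl
  have e6 : F.fam.ne = F.ne := rfl
  have e8 : F.fam.ea = F.ea := rfl
  have e9 : F.fam.ej = F.ej := rfl
  rw [e5, e6]
  simp only [e1, e2, e8, e9]
  simp only [mul_assoc, ← Finset.mul_sum]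
  ring

theorem trip_perm (Φ : Fam) (y v : ℝ) {m : ℕ} (σ : Equiv.Perm (Fin m)) (lam : Fin m → ℝ)
    (i j k : Fin m) :
    trip Φ y v (fun a => lam (σ a)) i j k = trip Φ y v lam (σ i) (σ j) (σ k) := by
  simp only [trip, pw_perm]

theorem exists_perm3 (i j k : Fin 5) (hij : i ≠ j) (hjk : j ≠ k) (hik : i ≠ k) :
    ∃ σ : Equiv.Perm (Fin 5), σ 1 = i ∧ σ 2 = j ∧ σ 3 = k := by
  let σ1 : Equiv.Perm (Fin 5) := Equiv.swap 1 i
  have h1 : σ1 1 = i := Equiv.swap_apply_left _ _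
  let σ2 : Equiv.Perm (Fin 5) := (Equiv.swap 2 (σ1.symm j)).trans σ1
  have hj : σ1.symm j ≠ 1 := by
    intro h
    apply hij
    rw [← h1, ← h, Equiv.apply_symm_apply]
  have h21 : σ2 1 = i := by
    show σ1 (Equiv.swap 2 (σ1.symm j) 1) = i
    rw [Equiv.swap_apply_of_ne_of_ne (by decide) hj.symm, h1]
  have h22 : σ2 2 = j := by
    show σ1 (Equiv.swap 2 (σ1.symm j) 2) = j
    rw [Equiv.swap_apply_left, Equiv.apply_symm_apply]
  have hk1 : σ2.symm k ≠ 1 := by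
    intro h
    apply hik
    rw [← h21, ← h, Equiv.apply_symm_apply]
  have hk2 : σ2.symm k ≠ 2 := by
    intro h
    apply hjk
    rw [← h22, ← h, Equiv.apply_symm_apply]
  refine ⟨(Equiv.swap 3 (σ2.symm k)).trans σ2, ?_, ?_, ?_⟩
  · show σ2 (Equiv.swap 3 (σ2.symm k) 1) = i
    rw [Equiv.swap_apply_of_ne_of_ne (by decide) hk1.symm, h21]
  · show σ2 (Equiv.swap 3 (σ2.symm k) 2) = j
    rw [Equiv.swap_apply_of_ne_of_ne (by decide) hk2.symm, h22]
  · show σ2 (Equiv.swap 3 (σ2.symm k) 3) = k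
    rw [Equiv.swap_apply_left, Equiv.apply_symm_apply]

/-- The allowed multipliers of the blocks of the triple condition. -/
def mulT : List Ex :=
  [.c 1, .mul (.v 0) (.sub (.c 1) (.v 0)), .mul (.v 1) (.sub (.c 1) (.v 1)),
    .mul (.mul (.v 0) (.sub (.c 1) (.v 0))) (.mul (.v 1) (.sub (.c 1) (.v 1)))]

/-- The condition `triple` if the expression passes the check on the ball. -/
theorem triple5_of {F : FD} (hD : 0 < F.D) {c : CdB} {s : ℕ} (hs : 0 < s) {ε Δ : ℕ}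
    (hε : Δ ≤ ε * 2 ^ 24) (hchk : c.chk (TrE crd5 F 5 s) (ε : ℤ) Δ 0 0 = true)
    (hst : ∀ g ∈ c.grps, ∀ b ∈ g.g.blks, b.m ∈ mulT ∧ b.t00 = .c 1
      ∧ b.t01 = .c 1 ∧ b.t11 = .c 1) :
    ∀ y v : ℝ, 0 ≤ y → y ≤ 1 → 0 ≤ v → v ≤ 1 → ∀ lam : Fin 5 → ℝ, pw lam 1 = 0 →
    pw lam 2 ≤ 1 → ∀ i j k : Fin 5, i ≠ j → j ≠ k → i ≠ k →
      0 ≤ (∑ q ∈ Finset.range F.fam.na, (F.fam.a q).g y v (pw lam 3) (pw lam 4)
        * (hh (q + 1) (lam i) (lam j) + hh (q + 1) (lam j) (lam k) + hh (q + 1) (lam i) (lam k)))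
        + (∑ q ∈ Finset.range F.fam.ne, (F.fam.e q).g y v (pw lam 3) (pw lam 4)
        * (lam i ^ F.fam.ea q * hh (F.fam.ej q) (lam j) (lam k)
          - lam i ^ F.fam.ej q * hh (F.fam.ea q) (lam j) (lam k)
          + lam j ^ F.fam.ea q * hh (F.fam.ej q) (lam i) (lam k)
          - lam j ^ F.fam.ej q * hh (F.fam.ea q) (lam i) (lam k)
          + lam k ^ F.fam.ea q * hh (F.fam.ej q) (lam i) (lam j)
          - lam k ^ F.fam.ej q * hh (F.fam.ea q) (lam i) (lam j))) := by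
  intro y v hy0 hy1 hv0 hv1 lam hl1 hl2 i j k hij hjk hik
  obtain ⟨σ, h1, h2, h3⟩ := exists_perm3 i j k hij hjk hik
  have key : ∀ lam : Fin 5 → ℝ, pw lam 1 = 0 → pw lam 2 ≤ 1 →
      0 ≤ trip F.fam y v lam 1 2 3 := by
    intro lam hl1 hl2
    obtain ⟨hX, hsph⟩ := pt5_ok hy0 hy1 hv0 hv1 hl1 hl2
    have hm := CdB.main (c := c) hX (by rw [hsph]; exact hl2) (n := 1)
      (T := fun _ _ => TrE crd5 F 5 s) (ε := ε) (Δ := Δ)
      (by
        intro i hi j hj _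
        have hi' : i = 0 := by omega
        have hj' : j = 0 := by omega
        subst hi' hj'
        exact hchk)
      (fun _ _ _ _ => rfl) (ρ := 1) (by simp)
      (by
        intro g hg b hb
        obtain ⟨h1, h2, h3, h4⟩ := hst g hg b hb
        have e1 : 0 ≤ y * (1 - y) := mul_nonneg hy0 (by linarith only [hy1])
        have e2 : 0 ≤ v * (1 - v) := mul_nonneg hv0 (by linarith only [hv1])
        refine ⟨?_, 1, 1, ?_, ?_, ?_⟩
        · simp only [mulT, List.mem_cons, List.not_mem_nil, or_false] at h1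
          rcases h1 with h1 | h1 | h1 | h1
          · rw [h1]; simp only [evE_c, Int.cast_one, zero_le_one]
          · rw [h1]
            simp only [evE_mul, evE_sub, evE_v, evE_c, pt5_0, pt5_1]
            simpa only [Int.cast_one] using e1
          · rw [h1]
            simp only [evE_mul, evE_sub, evE_v, evE_c, pt5_0, pt5_1]
            simpa only [Int.cast_one] using e2
          · rw [h1]
            simp only [evE_mul, evE_sub, evE_v, evE_c, pt5_0, pt5_1]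
            simpa only [Int.cast_one] using mul_nonneg e1 e2
        · rw [h2]; simp
        · rw [h3]; simp
        · rw [h4]; simp) (fun _ => 1)
    rw [evE_Tr (ptX5 hl1) F hD.ne' s] at hm
    simp only [Finset.sum_range_one, one_pow, mul_one, wgt, if_true, Nat.cast_one, one_mul] at hm
    have h1 : (0 : ℝ) ≤ (ε : ℝ) - Δ / 2 ^ 24 := by
      have : (Δ : ℝ) ≤ ((ε * 2 ^ 24 : ℕ) : ℝ) := by exact_mod_cast hε
      rw [Nat.cast_mul, Nat.cast_pow, Nat.cast_ofNat] at this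
      rw [sub_nonneg, div_le_iff₀ (by positivity)]
      exact this
    have h2 : (0 : ℝ) ≤ (s : ℤ) * F.D * trip F.fam y v lam 1 2 3 := h1.trans hm
    have h3 : (0 : ℝ) < (s : ℤ) * F.D := by
      push_cast
      positivity
    exact nonneg_of_mul_nonneg_right h2 h3
  have := key (fun a => lam (σ a)) (by rw [pw_perm]; exact hl1) (by rw [pw_perm]; exact hl2)
  rw [trip_perm, h1, h2, h3] at this
  exact this

end Vale.Agent.P098.N
end

section

/-!
# The condition `bdry` of the certificate for `m = 5`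
-/

namespace Vale.Agent.P098.S5

open Vale.Agent.P098.K Vale.Agent.P098.N

/-- A scalar block. -/
def bkS (m : Ex) (bb : ℕ) (ds : List ℕ) (cs : Cs) (rows : List ℕ) : Bk where
  m := m
  t00 := .c 1
  t01 := .c 1
  t11 := .c 1
  bb := bb
  d0 := ds
  d1 := []
  c0 := cs
  c1 := []
  rows := rows

/-- Group A1. -/
def gNA1 : Grp where
  comps := cNA1.map fun c => [c]
  blks := [bkS (.c 1) 31 [0, 0, 4, 0, 0, 0] csNA1_1 rNA1_1,
    bkS (.mul (.c (-4)) (.v 2)) 32 [0, 0, 3, 0, 0, 0] csNA1_L rNA1_L]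

/-- Group E. -/
def gNE : Grp where
  comps := cNE.map fun c => [c]
  blks := [bkS (.c 1) 30 [0, 0, 2, 0, 0, 0] csNE_1 rNE_1,
    bkS (.mul (.c (-4)) (.v 2)) 28 [0, 0, 1, 0, 0, 0] csNE_L rNE_L]

/-- Group T1. -/
def gNT1 : Grp where
  comps := cNT1.map fun c => [c]
  blks := [bkS (.c 1) 30 [0, 0, 1, 0, 0, 0] csNT1_1 rNT1_1,
    bkS (.mul (.c (-4)) (.v 2)) 27 [0, 0, 0, 0, 0, 0] csNT1_L rNT1_L]

/-- Group V. -/
def gNV : Grp where
  comps := cNV.map fun c => [c]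
  blks := [bkS (.c 1) 31 [0, 0, 3, 0, 0, 0] csNV_1 rNV_1,
    bkS (.mul (.c (-4)) (.v 2)) 30 [0, 0, 2, 0, 0, 0] csNV_L rNV_L]

/-- The certificate. -/
def cdN : N.Cd where
  B := 2 ^ 128
  h := 2 ^ 127
  bE := 48
  grps := [gNA1, gNE, gNT1, gNV]

theorem chkN : cdN.chk (NE crd5 phi5 5 ((2 ^ 42 : ℕ) : ℤ)) ((81064793292669 : ℕ) : ℤ)
    2133881627372945408 0 0 = true := by (clear * -; decide +kernel)

theorem stdN : ∀ g ∈ cdN.grps, ∀ b ∈ g.blks, (b.m = .c 1 ∨ b.m = nE (-4) (.v 2)) ∧ b.t00 = .c 1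
      ∧ b.t01 = .c 1 ∧ b.t11 = .c 1 := by
  intro g hg b hb
  simp only [cdN, List.mem_cons, List.not_mem_nil, or_false] at hg
  rcases hg with rfl | rfl | rfl | rfl <;>
  · simp only [gNA1, gNE, gNT1, gNV, List.mem_cons, List.not_mem_nil, or_false] at hb
    rcases hb with rfl | rfl
    · exact ⟨Or.inl rfl, rfl, rfl, rfl⟩
    · exact ⟨Or.inr rfl, rfl, rfl, rfl⟩

/-- The condition `bdry` of the certificate. -/
theorem bdry5 : ∀ lam : Fin 5 → ℝ, pw lam 1 = 0 → pw lam 2 = 1 → lam 0 ≤ 0 →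
    0 ≤ formN phi5.fam lam 0 :=
  bdry5_of (F := phi5) (by decide) (c := cdN) (s := 2 ^ 42) (by norm_num)
    (ε := 81064793292669) (Δ := 2133881627372945408) (by norm_num) chkN stdN

end Vale.Agent.P098.S5
end

section

/-!
# The condition `triple` of the certificate for `m = 5`
-/

namespace Vale.Agent.P098.S5

open Vale.Agent.P098.K Vale.Agent.P098.N

/-- The group without the multiplier. -/
def gT0 : Grp where
  comps := cTA1.map fun c => [c]
  blks := [bkS (.c 1) 33 [1, 1, 2, 0, 0, 0] csTA1_100 rTA1_100,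
    bkS (.mul (.v 1) (.sub (.c 1) (.v 1))) 33 [1, 0, 2, 0, 0, 0] csTA1_101 rTA1_101,
    bkS (.mul (.v 0) (.sub (.c 1) (.v 0))) 32 [0, 1, 2, 0, 0, 0] csTA1_110 rTA1_110,
    bkS (.mul (.mul (.v 0) (.sub (.c 1) (.v 0))) (.mul (.v 1) (.sub (.c 1) (.v 1)))) 33 [0, 0, 2, 0, 0, 0] csTA1_111 rTA1_111]

/-- The group with the multiplier `1 - |lam|^2`. -/
def gT1 : Grp where
  comps := cTA1.map fun c => [c]
  blks := [bkS (.c 1) 33 [1, 1, 1, 0, 0, 0] csTA1_b00 rTA1_b00,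
    bkS (.mul (.v 1) (.sub (.c 1) (.v 1))) 33 [1, 0, 1, 0, 0, 0] csTA1_b01 rTA1_b01,
    bkS (.mul (.v 0) (.sub (.c 1) (.v 0))) 33 [0, 1, 1, 0, 0, 0] csTA1_b10 rTA1_b10,
    bkS (.mul (.mul (.v 0) (.sub (.c 1) (.v 0))) (.mul (.v 1) (.sub (.c 1) (.v 1)))) 33 [0, 0, 1, 0, 0, 0] csTA1_b11 rTA1_b11]

/-- The certificate. -/
def cdT : CdB where
  B := 2 ^ 96
  h := 2 ^ 95
  bE := 4
  grps := [⟨false, gT0⟩, ⟨true, gT1⟩]

theorem chkT : cdT.chk (TrE crd5 phi5 5 ((2 ^ 42 : ℕ) : ℤ)) ((126100789566374 : ℕ) : ℤ)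
    40029225814564274176 0 0 = true := by (clear * -; decide +kernel)

theorem stdT : ∀ g ∈ cdT.grps, ∀ b ∈ g.g.blks, b.m ∈ N.mulT ∧ b.t00 = .c 1
      ∧ b.t01 = .c 1 ∧ b.t11 = .c 1 := by
  intro g hg b hb
  simp only [cdT, List.mem_cons, List.not_mem_nil, or_false] at hg
  rcases hg with rfl | rfl <;>
  · simp only [gT0, gT1, List.mem_cons, List.not_mem_nil, or_false] at hb
    rcases hb with rfl | rfl | rfl | rfl <;>
    exact ⟨by simp [N.mulT, bkS], rfl, rfl, rfl⟩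

/-- The condition `triple` of the certificate. -/
theorem triple5 : ∀ y v : ℝ, 0 ≤ y → y ≤ 1 → 0 ≤ v → v ≤ 1 → ∀ lam : Fin 5 → ℝ, pw lam 1 = 0 →
    pw lam 2 ≤ 1 → ∀ i j k : Fin 5, i ≠ j → j ≠ k → i ≠ k →
      0 ≤ (∑ q ∈ Finset.range phi5.fam.na, (phi5.fam.a q).g y v (pw lam 3) (pw lam 4)
        * (hh (q + 1) (lam i) (lam j) + hh (q + 1) (lam j) (lam k) + hh (q + 1) (lam i) (lam k)))
        + (∑ q ∈ Finset.range phi5.fam.ne, (phi5.fam.e q).g y v (pw lam 3) (pw lam 4)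
        * (lam i ^ phi5.fam.ea q * hh (phi5.fam.ej q) (lam j) (lam k)
          - lam i ^ phi5.fam.ej q * hh (phi5.fam.ea q) (lam j) (lam k)
          + lam j ^ phi5.fam.ea q * hh (phi5.fam.ej q) (lam i) (lam k)
          - lam j ^ phi5.fam.ej q * hh (phi5.fam.ea q) (lam i) (lam k)
          + lam k ^ phi5.fam.ea q * hh (phi5.fam.ej q) (lam i) (lam j)
          - lam k ^ phi5.fam.ej q * hh (phi5.fam.ea q) (lam i) (lam j))) :=
  triple5_of (F := phi5) (by decide) (c := cdT) (s := 2 ^ 42) (by norm_num)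
    (ε := 126100789566374) (Δ := 40029225814564274176) (by norm_num) chkT stdT

end Vale.Agent.P098.S5
end
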