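import Mathlib
import Vale.Agent.P098.Bdl.B2
import Vale.Agent.P098.Bdl.B12
import Vale.Agent.P098.Bdl.B18
import Vale.Agent.P098.Bdl.B21
import Vale.Agent.P098.Bdl.B16
import Vale.Agent.P098.Bdl.B15
import Vale.Agent.P098.Bdl.B5
attribute [-instance] ProperSMul.toContinuousSMul IsTopologicalTorsor.toContinuousSMul IdemSemiring.toCanonicallyOrderedAdd IdemSemiring.toMulLeftMono IdemSemiring.toMulRightMono AddQuantale.instAddLeftMono AddQuantale.instAddRightMono Quantale.instMulLeftMono Quantale.instMulRightMono FiniteDimensional.rclike_to_real IsScalarTower.complexToReal FiniteDimensional.complexToReal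

set_option linter.all false

section

/-! # G2: the graph function is smooth

`S = closure (pos u) ∩ ball 0 (1/4)`, `π x = x + (g x - x 0) • ee 0` (maps `ball 0 (1/8)` into
`S ∩ frontier`, Lipschitz). `u (π x) = 0`. With `y = π x` and `ν` from `hν`:
`0 = u (π (x+h)) - u (π x) = ⟪ν, π(x+h) - π x⟫ + o(‖h‖)` and
`π(x+h) - π x = h - h 0 • e + (g(x+h) - g x) • e`; `⟪ν,e⟫ ≥ 1/2`, so `g` is differentiable at `x`
with `g' h = -⟪ν, h - h 0 • e⟫/⟪ν,e⟫`. By unique differentiability `innerSL ν = fderivWithin ℝ u S y`,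
which is a `C^∞` function of `y ∈ S` (`ContDiffOn.fderivWithin`). So `fderiv ℝ g x = Ψ (π x)` with
`Ψ` `C^∞` on the part of `S` where `⟪ν,e⟫ ≠ 0`. Induction: `g ∈ C^k(ball 0 (1/8))` implies
`π ∈ C^k`, `fderiv g = Ψ ∘ π ∈ C^k` (`ContDiffOn.comp`, `π` maps into `S`), so `g ∈ C^{k+1}`
(`contDiffOn_succ_iff_fderiv_of_isOpen`). -/

open MeasureTheory Set Metric Filter
open scoped ContDiff RealInnerProductSpace Topology NNReal

namespace Vale.Agent.P098

variable {d : ℕ}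

/-- The projection `h ↦ h - h 0 • e` as a continuous linear map. -/
noncomputable def rG2_T (n : ℕ) : E (n + 1) →L[ℝ] E (n + 1) :=
  ContinuousLinearMap.id ℝ (E (n + 1)) -
    (EuclideanSpace.proj (0 : Fin (n + 1)) : E (n + 1) →L[ℝ] ℝ).smulRight (ee 0)

theorem rG2_T_apply {n : ℕ} (h : E (n + 1)) : rG2_T n h = h - h 0 • ee 0 := by
  simp only [rG2_T, sub_apply, ContinuousLinearMap.id_apply, ContinuousLinearMap.smulRight_apply, PiLp.proj_apply]

/-- The map `A ↦ -(A e)⁻¹ • (A ∘ T)`. -/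
noncomputable def rG2_Psi (n : ℕ) (A : E (n + 1) →L[ℝ] ℝ) : E (n + 1) →L[ℝ] ℝ :=
  (-(A (ee 0))⁻¹) • (A.comp (rG2_T n))

theorem rG2_Psi_contDiffOn (n : ℕ) {k : WithTop ℕ∞} :
    ContDiffOn ℝ k (rG2_Psi n) {A | A (ee 0) ≠ 0} := by
  have h1 : ContDiff ℝ k (fun A : E (n + 1) →L[ℝ] ℝ => A (ee 0)) :=
    (ContinuousLinearMap.apply ℝ ℝ (ee (0 : Fin (n + 1)))).contDiff
  have h2 : ContDiff ℝ k (fun A : E (n + 1) →L[ℝ] ℝ => A.comp (rG2_T n)) :=
    ((ContinuousLinearMap.compL ℝ (E (n + 1)) (E (n + 1)) ℝ).flip (rG2_T n)).contDiff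
  have h3 : ContDiffOn ℝ k (fun A : E (n + 1) →L[ℝ] ℝ => (A (ee 0))⁻¹) {A | A (ee 0) ≠ 0} :=
    h1.contDiffOn.inv (fun A hA => hA)
  exact h3.neg.smul h2.contDiffOn

theorem rG2_inner_pos {n : ℕ} {ν : E (n + 1)} (h1 : ‖ν‖ = 1) (h2 : ‖ν - ee 0‖ ≤ 1 / 2) :
    0 < ⟪ν, ee 0⟫ := by
  have h3 : ‖(ee 0 : E (n + 1))‖ = 1 := by simp only [PiLp.norm_single, norm_one]
  have h4 := @norm_sub_sq_real (E (n + 1)) _ _ ν (ee 0)
  rw [h1, h3] at h4
  have h5 : ‖ν - ee 0‖ ^ 2 ≤ (1 / 2) ^ 2 := by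
    apply pow_le_pow_left₀ (norm_nonneg _) h2
  linarith only [h5, h4]

theorem rG2_lip {n : ℕ} {g : E (n + 1) → ℝ}
    (hL : ∀ x ∈ ball (0 : E (n + 1)) (1 / 8), ∀ y ∈ ball (0 : E (n + 1)) (1 / 8),
      |g x - g y| ≤ ‖x - y‖ / 2) {x y : E (n + 1)} (hx : x ∈ ball (0 : E (n + 1)) (1 / 8))
    (hy : y ∈ ball (0 : E (n + 1)) (1 / 8)) :
    ‖(y + (g y - y 0) • ee 0) - (x + (g x - x 0) • ee 0)‖ ≤ 3 * ‖y - x‖ := by
  have h1 : (y + (g y - y 0) • ee 0) - (x + (g x - x 0) • ee 0)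
      = (y - x) + ((g y - g x) - (y - x) 0) • (ee 0 : E (n + 1)) := by
    simp only [PiLp.sub_apply]
    module
  rw [h1]
  have h2 : |(y - x) 0| ≤ ‖y - x‖ := by
    have := EuclideanSpace.norm_eq (y - x)
    have h := PiLp.norm_apply_le (y - x) (0 : Fin (n + 1))
    simpa only [PiLp.sub_apply, ge_iff_le, Real.norm_eq_abs] using h
  have h3 := hL y hy x hx
  have h4 : ‖(ee 0 : E (n + 1))‖ = 1 := by simp only [PiLp.norm_single, norm_one]
  calc ‖(y - x) + ((g y - g x) - (y - x) 0) • (ee 0 : E (n + 1))‖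
      ≤ ‖y - x‖ + ‖((g y - g x) - (y - x) 0) • (ee 0 : E (n + 1))‖ := norm_add_le _ _
    _ = ‖y - x‖ + |(g y - g x) - (y - x) 0| := by rw [norm_smul, h4, mul_one, Real.norm_eq_abs]
    _ ≤ ‖y - x‖ + (|g y - g x| + |(y - x) 0|) := by gcongr; exact abs_sub _ _
    _ ≤ 3 * ‖y - x‖ := by linarith only [h2, h3, norm_nonneg (y - x)]

theorem rG2_hasFDerivAt {n : ℕ} {u g : E (n + 1) → ℝ}
    (hL : ∀ x ∈ ball (0 : E (n + 1)) (1 / 8), ∀ y ∈ ball (0 : E (n + 1)) (1 / 8),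
      |g x - g y| ≤ ‖x - y‖ / 2)
    (hfr : ∀ x ∈ ball (0 : E (n + 1)) (1 / 8), x + (g x - x 0) • ee 0 ∈ frontier (pos u) ∧
      x + (g x - x 0) • ee 0 ∈ ball (0 : E (n + 1)) (1 / 4))
    (hu0 : ∀ y ∈ frontier (pos u), u y = 0) {x : E (n + 1)}
    (hx : x ∈ ball (0 : E (n + 1)) (1 / 8)) {A : E (n + 1) →L[ℝ] ℝ} (hA : A (ee 0) ≠ 0)
    (hd : HasFDerivWithinAt u A (closure (pos u)) (x + (g x - x 0) • ee 0)) :
    HasFDerivAt g (rG2_Psi n A) x := by
  set p : E (n + 1) → E (n + 1) := fun x => x + (g x - x 0) • ee 0 with hp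
  have hB : ball (0 : E (n + 1)) (1 / 8) ∈ 𝓝 x := isOpen_ball.mem_nhds hx
  -- `p` is continuous at `x`
  have hO : (fun x' => p x' - p x) =O[𝓝 x] (fun x' => x' - x) := by
    apply Asymptotics.IsBigO.of_bound 3
    filter_upwards [hB] with x' hx'
    exact rG2_lip hL hx hx'
  have hcont : Tendsto p (𝓝 x) (𝓝 (p x)) := by
    rw [tendsto_iff_norm_sub_tendsto_zero]
    have h0 : Tendsto (fun x' : E (n + 1) => 3 * ‖x' - x‖) (𝓝 x) (𝓝 0) := by
      have : Continuous (fun x' : E (n + 1) => 3 * ‖x' - x‖) := by fun_prop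
      simpa only [sub_self, norm_zero, mul_zero] using this.tendsto x
    refine squeeze_zero' (Eventually.of_forall fun _ => norm_nonneg _) ?_ h0
    filter_upwards [hB] with x' hx'
    exact rG2_lip hL hx hx'
  have hcw : Tendsto p (𝓝 x) (𝓝[closure (pos u)] (p x)) := by
    rw [tendsto_nhdsWithin_iff]
    refine ⟨hcont, ?_⟩
    filter_upwards [hB] with x' hx'
    exact frontier_subset_closure (hfr x' hx').1
  have h1 : (fun x' => A (p x' - p x)) =o[𝓝 x] (fun x' => x' - x) := by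
    have h2 := (hd.isLittleO.comp_tendsto hcw).trans_isBigO hO
    have h3 : (fun x' => A (p x' - p x)) =ᶠ[𝓝 x]
        fun x' => -((fun z => u z - u (p x) - A (z - p x)) ∘ p) x' := by
      filter_upwards [hB] with x' hx'
      simp only [Function.comp]
      rw [hu0 _ (hfr x' hx').1, hu0 _ (hfr x hx).1]
      ring
    exact (h3.trans_isLittleO h2.neg_left)
  have h4 : (fun x' => g x' - g x - rG2_Psi n A (x' - x)) =
      fun x' => (A (ee 0))⁻¹ * A (p x' - p x) := by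
    funext x'
    have h5 : p x' - p x = rG2_T n (x' - x) + (g x' - g x) • ee 0 := by
      rw [rG2_T_apply]
      simp only [hp, PiLp.sub_apply]
      module
    rw [h5, map_add, map_smul]
    simp only [rG2_Psi, smul_apply, ContinuousLinearMap.comp_apply, smul_eq_mul]
    field_simp
    ring
  rw [hasFDerivAt_iff_isLittleO]
  rw [h4]
  exact h1.const_mul_left _

theorem graph_smooth {n : ℕ} {u g : E (n + 1) → ℝ}
    (hg : ∀ x (t : ℝ), g (x + t • ee 0) = g x)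
    (hL : ∀ x ∈ ball (0 : E (n + 1)) (1 / 8), ∀ y ∈ ball (0 : E (n + 1)) (1 / 8),
      |g x - g y| ≤ ‖x - y‖ / 2)
    (hfr : ∀ x ∈ ball (0 : E (n + 1)) (1 / 8), x + (g x - x 0) • ee 0 ∈ frontier (pos u) ∧
      x + (g x - x 0) • ee 0 ∈ ball (0 : E (n + 1)) (1 / 4))
    (hS : ContDiffOn ℝ ∞ u (closure (pos u) ∩ ball 0 (1 / 4)))
    (hU : UniqueDiffOn ℝ (closure (pos u) ∩ ball 0 (1 / 4)))
    (hu0 : ∀ y ∈ frontier (pos u), u y = 0)
    (hν : ∀ y ∈ frontier (pos u), y ∈ ball (0 : E (n + 1)) (1 / 4) →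
      ∃ ν : E (n + 1), ‖ν‖ = 1 ∧ ‖ν - ee 0‖ ≤ 1 / 2 ∧
        HasFDerivWithinAt u (innerSL ℝ ν) (closure (pos u)) y) :
    ContDiffOn ℝ ∞ g (ball 0 (1 / 8)) := by
  have _ := hg
  set S : Set (E (n + 1)) := closure (pos u) ∩ ball 0 (1 / 4) with hSdef
  set p : E (n + 1) → E (n + 1) := fun x => x + (g x - x 0) • ee 0 with hp
  have hpS : ∀ x ∈ ball (0 : E (n + 1)) (1 / 8), p x ∈ S := fun x hx =>
    ⟨frontier_subset_closure (hfr x hx).1, (hfr x hx).2⟩
  have key : ∀ x ∈ ball (0 : E (n + 1)) (1 / 8), fderivWithin ℝ u S (p x) (ee 0) ≠ 0 ∧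
      HasFDerivAt g (rG2_Psi n (fderivWithin ℝ u S (p x))) x := by
    intro x hx
    obtain ⟨ν, h1, h2, h3⟩ := hν (p x) (hfr x hx).1 (hfr x hx).2
    have h4 : fderivWithin ℝ u S (p x) = innerSL ℝ ν :=
      (h3.mono inter_subset_left).fderivWithin (hU _ (hpS x hx))
    have h5 : (innerSL ℝ ν) (ee 0 : E (n + 1)) ≠ 0 := by
      rw [innerSL_apply_apply]
      exact (rG2_inner_pos h1 h2).ne'
    rw [h4]
    exact ⟨h5, rG2_hasFDerivAt hL hfr hu0 hx h5 h3⟩
  have hcont : ContinuousOn g (ball 0 (1 / 8)) := fun x hx =>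
    (key x hx).2.continuousAt.continuousWithinAt
  have main : ∀ k : ℕ, ContDiffOn ℝ k g (ball 0 (1 / 8)) := by
    intro k
    induction k with
    | zero => exact contDiffOn_zero.2 hcont
    | succ k ih =>
      have hk : ((k + 1 : ℕ) : WithTop ℕ∞) = (k : WithTop ℕ∞) + 1 := by push_cast; rfl
      rw [hk, contDiffOn_succ_iff_fderiv_of_isOpen isOpen_ball]
      refine ⟨fun x hx => (key x hx).2.differentiableAt.differentiableWithinAt, ?_, ?_⟩
      · intro h; exact absurd h (by simp)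
      · have h1 : ContDiffOn ℝ k (fderivWithin ℝ u S) S :=
          hS.fderivWithin hU (by
            have : ((k : WithTop ℕ∞) + 1) = ((k + 1 : ℕ) : WithTop ℕ∞) := by push_cast; rfl
            rw [this]
            exact_mod_cast le_top)
        have h2 : ContDiffOn ℝ k p (ball 0 (1 / 8)) := by
          have h3 : ContDiff ℝ k (fun x : E (n + 1) => x 0) :=
            (EuclideanSpace.proj (0 : Fin (n + 1)) : E (n + 1) →L[ℝ] ℝ).contDiff
          exact contDiffOn_id.add ((ih.sub h3.contDiffOn).smul contDiffOn_const)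
        have h4 : ContDiffOn ℝ k (fun x => rG2_Psi n (fderivWithin ℝ u S (p x))) (ball 0 (1 / 8)) :=
          (rG2_Psi_contDiffOn n).comp (h1.comp h2 hpS) (fun x hx => (key x hx).1)
        exact h4.congr (fun x hx => (key x hx).2.fderiv)
  exact contDiffOn_infty.2 main

end Vale.Agent.P098
end


section

/-!
# The condition `formC_pos` for `m = 5` from the fast checker on the ball
-/

namespace Vale.Agent.P098.N

open Vale.Agent.P098.K

/-- The form on the ball is positive definite if all entries pass the check. The index `i` of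
the check stands for the index `i + 1` of `TE`. -/
theorem formC_pos5_F {F : FD} (hD : 0 < F.D) (hd : 0 < F.ad) {α : ℝ} (hα : (F.ad : ℝ) * α = F.an)
    {c : CdBF} {s : ℕ} (hs : 0 < s) {ε Δ : ℕ} (hε : 5 * Δ < ε * 2 ^ 24) {T : ℕ → ℕ → Ex}
    (hT : ∀ (X : ℕ → ℝ) (i j : ℕ), i < 5 → j < 5 →
      evE rs6 X (T i j) = evE rs6 X (TE crd5 F 5 s (i + 1) (j + 1)))
    (hchk : ∀ i < 5, ∀ j < 5, i ≤ j → c.chk (T i j) (if i = j then (ε : ℤ) else 0) Δ i j = true)
    (hst : ∀ g ∈ c.grps, ∀ b ∈ g.g.blks, mulOk b.m = true ∧ b.t00 = .c 1 ∧ b.t01 = .c 1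
      ∧ b.t11 = .c 1) :
    ∀ y v : ℝ, 0 ≤ y → y ≤ 1 → 0 ≤ v → v ≤ 1 → ∀ lam : Fin 5 → ℝ, pw lam 1 = 0 →
    pw lam 2 ≤ 1 → ∀ (t : ℝ) (x : Fin 5 → ℝ), ∑ i, x i = 0 →
      ¬ (t = 0 ∧ x = 0) → 0 < formC F.fam α y v lam 0 x t := by
  intro y v hy0 hy1 hv0 hv1 lam hl1 hl2 t x hx hne
  obtain ⟨hX, hsph⟩ := pt5_ok hy0 hy1 hv0 hv1 hl1 hl2
  have hm := ball_main (grps := c.grps.map GBF.toGB) (by rw [hsph]; exact hl2) (n := 5) (T := T)
    (fun i hi j hj hij => CdBF.chk_sound hX (hchk i hi j hj hij))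
    (fun i hi j hj => by rw [hT _ i j hi hj, hT _ j i hj hi, TE_symm]) (ρ := 1) (by simp)
    (by
      intro g' hg' b' hb'
      obtain ⟨g, hg, rfl⟩ := List.mem_map.mp hg'
      obtain ⟨b, hb, rfl⟩ := List.mem_map.mp hb'
      obtain ⟨h1, h2, h3, h4⟩ := hst g hg b hb
      have h2' : b.toBk.t00 = .c 1 := h2
      have h3' : b.toBk.t01 = .c 1 := h3
      have h4' : b.toBk.t11 = .c 1 := h4
      refine ⟨mulOk_nonneg (by simpa only [pt5_0] using hy0) (by simpa only [pt5_0] using hy1)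
        (by simpa only [pt5_1] using hv0) (by simpa only [pt5_1] using hv1) b.toBk.m h1, 1, 1, ?_, ?_, ?_⟩
      · rw [h2']; simp
      · rw [h3']; simp only [evE_c, Int.cast_one, mul_one]
      · rw [h4']; simp) (fun i => vec5 0 t x (i + 1))
  have hform := form_eq (rs := rs6) (X := pt5 y v lam) (G := crd5) (m := 4) (n := 5) F
    hD.ne' hα (ptX5 hl1) (ρ := 1) (ξ := 0) (U := vec5 0 t x) rfl (ptU5 (t := t) hx)
    (fun i => rfl) s
  have hshift : ∑ i ∈ Finset.range 5, ∑ j ∈ Finset.range 5, evE rs6 (pt5 y v lam) (T i j)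
        * (wgt 1 i j * (vec5 0 t x (i + 1) * vec5 0 t x (j + 1)))
      = 2 * s * F.ad * F.D * formC F.fam α y v lam 0 x t := by
    have e0 : vec5 0 t x 0 = 0 := rfl
    have e1 : ∀ i j, wgt 1 i j = 1 := fun i j => by simp [wgt]
    rw [Finset.sum_range_succ' _ 5] at hform
    simp only [Finset.sum_range_succ' _ 5, e0, zero_mul, mul_zero, e1, one_mul, add_zero,
      Finset.sum_const_zero, zero_pow two_ne_zero, zero_add] at hform
    simp only [e1, one_mul]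
    refine Eq.trans (Finset.sum_congr rfl fun i hi => Finset.sum_congr rfl fun j hj => ?_)
      (hform.trans ?_)
    · rw [hT _ i j (Finset.mem_range.mp hi) (Finset.mem_range.mp hj)]
    · push_cast
      ring
  rw [hshift] at hm
  have hu : 0 < ∑ i ∈ Finset.range 5, vec5 0 t x (i + 1) ^ 2 := by
    by_contra hcon
    have h0 : ∑ i ∈ Finset.range 5, vec5 0 t x (i + 1) ^ 2 = 0 :=
      le_antisymm (not_lt.mp hcon) (Finset.sum_nonneg fun i _ => sq_nonneg _)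
    have h1 := (Finset.sum_eq_zero_iff_of_nonneg fun i _ => sq_nonneg (vec5 0 t x (i + 1))).mp h0
    have h2 : ∀ i < 5, vec5 0 t x (i + 1) = 0 := fun i hi =>
      pow_eq_zero_iff two_ne_zero |>.mp (h1 i (Finset.mem_range.mpr hi))
    have e1 := h2 0 (by norm_num)
    have e2 := h2 1 (by norm_num)
    have e3 := h2 2 (by norm_num)
    have e4 := h2 3 (by norm_num)
    have e5 := h2 4 (by norm_num)
    simp only [Nat.reduceAdd, vec5_1, vec5_2, vec5_3, vec5_4, vec5_5] at e1 e2 e3 e4 e5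
    have h5 : x 0 + x 1 + x 2 + x 3 + x 4 = 0 := by
      simpa only [Fin.isValue, add_assoc, Fin.sum_univ_succ, Fin.succ_zero_eq_one, Fin.succ_one_eq_two,     Fin.reduceSucc, Finset.univ_unique, Fin.default_eq_zero, Finset.sum_singleton] using hx
    refine hne ⟨e5, ?_⟩
    funext i
    fin_cases i
    · simp; linarith only [e1]
    · simp; linarith only [e1, e2, e3, e4, h5]
    · simp; linarith only [e1, e2, e3, e4, h5]
    · simp; linarith only [e1, e2, e3, e4, h5]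
    · simp; linarith only [e1, e2, e3, e4, h5]
  have hpos : (0 : ℝ) < (ε : ℝ) - (5 : ℕ) * (Δ / 2 ^ 24) := by
    have : ((5 * Δ : ℕ) : ℝ) < ((ε * 2 ^ 24 : ℕ) : ℝ) := by exact_mod_cast hε
    push_cast at this
    have h2 : (5 : ℝ) * (Δ / 2 ^ 24) < ε := by
      rw [← mul_div_assoc, div_lt_iff₀ (by positivity)]
      have e : (2 : ℝ) ^ 24 = 16777216 := by norm_num
      rw [e]
      exact this
    push_cast
    linarith only [this]
  have h6 := lt_of_lt_of_le (mul_pos hpos hu) hm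
  have h7 : (0 : ℝ) < 2 * s * F.ad * F.D := by
    have : (0 : ℝ) < F.ad := by exact_mod_cast hd
    positivity
  exact (pos_iff_pos_of_mul_pos h6).mp h7

/-- The same with the fast target. -/
theorem formC_pos5_T5 {F : FD} (hD : 0 < F.D) (hd : 0 < F.ad) {α : ℝ} (hα : (F.ad : ℝ) * α = F.an)
    {c : CdBF} {s : ℕ} (hs : 0 < s) {ε Δ : ℕ} (hε : 5 * Δ < ε * 2 ^ 24)
    (hchk : ∀ i < 5, ∀ j < 5, i ≤ j →
      c.chk (T5 F s (i + 1) (j + 1)) (if i = j then (ε : ℤ) else 0) Δ i j = true)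
    (hst : ∀ g ∈ c.grps, ∀ b ∈ g.g.blks, mulOk b.m = true ∧ b.t00 = .c 1 ∧ b.t01 = .c 1
      ∧ b.t11 = .c 1) :
    ∀ y v : ℝ, 0 ≤ y → y ≤ 1 → 0 ≤ v → v ≤ 1 → ∀ lam : Fin 5 → ℝ, pw lam 1 = 0 →
    pw lam 2 ≤ 1 → ∀ (t : ℝ) (x : Fin 5 → ℝ), ∑ i, x i = 0 →
      ¬ (t = 0 ∧ x = 0) → 0 < formC F.fam α y v lam 0 x t := by
  refine formC_pos5_F (c := c) (T := fun i j => T5 F s (min i j + 1) (max i j + 1)) hD hd hα hs hε
    ?_ ?_ hst
  · intro X i j hi hj
    rcases le_total i j with h | h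
    · simp only [min_eq_left h, max_eq_right h]
      exact evE_T5 F s (by omega) (by omega)
    · simp only [min_eq_right h, max_eq_left h]
      rw [evE_T5 F s (by omega) (by omega), TE_symm]
  · intro i hi j hj hij
    simp only [min_eq_left hij, max_eq_right hij]
    exact hchk i hi j hj hij

end Vale.Agent.P098.N
end

section

/-!
# The condition `kappa` of the family `phi5` for `m = 2, 3, 4`

With the splitting function `H` of the case `m = 5` we have `v K + (1 - y)² G =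
v (K + (1 - y)² H) + (1 - y)² (G - v H)`. The second bracket does not see `m`; the first is
concave in `m` and positive for `m = 5`, and for `m = 2` it is a quadratic polynomial in
`τ = pw 3` and `ι = pw 4`, for traceless unit vectors in `R^4`.
-/

namespace Vale.Agent.P098.S5.Low

open Vale.Agent.P098.K Vale.Agent.P098.N

/-! ### Coefficient lists -/

/-- Multiplication by a monomial. -/
def mulM (c : ℤ) (a s u : ℕ) (l : List Mo) : List Mo :=
  l.map fun q => (c * q.1, q.2.1 + a, q.2.2.1, q.2.2.2.1 + s, q.2.2.2.2 + u)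

theorem pe_mulM (c : ℤ) (a s u : ℕ) (l : List Mo) (y v t i : ℝ) :
    pe (mulM c a s u l) y v t i = c * (y ^ a * t ^ s * i ^ u) * pe l y v t i := by
  induction l with
  | nil => simp only [mulM, List.map_nil, pe, mul_zero]
  | cons q l ih =>
    simp only [mulM, List.map_cons, pe] at ih ⊢
    rw [ih]
    simp only [me]
    push_cast
    ring

theorem pe_append (l r : List Mo) (y v t i : ℝ) :
    pe (l ++ r) y v t i = pe l y v t i + pe r y v t i := by
  induction l with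
  | nil => simp [pe]
  | cons q l ih => simp only [List.cons_append, pe, ih]; ring

/-- Equality of exponents. -/
def sameK (q r : Mo) : Bool :=
  Nat.beq q.2.1 r.2.1 && Nat.beq q.2.2.1 r.2.2.1 && Nat.beq q.2.2.2.1 r.2.2.2.1
    && Nat.beq q.2.2.2.2 r.2.2.2.2

theorem sameK_eq {q r : Mo} (h : sameK q r = true) : q.2 = r.2 := by
  obtain ⟨n, a, b, c, d⟩ := q
  obtain ⟨n', a', b', c', d'⟩ := r
  simp only [sameK, Bool.and_eq_true] at h
  obtain ⟨⟨⟨h1, h2⟩, h3⟩, h4⟩ := h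
  have h1 := Nat.eq_of_beq_eq_true h1
  have h2 := Nat.eq_of_beq_eq_true h2
  have h3 := Nat.eq_of_beq_eq_true h3
  have h4 := Nat.eq_of_beq_eq_true h4
  subst h1 h2 h3 h4
  rfl

/-- Insertion of a term. -/
def ins (q : Mo) : List Mo → List Mo
  | [] => [q]
  | r :: l => bif sameK q r then (q.1 + r.1, r.2) :: l else r :: ins q l

/-- Collection of terms. -/
def nrm : List Mo → List Mo
  | [] => []
  | q :: l => ins q (nrm l)

theorem pe_ins (q : Mo) (l : List Mo) (y v t i : ℝ) :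
    pe (ins q l) y v t i = me q y v t i + pe l y v t i := by
  induction l with
  | nil => rfl
  | cons r l ih =>
    simp only [ins]
    cases h : sameK q r with
    | false => simp only [cond_false, pe, ih]; ring
    | true =>
      have h2 := sameK_eq h
      simp only [cond_true, pe, me, h2]
      push_cast
      ring

theorem pe_nrm (l : List Mo) (y v t i : ℝ) : pe (nrm l) y v t i = pe l y v t i := by
  induction l with
  | nil => rfl
  | cons q l ih => simp only [nrm, pe_ins, ih, pe]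

/-! ### Bernstein coefficients in `y, v` -/

/-- `y ^ a` in the Bernstein basis of degree four. -/
def b4 : List (List ℤ) :=
  [[1, 4, 6, 4, 1], [0, 1, 3, 3, 1], [0, 0, 1, 2, 1], [0, 0, 0, 1, 1], [0, 0, 0, 0, 1]]

/-- `v ^ b` in the Bernstein basis of degree two. -/
def b2 : List (List ℤ) := [[1, 2, 1], [0, 1, 1], [0, 0, 1]]

/-- Entries. -/
def g2 (T : List (List ℤ)) (a i : ℕ) : ℤ := (T.getD a []).getD i 0

/-- The index of the monomial `τ ^ c ι ^ d`. -/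
def ix (c d : ℕ) : ℕ := (c + d) * (c + d + 1) / 2 + d

/-- Bernstein coefficient in `y, v` of the polynomial obtained by the substitution
`τ ^ c ι ^ d ↦ B.getD (ix c d) 0`. -/
def en (B : List ℤ) (i j : ℕ) : List Mo → ℤ
  | [] => 0
  | q :: l => q.1 * (B.getD (ix q.2.2.2.1 q.2.2.2.2) 0 * (g2 b4 q.2.1 i * g2 b2 q.2.2.1 j))
      + en B i j l

/-- The matrix of Bernstein coefficients. -/
def mat (B : List ℤ) (L : List Mo) : Bn.Mt :=
  [[en B 0 0 L, en B 0 1 L, en B 0 2 L], [en B 1 0 L, en B 1 1 L, en B 1 2 L],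
    [en B 2 0 L, en B 2 1 L, en B 2 2 L], [en B 3 0 L, en B 3 1 L, en B 3 2 L],
    [en B 4 0 L, en B 4 1 L, en B 4 2 L]]

/-- The polynomial obtained by the substitution `τ ^ c ι ^ d ↦ B.getD (ix c d) 0`. -/
noncomputable def pb (B : List ℤ) : List Mo → ℝ → ℝ → ℝ
  | [], _, _ => 0
  | q :: l, y, v => q.1 * (B.getD (ix q.2.2.2.1 q.2.2.2.2) 0 * (y ^ q.2.1 * v ^ q.2.2.1))
      + pb B l y v

/-- Exponents in the allowed range. -/
def okq (q : Mo) : Bool :=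
  Nat.ble q.2.1 4 && Nat.ble q.2.2.1 2 && Nat.ble (q.2.2.2.1 + q.2.2.2.2) 2

theorem col4 (a : ℕ) (ha : a ≤ 4) (y : ℝ) :
    (g2 b4 a 0 : ℝ) * (1 - y) ^ 4 + g2 b4 a 1 * ((1 - y) ^ 3 * y)
      + g2 b4 a 2 * ((1 - y) ^ 2 * y ^ 2) + g2 b4 a 3 * ((1 - y) * y ^ 3)
      + g2 b4 a 4 * y ^ 4 = y ^ a := by
  interval_cases a <;> simp [g2, b4] <;> ring

theorem col2 (b : ℕ) (hb : b ≤ 2) (v : ℝ) :
    (g2 b2 b 0 : ℝ) * (1 - v) ^ 2 + g2 b2 b 1 * ((1 - v) * v) + g2 b2 b 2 * v ^ 2 = v ^ b := by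
  interval_cases b <;> simp [g2, b2] <;> ring

theorem evm_mat (B : List ℤ) {L : List Mo} (h : L.all okq = true) (y v : ℝ) :
    Bn.evm 2 (mat B L) (1 - y) y (1 - v) v = pb B L y v := by
  simp only [Bn.evm, mat, Bn.ev, Bn.evn, List.length_cons, List.length_nil]
  norm_num
  induction L with
  | nil => simp only [en, Int.cast_zero, zero_mul, mul_zero, add_zero, pb]
  | cons q l ih =>
    simp only [List.all_cons, Bool.and_eq_true] at h
    have ih := ih h.2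
    have hq := h.1
    simp only [okq, Bool.and_eq_true] at hq
    have h4 := col4 q.2.1 (Nat.le_of_ble_eq_true hq.1.1) y
    have h2 := col2 q.2.2.1 (Nat.le_of_ble_eq_true hq.1.2) v
    simp only [en, pb]
    push_cast
    linear_combination ih + q.1 * (B.getD (ix q.2.2.2.1 q.2.2.2.2) 0 : ℤ)
      * (h4 * ((g2 b2 q.2.2.1 0 : ℝ) * (1 - v) ^ 2 + g2 b2 q.2.2.1 1 * ((1 - v) * v)
        + g2 b2 q.2.2.1 2 * v ^ 2) + y ^ q.2.1 * h2)

/-! ### Bernstein coefficients in `τ, ι` on trapezoids -/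

/-- `6400 τ ^ c ι ^ d` in the Bernstein basis of bidegree `(2, 2)` on the trapezoid with
the sign `+` of `τ`. -/
def tP : List (List ℤ) :=
  [[6400, 0, 1200, 0, 0, 225], [12800, 0, 5040, 0, 0, 1440], [6400, 0, 3840, 0, 0, 2304], [12800,
   3840, 4320, 0, 720, 1170], [25600, 7680, 12000, 0, 3024, 5184], [12800, 3840, 7680, 0, 2304,
   4608], [6400, 3840, 3120, 2304, 1872, 1521], [12800, 7680, 6960, 4608, 4176, 3744], [6400,
   3840, 3840, 2304, 2304, 2304]]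

/-- `6400 τ ^ c ι ^ d` in the Bernstein basis of bidegree `(2, 2)` on the trapezoid with
the sign `-` of `τ`. -/
def tM : List (List ℤ) :=
  [[6400, 0, 1200, 0, 0, 225], [12800, 0, 5040, 0, 0, 1440], [6400, 0, 3840, 0, 0, 2304], [12800,
   -3840, 4320, 0, -720, 1170], [25600, -7680, 12000, 0, -3024, 5184], [12800, -3840, 7680, 0,
   -2304, 4608], [6400, -3840, 3120, 2304, -1872, 1521], [12800, -7680, 6960, 4608, -4176, 3744],
   [6400, -3840, 3840, 2304, -2304, 2304]]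

/-- The Bernstein basis. -/
noncomputable def bb (r : ℕ) (x θ : ℝ) : ℝ :=
  ((1 - x) ^ (2 - r / 3) * x ^ (r / 3)) * ((1 - θ) ^ (2 - r % 3) * θ ^ (r % 3))

theorem bb_nonneg (r : ℕ) {x θ : ℝ} (h0 : 0 ≤ x) (h1 : x ≤ 1) (h2 : 0 ≤ θ) (h3 : θ ≤ 1) :
    0 ≤ bb r x θ := by
  have : 0 ≤ 1 - x := by linarith only [h1]
  have : 0 ≤ 1 - θ := by linarith only [h3]
  unfold bb
  positivity

/-- The table `T` expresses `6400 τ ^ c ι ^ d` in the Bernstein basis. -/
def Rep (T : List (List ℤ)) (x θ t i : ℝ) : Prop :=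
  ∀ c d : ℕ, c + d ≤ 2 →
    6400 * (t ^ c * i ^ d) = ∑ r ∈ Finset.range 9, ((T.getD r []).getD (ix c d) 0 : ℤ) * bb r x θ

theorem rep_tP (x θ : ℝ) :
    Rep tP x θ (3 / 5 * x) ((1 - θ) * (3 / 16 + 3 / 10 * x) + θ * (3 / 5)) := by
  intro c d h
  have hc : c ≤ 2 := by omega
  have hd : d ≤ 2 := by omega
  interval_cases c <;> interval_cases d <;> first
    | omega
    | (simp [Finset.sum_range_succ, tP, ix, bb]; ring)

theorem rep_tM (x θ : ℝ) :
    Rep tM x θ (-(3 / 5 * x)) ((1 - θ) * (3 / 16 + 3 / 10 * x) + θ * (3 / 5)) := by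
  intro c d h
  have hc : c ≤ 2 := by omega
  have hd : d ≤ 2 := by omega
  interval_cases c <;> interval_cases d <;> first
    | omega
    | (simp [Finset.sum_range_succ, tM, ix, bb]; ring)

theorem pe_rep {T : List (List ℤ)} {x θ t i : ℝ} (hT : Rep T x θ t i) {L : List Mo}
    (h : L.all okq = true) (y v : ℝ) :
    6400 * pe L y v t i = ∑ r ∈ Finset.range 9, pb (T.getD r []) L y v * bb r x θ := by
  induction L with
  | nil => simp [pe, pb]
  | cons q l ih =>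
    simp only [List.all_cons, Bool.and_eq_true] at h
    have ih := ih h.2
    have hq := h.1
    simp only [okq, Bool.and_eq_true] at hq
    have h2 := hT q.2.2.2.1 q.2.2.2.2 (Nat.le_of_ble_eq_true hq.2)
    simp only [pe, pb, me, mul_add, add_mul, Finset.sum_add_distrib]
    rw [ih]
    have h3 : ∑ r ∈ Finset.range 9, (q.1 : ℝ)
        * ((((T.getD r []).getD (ix q.2.2.2.1 q.2.2.2.2) 0 : ℤ) : ℝ)
          * (y ^ q.2.1 * v ^ q.2.2.1)) * bb r x θ
        = q.1 * (y ^ q.2.1 * v ^ q.2.2.1) * ∑ r ∈ Finset.range 9,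
          (((T.getD r []).getD (ix q.2.2.2.1 q.2.2.2.2) 0 : ℤ) : ℝ) * bb r x θ := by
      rw [Finset.mul_sum]
      refine Finset.sum_congr rfl fun r _ => ?_
      ring
    rw [h3, ← h2]
    ring

/-- The check. -/
def chkT (T : List (List ℤ)) (S : List Bn.Tr) (L : List Mo) : ℕ → Bool
  | 0 => true
  | r + 1 => chkT T S L r && Bn.chk 2 2 2 (S.getD r .lf) (mat (T.getD r []) L)
      (mat (T.getD r []) L) (mat (T.getD r []) L)

theorem chkT_pos {T : List (List ℤ)} {S : List Bn.Tr} {L : List Mo} {n : ℕ}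
    (h : chkT T S L n = true) : ∀ r < n, ∀ s t u w : ℝ, 0 ≤ s → 0 ≤ t → 0 ≤ u → 0 ≤ w →
      0 ≤ Bn.evm 2 (mat (T.getD r []) L) s t u w := by
  induction n with
  | zero => intro r hr; omega
  | succ n ih =>
    simp only [chkT, Bool.and_eq_true] at h
    intro r hr s t u w hs ht hu hw
    rcases Nat.lt_succ_iff_lt_or_eq.mp hr with hr | rfl
    · exact ih h.1 r hr s t u w hs ht hu hw
    · rcases Bn.chk_sound _ h.2 s t u w hs ht hu hw with h2 | h2
      · exact h2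
      · exact h2.1

theorem pe_nonneg {T : List (List ℤ)} {S : List Bn.Tr} {L : List Mo} (hc : chkT T S L 9 = true)
    (h : L.all okq = true) {x θ t i : ℝ} (hT : Rep T x θ t i) (h0 : 0 ≤ x) (h1 : x ≤ 1)
    (h2 : 0 ≤ θ) (h3 : θ ≤ 1) {y v : ℝ} (hy0 : 0 ≤ y) (hy1 : y ≤ 1) (hv0 : 0 ≤ v) (hv1 : v ≤ 1) :
    0 ≤ pe L y v t i := by
  have h4 := pe_rep hT h y v
  have h5 : 0 ≤ ∑ r ∈ Finset.range 9, pb (T.getD r []) L y v * bb r x θ := by
    refine Finset.sum_nonneg fun r hr => mul_nonneg ?_ (bb_nonneg r h0 h1 h2 h3)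
    rw [← evm_mat _ h]
    exact chkT_pos hc r (Finset.mem_range.mp hr) _ _ _ _ (by linarith only [hy1]) hy0 (by linarith only [hv1]) hv0
  linarith only [h4, h5]

/-- Subdivisions. -/
def sP : List Bn.Tr :=
  [(.y (.y .lf .lf) .lf), (.y .lf .lf), (.y .lf .lf), (.y .lf .lf), (.y .lf .lf), (.y .lf .lf),
   (.y (.y .lf .lf) .lf), (.y (.y .lf .lf) .lf), (.y (.y .lf .lf) .lf)]

/-- Subdivisions. -/
def sM : List Bn.Tr :=
  [(.y (.y .lf .lf) .lf), (.y .lf .lf), (.y .lf .lf), (.y .lf (.v .lf .lf)), (.y .lf (.v .lf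
   .lf)), (.y .lf .lf), (.y (.y .lf .lf) .lf), (.y (.y .lf .lf) .lf), (.y .lf .lf)]

/-- The collected polynomial. -/
def qn : List Mo :=
  [(3260592, 0, 0, 0, 0), (-4064982, 4, 2, 1, 0), (22364339, 4, 1, 1, 0), (-9592364, 4, 0, 1, 0),
   (-10630341, 3, 2, 1, 0), (-11350144, 3, 1, 1, 0), (2494561, 3, 0, 1, 0), (25781146, 2, 2, 1,
   0), (-35376823, 2, 1, 1, 0), (24900505, 2, 0, 1, 0), (2583420, 4, 2, 2, 0), (-4704060, 4, 2, 1,
   1), (8220372, 4, 2, 0, 2), (11354613, 4, 2, 0, 1), (-2793360, 4, 2, 0, 0), (1895664, 4, 1, 2,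
   0), (-4403856, 4, 1, 1, 1), (-2787444, 4, 1, 0, 2), (-14786418, 4, 1, 0, 1), (-228696, 4, 1, 0,
   0), (-10375116, 4, 0, 2, 0), (1936608, 4, 0, 1, 1), (-1649724, 4, 0, 0, 2), (6043701, 4, 0, 0,
   1), (2736099, 4, 0, 0, 0), (-2804580, 3, 2, 2, 0), (10870740, 3, 2, 1, 1), (-17739924, 3, 2, 0,
   2), (-29379570, 3, 2, 0, 1), (-1222944, 3, 2, 0, 0), (5325312, 3, 1, 2, 0), (12742428, 3, 1, 1,
   1), (6975624, 3, 1, 0, 2), (47460513, 3, 1, 0, 1), (4750230, 3, 1, 0, 0), (18414540, 3, 0, 2,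
   0), (-5880672, 3, 0, 1, 1), (840384, 3, 0, 0, 2), (-25532985, 3, 0, 0, 1), (-5444766, 3, 0, 0,
   0), (-3561492, 2, 2, 2, 0), (-5328624, 2, 2, 1, 1), (7871160, 2, 2, 0, 2), (13352283, 2, 2, 0,
   1), (21378207, 2, 2, 0, 0), (-13370160, 2, 1, 2, 0), (-10171344, 2, 1, 1, 1), (-3508536, 2, 1,
   0, 2), (-38824086, 2, 1, 0, 1), (-23138358, 2, 1, 0, 0), (-482964, 2, 0, 2, 0), (4969356, 2, 0,
   1, 1), (4803948, 2, 0, 0, 2), (27345618, 2, 0, 0, 1), (10952016, 2, 0, 0, 0), (-15182876, 1, 2,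
   1, 0), (36156048, 1, 1, 1, 0), (-25538556, 1, 0, 1, 0), (3177372, 1, 2, 2, 0), (-3138732, 1, 2,
   1, 1), (4595964, 1, 2, 0, 2), (6527520, 1, 2, 0, 1), (-22611672, 1, 2, 0, 0), (10117704, 1, 1,
   2, 0), (-269172, 1, 1, 1, 1), (-2760024, 1, 1, 0, 2), (7003548, 1, 1, 0, 1), (23555904, 1, 1,
   0, 0), (-13254024, 1, 0, 2, 0), (-43128, 1, 0, 1, 1), (-5530152, 1, 0, 0, 2), (-8422776, 1, 0,
   0, 1), (-10592280, 1, 0, 0, 0), (2506672, 0, 2, 1, 0), (-9745224, 0, 1, 1, 0), (7287276, 0, 0,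
   1, 0), (-201900, 0, 2, 2, 0), (2300676, 0, 2, 1, 1), (-2947572, 0, 2, 0, 2), (-3694032, 0, 2,
   0, 1), (6620736, 0, 2, 0, 0), (-2110668, 0, 1, 2, 0), (2101944, 0, 1, 1, 1), (2080380, 0, 1, 0,
   2), (495612, 0, 1, 0, 1), (-6689292, 0, 1, 0, 0), (5244216, 0, 0, 2, 0), (-982164, 0, 0, 1, 1),
   (1535544, 0, 0, 0, 2), (396720, 0, 0, 0, 1)]

theorem qn_ok : qn.all okq = true := by (clear * -; decide +kernel)
theorem qn_P : chkT tP sP qn 9 = true := by (clear * -; decide +kernel)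
theorem qn_M : chkT tM sM qn 9 = true := by (clear * -; decide +kernel)

/-- The collected polynomial is nonnegative for all relevant `τ, ι`. -/
theorem qn_nonneg {y v t i : ℝ} (hy0 : 0 ≤ y) (hy1 : y ≤ 1) (hv0 : 0 ≤ v) (hv1 : v ≤ 1)
    (ht : t ^ 2 ≤ 9 / 25) (hi : 1 / 4 + t ^ 2 ≤ i) (hi' : i ≤ 3 / 5) : 0 ≤ pe qn y v t i := by
  rcases le_total 0 t with h | h
  · have ht1 : t ≤ 3 / 5 := by (clear * - ht h; nlinarith)
    have hlo : 3 / 16 + t / 2 ≤ i := by linarith only [hi, sq_nonneg (t - 1 / 4)]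
    have hp : 0 < 3 / 5 - (3 / 16 + t / 2) := by linarith only [ht1]
    set θ : ℝ := (i - (3 / 16 + t / 2)) / (3 / 5 - (3 / 16 + t / 2)) with hθ
    have e1 : θ * (3 / 5 - (3 / 16 + t / 2)) = i - (3 / 16 + t / 2) := by
      rw [hθ]; exact div_mul_cancel₀ _ hp.ne'
    have r := rep_tP (5 / 3 * t) θ
    have e2 : 3 / 5 * (5 / 3 * t) = t := by ring
    have e3 : (1 - θ) * (3 / 16 + 3 / 10 * (5 / 3 * t)) + θ * (3 / 5) = i := by
      linear_combination e1
    rw [e2, e3] at r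
    exact pe_nonneg qn_P qn_ok r (by linarith only [h]) (by linarith only [ht1])
      (div_nonneg (by linarith only [hlo]) hp.le) ((div_le_one hp).mpr (by linarith only [hi'])) hy0 hy1 hv0 hv1
  · have ht1 : -(3 / 5) ≤ t := by nlinarith only [ht]
    have hlo : 3 / 16 - t / 2 ≤ i := by (clear * - hi; linarith only [hi, sq_nonneg (t + 1 / 4)])
    have hp : 0 < 3 / 5 - (3 / 16 - t / 2) := by linarith only [ht1]
    set θ : ℝ := (i - (3 / 16 - t / 2)) / (3 / 5 - (3 / 16 - t / 2)) with hθ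
    have e1 : θ * (3 / 5 - (3 / 16 - t / 2)) = i - (3 / 16 - t / 2) := by
      rw [hθ]; exact div_mul_cancel₀ _ hp.ne'
    have r := rep_tM (-(5 / 3 * t)) θ
    have e2 : -(3 / 5 * -(5 / 3 * t)) = t := by ring
    have e3 : (1 - θ) * (3 / 16 + 3 / 10 * -(5 / 3 * t)) + θ * (3 / 5) = i := by
      linear_combination e1
    rw [e2, e3] at r
    exact pe_nonneg qn_M qn_ok r (by linarith only [h]) (by (clear * - ht1; linarith))
      (div_nonneg (by (clear * - hlo; linarith only [hlo])) hp.le) ((div_le_one hp).mpr (by linarith only [hi'])) hy0 hy1 hv0 hv1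

/-! ### The polynomial in terms of the data -/

/-- `12` times the value of the first bracket for `m = 2`, minus `12`. -/
def lq : List Mo :=
  mulM 24 2 0 0 (phi5.a.getD 0 []) ++ (mulM 24 2 1 0 (phi5.a.getD 1 [])
    ++ (mulM 24 2 0 1 (phi5.a.getD 2 []) ++ (mulM (-12) 2 0 0 (phi5.e.getD 0 [])
    ++ (mulM (-12) 2 1 0 (phi5.e.getD 1 []) ++ (mulM 12 2 0 1 (phi5.e.getD 2 [])
    ++ (mulM (-12) 2 2 0 (phi5.e.getD 2 []) ++ (mulM (-3) 2 0 0 phi5.w
    ++ (mulM 24 1 0 0 (phi5.f.getD 0 []) ++ (mulM 12 1 0 0 (phi5.f.getD 2 [])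
    ++ (mulM 12 1 1 0 (phi5.f.getD 3 []) ++ (mulM 12 1 0 1 (phi5.f.getD 4 [])
    ++ (mulM (-24) 2 0 0 (phi5.f.getD 0 []) ++ (mulM (-12) 2 0 0 (phi5.f.getD 2 [])
    ++ (mulM (-12) 2 1 0 (phi5.f.getD 3 []) ++ (mulM (-12) 2 0 1 (phi5.f.getD 4 [])
    ++ (mulM 12 0 0 0 hKa ++ (mulM 10 0 1 0 (R8.exM hKb)
    ++ (mulM (-24) 1 0 0 hKa ++ (mulM (-20) 1 1 0 (R8.exM hKb)
    ++ (mulM 12 2 0 0 hKa ++ (mulM 10 2 1 0 (R8.exM hKb)
    ++ [(-12, 0, 0, 0, 0)])))))))))))))))))))))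

theorem nrm_lq : nrm lq = qn := by (clear * -; decide +kernel)

/-- The exponents of `τ, ι` have sum at most two. -/
def okT (l : List Mo) : Bool := l.all fun q => Nat.ble (q.2.2.2.1 + q.2.2.2.2) 2

theorem pe_eq6 {l : List Mo} (h : okT l = true) (y v t i : ℝ) :
    pe l y v t i = R8.sR 0 0 l y v + R8.sR 1 0 l y v * t + R8.sR 0 1 l y v * i
      + R8.sR 2 0 l y v * (t * t) + R8.sR 1 1 l y v * (t * i) + R8.sR 0 2 l y v * (i * i) := by
  induction l with
  | nil => simp [pe, R8.sR]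
  | cons q l ih =>
    obtain ⟨n, a, b, c, d⟩ := q
    simp only [okT, List.all_cons, Bool.and_eq_true] at h ih
    have h1 := Nat.le_of_ble_eq_true h.1
    simp only [pe, me, R8.sR]
    rw [ih h.2]
    have hc : c ≤ 2 := by omega
    have hd : d ≤ 2 := by omega
    interval_cases c <;> interval_cases d <;> first
      | omega
      | (norm_num; ring)

theorem pe_exM (l : List (ℤ × ℕ × ℕ)) (y v t i : ℝ) :
    pe (R8.exM l) y v t i = R8.sR 0 0 (R8.exM l) y v := by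
  induction l with
  | nil => simp [pe, R8.sR, R8.exM]
  | cons q l ih =>
    simp only [R8.exM, List.map_cons, pe, R8.sR, me] at ih ⊢
    rw [ih]
    simp only [pow_zero, mul_one, and_self, ↓reduceIte, add_left_inj]
    ring

theorem hR_eq (y v p3 p4 p5 : ℝ) :
    R8.hR hKa hKb y v p3 p4 p5 = pe hKa y v p3 p4 + pe (R8.exM hKb) y v p3 p4 * p5 := by
  rw [pe_eq6 (l := hKa) (by (clear * -; decide +kernel)), pe_exM, R8.hR]
  ring

/-! ### `formK` as a function of the dimension -/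

/-- `formK` with the number `M` of variables as a real parameter. -/
noncomputable def kM {m : ℕ} (Φ : Fam) (M y v : ℝ) (lam : Fin m → ℝ) : ℝ :=
  y ^ 2 * ((∑ j ∈ Finset.range Φ.na, M * (Φ.a j).g y v (pw lam 3) (pw lam 4) * pw lam (j + 2))
      + (∑ q ∈ Finset.range Φ.ne, (Φ.e q).g y v (pw lam 3) (pw lam 4)
        * ((if Φ.ea q = 1 then 0 else pw lam (Φ.ea q) * pw lam (Φ.ej q + 1))
          - (if Φ.ej q = 1 then 0 else pw lam (Φ.ej q) * pw lam (Φ.ea q + 1))))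
      - ((M - 1 : ℝ) / 2) ^ 2 * Φ.w.g y v (pw lam 3) (pw lam 4))
  + y * (1 - y) * ∑ j ∈ Finset.range Φ.nf,
      (Φ.f j).g y v (pw lam 3) (pw lam 4) * (if j = 0 then M else if j = 1 then 0 else pw lam j)

theorem formK_eq {m : ℕ} (Φ : Fam) (y v : ℝ) (lam : Fin m → ℝ) :
    formK Φ y v lam = kM Φ m y v lam := rfl

theorem kM_conc {m : ℕ} (Φ : Fam) (M y v : ℝ) (lam : Fin m → ℝ) :
    kM Φ M y v lam = ((5 - M) * kM Φ 2 y v lam + (M - 2) * kM Φ 5 y v lam) / 3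
      + (M - 2) * (5 - M) / 4 * (y ^ 2 * Φ.w.g y v (pw lam 3) (pw lam 4)) := by
  have key : ∀ N : ℝ, kM Φ N y v lam
      = N * (y ^ 2 * ∑ j ∈ Finset.range Φ.na, (Φ.a j).g y v (pw lam 3) (pw lam 4) * pw lam (j + 2)
          + y * (1 - y) * ∑ j ∈ Finset.range Φ.nf, (Φ.f j).g y v (pw lam 3) (pw lam 4)
            * (if j = 0 then 1 else 0))
        + (y ^ 2 * (∑ q ∈ Finset.range Φ.ne, (Φ.e q).g y v (pw lam 3) (pw lam 4)
        * ((if Φ.ea q = 1 then 0 else pw lam (Φ.ea q) * pw lam (Φ.ej q + 1))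
          - (if Φ.ej q = 1 then 0 else pw lam (Φ.ej q) * pw lam (Φ.ea q + 1))))
          + y * (1 - y) * ∑ j ∈ Finset.range Φ.nf, (Φ.f j).g y v (pw lam 3) (pw lam 4)
            * (if j = 0 then 0 else if j = 1 then 0 else pw lam j))
        - ((N - 1 : ℝ) / 2) ^ 2 * (y ^ 2 * Φ.w.g y v (pw lam 3) (pw lam 4)) := by
    intro N
    have e1 : ∑ j ∈ Finset.range Φ.na, N * (Φ.a j).g y v (pw lam 3) (pw lam 4) * pw lam (j + 2)
        = N * ∑ j ∈ Finset.range Φ.na,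
          (Φ.a j).g y v (pw lam 3) (pw lam 4) * pw lam (j + 2) := by
      rw [Finset.mul_sum]
      exact Finset.sum_congr rfl fun j _ => by ring
    have e2 : ∑ j ∈ Finset.range Φ.nf, (Φ.f j).g y v (pw lam 3) (pw lam 4)
        * (if j = 0 then N else if j = 1 then 0 else pw lam j)
        = N * (∑ j ∈ Finset.range Φ.nf, (Φ.f j).g y v (pw lam 3) (pw lam 4)
            * (if j = 0 then 1 else 0))
          + ∑ j ∈ Finset.range Φ.nf, (Φ.f j).g y v (pw lam 3) (pw lam 4)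
            * (if j = 0 then 0 else if j = 1 then 0 else pw lam j) := by
      rw [Finset.mul_sum, ← Finset.sum_add_distrib]
      refine Finset.sum_congr rfl fun j _ => ?_
      split_ifs <;> ring
    rw [kM, e1, e2]
    ring
  rw [key M, key 2, key 5]
  ring

theorem kM_pad {m : ℕ} (Φ : Fam) (M y v : ℝ) (lam : Fin m → ℝ) :
    kM Φ M y v (pad lam) = kM Φ M y v lam := by
  have h2 : ∀ j, pw (pad lam) (j + 2) = pw lam (j + 2) := fun j => pw_pad lam (j + 1)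
  have e2 : ∑ j ∈ Finset.range Φ.nf, (Φ.f j).g y v (pw lam 3) (pw lam 4)
        * (if j = 0 then M else if j = 1 then 0 else pw (pad lam) j)
      = ∑ j ∈ Finset.range Φ.nf, (Φ.f j).g y v (pw lam 3) (pw lam 4)
        * (if j = 0 then M else if j = 1 then 0 else pw lam j) := by
    refine Finset.sum_congr rfl fun j _ => ?_
    split_ifs with h h'
    · rfl
    · rfl
    · rw [pw_pad' lam (by omega)]
  unfold kM
  simp only [h2, pw_pad, pw_pad' lam (Φ.hea _), pw_pad' lam (Φ.hej _), e2]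

theorem phi5_kM {m : ℕ} (y v : ℝ) {lam : Fin m → ℝ} (h2 : pw lam 2 = 1) :
    4096 * kM phi5.fam 2 y v lam
      = y ^ 2 * (2 * (pe (phi5.a.getD 0 []) y v (pw lam 3) (pw lam 4)
          + pe (phi5.a.getD 1 []) y v (pw lam 3) (pw lam 4) * pw lam 3
          + pe (phi5.a.getD 2 []) y v (pw lam 3) (pw lam 4) * pw lam 4)
        - pe (phi5.e.getD 0 []) y v (pw lam 3) (pw lam 4)
        - pe (phi5.e.getD 1 []) y v (pw lam 3) (pw lam 4) * pw lam 3
        + pe (phi5.e.getD 2 []) y v (pw lam 3) (pw lam 4) * (pw lam 4 - pw lam 3 ^ 2)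
        - 1 / 4 * pe phi5.w y v (pw lam 3) (pw lam 4))
      + y * (1 - y) * (2 * pe (phi5.f.getD 0 []) y v (pw lam 3) (pw lam 4)
        + pe (phi5.f.getD 2 []) y v (pw lam 3) (pw lam 4)
        + pe (phi5.f.getD 3 []) y v (pw lam 3) (pw lam 4) * pw lam 3
        + pe (phi5.f.getD 4 []) y v (pw lam 3) (pw lam 4) * pw lam 4) := by
  have na : phi5.fam.na = 3 := rfl
  have nf : phi5.fam.nf = 5 := rfl
  have ne : phi5.fam.ne = 3 := rfl
  have ea0 : phi5.fam.ea 0 = 1 := rfl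
  have ea1 : phi5.fam.ea 1 = 1 := rfl
  have ea2 : phi5.fam.ea 2 = 2 := rfl
  have ej0 : phi5.fam.ej 0 = 2 := rfl
  have ej1 : phi5.fam.ej 1 = 3 := rfl
  have ej2 : phi5.fam.ej 2 = 3 := rfl
  have ha : ∀ j, (phi5.fam.a j).g y v (pw lam 3) (pw lam 4)
      = pe (phi5.a.getD j []) y v (pw lam 3) (pw lam 4) / (4096 : ℕ) := fun _ => rfl
  have hf : ∀ j, (phi5.fam.f j).g y v (pw lam 3) (pw lam 4)
      = pe (phi5.f.getD j []) y v (pw lam 3) (pw lam 4) / (4096 : ℕ) := fun _ => rfl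
  have he : ∀ j, (phi5.fam.e j).g y v (pw lam 3) (pw lam 4)
      = pe (phi5.e.getD j []) y v (pw lam 3) (pw lam 4) / (4096 : ℕ) := fun _ => rfl
  have hw : phi5.fam.w.g y v (pw lam 3) (pw lam 4)
      = pe phi5.w y v (pw lam 3) (pw lam 4) / (4096 : ℕ) := rfl
  simp only [kM, na, nf, ne, Finset.sum_range_succ, Finset.sum_range_zero, ha, hf, he, hw,
    ea0, ea1, ea2, ej0, ej1, ej2]
  norm_num
  rw [h2]
  ring

theorem pe_lq (y v t i : ℝ) : pe lq y v t i
    = 12 * (y ^ 2 * (2 * (pe (phi5.a.getD 0 []) y v t i + pe (phi5.a.getD 1 []) y v t i * t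
          + pe (phi5.a.getD 2 []) y v t i * i)
        - pe (phi5.e.getD 0 []) y v t i - pe (phi5.e.getD 1 []) y v t i * t
        + pe (phi5.e.getD 2 []) y v t i * (i - t ^ 2) - 1 / 4 * pe phi5.w y v t i)
      + y * (1 - y) * (2 * pe (phi5.f.getD 0 []) y v t i + pe (phi5.f.getD 2 []) y v t i
        + pe (phi5.f.getD 3 []) y v t i * t + pe (phi5.f.getD 4 []) y v t i * i)
      + (1 - y) ^ 2 * (pe hKa y v t i + pe (R8.exM hKb) y v t i * (5 / 6 * t))) - 12 := by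
  simp only [lq, pe_append, pe_mulM]
  have e : pe [(-12, 0, 0, 0, 0)] y v t i = -12 := by simp only [pe, me, Int.reduceNeg, Int.cast_neg, Int.cast_ofNat, pow_zero, mul_one, add_zero]
  rw [e]
  push_cast
  ring

/-! ### Power sums of four variables -/

theorem pw4_facts {lam : Fin 4 → ℝ} (h1 : pw lam 1 = 0) (h2 : pw lam 2 = 1) :
    pw lam 5 = 5 / 6 * pw lam 3 ∧ pw lam 3 ^ 2 ≤ 9 / 25 ∧ 1 / 4 + pw lam 3 ^ 2 ≤ pw lam 4
      ∧ pw lam 4 ≤ 3 / 5 := by
  have s1 : lam 0 + lam 1 + lam 2 + lam 3 = 0 := by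
    simpa only [Fin.isValue, add_assoc, pw, pow_one, Fin.sum_univ_succ, Fin.succ_zero_eq_one, Fin.succ_one_eq_two,     Finset.univ_unique, Fin.default_eq_zero, Finset.sum_singleton, Fin.reduceSucc] using h1
  obtain ⟨a, b, c, ha, hb, hc, hd⟩ : ∃ a b c : ℝ, lam 0 = a + b + c ∧ lam 1 = a - b - c
      ∧ lam 2 = b - a - c ∧ lam 3 = c - a - b :=
    ⟨(lam 0 + lam 1) / 2, (lam 0 + lam 2) / 2, (lam 0 + lam 3) / 2, by linarith only [s1], by linarith,
      by linarith only [s1], by linarith⟩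
  have e2 : pw lam 2 = 4 * (a ^ 2 + b ^ 2 + c ^ 2) := by
    simp only [pw, Fin.sum_univ_four, ha, hb, hc, hd]; ring
  have e3 : pw lam 3 = 24 * (a * b * c) := by
    simp only [pw, Fin.sum_univ_four, ha, hb, hc, hd]; ring
  have e4 : pw lam 4 = 4 * (a ^ 2 + b ^ 2 + c ^ 2) ^ 2
      + 16 * (a ^ 2 * b ^ 2 + b ^ 2 * c ^ 2 + c ^ 2 * a ^ 2) := by
    simp only [pw, Fin.sum_univ_four, ha, hb, hc, hd]; ring
  have e5 : pw lam 5 = 80 * (a * b * c) * (a ^ 2 + b ^ 2 + c ^ 2) := by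
    simp only [pw, Fin.sum_univ_four, ha, hb, hc, hd]; ring
  have hs : a ^ 2 + b ^ 2 + c ^ 2 = 1 / 4 := by linarith
  have k1 : 1 / 4 + pw lam 3 ^ 2 ≤ pw lam 4 := by
    have t1 : 0 ≤ a ^ 2 * (b ^ 2 - c ^ 2) ^ 2 + b ^ 2 * (c ^ 2 - a ^ 2) ^ 2
        + c ^ 2 * (a ^ 2 - b ^ 2) ^ 2 := by (clear * -; positivity)
    have t2 : (a ^ 2 + b ^ 2 + c ^ 2) * (a ^ 2 * b ^ 2 + b ^ 2 * c ^ 2 + c ^ 2 * a ^ 2)
        - 9 * (a * b * c) ^ 2 = a ^ 2 * (b ^ 2 - c ^ 2) ^ 2 + b ^ 2 * (c ^ 2 - a ^ 2) ^ 2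
        + c ^ 2 * (a ^ 2 - b ^ 2) ^ 2 := by ring
    rw [e3, e4, hs]
    rw [hs] at t2
    linarith only [t2, t1]
  have k2 : pw lam 4 ≤ 7 / 12 := by
    have t1 : 0 ≤ (a ^ 2 - b ^ 2) ^ 2 + (b ^ 2 - c ^ 2) ^ 2 + (c ^ 2 - a ^ 2) ^ 2 := by
      (clear * -; positivity)
    have t2 : 2 * ((a ^ 2 + b ^ 2 + c ^ 2) ^ 2
        - 3 * (a ^ 2 * b ^ 2 + b ^ 2 * c ^ 2 + c ^ 2 * a ^ 2))
        = (a ^ 2 - b ^ 2) ^ 2 + (b ^ 2 - c ^ 2) ^ 2 + (c ^ 2 - a ^ 2) ^ 2 := by ring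
    rw [e4, hs]
    rw [hs] at t2
    (clear * - t1 t2; linarith only [t2, t1])
  refine ⟨?_, by linarith only [k2, k1], k1, by linarith only [k2]⟩
  rw [e3, e5, hs]
  ring

/-! ### The condition -/

/-- The bound for `m = 2` in the first bracket. -/
theorem br2 {y v : ℝ} (hy0 : 0 ≤ y) (hy1 : y ≤ 1) (hv0 : 0 ≤ v) (hv1 : v ≤ 1)
    {lam : Fin 4 → ℝ} (h1 : pw lam 1 = 0) (h2 : pw lam 2 = 1) :
    1 ≤ 4096 * kM phi5.fam 2 y v lam
      + (1 - y) ^ 2 * R8.hR hKa hKb y v (pw lam 3) (pw lam 4) (pw lam 5) := by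
  obtain ⟨h5, h3, h4, h4'⟩ := pw4_facts h1 h2
  have q := qn_nonneg hy0 hy1 hv0 hv1 h3 h4 h4'
  rw [← nrm_lq, pe_nrm, pe_lq] at q
  rw [phi5_kM y v h2, hR_eq, h5]
  linarith only [q]

end Vale.Agent.P098.S5.Low
end
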