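import Mathlib
import Vale.Agent.P098.Bdl.B18
import Vale.Agent.P098.Bdl.B21

set_option linter.all false

/-! Checks with the classes of the indices as arguments (the tables are shared). -/

namespace Vale.Agent.P098.N

open Vale.Agent.P098.K

/-- `sosF` with classes `a, b`. -/
def sosFK (B a b i j : ℕ) : List Gf → P3
  | [] => []
  | g :: l => add3 (cmpP (tabF B a b g.blks) i j g.comps) (sosFK B a b i j l)

theorem sosFK_eq (B i j : ℕ) : ∀ l : List Gf, sosFK B (kd i) (kd j) i j l = sosF B i j l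
  | [] => rfl
  | g :: l => by rw [sosFK, sosF, sosFK_eq B i j l]

/-- `sosFB` with classes `a, b`. -/
def sosFBK (B a b i j : ℕ) : List GBF → P3
  | [] => []
  | g :: l => add3 (bif g.mp then mul3 (pBF B) (cmpP (tabF B a b g.g.blks) i j g.g.comps)
      else cmpP (tabF B a b g.g.blks) i j g.g.comps) (sosFBK B a b i j l)

theorem sosFBK_eq (B i j : ℕ) : ∀ l : List GBF, sosFBK B (kd i) (kd j) i j l = sosFB B i j l
  | [] => rfl
  | g :: l => by rw [sosFBK, sosFB, sosFBK_eq B i j l]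

/-- `sosO` with classes `a, b`. -/
def sosOK (a b bE i j : ℕ) : List Grp → Bool
  | [] => true
  | g :: l => tabO a b g.blks && cmpO bE i j g.comps && sosOK a b bE i j l

theorem sosOK_eq (bE i j : ℕ) : ∀ l : List Grp, sosOK (kd i) (kd j) bE i j l = sosO bE i j l
  | [] => rfl
  | g :: l => by rw [sosOK, sosO, sosOK_eq bE i j l]

/-- `sosL` with classes `a, b`. -/
def sosLK (a b bE i j : ℕ) : List Grp → ℕ
  | [] => 0
  | g :: l => cmpL (tabL a b g.blks) bE i j g.comps + sosLK a b bE i j l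

theorem sosLK_eq (bE i j : ℕ) : ∀ l : List Grp, sosLK (kd i) (kd j) bE i j l = sosL bE i j l
  | [] => rfl
  | g :: l => by rw [sosLK, sosL, sosLK_eq bE i j l]

/-- `sosOB` with classes `a, b`. -/
def sosOBK (a b bE i j : ℕ) : List GB → Bool
  | [] => true
  | g :: l => tabO a b g.g.blks && cmpO3 bE i j g.g.comps && sosOBK a b bE i j l

theorem sosOBK_eq (bE i j : ℕ) : ∀ l : List GB, sosOBK (kd i) (kd j) bE i j l = sosOB bE i j l
  | [] => rfl
  | g :: l => by rw [sosOBK, sosOB, sosOBK_eq bE i j l]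

/-- `sosLB` with classes `a, b`. -/
def sosLBK (a b bE i j : ℕ) : List GB → ℕ
  | [] => 0
  | g :: l => (bif g.mp then 33 else 1) * cmpL (tabL a b g.g.blks) bE i j g.g.comps
      + sosLBK a b bE i j l

theorem sosLBK_eq (bE i j : ℕ) : ∀ l : List GB, sosLBK (kd i) (kd j) bE i j l = sosLB bE i j l
  | [] => rfl
  | g :: l => by rw [sosLBK, sosLB, sosLBK_eq bE i j l]

/-- `CdF.chk` with classes `a, b`. -/
def CdF.chkK (c : CdF) (a b : ℕ) (T : Ex) (e : ℤ) (Δ i j : ℕ) : Bool :=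
  (okE rs6 T && leL (dgE rs6 T) [3, 3, 8, 8, 8, 8] && sosOK a b c.bE i j (c.grps.map Gf.toGrp)
    && Nat.blt ((lE T + e.natAbs + sosLK a b c.bE i j (c.grps.map Gf.toGrp)) * 893101) c.h
    && Nat.ble (2 * c.h) c.B && neG c.grps) && fin c.B c.h Δ
      (add3 (add3 (evf c.B T) [[[Int.neg e]]]) (scl3 (-1) (sosFK c.B a b i j c.grps)))

theorem CdF.chk_of {c : CdF} {a b : ℕ} {T : Ex} {e : ℤ} {Δ i j : ℕ} (ha : kd i = a)
    (hb : kd j = b) (h : c.chkK a b T e Δ i j = true) : c.chk T e Δ i j = true := by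
  subst ha hb
  rw [CdF.chk, CdF.chk0, CdF.res, ← sosFK_eq, ← sosOK_eq, ← sosLK_eq]
  exact h

/-- `CdBF.chk` with classes `a, b`. -/
def CdBF.chkK (c : CdBF) (a b : ℕ) (T : Ex) (e : ℤ) (Δ i j : ℕ) : Bool :=
  (okE rs6 T && leL (dgE rs6 T) [3, 3, 10, 8, 8, 8]
    && sosOBK a b c.bE i j (c.grps.map GBF.toGB)
    && Nat.blt (lE T + e.natAbs + sosLBK a b c.bE i j (c.grps.map GBF.toGB)) c.h
    && Nat.ble (2 * c.h) c.B && neGB c.grps) && finB c.B c.h Δ
      (add3 (add3 (evf c.B T) [[[Int.neg e]]]) (scl3 (-1) (sosFBK c.B a b i j c.grps)))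

theorem CdBF.chk_of {c : CdBF} {a b : ℕ} {T : Ex} {e : ℤ} {Δ i j : ℕ} (ha : kd i = a)
    (hb : kd j = b) (h : c.chkK a b T e Δ i j = true) : c.chk T e Δ i j = true := by
  subst ha hb
  rw [CdBF.chk, CdBF.chk0, CdBF.res, ← sosFBK_eq, ← sosOBK_eq, ← sosLBK_eq]
  exact h

end Vale.Agent.P098.N
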