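import Mathlib
import Vale.Agent.P098.Bdl.C1

set_option linter.all false

/-! Kernel checks of the certificate for `m = 5`, class (1, 1), with common tables. -/

namespace Vale.Agent.P098.N

open Vale.Agent.P098.K

set_option maxRecDepth 100000

theorem c5_all11 : (
      cd5.chkK 1 1 (T5 phi5 (2 ^ 52 : ℕ) 1 1) 368811017749686464 1031270351327720623134037 1 1
      && (cd5.chkK 1 1 (T5 phi5 (2 ^ 52 : ℕ) 1 2) 0 1031270351327720623134037 1 2
      && (cd5.chkK 1 1 (T5 phi5 (2 ^ 52 : ℕ) 1 3) 0 1031270351327720623134037 1 3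
      && (cd5.chkK 1 1 (T5 phi5 (2 ^ 52 : ℕ) 1 4) 0 1031270351327720623134037 1 4
      && (cd5.chkK 1 1 (T5 phi5 (2 ^ 52 : ℕ) 1 5) 0 1031270351327720623134037 1 5
      && (cd5.chkK 1 1 (T5 phi5 (2 ^ 52 : ℕ) 2 2) 368811017749686464 1031270351327720623134037 2 2
      && (cd5.chkK 1 1 (T5 phi5 (2 ^ 52 : ℕ) 2 3) 0 1031270351327720623134037 2 3
      && (cd5.chkK 1 1 (T5 phi5 (2 ^ 52 : ℕ) 2 4) 0 1031270351327720623134037 2 4
      && (cd5.chkK 1 1 (T5 phi5 (2 ^ 52 : ℕ) 2 5) 0 1031270351327720623134037 2 5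
      && (cd5.chkK 1 1 (T5 phi5 (2 ^ 52 : ℕ) 3 3) 368811017749686464 1031270351327720623134037 3 3
      && (cd5.chkK 1 1 (T5 phi5 (2 ^ 52 : ℕ) 3 4) 0 1031270351327720623134037 3 4
      && (cd5.chkK 1 1 (T5 phi5 (2 ^ 52 : ℕ) 3 5) 0 1031270351327720623134037 3 5
      && (cd5.chkK 1 1 (T5 phi5 (2 ^ 52 : ℕ) 4 4) 368811017749686464 1031270351327720623134037 4 4
      && (cd5.chkK 1 1 (T5 phi5 (2 ^ 52 : ℕ) 4 5) 0 1031270351327720623134037 4 5
      && (cd5.chkK 1 1 (T5 phi5 (2 ^ 52 : ℕ) 5 5) 368811017749686464 1031270351327720623134037 5 5))))))))))))))) = true := by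
  decide +kernel

theorem c5_11 : cd5.chk (T5 phi5 (2 ^ 52 : ℕ) 1 1) 368811017749686464 1031270351327720623134037 1 1 = true :=
  CdF.chk_of (a := 1) (b := 1) rfl rfl ((Bool.and_eq_true_iff.mp c5_all11).1)

theorem c5_12 : cd5.chk (T5 phi5 (2 ^ 52 : ℕ) 1 2) 0 1031270351327720623134037 1 2 = true :=
  CdF.chk_of (a := 1) (b := 1) rfl rfl ((Bool.and_eq_true_iff.mp (Bool.and_eq_true_iff.mp c5_all11).2).1)

theorem c5_13 : cd5.chk (T5 phi5 (2 ^ 52 : ℕ) 1 3) 0 1031270351327720623134037 1 3 = true :=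
  CdF.chk_of (a := 1) (b := 1) rfl rfl ((Bool.and_eq_true_iff.mp (Bool.and_eq_true_iff.mp (Bool.and_eq_true_iff.mp c5_all11).2).2).1)

theorem c5_14 : cd5.chk (T5 phi5 (2 ^ 52 : ℕ) 1 4) 0 1031270351327720623134037 1 4 = true :=
  CdF.chk_of (a := 1) (b := 1) rfl rfl ((Bool.and_eq_true_iff.mp (Bool.and_eq_true_iff.mp (Bool.and_eq_true_iff.mp (Bool.and_eq_true_iff.mp c5_all11).2).2).2).1)

theorem c5_15 : cd5.chk (T5 phi5 (2 ^ 52 : ℕ) 1 5) 0 1031270351327720623134037 1 5 = true :=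
  CdF.chk_of (a := 1) (b := 1) rfl rfl ((Bool.and_eq_true_iff.mp (Bool.and_eq_true_iff.mp (Bool.and_eq_true_iff.mp (Bool.and_eq_true_iff.mp (Bool.and_eq_true_iff.mp c5_all11).2).2).2).2).1)

theorem c5_22 : cd5.chk (T5 phi5 (2 ^ 52 : ℕ) 2 2) 368811017749686464 1031270351327720623134037 2 2 = true :=
  CdF.chk_of (a := 1) (b := 1) rfl rfl ((Bool.and_eq_true_iff.mp (Bool.and_eq_true_iff.mp (Bool.and_eq_true_iff.mp (Bool.and_eq_true_iff.mp (Bool.and_eq_true_iff.mp (Bool.and_eq_true_iff.mp c5_all11).2).2).2).2).2).1)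

theorem c5_23 : cd5.chk (T5 phi5 (2 ^ 52 : ℕ) 2 3) 0 1031270351327720623134037 2 3 = true :=
  CdF.chk_of (a := 1) (b := 1) rfl rfl ((Bool.and_eq_true_iff.mp (Bool.and_eq_true_iff.mp (Bool.and_eq_true_iff.mp (Bool.and_eq_true_iff.mp (Bool.and_eq_true_iff.mp (Bool.and_eq_true_iff.mp (Bool.and_eq_true_iff.mp c5_all11).2).2).2).2).2).2).1)

theorem c5_24 : cd5.chk (T5 phi5 (2 ^ 52 : ℕ) 2 4) 0 1031270351327720623134037 2 4 = true :=
  CdF.chk_of (a := 1) (b := 1) rfl rfl ((Bool.and_eq_true_iff.mp (Bool.and_eq_true_iff.mp (Bool.and_eq_true_iff.mp (Bool.and_eq_true_iff.mp (Bool.and_eq_true_iff.mp (Bool.and_eq_true_iff.mp (Bool.and_eq_true_iff.mp (Bool.and_eq_true_iff.mp c5_all11).2).2).2).2).2).2).2).1)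

theorem c5_25 : cd5.chk (T5 phi5 (2 ^ 52 : ℕ) 2 5) 0 1031270351327720623134037 2 5 = true :=
  CdF.chk_of (a := 1) (b := 1) rfl rfl ((Bool.and_eq_true_iff.mp (Bool.and_eq_true_iff.mp (Bool.and_eq_true_iff.mp (Bool.and_eq_true_iff.mp (Bool.and_eq_true_iff.mp (Bool.and_eq_true_iff.mp (Bool.and_eq_true_iff.mp (Bool.and_eq_true_iff.mp (Bool.and_eq_true_iff.mp c5_all11).2).2).2).2).2).2).2).2).1)

theorem c5_33 : cd5.chk (T5 phi5 (2 ^ 52 : ℕ) 3 3) 368811017749686464 1031270351327720623134037 3 3 = true :=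
  CdF.chk_of (a := 1) (b := 1) rfl rfl ((Bool.and_eq_true_iff.mp (Bool.and_eq_true_iff.mp (Bool.and_eq_true_iff.mp (Bool.and_eq_true_iff.mp (Bool.and_eq_true_iff.mp (Bool.and_eq_true_iff.mp (Bool.and_eq_true_iff.mp (Bool.and_eq_true_iff.mp (Bool.and_eq_true_iff.mp (Bool.and_eq_true_iff.mp c5_all11).2).2).2).2).2).2).2).2).2).1)

theorem c5_34 : cd5.chk (T5 phi5 (2 ^ 52 : ℕ) 3 4) 0 1031270351327720623134037 3 4 = true :=
  CdF.chk_of (a := 1) (b := 1) rfl rfl ((Bool.and_eq_true_iff.mp (Bool.and_eq_true_iff.mp (Bool.and_eq_true_iff.mp (Bool.and_eq_true_iff.mp (Bool.and_eq_true_iff.mp (Bool.and_eq_true_iff.mp (Bool.and_eq_true_iff.mp (Bool.and_eq_true_iff.mp (Bool.and_eq_true_iff.mp (Bool.and_eq_true_iff.mp (Bool.and_eq_true_iff.mp c5_all11).2).2).2).2).2).2).2).2).2).2).1)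

theorem c5_35 : cd5.chk (T5 phi5 (2 ^ 52 : ℕ) 3 5) 0 1031270351327720623134037 3 5 = true :=
  CdF.chk_of (a := 1) (b := 1) rfl rfl ((Bool.and_eq_true_iff.mp (Bool.and_eq_true_iff.mp (Bool.and_eq_true_iff.mp (Bool.and_eq_true_iff.mp (Bool.and_eq_true_iff.mp (Bool.and_eq_true_iff.mp (Bool.and_eq_true_iff.mp (Bool.and_eq_true_iff.mp (Bool.and_eq_true_iff.mp (Bool.and_eq_true_iff.mp (Bool.and_eq_true_iff.mp (Bool.and_eq_true_iff.mp c5_all11).2).2).2).2).2).2).2).2).2).2).2).1)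

theorem c5_44 : cd5.chk (T5 phi5 (2 ^ 52 : ℕ) 4 4) 368811017749686464 1031270351327720623134037 4 4 = true :=
  CdF.chk_of (a := 1) (b := 1) rfl rfl ((Bool.and_eq_true_iff.mp (Bool.and_eq_true_iff.mp (Bool.and_eq_true_iff.mp (Bool.and_eq_true_iff.mp (Bool.and_eq_true_iff.mp (Bool.and_eq_true_iff.mp (Bool.and_eq_true_iff.mp (Bool.and_eq_true_iff.mp (Bool.and_eq_true_iff.mp (Bool.and_eq_true_iff.mp (Bool.and_eq_true_iff.mp (Bool.and_eq_true_iff.mp (Bool.and_eq_true_iff.mp c5_all11).2).2).2).2).2).2).2).2).2).2).2).2).1)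

theorem c5_45 : cd5.chk (T5 phi5 (2 ^ 52 : ℕ) 4 5) 0 1031270351327720623134037 4 5 = true :=
  CdF.chk_of (a := 1) (b := 1) rfl rfl ((Bool.and_eq_true_iff.mp (Bool.and_eq_true_iff.mp (Bool.and_eq_true_iff.mp (Bool.and_eq_true_iff.mp (Bool.and_eq_true_iff.mp (Bool.and_eq_true_iff.mp (Bool.and_eq_true_iff.mp (Bool.and_eq_true_iff.mp (Bool.and_eq_true_iff.mp (Bool.and_eq_true_iff.mp (Bool.and_eq_true_iff.mp (Bool.and_eq_true_iff.mp (Bool.and_eq_true_iff.mp (Bool.and_eq_true_iff.mp c5_all11).2).2).2).2).2).2).2).2).2).2).2).2).2).1)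

theorem c5_55 : cd5.chk (T5 phi5 (2 ^ 52 : ℕ) 5 5) 368811017749686464 1031270351327720623134037 5 5 = true :=
  CdF.chk_of (a := 1) (b := 1) rfl rfl ((Bool.and_eq_true_iff.mp (Bool.and_eq_true_iff.mp (Bool.and_eq_true_iff.mp (Bool.and_eq_true_iff.mp (Bool.and_eq_true_iff.mp (Bool.and_eq_true_iff.mp (Bool.and_eq_true_iff.mp (Bool.and_eq_true_iff.mp (Bool.and_eq_true_iff.mp (Bool.and_eq_true_iff.mp (Bool.and_eq_true_iff.mp (Bool.and_eq_true_iff.mp (Bool.and_eq_true_iff.mp (Bool.and_eq_true_iff.mp c5_all11).2).2).2).2).2).2).2).2).2).2).2).2).2).2)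

end Vale.Agent.P098.N
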