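import Mathlib
import Vale.Agent.P098.Bdl.C1
import Vale.Agent.P098.Bdl.B23

set_option linter.all false

/-! Kernel checks of the certificate formC for m = 5, class (1, 1), with common tables. -/

namespace Vale.Agent.P098.S5

open Vale.Agent.P098.K Vale.Agent.P098.N

set_option maxRecDepth 100000

theorem fc_all11 : (
      cdC.chkK 1 1 (T5 phi5 (2 ^ 44 : ℕ) (1 + 1) (1 + 1)) (4323455642275676 : ℕ) 7059466092451389767681 1 1
      && (cdC.chkK 1 1 (T5 phi5 (2 ^ 44 : ℕ) (1 + 1) (2 + 1)) 0 7059466092451389767681 1 2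
      && (cdC.chkK 1 1 (T5 phi5 (2 ^ 44 : ℕ) (1 + 1) (3 + 1)) 0 7059466092451389767681 1 3
      && (cdC.chkK 1 1 (T5 phi5 (2 ^ 44 : ℕ) (1 + 1) (4 + 1)) 0 7059466092451389767681 1 4
      && (cdC.chkK 1 1 (T5 phi5 (2 ^ 44 : ℕ) (2 + 1) (2 + 1)) (4323455642275676 : ℕ) 7059466092451389767681 2 2
      && (cdC.chkK 1 1 (T5 phi5 (2 ^ 44 : ℕ) (2 + 1) (3 + 1)) 0 7059466092451389767681 2 3
      && (cdC.chkK 1 1 (T5 phi5 (2 ^ 44 : ℕ) (2 + 1) (4 + 1)) 0 7059466092451389767681 2 4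
      && (cdC.chkK 1 1 (T5 phi5 (2 ^ 44 : ℕ) (3 + 1) (3 + 1)) (4323455642275676 : ℕ) 7059466092451389767681 3 3
      && (cdC.chkK 1 1 (T5 phi5 (2 ^ 44 : ℕ) (3 + 1) (4 + 1)) 0 7059466092451389767681 3 4
      && (cdC.chkK 1 1 (T5 phi5 (2 ^ 44 : ℕ) (4 + 1) (4 + 1)) (4323455642275676 : ℕ) 7059466092451389767681 4 4)))))))))) = true := by
  decide +kernel

theorem fc11 : cdC.chk (T5 phi5 (2 ^ 44 : ℕ) (1 + 1) (1 + 1)) (4323455642275676 : ℕ)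
    7059466092451389767681 1 1 = true :=
  CdBF.chk_of (a := 1) (b := 1) rfl rfl ((Bool.and_eq_true_iff.mp fc_all11).1)

theorem fc12 : cdC.chk (T5 phi5 (2 ^ 44 : ℕ) (1 + 1) (2 + 1)) 0
    7059466092451389767681 1 2 = true :=
  CdBF.chk_of (a := 1) (b := 1) rfl rfl ((Bool.and_eq_true_iff.mp (Bool.and_eq_true_iff.mp fc_all11).2).1)

theorem fc13 : cdC.chk (T5 phi5 (2 ^ 44 : ℕ) (1 + 1) (3 + 1)) 0
    7059466092451389767681 1 3 = true :=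
  CdBF.chk_of (a := 1) (b := 1) rfl rfl ((Bool.and_eq_true_iff.mp (Bool.and_eq_true_iff.mp (Bool.and_eq_true_iff.mp fc_all11).2).2).1)

theorem fc14 : cdC.chk (T5 phi5 (2 ^ 44 : ℕ) (1 + 1) (4 + 1)) 0
    7059466092451389767681 1 4 = true :=
  CdBF.chk_of (a := 1) (b := 1) rfl rfl ((Bool.and_eq_true_iff.mp (Bool.and_eq_true_iff.mp (Bool.and_eq_true_iff.mp (Bool.and_eq_true_iff.mp fc_all11).2).2).2).1)

theorem fc22 : cdC.chk (T5 phi5 (2 ^ 44 : ℕ) (2 + 1) (2 + 1)) (4323455642275676 : ℕ)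
    7059466092451389767681 2 2 = true :=
  CdBF.chk_of (a := 1) (b := 1) rfl rfl ((Bool.and_eq_true_iff.mp (Bool.and_eq_true_iff.mp (Bool.and_eq_true_iff.mp (Bool.and_eq_true_iff.mp (Bool.and_eq_true_iff.mp fc_all11).2).2).2).2).1)

theorem fc23 : cdC.chk (T5 phi5 (2 ^ 44 : ℕ) (2 + 1) (3 + 1)) 0
    7059466092451389767681 2 3 = true :=
  CdBF.chk_of (a := 1) (b := 1) rfl rfl ((Bool.and_eq_true_iff.mp (Bool.and_eq_true_iff.mp (Bool.and_eq_true_iff.mp (Bool.and_eq_true_iff.mp (Bool.and_eq_true_iff.mp (Bool.and_eq_true_iff.mp fc_all11).2).2).2).2).2).1)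

theorem fc24 : cdC.chk (T5 phi5 (2 ^ 44 : ℕ) (2 + 1) (4 + 1)) 0
    7059466092451389767681 2 4 = true :=
  CdBF.chk_of (a := 1) (b := 1) rfl rfl ((Bool.and_eq_true_iff.mp (Bool.and_eq_true_iff.mp (Bool.and_eq_true_iff.mp (Bool.and_eq_true_iff.mp (Bool.and_eq_true_iff.mp (Bool.and_eq_true_iff.mp (Bool.and_eq_true_iff.mp fc_all11).2).2).2).2).2).2).1)

theorem fc33 : cdC.chk (T5 phi5 (2 ^ 44 : ℕ) (3 + 1) (3 + 1)) (4323455642275676 : ℕ)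
    7059466092451389767681 3 3 = true :=
  CdBF.chk_of (a := 1) (b := 1) rfl rfl ((Bool.and_eq_true_iff.mp (Bool.and_eq_true_iff.mp (Bool.and_eq_true_iff.mp (Bool.and_eq_true_iff.mp (Bool.and_eq_true_iff.mp (Bool.and_eq_true_iff.mp (Bool.and_eq_true_iff.mp (Bool.and_eq_true_iff.mp fc_all11).2).2).2).2).2).2).2).1)

theorem fc34 : cdC.chk (T5 phi5 (2 ^ 44 : ℕ) (3 + 1) (4 + 1)) 0
    7059466092451389767681 3 4 = true :=
  CdBF.chk_of (a := 1) (b := 1) rfl rfl ((Bool.and_eq_true_iff.mp (Bool.and_eq_true_iff.mp (Bool.and_eq_true_iff.mp (Bool.and_eq_true_iff.mp (Bool.and_eq_true_iff.mp (Bool.and_eq_true_iff.mp (Bool.and_eq_true_iff.mp (Bool.and_eq_true_iff.mp (Bool.and_eq_true_iff.mp fc_all11).2).2).2).2).2).2).2).2).1)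

theorem fc44 : cdC.chk (T5 phi5 (2 ^ 44 : ℕ) (4 + 1) (4 + 1)) (4323455642275676 : ℕ)
    7059466092451389767681 4 4 = true :=
  CdBF.chk_of (a := 1) (b := 1) rfl rfl ((Bool.and_eq_true_iff.mp (Bool.and_eq_true_iff.mp (Bool.and_eq_true_iff.mp (Bool.and_eq_true_iff.mp (Bool.and_eq_true_iff.mp (Bool.and_eq_true_iff.mp (Bool.and_eq_true_iff.mp (Bool.and_eq_true_iff.mp (Bool.and_eq_true_iff.mp fc_all11).2).2).2).2).2).2).2).2).2)

end Vale.Agent.P098.S5
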