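import Mathlib
import Vale.Agent.P098.Bdl.C1
import Vale.Agent.P098.Bdl.B23

set_option linter.all false

/-! Kernel checks of the certificates for m = 5, index 0, with common tables. -/

namespace Vale.Agent.P098.S5

open Vale.Agent.P098.K Vale.Agent.P098.N

set_option maxRecDepth 100000

theorem fc_all00 : (
      cdC.chkK 0 0 (T5 phi5 (2 ^ 44 : ℕ) (0 + 1) (0 + 1)) (4323455642275676 : ℕ) 7059466092451389767681 0 0) = true := by
  decide +kernel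

theorem fc00 : cdC.chk (T5 phi5 (2 ^ 44 : ℕ) (0 + 1) (0 + 1)) (4323455642275676 : ℕ)
    7059466092451389767681 0 0 = true :=
  CdBF.chk_of (a := 0) (b := 0) rfl rfl (fc_all00)

theorem fc_all01 : (
      cdC.chkK 0 1 (T5 phi5 (2 ^ 44 : ℕ) (0 + 1) (1 + 1)) 0 7059466092451389767681 0 1
      && (cdC.chkK 0 1 (T5 phi5 (2 ^ 44 : ℕ) (0 + 1) (2 + 1)) 0 7059466092451389767681 0 2
      && (cdC.chkK 0 1 (T5 phi5 (2 ^ 44 : ℕ) (0 + 1) (3 + 1)) 0 7059466092451389767681 0 3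
      && (cdC.chkK 0 1 (T5 phi5 (2 ^ 44 : ℕ) (0 + 1) (4 + 1)) 0 7059466092451389767681 0 4)))) = true := by
  decide +kernel

theorem fc01 : cdC.chk (T5 phi5 (2 ^ 44 : ℕ) (0 + 1) (1 + 1)) 0
    7059466092451389767681 0 1 = true :=
  CdBF.chk_of (a := 0) (b := 1) rfl rfl ((Bool.and_eq_true_iff.mp fc_all01).1)

theorem fc02 : cdC.chk (T5 phi5 (2 ^ 44 : ℕ) (0 + 1) (2 + 1)) 0
    7059466092451389767681 0 2 = true :=
  CdBF.chk_of (a := 0) (b := 1) rfl rfl ((Bool.and_eq_true_iff.mp (Bool.and_eq_true_iff.mp fc_all01).2).1)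

theorem fc03 : cdC.chk (T5 phi5 (2 ^ 44 : ℕ) (0 + 1) (3 + 1)) 0
    7059466092451389767681 0 3 = true :=
  CdBF.chk_of (a := 0) (b := 1) rfl rfl ((Bool.and_eq_true_iff.mp (Bool.and_eq_true_iff.mp (Bool.and_eq_true_iff.mp fc_all01).2).2).1)

theorem fc04 : cdC.chk (T5 phi5 (2 ^ 44 : ℕ) (0 + 1) (4 + 1)) 0
    7059466092451389767681 0 4 = true :=
  CdBF.chk_of (a := 0) (b := 1) rfl rfl ((Bool.and_eq_true_iff.mp (Bool.and_eq_true_iff.mp (Bool.and_eq_true_iff.mp fc_all01).2).2).2)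

end Vale.Agent.P098.S5

namespace Vale.Agent.P098.N

open Vale.Agent.P098.K

set_option maxRecDepth 100000

theorem c5_all00 : (
      cd5.chkK 0 0 (T5 phi5 (2 ^ 52 : ℕ) 0 0) 368811017749686464 1031270351327720623134037 0 0) = true := by
  decide +kernel

theorem c5_00 : cd5.chk (T5 phi5 (2 ^ 52 : ℕ) 0 0) 368811017749686464 1031270351327720623134037 0 0 = true :=
  CdF.chk_of (a := 0) (b := 0) rfl rfl (c5_all00)

theorem c5_all01 : (
      cd5.chkK 0 1 (T5 phi5 (2 ^ 52 : ℕ) 0 1) 0 1031270351327720623134037 0 1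
      && (cd5.chkK 0 1 (T5 phi5 (2 ^ 52 : ℕ) 0 2) 0 1031270351327720623134037 0 2
      && (cd5.chkK 0 1 (T5 phi5 (2 ^ 52 : ℕ) 0 3) 0 1031270351327720623134037 0 3
      && (cd5.chkK 0 1 (T5 phi5 (2 ^ 52 : ℕ) 0 4) 0 1031270351327720623134037 0 4
      && (cd5.chkK 0 1 (T5 phi5 (2 ^ 52 : ℕ) 0 5) 0 1031270351327720623134037 0 5))))) = true := by
  decide +kernel

theorem c5_01 : cd5.chk (T5 phi5 (2 ^ 52 : ℕ) 0 1) 0 1031270351327720623134037 0 1 = true :=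
  CdF.chk_of (a := 0) (b := 1) rfl rfl ((Bool.and_eq_true_iff.mp c5_all01).1)

theorem c5_02 : cd5.chk (T5 phi5 (2 ^ 52 : ℕ) 0 2) 0 1031270351327720623134037 0 2 = true :=
  CdF.chk_of (a := 0) (b := 1) rfl rfl ((Bool.and_eq_true_iff.mp (Bool.and_eq_true_iff.mp c5_all01).2).1)

theorem c5_03 : cd5.chk (T5 phi5 (2 ^ 52 : ℕ) 0 3) 0 1031270351327720623134037 0 3 = true :=
  CdF.chk_of (a := 0) (b := 1) rfl rfl ((Bool.and_eq_true_iff.mp (Bool.and_eq_true_iff.mp (Bool.and_eq_true_iff.mp c5_all01).2).2).1)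

theorem c5_04 : cd5.chk (T5 phi5 (2 ^ 52 : ℕ) 0 4) 0 1031270351327720623134037 0 4 = true :=
  CdF.chk_of (a := 0) (b := 1) rfl rfl ((Bool.and_eq_true_iff.mp (Bool.and_eq_true_iff.mp (Bool.and_eq_true_iff.mp (Bool.and_eq_true_iff.mp c5_all01).2).2).2).1)

theorem c5_05 : cd5.chk (T5 phi5 (2 ^ 52 : ℕ) 0 5) 0 1031270351327720623134037 0 5 = true :=
  CdF.chk_of (a := 0) (b := 1) rfl rfl ((Bool.and_eq_true_iff.mp (Bool.and_eq_true_iff.mp (Bool.and_eq_true_iff.mp (Bool.and_eq_true_iff.mp c5_all01).2).2).2).2)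

end Vale.Agent.P098.N
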