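import Mathlib
import Vale.Agent.P098.Bdl.B26
import Vale.Agent.P098.Bdl.B25
import Vale.Agent.P098.Bdl.B19
import Vale.Agent.P098.Bdl.B22
import Vale.Agent.P098.Bdl.B29
import Vale.Agent.P098.Bdl.B24
import Vale.Agent.P098.Bdl.B7
import Vale.Agent.P098.Bdl.B13
import Vale.Agent.P098.Bdl.B27
import Vale.Agent.P098.Bdl.B21
import Vale.Agent.P098.Bdl.B6
import Vale.Agent.P098.Bdl.B5
import Vale.Agent.P098.Bdl.B15
import Vale.Agent.P098.Bdl.B23
import Vale.Agent.P098.Bdl.B12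
import Vale.Agent.P098.Bdl.B18
import Vale.Agent.P098.Bdl.B28
import Vale.Agent.P098.Bdl.C2
import Vale.Agent.P098.Bdl.C3
import Vale.Agent.P098.Bdl.C4

set_option linter.all false

section

/-! # M8: blow-ups are homogeneous

`resc (resc u x₀ r) 0 s = resc u x₀ (r s)` and `weiss (resc u x₀ r) s = weiss (resc u x₀ 1) (r s)`
(the integrands coincide: `fderiv (resc u x₀ r) (s y) = fderiv u (x₀ + r s y)`). Let
`f n = resc u x₀ (r n)`: `MinL L`, `f n 0 = 0`. `exists_subseq` gives a subsequence converging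
pointwise to `v`, `MinL L v` by `lim_minL`. For fixed `s > 0`, `weiss (f n) s → weiss v s` by
`lim_grad`, `lim_pos` and `unif_on_balls` (bounded weights, supports in the unit ball).
`W(r) = weiss (resc u x₀ 1) r` is nondecreasing (`weiss_mono`) and bounded below on `(0, 1]`
(`|resc u x₀ 1 (r y) / r| ≤ L |y|`), so it has a limit `W(0⁺)`, and
`weiss v s = lim W(r_n s) = W(0⁺)` for every `s`. Now `hom_of_weiss_const`. -/

open MeasureTheory Set Metric Filter
open scoped ContDiff RealInnerProductSpace Topology NNReal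

namespace Vale.Agent.P098

variable {d : ℕ}

lemma rM8_fderiv_resc (u : E d → ℝ) (x₀ : E d) {r : ℝ} (hr : r ≠ 0) (x : E d) :
    fderiv ℝ (resc u x₀ r) x = fderiv ℝ u (x₀ + r • x) := by
  have h1 : resc u x₀ r = r⁻¹ • (fun x => (fun z => u (x₀ + z)) (r • x)) := by
    funext x
    simp only [resc, Pi.smul_apply, smul_eq_mul]
    rw [div_eq_inv_mul]
  have h2 : fderiv ℝ (fun x => (fun z => u (x₀ + z)) (r • x)) x =
      r • fderiv ℝ (fun z => u (x₀ + z)) (r • x) :=
    fderiv_comp_smul (f := fun z : E d => u (x₀ + z)) (x := x) r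
  rw [h1, fderiv_const_smul_field, Pi.smul_apply, h2, fderiv_comp_add_left, smul_smul,
    inv_mul_cancel₀ hr, one_smul]

lemma rM8_weiss_resc (u : E d → ℝ) (x₀ : E d) {r s : ℝ} (hr : 0 < r) (hs : 0 < s) :
    weiss (resc u x₀ r) s = weiss (resc u x₀ 1) (r * s) := by
  have hrs : 0 < r * s := mul_pos hr hs
  have e1 : ∀ y : E d, x₀ + r • s • y = x₀ + (1 : ℝ) • (r * s) • y := by
    intro y; rw [one_smul, smul_smul]
  unfold weiss
  congr 1
  · congr 1
    funext y
    rw [rM8_fderiv_resc u x₀ hr.ne', rM8_fderiv_resc u x₀ one_ne_zero, e1 y]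
    congr 2
    have : (s • y ∈ pos (resc u x₀ r)) ↔ ((r * s) • y ∈ pos (resc u x₀ 1)) := by
      simp only [mem_ofPred_eq, resc, div_one, e1 y]
      exact div_pos_iff_of_pos_right hr
    by_cases h : s • y ∈ pos (resc u x₀ r)
    · rw [indicator_of_mem h, indicator_of_mem (this.1 h)]
    · rw [indicator_of_notMem h, indicator_of_notMem (fun h' => h (this.2 h'))]
  · congr 1
    funext y
    congr 2
    simp only [resc, div_one, e1 y]
    rw [div_div]

/-- the cutoff weight of order `k` -/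
noncomputable def rM8_w (k : ℕ) (y : E d) : ℝ := max (1 - ‖y‖ ^ 2) 0 ^ k

lemma rM8_w_cont (k : ℕ) : Continuous (rM8_w k : E d → ℝ) := by
  unfold rM8_w; fun_prop

lemma rM8_w_nonneg (k : ℕ) (y : E d) : 0 ≤ rM8_w k y := by
  unfold rM8_w; positivity

lemma rM8_w_zero {k : ℕ} (hk : k ≠ 0) {y : E d} (hy : y ∉ ball (0 : E d) 1) : rM8_w k y = 0 := by
  rw [mem_ball_zero_iff, not_lt] at hy
  unfold rM8_w
  rw [max_eq_right (by nlinarith), zero_pow hk]

lemma rM8_w_le (k : ℕ) (y : E d) : rM8_w k y ≤ 1 := by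
  unfold rM8_w
  apply pow_le_one₀ (le_max_right _ _)
  apply max_le _ zero_le_one
  linarith only [sq_nonneg ‖y‖]

lemma rM8_w_int {k : ℕ} (hk : k ≠ 0) : Integrable (rM8_w k : E d → ℝ) := by
  apply (rM8_w_cont k).integrable_of_hasCompactSupport
  apply HasCompactSupport.intro (isCompact_closedBall (0 : E d) 1)
  intro x hx
  exact rM8_w_zero hk (fun h => hx (ball_subset_closedBall h))

/-- the density of the first part of the Weiss energy -/
noncomputable def rM8_a (f : E d → ℝ) (z : E d) : ℝ :=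
  ‖fderiv ℝ f z‖ ^ 2 + (pos f).indicator (fun _ => (1 : ℝ)) z

lemma rM8_pos_meas {L : ℝ≥0} {f : E d → ℝ} (hf : LipschitzWith L f) : MeasurableSet (pos f) :=
  (isOpen_lt continuous_const hf.continuous).measurableSet

lemma rM8_a_meas {L : ℝ≥0} {f : E d → ℝ} (hf : LipschitzWith L f) : Measurable (rM8_a f) := by
  unfold rM8_a
  exact ((measurable_fderiv ℝ f).norm.pow_const 2).add
    (measurable_const.indicator (rM8_pos_meas hf))

lemma rM8_a_nonneg (f : E d → ℝ) (z : E d) : 0 ≤ rM8_a f z := by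
  unfold rM8_a
  exact add_nonneg (sq_nonneg _) (indicator_nonneg (fun _ _ => zero_le_one) _)

lemma rM8_a_le {L : ℝ≥0} {f : E d → ℝ} (hf : LipschitzWith L f) (z : E d) :
    rM8_a f z ≤ L ^ 2 + 1 := by
  unfold rM8_a
  have h1 : ‖fderiv ℝ f z‖ ≤ L := norm_fderiv_le_of_lipschitz ℝ hf
  have h2 : (pos f).indicator (fun _ => (1 : ℝ)) z ≤ 1 :=
    indicator_le_self' (fun _ _ => zero_le_one) z
  have h3 : ‖fderiv ℝ f z‖ ^ 2 ≤ (L : ℝ) ^ 2 := pow_le_pow_left₀ (norm_nonneg _) h1 2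
  linarith

lemma rM8_aw_int {L : ℝ≥0} {f : E d → ℝ} (hf : LipschitzWith L f) (s : ℝ) :
    Integrable (fun y : E d => rM8_a f (s • y) * rM8_w 3 y) := by
  refine ((rM8_w_int (d := d) (k := 3) (by norm_num)).const_mul ((L : ℝ) ^ 2 + 1)).mono' ?_ ?_
  · exact (((rM8_a_meas hf).comp (measurable_const_smul s)).aestronglyMeasurable).mul
      (rM8_w_cont 3).aestronglyMeasurable
  · refine Eventually.of_forall fun y => ?_
    rw [Real.norm_eq_abs, abs_mul, abs_of_nonneg (rM8_a_nonneg f _),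
      abs_of_nonneg (rM8_w_nonneg 3 y)]
    exact mul_le_mul_of_nonneg_right (rM8_a_le hf _) (rM8_w_nonneg 3 y)

lemma rM8_cs {B : Set (E d)} (hB : volume B ≠ ⊤) {F : E d → ℝ}
    (h1 : IntegrableOn F B) (h2 : IntegrableOn (fun x => F x ^ 2) B) :
    (∫ x in B, F x) ^ 2 ≤ volume.real B * ∫ x in B, F x ^ 2 := by
  have hfin : IsFiniteMeasure (volume.restrict B) := ⟨by
    rw [Measure.restrict_apply_univ]; exact lt_top_iff_ne_top.2 hB⟩
  set I : ℝ := ∫ x in B, F x with hI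
  set V : ℝ := volume.real B with hV
  have hVnn : 0 ≤ V := measureReal_nonneg
  have h0 : 0 ≤ ∫ x in B, (V * F x - I) ^ 2 := integral_nonneg fun x => sq_nonneg _
  have e : ∫ x in B, (V * F x - I) ^ 2 = V ^ 2 * (∫ x in B, F x ^ 2) - 2 * V * I * I + V * I ^ 2 := by
    have e1 : ∀ x, (V * F x - I) ^ 2 = (V ^ 2 * F x ^ 2 - 2 * V * I * F x) + I ^ 2 := by
      intro x; ring
    have i1 : Integrable (fun x => V ^ 2 * F x ^ 2) (volume.restrict B) := h2.const_mul _
    have i2 : Integrable (fun x => 2 * V * I * F x) (volume.restrict B) := h1.const_mul _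
    have i3 : Integrable (fun x => V ^ 2 * F x ^ 2 - 2 * V * I * F x) (volume.restrict B) :=
      i1.sub i2
    simp_rw [e1]
    rw [integral_add i3 (integrable_const _), integral_sub i1 i2, integral_const_mul,
      integral_const_mul, setIntegral_const, smul_eq_mul]
  rw [e] at h0
  have h3 : V * (V * (∫ x in B, F x ^ 2) - I ^ 2) ≥ 0 := by linarith only [h0]
  rcases hVnn.eq_or_lt with h | h
  · have hB0 : volume B = 0 := by
      rw [hV, measureReal_def] at h
      rcases (ENNReal.toReal_eq_zero_iff _).1 h.symm with h | h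
      · exact h
      · exact absurd h hB
    have : I = 0 := by
      rw [hI, Measure.restrict_eq_zero.2 hB0, integral_zero_measure]
    rw [this, ← h]; simp
  · have := nonneg_of_mul_nonneg_right h3 h
    linarith

lemma rM8_tendsto_sq {B : Set (E d)} (hB : volume B ≠ ⊤) {F : ℕ → E d → ℝ}
    (h0 : ∀ n x, 0 ≤ F n x)
    (h1 : ∀ n, IntegrableOn (F n) B) (h2 : ∀ n, IntegrableOn (fun x => F n x ^ 2) B)
    (h : Tendsto (fun n => ∫ x in B, F n x ^ 2) atTop (𝓝 0)) :
    Tendsto (fun n => ∫ x in B, F n x) atTop (𝓝 0) := by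
  have hlim : Tendsto (fun n => Real.sqrt (volume.real B * ∫ x in B, F n x ^ 2)) atTop (𝓝 0) := by
    have := (h.const_mul (volume.real B)).sqrt
    simpa using this
  refine squeeze_zero (fun n => integral_nonneg fun x => h0 n x) (fun n => ?_) hlim
  exact Real.le_sqrt_of_sq_le (rM8_cs hB (h1 n) (h2 n))

lemma rM8_a_diff {L : ℝ≥0} {f g : E d → ℝ} (hf : LipschitzWith L f) (hg : LipschitzWith L g)
    (z : E d) : |rM8_a f z - rM8_a g z| ≤ 2 * L * ‖fderiv ℝ f z - fderiv ℝ g z‖ +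
      |(pos f).indicator (fun _ => (1 : ℝ)) z - (pos g).indicator (fun _ => (1 : ℝ)) z| := by
  unfold rM8_a
  have h1 : ‖fderiv ℝ f z‖ ≤ L := norm_fderiv_le_of_lipschitz ℝ hf
  have h2 : ‖fderiv ℝ g z‖ ≤ L := norm_fderiv_le_of_lipschitz ℝ hg
  have h3 : |‖fderiv ℝ f z‖ - ‖fderiv ℝ g z‖| ≤ ‖fderiv ℝ f z - fderiv ℝ g z‖ :=
    abs_norm_sub_norm_le _ _
  have h4 : |‖fderiv ℝ f z‖ ^ 2 - ‖fderiv ℝ g z‖ ^ 2| ≤
      2 * L * ‖fderiv ℝ f z - fderiv ℝ g z‖ := by
    have e : ‖fderiv ℝ f z‖ ^ 2 - ‖fderiv ℝ g z‖ ^ 2 =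
        (‖fderiv ℝ f z‖ + ‖fderiv ℝ g z‖) * (‖fderiv ℝ f z‖ - ‖fderiv ℝ g z‖) := by ring
    rw [e, abs_mul, abs_of_nonneg (by positivity)]
    exact mul_le_mul (by linarith) h3 (abs_nonneg _) (by positivity)
  calc |‖fderiv ℝ f z‖ ^ 2 + (pos f).indicator (fun _ => (1 : ℝ)) z -
        (‖fderiv ℝ g z‖ ^ 2 + (pos g).indicator (fun _ => (1 : ℝ)) z)|
      = |(‖fderiv ℝ f z‖ ^ 2 - ‖fderiv ℝ g z‖ ^ 2) + ((pos f).indicator (fun _ => (1 : ℝ)) z -
        (pos g).indicator (fun _ => (1 : ℝ)) z)| := by congr 1; ring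
    _ ≤ _ := (abs_add_le _ _).trans (add_le_add h4 le_rfl)

lemma rM8_first {L : ℝ≥0} {f : ℕ → E d → ℝ} {g : E d → ℝ} (hf : ∀ n, MinL L (f n))
    (hg : MinL L g)
    (hlim : ∀ x, Tendsto (fun n => f n x) atTop (𝓝 (g x))) {c : ℝ} (hc : 0 < c)
    (hnd : ∀ n, NonDeg c (f n)) {s : ℝ} (hs : 0 < s) :
    Tendsto (fun n => ∫ y : E d, rM8_a (f n) (s • y) * rM8_w 3 y) atTop
      (𝓝 (∫ y : E d, rM8_a g (s • y) * rM8_w 3 y)) := by
  have hBfin : volume (ball (0 : E d) s) ≠ ⊤ := measure_ball_lt_top.ne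
  have hfin : IsFiniteMeasure (volume.restrict (ball (0 : E d) s)) := ⟨by
    rw [Measure.restrict_apply_univ]; exact lt_top_iff_ne_top.2 hBfin⟩
  have hfin1 : IsFiniteMeasure (volume.restrict (ball (0 : E d) 1)) := ⟨by
    rw [Measure.restrict_apply_univ]; exact measure_ball_lt_top⟩
  -- the gradient part
  have hFm : ∀ n, Measurable (fun x => ‖fderiv ℝ (f n) x - fderiv ℝ g x‖) := fun n =>
    ((measurable_fderiv ℝ (f n)).sub (measurable_fderiv ℝ g)).norm
  have hFb : ∀ n x, ‖fderiv ℝ (f n) x - fderiv ℝ g x‖ ≤ L + L := fun n x =>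
    (norm_sub_le _ _).trans (add_le_add (norm_fderiv_le_of_lipschitz ℝ (hf n).lip)
      (norm_fderiv_le_of_lipschitz ℝ hg.lip))
  have hF1 : ∀ n, IntegrableOn (fun x => ‖fderiv ℝ (f n) x - fderiv ℝ g x‖) (ball (0 : E d) s) :=
    fun n => Integrable.of_bound (hFm n).aestronglyMeasurable ((L : ℝ) + L)
      (Eventually.of_forall fun x => by rw [norm_norm]; exact hFb n x)
  have hF2 : ∀ n, IntegrableOn (fun x => ‖fderiv ℝ (f n) x - fderiv ℝ g x‖ ^ 2)
      (ball (0 : E d) s) :=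
    fun n => Integrable.of_bound ((hFm n).pow_const 2).aestronglyMeasurable (((L : ℝ) + L) ^ 2)
      (Eventually.of_forall fun x => by
        rw [norm_pow, norm_norm]; exact pow_le_pow_left₀ (norm_nonneg _) (hFb n x) 2)
  have hgrad : Tendsto (fun n => ∫ x in ball (0 : E d) s, ‖fderiv ℝ (f n) x - fderiv ℝ g x‖)
      atTop (𝓝 0) :=
    rM8_tendsto_sq hBfin (fun n x => norm_nonneg _) hF1 hF2 (lim_grad hf hlim s)
  have hpos := lim_pos hf hlim hc hnd s
  have hIm : ∀ n, Measurable (fun x => |(pos (f n)).indicator (fun _ => (1 : ℝ)) x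
      - (pos g).indicator (fun _ => (1 : ℝ)) x|) := fun n =>
    _root_.continuous_abs.measurable.comp ((measurable_const.indicator (rM8_pos_meas (hf n).lip)).sub
      (measurable_const.indicator (rM8_pos_meas hg.lip)))
  have hI1 : ∀ n, IntegrableOn (fun x => |(pos (f n)).indicator (fun _ => (1 : ℝ)) x
      - (pos g).indicator (fun _ => (1 : ℝ)) x|) (ball (0 : E d) s) := fun n => by
    refine Integrable.of_bound (hIm n).aestronglyMeasurable (1 + 1) ?_
    refine Eventually.of_forall fun x => ?_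
    rw [Real.norm_eq_abs, abs_abs]
    have b : ∀ S : Set (E d), |S.indicator (fun _ => (1 : ℝ)) x| ≤ 1 := by
      intro S
      rw [abs_of_nonneg (indicator_nonneg (fun _ _ => zero_le_one) _)]
      exact indicator_le_self' (fun _ _ => zero_le_one) x
    exact (abs_sub _ _).trans (add_le_add (b _) (b _))
  set D : ℕ → ℝ := fun n => 2 * L * (∫ x in ball (0 : E d) s, ‖fderiv ℝ (f n) x - fderiv ℝ g x‖) +
    ∫ x in ball (0 : E d) s, |(pos (f n)).indicator (fun _ => (1 : ℝ)) x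
      - (pos g).indicator (fun _ => (1 : ℝ)) x| with hD
  have hDlim : Tendsto (fun n => (s ^ Module.finrank ℝ (E d))⁻¹ * D n) atTop (𝓝 0) := by
    have := ((hgrad.const_mul (2 * (L : ℝ))).add hpos).const_mul (s ^ Module.finrank ℝ (E d))⁻¹
    simpa [hD] using this
  rw [tendsto_iff_dist_tendsto_zero]
  refine squeeze_zero (fun n => dist_nonneg) (fun n => ?_) hDlim
  rw [Real.dist_eq, ← integral_sub (rM8_aw_int (hf n).lip s) (rM8_aw_int hg.lip s)]
  have hdm : Measurable (fun z => |rM8_a (f n) z - rM8_a g z|) :=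
    _root_.continuous_abs.measurable.comp ((rM8_a_meas (hf n).lip).sub (rM8_a_meas hg.lip))
  have hdb : ∀ z, |rM8_a (f n) z - rM8_a g z| ≤ ((L : ℝ) ^ 2 + 1) + (L ^ 2 + 1) := fun z => by
    refine (abs_sub _ _).trans (add_le_add ?_ ?_)
    · rw [abs_of_nonneg (rM8_a_nonneg _ _)]; exact rM8_a_le (hf n).lip z
    · rw [abs_of_nonneg (rM8_a_nonneg _ _)]; exact rM8_a_le hg.lip z
  calc |∫ y : E d, (rM8_a (f n) (s • y) * rM8_w 3 y - rM8_a g (s • y) * rM8_w 3 y)|
      ≤ ∫ y : E d, |rM8_a (f n) (s • y) * rM8_w 3 y - rM8_a g (s • y) * rM8_w 3 y| :=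
        abs_integral_le_integral_abs
    _ ≤ ∫ y : E d, (ball (0 : E d) 1).indicator (fun y => |rM8_a (f n) (s • y) - rM8_a g (s • y)|)
          y := by
        refine integral_mono ((rM8_aw_int (hf n).lip s).sub (rM8_aw_int hg.lip s)).abs ?_ ?_
        · rw [integrable_indicator_iff measurableSet_ball]
          exact Integrable.of_bound (hdm.comp (measurable_const_smul s)).aestronglyMeasurable
            (((L : ℝ) ^ 2 + 1) + (L ^ 2 + 1)) (Eventually.of_forall fun x => by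
              rw [Real.norm_eq_abs, abs_abs]; exact hdb _)
        · intro y
          by_cases hy : y ∈ ball (0 : E d) 1
          · simp only [indicator_of_mem hy]
            rw [← sub_mul, abs_mul, abs_of_nonneg (rM8_w_nonneg 3 y)]
            exact mul_le_of_le_one_right (abs_nonneg _) (rM8_w_le 3 y)
          · simp only [indicator_of_notMem hy]
            rw [rM8_w_zero (by norm_num) hy]
            simp
    _ = ∫ y in ball (0 : E d) 1, |rM8_a (f n) (s • y) - rM8_a g (s • y)| :=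
        integral_indicator measurableSet_ball
    _ = (s ^ Module.finrank ℝ (E d))⁻¹ * ∫ z in ball (0 : E d) s, |rM8_a (f n) z - rM8_a g z| := by
        rw [Measure.setIntegral_comp_smul_of_pos volume
          (fun z => |rM8_a (f n) z - rM8_a g z|) (ball (0 : E d) 1) hs,
          smul_unitBall_of_pos hs, smul_eq_mul]
    _ ≤ (s ^ Module.finrank ℝ (E d))⁻¹ * D n := by
        refine mul_le_mul_of_nonneg_left ?_ (by positivity)
        have i1 : IntegrableOn (fun x => 2 * L * ‖fderiv ℝ (f n) x - fderiv ℝ g x‖)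
          (ball (0 : E d) s) := (hF1 n).const_mul _
        calc ∫ z in ball (0 : E d) s, |rM8_a (f n) z - rM8_a g z|
            ≤ ∫ z in ball (0 : E d) s, (2 * L * ‖fderiv ℝ (f n) z - fderiv ℝ g z‖ +
              |(pos (f n)).indicator (fun _ => (1 : ℝ)) z
                - (pos g).indicator (fun _ => (1 : ℝ)) z|) := by
              refine integral_mono ?_ (i1.add (hI1 n)) ?_
              · exact Integrable.of_bound hdm.aestronglyMeasurable
                  (((L : ℝ) ^ 2 + 1) + (L ^ 2 + 1)) (Eventually.of_forall fun x => by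
                    rw [Real.norm_eq_abs, abs_abs]; exact hdb _)
              · intro z
                exact rM8_a_diff (hf n).lip hg.lip z
          _ = D n := by
              rw [integral_add i1 (hI1 n), integral_const_mul]

lemma rM8_second_bound {L : ℝ≥0} {f : E d → ℝ} (hf : LipschitzWith L f) (h0 : f 0 = 0) {s : ℝ}
    (hs : 0 < s) (y : E d) :
    (f (s • y) / s) ^ 2 * (6 * max (1 - ‖y‖ ^ 2) 0 ^ 2) ≤ (L : ℝ) ^ 2 * 6 * rM8_w 2 y := by
  by_cases hy : y ∈ ball (0 : E d) 1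
  · have h1 : |f (s • y)| ≤ L * (s * ‖y‖) := by
      have := hf.dist_le_mul (s • y) 0
      rw [Real.dist_eq, h0, sub_zero, dist_zero_right, norm_smul, Real.norm_eq_abs,
        abs_of_pos hs] at this
      exact this
    rw [mem_ball_zero_iff] at hy
    have h2 : |f (s • y) / s| ≤ L := by
      rw [abs_div, abs_of_pos hs, div_le_iff₀ hs]
      refine h1.trans ?_
      have : (L : ℝ) * (s * ‖y‖) = L * s * ‖y‖ := by ring
      rw [this]
      exact mul_le_of_le_one_right (by positivity) hy.le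
    have h3 : (f (s • y) / s) ^ 2 ≤ (L : ℝ) ^ 2 := by
      rw [← sq_abs]; exact pow_le_pow_left₀ (abs_nonneg _) h2 2
    have h4 : 0 ≤ 6 * max (1 - ‖y‖ ^ 2) 0 ^ 2 := by positivity
    calc (f (s • y) / s) ^ 2 * (6 * max (1 - ‖y‖ ^ 2) 0 ^ 2)
        ≤ (L : ℝ) ^ 2 * (6 * max (1 - ‖y‖ ^ 2) 0 ^ 2) := mul_le_mul_of_nonneg_right h3 h4
      _ = (L : ℝ) ^ 2 * 6 * rM8_w 2 y := by unfold rM8_w; ring
  · have h1 := rM8_w_zero (k := 2) (by norm_num) hy
    have h2 : max (1 - ‖y‖ ^ 2) 0 ^ 2 = 0 := h1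
    rw [h1, h2]; simp

lemma rM8_second_nonneg (f : E d → ℝ) (s : ℝ) (y : E d) :
    0 ≤ (f (s • y) / s) ^ 2 * (6 * max (1 - ‖y‖ ^ 2) 0 ^ 2) := by positivity

lemma rM8_second {L : ℝ≥0} {f : ℕ → E d → ℝ} {g : E d → ℝ} (hf : ∀ n, LipschitzWith L (f n))
    (h0 : ∀ n, f n 0 = 0)
    (hlim : ∀ x, Tendsto (fun n => f n x) atTop (𝓝 (g x))) {s : ℝ} (hs : 0 < s) :
    Tendsto (fun n => ∫ y : E d, (f n (s • y) / s) ^ 2 * (6 * max (1 - ‖y‖ ^ 2) 0 ^ 2)) atTop
      (𝓝 (∫ y : E d, (g (s • y) / s) ^ 2 * (6 * max (1 - ‖y‖ ^ 2) 0 ^ 2))) := by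
  refine tendsto_integral_of_dominated_convergence (fun y => (L : ℝ) ^ 2 * 6 * rM8_w 2 y) ?_ ?_ ?_ ?_
  · intro n
    have : Continuous (fun y : E d => (f n (s • y) / s) ^ 2 * (6 * max (1 - ‖y‖ ^ 2) 0 ^ 2)) := by
      have := (hf n).continuous
      fun_prop
    exact this.aestronglyMeasurable
  · exact (rM8_w_int (by norm_num)).const_mul _
  · intro n
    refine Eventually.of_forall fun y => ?_
    rw [Real.norm_eq_abs, abs_of_nonneg (rM8_second_nonneg (f n) s y)]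
    exact rM8_second_bound (hf n) (h0 n) hs y
  · refine Eventually.of_forall fun y => ?_
    exact (((hlim (s • y)).div_const s).pow 2).mul_const _

lemma rM8_weiss_eq (f : E d → ℝ) (s : ℝ) : weiss f s = (∫ y : E d, rM8_a f (s • y) * rM8_w 3 y) -
    ∫ y : E d, (f (s • y) / s) ^ 2 * (6 * max (1 - ‖y‖ ^ 2) 0 ^ 2) := rfl

lemma rM8_weiss_tendsto {L : ℝ≥0} {f : ℕ → E d → ℝ} {g : E d → ℝ} (hf : ∀ n, MinL L (f n))
    (hg : MinL L g) (h0 : ∀ n, f n 0 = 0)
    (hlim : ∀ x, Tendsto (fun n => f n x) atTop (𝓝 (g x))) {c : ℝ} (hc : 0 < c)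
    (hnd : ∀ n, NonDeg c (f n)) {s : ℝ} (hs : 0 < s) :
    Tendsto (fun n => weiss (f n) s) atTop (𝓝 (weiss g s)) := by
  simp_rw [rM8_weiss_eq]
  exact (rM8_first hf hg hlim hc hnd hs).sub (rM8_second (fun n => (hf n).lip) h0 hlim hs)

lemma rM8_weiss_bdd {L : ℝ≥0} {f : E d → ℝ} (hf : LipschitzWith L f) (h0 : f 0 = 0) {s : ℝ}
    (hs : 0 < s) : -((L : ℝ) ^ 2 * 6 * ∫ y : E d, rM8_w 2 y) ≤ weiss f s := by
  rw [rM8_weiss_eq]
  have h1 : 0 ≤ ∫ y : E d, rM8_a f (s • y) * rM8_w 3 y :=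
    integral_nonneg fun y => mul_nonneg (rM8_a_nonneg _ _) (rM8_w_nonneg 3 y)
  have hi : Integrable (fun y : E d => (L : ℝ) ^ 2 * 6 * rM8_w 2 y) :=
    (rM8_w_int (by norm_num)).const_mul _
  have h2 : ∫ y : E d, (f (s • y) / s) ^ 2 * (6 * max (1 - ‖y‖ ^ 2) 0 ^ 2) ≤
      ∫ y : E d, (L : ℝ) ^ 2 * 6 * rM8_w 2 y := by
    refine integral_mono_of_nonneg (Eventually.of_forall fun y => rM8_second_nonneg f s y) hi
      (Eventually.of_forall fun y => rM8_second_bound hf h0 hs y)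
  rw [integral_const_mul] at h2
  linarith only [h2, h1]

theorem blow_up (hd : 1 ≤ d) {L : ℝ≥0} {u : E d → ℝ} (hu : MinL L u) {x₀ : E d} (hx₀ : u x₀ = 0)
    {r : ℕ → ℝ} (hr : ∀ n, 0 < r n) (hr0 : Tendsto r atTop (𝓝 0)) :
    ∃ φ : ℕ → ℕ, StrictMono φ ∧ ∃ v : E d → ℝ, MinL L v ∧ Hom1 v ∧
      ∀ x, Tendsto (fun n => resc u x₀ (r (φ n)) x) atTop (𝓝 (v x)) := by
  have hzero : ∀ ρ : ℝ, resc u x₀ ρ 0 = 0 := fun ρ => by simp [resc, hx₀]
  obtain ⟨φ, hφ, v, hvL, hlim⟩ := exists_subseq (f := fun n => resc u x₀ (r n)) (L := L) (C := 0)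
    (fun n => (hu.resc x₀ (hr n)).lip) (fun n => by simp [hzero])
  have hmin : ∀ n, MinL L (resc u x₀ (r (φ n))) := fun n => hu.resc x₀ (hr _)
  have hv : MinL L v := lim_minL hd hmin hlim
  refine ⟨φ, hφ, v, hv, ?_, hlim⟩
  obtain ⟨c, hc, hnd⟩ := nondeg d hd
  have hW : MinL L (resc u x₀ 1) := hu.resc x₀ one_pos
  set W : ℝ → ℝ := weiss (resc u x₀ 1) with hWdef
  have hmono : MonotoneOn W (Ioi 0) := fun a ha b _ hab => weiss_mono hW ha hab
  have hbdd : BddBelow (W '' Ioi 0) := by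
    refine ⟨-((L : ℝ) ^ 2 * 6 * ∫ y : E d, rM8_w 2 y), ?_⟩
    rintro _ ⟨s, hs, rfl⟩
    exact rM8_weiss_bdd hW.lip (hzero 1) hs
  have hWlim : Tendsto W (𝓝[>] 0) (𝓝 (sInf (W '' Ioi 0))) :=
    MonotoneOn.tendsto_nhdsGT hmono hbdd
  have key : ∀ s : ℝ, 0 < s → weiss v s = sInf (W '' Ioi 0) := by
    intro s hs
    have h1 : Tendsto (fun n => weiss (resc u x₀ (r (φ n))) s) atTop (𝓝 (weiss v s)) :=
      rM8_weiss_tendsto hmin hv (fun n => hzero _) hlim hc
        (fun n => hnd L _ (hmin n)) hs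
    have h2 : Tendsto (fun n => r (φ n) * s) atTop (𝓝[>] 0) := by
      rw [tendsto_nhdsWithin_iff]
      refine ⟨?_, Eventually.of_forall fun n => mul_pos (hr _) hs⟩
      have := (hr0.comp hφ.tendsto_atTop).mul_const s
      simpa using this
    have h3 : Tendsto (fun n => weiss (resc u x₀ (r (φ n))) s) atTop (𝓝 (sInf (W '' Ioi 0))) := by
      have := hWlim.comp h2
      refine this.congr fun n => ?_
      simp only [Function.comp, hWdef]
      exact (rM8_weiss_resc u x₀ (hr _) hs).symm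
    exact tendsto_nhds_unique h1 h3
  exact hom_of_weiss_const hv fun ρ hρ => by rw [key ρ hρ, key 1 one_pos]

end Vale.Agent.P098
end

section

/-! # M12: all blow-ups of homogeneous minimizers away from the origin are flat

Let `x₀ ≠ 0` be in the frontier, `r n = 1/(n+1)`, and `v` a blow-up limit from `blow_up`
(`u x₀ = 0`). (1) `v(x + t x₀) = v(x)`: by homogeneity of `u`, for `1 + r t > 0`,
`resc u x₀ r (x + t x₀) = u((1 + r t) x₀ + r x)/r = (1 + r t) resc u x₀ r (x/(1 + r t))`; let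
`r → 0` (`L`-Lipschitz). (2) `slice` with `e = x₀/‖x₀‖` gives `ι` and `w = v ∘ ι`, `MinL L w`,
`Hom1 w`. By `FL n`, `w = 0` or `w y = max ⟪y, f⟫ 0`, `‖f‖ = 1`. (3) `w = 0` gives `v = 0`, which
contradicts `lim_closure` (`0 ∈ closure (pos (resc u x₀ r))`) . So `v x = max ⟪x, ι f⟫ 0`,
`‖ι f‖ = 1` (`⟪x, ι f⟫ = ⟪ι y, ι f⟫ = ⟪y, f⟫` for `x = ι y + ⟪x,e⟫ e`).
(4) `Trap`: given `ε` take `n` large such that `|resc u x₀ r - v| ≤ ε'` on `closedBall 0 (1 + ε)`
(`unif_on_balls`), `ε' = min (ε/2) (c ε / 4)`, `c` from `nondeg`. Lower bound: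
`⟪x,e'⟫ - ε ≤ v x - ε ≤ resc x`. Upper bound: if `⟪x,e'⟫ ≥ -ε/2`, then
`resc x ≤ v x + ε/2 ≤ max(⟪x,e'⟫,0) + ε/2 ≤ ⟪x,e'⟫ + ε`. If `⟪x,e'⟫ < -ε/2` and `resc x > 0`,
nondegeneracy gives `y ∈ closedBall x (ε/2)` with `resc y ≥ c ε/2`, but `v y = 0`; contradiction, so
`resc x = 0`. -/

open MeasureTheory Set Metric Filter
open scoped ContDiff RealInnerProductSpace Topology NNReal

namespace Vale.Agent.P098

variable {d : ℕ}

/-- Blow-up limits of one-homogeneous functions at `x₀` are invariant along `x₀`. -/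
theorem rM12_inv {L : ℝ≥0} {u v : E d → ℝ} (hL : LipschitzWith L u) (hh : Hom1 u) {x₀ : E d}
    {s : ℕ → ℝ} (hs : ∀ n, 0 < s n) (hs0 : Tendsto s atTop (𝓝 0))
    (hlim : ∀ x, Tendsto (fun n => resc u x₀ (s n) x) atTop (𝓝 (v x))) (x : E d) (t : ℝ) :
    v (x + t • x₀) = v x := by
  have h1 : Tendsto (fun n => 1 + s n * t) atTop (𝓝 1) := by
    have := (hs0.mul_const t).const_add 1
    simpa using this
  have hpos : ∀ᶠ n in atTop, 0 < 1 + s n * t := h1.eventually (lt_mem_nhds one_pos)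
  have h2 : Tendsto (fun n => resc u x₀ (s n) ((1 + s n * t)⁻¹ • x)) atTop (𝓝 (v x)) := by
    have hdiff : Tendsto (fun n => resc u x₀ (s n) ((1 + s n * t)⁻¹ • x) - resc u x₀ (s n) x)
        atTop (𝓝 0) := by
      have hb : Tendsto (fun n => (L : ℝ) * ‖(1 + s n * t)⁻¹ • x - x‖) atTop (𝓝 0) := by
        have h3 : Tendsto (fun n => (1 + s n * t)⁻¹ • x - x) atTop (𝓝 0) := by
          have := ((h1.inv₀ one_ne_zero).smul_const x).sub_const x
          simpa using this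
        simpa using (h3.norm).const_mul (L : ℝ)
      refine squeeze_zero_norm (fun n => ?_) hb
      have hsn := hs n
      unfold resc
      rw [← sub_div, Real.norm_eq_abs, abs_div, abs_of_pos hsn, div_le_iff₀ hsn]
      have := hL.dist_le_mul (x₀ + s n • ((1 + s n * t)⁻¹ • x)) (x₀ + s n • x)
      rw [Real.dist_eq, dist_eq_norm, add_sub_add_left_eq_sub, ← smul_sub, norm_smul,
        Real.norm_eq_abs, abs_of_pos hsn] at this
      calc _ ≤ _ := this
        _ = _ := by ring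
    have := hdiff.add (hlim x)
    simpa using this
  have h3 : Tendsto (fun n => (1 + s n * t) * resc u x₀ (s n) ((1 + s n * t)⁻¹ • x)) atTop
      (𝓝 (v x)) := by
    simpa using h1.mul h2
  refine tendsto_nhds_unique (hlim (x + t • x₀)) (h3.congr' ?_)
  filter_upwards [hpos] with n hn
  unfold resc
  rw [← mul_div_assoc, ← hh _ hn]
  congr 2
  rw [smul_add (1 + s n * t), smul_comm (1 + s n * t) (s n), smul_inv_smul₀ hn.ne', smul_add,
    add_smul, one_smul, smul_smul]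
  abel

theorem flat_traps {n : ℕ} (hn : 1 ≤ n) (hFL : FL n) {L : ℝ≥0} {u : E (n + 1) → ℝ}
    (hu : MinL L u) (hh : Hom1 u) {x₀ : E (n + 1)} (hx : x₀ ∈ frontier (pos u)) (hx0 : x₀ ≠ 0)
    {ε : ℝ} (hε : 0 < ε) : ∃ (r : ℝ) (e : E (n + 1)), 0 < r ∧ ‖e‖ = 1 ∧
      Trap (resc u x₀ r) (fun x => ⟪x, e⟫) (-ε) ε 0 1 := by
  obtain ⟨c, hc, hnd⟩ := nondeg (n + 1) (by omega)
  have hux0 : u x₀ = 0 := hu.zero_of_frontier hx
  set r : ℕ → ℝ := fun n => 1 / ((n : ℝ) + 1) with hr_def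
  have hr : ∀ n, 0 < r n := fun n => by positivity
  have hr0 : Tendsto r atTop (𝓝 0) := tendsto_one_div_add_atTop_nhds_zero_nat
  obtain ⟨φ, hφ, v, hv, hvh, hlim⟩ := blow_up (d := n + 1) (by omega) hu hux0 hr hr0
  have hf : ∀ k, MinL L (resc u x₀ (r (φ k))) := fun k => hu.resc x₀ (hr _)
  have hinv0 : ∀ x (t : ℝ), v (x + t • x₀) = v x := fun x t =>
    rM12_inv hu.lip hh (s := fun k => r (φ k)) (fun k => hr _) (hr0.comp hφ.tendsto_atTop) hlim x t
  have hx0n : ‖x₀‖ ≠ 0 := norm_ne_zero_iff.mpr hx0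
  set e : E (n + 1) := ‖x₀‖⁻¹ • x₀ with he_def
  have he : ‖e‖ = 1 := by
    rw [he_def, norm_smul, norm_inv, norm_norm, inv_mul_cancel₀ hx0n]
  have hinv : ∀ x (t : ℝ), v (x + t • e) = v x := fun x t => by
    rw [he_def, smul_smul]; exact hinv0 x _
  obtain ⟨ι, hι, hdec, hw⟩ := slice hv he hinv
  have hwh : Hom1 (fun y => v (ι y)) := fun a ha y => by
    show v (ι (a • y)) = a * v (ι y)
    rw [map_smul]; exact hvh a ha _
  have hvι : ∀ x, ∃ y, x = ι y + ⟪x, e⟫ • e ∧ v x = v (ι y) := fun x => by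
    obtain ⟨y, hy⟩ := hdec x
    refine ⟨y, hy, ?_⟩
    conv_lhs => rw [hy]
    exact hinv _ _
  rcases hFL L _ hw hwh with h0 | ⟨f, hf1, hwf⟩
  · exfalso
    have hv0 : ∀ x, v x = 0 := fun x => by
      obtain ⟨y, -, h⟩ := hvι x
      rw [h]; exact h0 y
    have := lim_closure hf hlim hc (fun k => hnd L _ (hf k)) (x := 0) (fun k => by
      rw [mem_closure_resc (hr _), smul_zero, add_zero]
      exact frontier_subset_closure hx)
    have hempty : pos v = ∅ := by
      ext x; simp [hv0 x]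
    rw [hempty, closure_empty] at this
    exact this
  · have hvf : ∀ x, v x = max ⟪x, ι f⟫ 0 := fun x => by
      obtain ⟨y, hy, h⟩ := hvι x
      rw [h]
      have h1 : v (ι y) = max ⟪y, f⟫ 0 := hwf y
      rw [h1]
      have h2 : ⟪x, ι f⟫ = ⟪y, f⟫ := by
        rw [hy, inner_add_left, inner_smul_left, real_inner_comm (ι f) e, hι f,
          LinearIsometry.inner_map_map]
        simp
      rw [h2]
    have hιf : ‖ι f‖ = 1 := by rw [LinearIsometry.norm_map]; exact hf1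
    set ε' : ℝ := min (ε / 2) (c * ε / 4) with hε'
    have hε'0 : 0 < ε' := by positivity
    obtain ⟨k, hk⟩ := (unif_on_balls (fun k => (hf k).lip) hlim (1 + ε) hε'0).exists
    refine ⟨r (φ k), ι f, hr _, hιf, ?_⟩
    intro x hxb
    rw [mem_ball_zero_iff] at hxb
    have hxx : x ∈ closedBall (0 : E (n + 1)) (1 + ε) := by
      rw [mem_closedBall_zero_iff]; linarith
    have hkx := abs_le.mp (hk x hxx)
    have e1 : ε' ≤ ε / 2 := min_le_left _ _
    have e2 : ε' ≤ c * ε / 4 := min_le_right _ _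
    have hvx := hvf x
    have hnn := (hf k).nonneg x
    constructor
    · apply max_le _ hnn
      have : ⟪x, ι f⟫ ≤ v x := by rw [hvx]; exact le_max_left _ _
      show ⟪x, ι f⟫ + -ε ≤ _
      linarith only [hkx.1, this, e1, hε'0]
    · rcases le_or_gt (-ε / 2) ⟪x, ι f⟫ with h | h
      · apply le_max_of_le_left
        show _ ≤ ⟪x, ι f⟫ + ε
        have : v x ≤ ⟪x, ι f⟫ + ε / 2 := by
          rw [hvx]; apply max_le <;> linarith
        linarith only [hkx.2, this, e1]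
      · apply le_max_of_le_right
        by_contra hcon
        push Not at hcon
        obtain ⟨y, hy, hcy⟩ := hnd L _ (hf k) x hcon (ε / 2) (by positivity)
        rw [mem_closedBall, dist_eq_norm] at hy
        have hyb : y ∈ closedBall (0 : E (n + 1)) (1 + ε) := by
          rw [mem_closedBall_zero_iff]
          have : ‖y‖ ≤ ‖y - x‖ + ‖x‖ := by
            calc ‖y‖ = ‖(y - x) + x‖ := by rw [sub_add_cancel]
              _ ≤ _ := norm_add_le _ _
          linarith only [this, hy, e1, hxb, hε'0]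
        have hyx : ⟪y, ι f⟫ ≤ 0 := by
          have h1 : ⟪y, ι f⟫ = ⟪x, ι f⟫ + ⟪y - x, ι f⟫ := by rw [inner_sub_left]; ring
          have h2 : ⟪y - x, ι f⟫ ≤ ‖y - x‖ * ‖ι f‖ := real_inner_le_norm _ _
          rw [hιf, mul_one] at h2
          linarith only [h2, h1, hy, h]
        have hvy : v y = 0 := by rw [hvf y]; exact max_eq_right hyx
        have hky := abs_le.mp (hk y hyb)
        rw [hvy] at hky
        have : c * ε / 4 < c * (ε / 2) := by linarith only [e2, hε'0]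
        linarith only [hky.2, this, hcy, e2]

end Vale.Agent.P098
end

section

/-! # E12: `u` is `C^K` up to the free boundary

Let `S = closure (pos u) ∩ ball 0 (1/4)`, `P` from `jet_estimate`, `p_x(w) = ev (P x) (w - x)`.
Define `p x m = iteratedFDeriv ℝ m u x` for `x ∈ pos u` and `iteratedFDeriv ℝ m p_x x` otherwise
(frontier points). `jet_estimate` and Taylor's formula for the polynomial `p_x` (degree `≤ K`) give
for `x ∈ S` in the frontier and `z ∈ S` near `x`: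
`‖p z m - iteratedFDeriv ℝ m p_x z‖ ≤ C|z-x|^{K-m}√|z-x|` (for `z` in the frontier or in `pos u`), so
for `m < K` `HasFDerivWithinAt (fun z => p z m) (p x (m+1)).curryLeft S x`
(the map `z ↦ iteratedFDeriv ℝ m p_x z` has this derivative at `x`, the error is `o(|z-x|)`), and
`p · K` is continuous within `S` at `x`. At points of `pos u` (open) this is clear as `u` is smooth
(`MinL.harm`). `p x 0 = u x` (`u = 0 = P x (0)` at frontier points). So
`HasFTaylorSeriesUpToOn K u p S`, i.e. `ContDiffOn ℝ K u S`.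
Second claim: `ν` = gradient of `ev (P y)` at `0`: `‖ν‖ = 1`, `‖ν - ee 0‖ ≤ (n+1) K cn(P y - X₀)`, and
the derivative of `u` within the closure at `y` is that of `p_y` (estimate with `m = 0`). -/


open MeasureTheory Set Metric Filter
open scoped ContDiff RealInnerProductSpace Topology NNReal

namespace Vale.Agent.P098

variable {d : ℕ}

/-- A remainder `O(|z-x|^k √|z-x|)`, `k ≥ 1`, has derivative `0`. -/
theorem rE12_hasFDerivWithinAt {F : Type*} [NormedAddCommGroup F] [NormedSpace ℝ F]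
    {S : Set (E d)} {x : E d} {D : E d → F} {C δ : ℝ} {k : ℕ} (hk : 1 ≤ k) (hδ : 0 < δ)
    (hδ1 : δ ≤ 1) (hC : 0 ≤ C)
    (hD0 : D x = 0)
    (h : ∀ z ∈ S, ‖z - x‖ ≤ δ → ‖D z‖ ≤ C * (‖z - x‖ ^ k * √‖z - x‖)) :
    HasFDerivWithinAt D (0 : E d →L[ℝ] F) S x := by
  rw [hasFDerivWithinAt_iff_isLittleO, Asymptotics.isLittleO_iff]
  intro c hc
  have h1 : ∀ᶠ z in 𝓝[S] x, z ∈ S := self_mem_nhdsWithin
  have h2 : ∀ᶠ z in 𝓝[S] x, ‖z - x‖ ≤ δ := by
    refine nhdsWithin_le_nhds ?_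
    filter_upwards [Metric.closedBall_mem_nhds x hδ] with z hz
    rwa [mem_closedBall, dist_eq_norm] at hz
  have h3 : ∀ᶠ z in 𝓝[S] x, C * √‖z - x‖ ≤ c := by
    have : Tendsto (fun z : E d => C * √‖z - x‖) (𝓝 x) (𝓝 (C * √‖x - x‖)) := by
      apply ContinuousAt.tendsto
      fun_prop
    rw [sub_self, norm_zero, Real.sqrt_zero, mul_zero] at this
    exact nhdsWithin_le_nhds ((this.eventually (gt_mem_nhds hc)).mono fun z hz => hz.le)
  filter_upwards [h1, h2, h3] with z hz1 hz2 hz3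
  simp only [hD0, sub_zero, _root_.zero_apply]
  calc ‖D z‖ ≤ C * (‖z - x‖ ^ k * √‖z - x‖) := h z hz1 hz2
    _ ≤ C * (‖z - x‖ ^ 1 * √‖z - x‖) := by
        gcongr ?_ * (?_ * _)
        exact pow_le_pow_of_le_one (norm_nonneg _) (hz2.trans hδ1) hk
    _ = (C * √‖z - x‖) * ‖z - x‖ := by ring
    _ ≤ c * ‖z - x‖ := by gcongr

/-- A remainder `O(|z-x|^k √|z-x|)` is continuous at `x`. -/
theorem rE12_continuousWithinAt {F : Type*} [NormedAddCommGroup F] [NormedSpace ℝ F]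
    {S : Set (E d)} {x : E d} {D : E d → F} {C δ : ℝ} {k : ℕ} (hδ : 0 < δ) (hC : 0 ≤ C)
    (hδ1 : δ ≤ 1)
    (hD0 : D x = 0)
    (h : ∀ z ∈ S, ‖z - x‖ ≤ δ → ‖D z‖ ≤ C * (‖z - x‖ ^ k * √‖z - x‖)) :
    ContinuousWithinAt D S x := by
  have h1 : ∀ᶠ z in 𝓝[S] x, z ∈ S := self_mem_nhdsWithin
  have h2 : ∀ᶠ z in 𝓝[S] x, ‖z - x‖ ≤ δ := by
    refine nhdsWithin_le_nhds ?_
    filter_upwards [Metric.closedBall_mem_nhds x hδ] with z hz
    rwa [mem_closedBall, dist_eq_norm] at hz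
  have h3 : Tendsto (fun z : E d => C * √‖z - x‖) (𝓝[S] x) (𝓝 0) := by
    have : Tendsto (fun z : E d => C * √‖z - x‖) (𝓝 x) (𝓝 (C * √‖x - x‖)) := by
      apply ContinuousAt.tendsto
      fun_prop
    rw [sub_self, norm_zero, Real.sqrt_zero, mul_zero] at this
    exact this.mono_left nhdsWithin_le_nhds
  rw [ContinuousWithinAt, hD0]
  refine squeeze_zero_norm' ?_ h3
  filter_upwards [h1, h2] with z hz1 hz2
  calc ‖D z‖ ≤ C * (‖z - x‖ ^ k * √‖z - x‖) := h z hz1 hz2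
    _ ≤ C * (1 * √‖z - x‖) := by
        gcongr ?_ * (?_ * _)
        exact pow_le_one₀ (norm_nonneg _) (hz2.trans hδ1)
    _ = C * √‖z - x‖ := by ring

theorem rE12_curry {F : Type*} [NormedAddCommGroup F] [NormedSpace ℝ F] (f : E d → F) (m : ℕ)
    (x : E d) : (iteratedFDeriv ℝ (m + 1) f x).curryLeft = fderiv ℝ (iteratedFDeriv ℝ m f) x := by
  ext v w
  rw [ContinuousMultilinearMap.curryLeft_apply, iteratedFDeriv_succ_apply_left]
  simp

open Classical in
/-- Whitney's criterion in the form needed. -/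
theorem rE12_taylor {K : ℕ} {u : E d → ℝ} {U S : Set (E d)} (hU : IsOpen U)
    (hu : ContDiffOn ℝ ∞ u U) {q : E d → E d → ℝ} (hq : ∀ x, ContDiff ℝ ∞ (q x)) {C δ : ℝ}
    (hδ : 0 < δ) (hδ1 : δ ≤ 1) (hC : 0 ≤ C)
    (hzero : ∀ x ∈ S, x ∉ U → q x x = u x)
    (h1 : ∀ x ∈ S, x ∉ U → ∀ z ∈ S, z ∉ U → ‖z - x‖ ≤ δ → ∀ m : ℕ, m ≤ K →
      ‖iteratedFDeriv ℝ m (q z) z - iteratedFDeriv ℝ m (q x) z‖
        ≤ C * (‖z - x‖ ^ (K - m) * √‖z - x‖))
    (h2 : ∀ x ∈ S, x ∉ U → ∀ z ∈ S, z ∈ U → ‖z - x‖ ≤ δ → ∀ m : ℕ, m ≤ K →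
      ‖iteratedFDeriv ℝ m u z - iteratedFDeriv ℝ m (q x) z‖
        ≤ C * (‖z - x‖ ^ (K - m) * √‖z - x‖)) :
    ContDiffOn ℝ K u S := by
  let p : E d → FormalMultilinearSeries ℝ (E d) ℝ := fun x m =>
    if x ∈ U then iteratedFDeriv ℝ m u x else iteratedFDeriv ℝ m (q x) x
  have hpU : ∀ x ∈ U, ∀ m, p x m = iteratedFDeriv ℝ m u x := fun x hx m => by
    simp only [p, if_pos hx]
  have hpn : ∀ x, x ∉ U → ∀ m, p x m = iteratedFDeriv ℝ m (q x) x := fun x hx m => by
    simp only [p, if_neg hx]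
  -- the remainder
  have hrem : ∀ x ∈ S, x ∉ U → ∀ m : ℕ, m ≤ K → ∀ z ∈ S, ‖z - x‖ ≤ δ →
      ‖p z m - iteratedFDeriv ℝ m (q x) z‖ ≤ C * (‖z - x‖ ^ (K - m) * √‖z - x‖) := by
    intro x hx hxU m hm z hz hzx
    by_cases hzU : z ∈ U
    · rw [hpU z hzU]; exact h2 x hx hxU z hz hzU hzx m hm
    · rw [hpn z hzU]; exact h1 x hx hxU z hz hzU hzx m hm
  have hqd : ∀ x m, HasFDerivAt (iteratedFDeriv ℝ m (q x))
      (iteratedFDeriv ℝ (m + 1) (q x) x).curryLeft x := by
    intro x m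
    have h := (hq x).differentiable_iteratedFDeriv (m := m)
      (by exact_mod_cast ENat.natCast_lt_top m) x
    rw [rE12_curry]
    exact h.hasFDerivAt
  have hsm : ∀ x ∈ U, ContDiffAt ℝ ∞ u x := fun x hx => hu.contDiffAt (hU.mem_nhds hx)
  have hud : ∀ x ∈ U, ∀ m : ℕ, HasFDerivAt (fun z => p z m) (p x (m + 1)).curryLeft x := by
    intro x hx m
    have h' : DifferentiableAt ℝ (iteratedFDeriv ℝ m u) x :=
      (hsm x hx).differentiableAt_iteratedFDeriv (m := m)
        (by exact_mod_cast ENat.natCast_lt_top m)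
    rw [hpU x hx, rE12_curry]
    have h3 : (fun z => p z m) =ᶠ[𝓝 x] iteratedFDeriv ℝ m u := by
      filter_upwards [hU.mem_nhds hx] with z hz using hpU z hz m
    exact h'.hasFDerivAt.congr_of_eventuallyEq h3
  have hmain : ∀ x ∈ S, ∀ m : ℕ, m < K →
      HasFDerivWithinAt (fun z => p z m) (p x (m + 1)).curryLeft S x := by
    intro x hx m hm
    by_cases hxU : x ∈ U
    · exact (hud x hxU m).hasFDerivWithinAt
    · have e1 : HasFDerivWithinAt (fun z => p z m - iteratedFDeriv ℝ m (q x) z)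
          (0 : E d →L[ℝ] _) S x := by
        refine rE12_hasFDerivWithinAt (k := K - m) (by omega) hδ hδ1 hC ?_
          (hrem x hx hxU m hm.le)
        rw [hpn x hxU, sub_self]
      have e2 := e1.add (hqd x m).hasFDerivWithinAt
      rw [hpn x hxU (m + 1)]
      rw [zero_add] at e2
      refine e2.congr_of_eventuallyEq (Eventually.of_forall fun z => ?_) ?_ <;> simp
  refine HasFTaylorSeriesUpToOn.contDiffOn (f' := p) ?_
  constructor
  · intro x hx
    by_cases hxU : x ∈ U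
    · rw [hpU x hxU]
      simp [iteratedFDeriv_zero_apply, ContinuousMultilinearMap.curry0_apply]
    · rw [hpn x hxU, ← hzero x hx hxU]
      simp [iteratedFDeriv_zero_apply, ContinuousMultilinearMap.curry0_apply]
  · intro m hm x hx
    exact hmain x hx m (by exact_mod_cast hm)
  · intro m hm x hx
    have hm' : m ≤ K := by exact_mod_cast hm
    by_cases hxU : x ∈ U
    · exact (hud x hxU m).continuousAt.continuousWithinAt
    · have e1 : ContinuousWithinAt (fun z => p z m - iteratedFDeriv ℝ m (q x) z) S x := by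
        refine rE12_continuousWithinAt (k := K - m) hδ hC hδ1 ?_ (hrem x hx hxU m hm')
        rw [hpn x hxU, sub_self]
      have e2 : ContinuousWithinAt (fun z => iteratedFDeriv ℝ m (q x) z) S x :=
        (hqd x m).continuousAt.continuousWithinAt
      have e3 := e1.add e2
      refine e3.congr (fun z _ => ?_) ?_ <;> simp

theorem rE12_ev_zero (p : MvPolynomial (Fin d) ℝ) : ev p (0 : E d) = p.coeff 0 := by
  have h : (fun i => (0 : E d) i) = (0 : Fin d → ℝ) := by ext i; simp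
  rw [ev, h, MvPolynomial.eval_zero, MvPolynomial.constantCoeff_eq]

theorem rE12_grad_X0 (n : ℕ) : gradient (ev (MvPolynomial.X 0 : MvPolynomial (Fin (n + 1)) ℝ)) 0
    = (ee 0 : E (n + 1)) := by
  ext i
  rw [gradient_ev_apply, MvPolynomial.pderiv_X]
  by_cases hi : i = 0
  · subst hi; simp [ev]
  · simp [ev, hi, Ne.symm hi]

theorem rE12_gradient_sub (p q : MvPolynomial (Fin d) ℝ) (x : E d) :
    gradient (ev (p - q)) x = gradient (ev p) x - gradient (ev q) x := by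
  ext i
  rw [gradient_ev_apply, PiLp.sub_apply, gradient_ev_apply, gradient_ev_apply, map_sub, ev_sub]

theorem rE12_norm_le_sum (x : E d) : ‖x‖ ≤ ∑ i, |x i| := by
  rw [EuclideanSpace.norm_eq]
  apply Real.sqrt_le_iff.mpr
  refine ⟨Finset.sum_nonneg fun i _ => abs_nonneg _, ?_⟩
  have h := Finset.sum_sq_le_sq_sum_of_nonneg (s := Finset.univ) (f := fun i => |x i|)
    (fun i _ => abs_nonneg _)
  simpa using h

theorem contDiffOn_closure (n K : ℕ) (hK : 1 ≤ K) : ∃ ε₀ C : ℝ, 0 < ε₀ ∧ 0 < C ∧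
    ∀ (L : ℝ≥0) (u : E (n + 1) → ℝ), MinL L u → ∀ ε : ℝ, 0 < ε → ε ≤ ε₀ →
    Trap u (fun x => x 0) (-ε) ε 0 1 →
    ContDiffOn ℝ K u (closure (pos u) ∩ ball 0 (1 / 4)) ∧
    ∀ y ∈ frontier (pos u), y ∈ ball (0 : E (n + 1)) (1 / 4) →
      ∃ ν : E (n + 1), ‖ν‖ = 1 ∧ ‖ν - ee 0‖ ≤ C * ε ∧
        HasFDerivWithinAt u (innerSL ℝ ν) (closure (pos u)) y := by
  obtain ⟨ε₀, C, hε₀, hC, H⟩ := jet_estimate n K hK
  refine ⟨ε₀, (n + 1) * K * C + 1, hε₀, by positivity, ?_⟩
  intro L u hu ε hε hε1 htrap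
  obtain ⟨P, hP1, hP2, hP3⟩ := H L u hu ε hε hε1 htrap
  have hcont : Continuous u := hu.lip.continuous
  have hopen : IsOpen (pos u) := isOpen_lt continuous_const hcont
  have hfr : ∀ x ∈ closure (pos u), x ∉ pos u → x ∈ frontier (pos u) := by
    intro x hx hx'
    rw [hopen.frontier_eq]
    exact ⟨hx, hx'⟩
  have hfr0 : ∀ x ∈ frontier (pos u), u x = 0 := by
    intro x hx
    rw [hopen.frontier_eq] at hx
    exact le_antisymm (not_lt.mp hx.2) (hu.nonneg x)
  have hq : ∀ x, ContDiff ℝ ∞ (fun w => ev (P x) (w - x)) := by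
    intro x
    exact (contDiff_ev (P x)).comp (contDiff_id.sub contDiff_const)
  have hq0 : ∀ x ∈ frontier (pos u), x ∈ ball (0 : E (n + 1)) (3 / 8) →
      ev (P x) (x - x) = 0 := by
    intro x hx hx'
    have := (hP1 x hx hx').2.1
    rw [sub_self, ev]
    rw [← ev, rE12_ev_zero]
    exact this
  have hb : ∀ x ∈ ball (0 : E (n + 1)) (1 / 4), x ∈ ball (0 : E (n + 1)) (3 / 8) := by
    intro x hx
    exact ball_subset_ball (by norm_num) hx
  refine ⟨?_, ?_⟩
  · refine rE12_taylor (U := pos u) (q := fun x w => ev (P x) (w - x)) (C := C) (δ := 1 / 32)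
      hopen hu.harm.1 hq (by norm_num) (by norm_num) hC.le ?_ ?_ ?_
    · intro x hx hxU
      have := hfr x hx.1 hxU
      rw [hfr0 x this]
      exact hq0 x this (hb x hx.2)
    · intro x hx hxU z hz hzU hzx m hm
      have h1 := hfr x hx.1 hxU
      have h2 := hfr z hz.1 hzU
      have h3 := hP2 x h1 hx.2 z h2 (by rw [norm_sub_rev]; exact hzx) m hm
      rw [norm_sub_rev, norm_sub_rev x z] at h3
      exact h3
    · intro x hx hxU z hz hzU hzx m hm
      exact hP3 x (hfr x hx.1 hxU) hx.2 z hzU hzx m hm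
  · intro y hy hyb
    obtain ⟨hdeg, hc0, hgrad, hcn⟩ := hP1 y hy (hb y hyb)
    refine ⟨gradient (ev (P y)) 0, ?_, ?_, ?_⟩
    · rw [gradient, LinearIsometryEquiv.norm_map]; exact hgrad
    · rw [← rE12_grad_X0, ← rE12_gradient_sub]
      refine (rE12_norm_le_sum _).trans ?_
      have hK0 : (P y - MvPolynomial.X 0).totalDegree ≤ K := by
        refine (MvPolynomial.totalDegree_sub _ _).trans (max_le hdeg ?_)
        rw [MvPolynomial.totalDegree_X]; exact hK
      have hi : ∀ i : Fin (n + 1), |gradient (ev (P y - MvPolynomial.X 0)) 0 i| ≤ K * (C * ε) := by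
        intro i
        rw [gradient_ev_apply]
        refine (abs_ev_le _ (by simp)).trans ?_
        refine (cn_pderiv_le _ _).trans ?_
        have h1 : ((P y - MvPolynomial.X 0).totalDegree : ℝ) ≤ K := by exact_mod_cast hK0
        exact mul_le_mul h1 hcn (cn_nonneg _) (by positivity)
      calc ∑ i, |gradient (ev (P y - MvPolynomial.X 0)) 0 i| ≤ ∑ _i : Fin (n + 1), K * (C * ε) :=
            Finset.sum_le_sum fun i _ => hi i
        _ = (n + 1) * K * C * ε := by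
            simp [Finset.sum_const, Finset.card_univ]; ring
        _ ≤ ((n + 1) * K * C + 1) * ε := by linarith only [hε]
    · have hq1 : HasFDerivAt (fun w => ev (P y) (w - y)) (innerSL ℝ (gradient (ev (P y)) 0)) y := by
        have h1 : DifferentiableAt ℝ (ev (P y)) 0 :=
          ((contDiff_ev (P y)).differentiable (by simp)) 0
        have h2 : HasFDerivAt (ev (P y)) (innerSL ℝ (gradient (ev (P y)) 0))
            ((fun w : E (n + 1) => w - y) y) := by
          change HasFDerivAt _ _ (y - y)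
          rw [sub_self]
          have := h1.hasGradientAt.hasFDerivAt
          exact this
        have h3 : HasFDerivAt (fun w : E (n + 1) => w - y) (ContinuousLinearMap.id ℝ _) y :=
          (hasFDerivAt_id y).sub_const y
        have h4 := HasFDerivAt.comp (f := fun w : E (n + 1) => w - y) y h2 h3
        rw [ContinuousLinearMap.comp_id] at h4
        exact h4
      have hrem : HasFDerivWithinAt (fun z => u z - ev (P y) (z - y)) (0 : E (n + 1) →L[ℝ] ℝ)
          (closure (pos u)) y := by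
        refine rE12_hasFDerivWithinAt (k := K) (C := C) (δ := 1 / 32) hK (by norm_num)
          (by norm_num) hC.le ?_ ?_
        · rw [hfr0 y hy, hq0 y hy (hb y hyb), sub_self]
        · intro z hz hzy
          by_cases hzU : z ∈ pos u
          · have h := hP3 y hy hyb z hzU hzy 0 (Nat.zero_le _)
            rw [Nat.sub_zero] at h
            refine le_trans (le_of_eq ?_) h
            rw [iteratedFDeriv_zero_eq_comp, iteratedFDeriv_zero_eq_comp, Function.comp_apply,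
              Function.comp_apply, ← map_sub, LinearIsometryEquiv.norm_map]
          · have hzf := hfr z hz hzU
            have h := hP2 y hy hyb z hzf (by rw [norm_sub_rev]; exact hzy) 0 (Nat.zero_le _)
            rw [Nat.sub_zero, norm_sub_rev y z] at h
            refine le_trans (le_of_eq ?_) h
            have hzb : z ∈ ball (0 : E (n + 1)) (3 / 8) := by
              rw [mem_ball_zero_iff] at hyb ⊢
              calc ‖z‖ = ‖(z - y) + y‖ := by rw [sub_add_cancel]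
                _ ≤ ‖z - y‖ + ‖y‖ := norm_add_le _ _
                _ < 3 / 8 := by linarith
            rw [iteratedFDeriv_zero_eq_comp, iteratedFDeriv_zero_eq_comp, Function.comp_apply,
              Function.comp_apply, ← map_sub, LinearIsometryEquiv.norm_map, hfr0 z hzf,
              hq0 z hzf hzb, sub_zero, zero_sub, norm_neg]
      have h5 := hrem.add hq1.hasFDerivWithinAt
      rw [zero_add] at h5
      refine h5.congr_of_eventuallyEq (Eventually.of_forall fun z => ?_) ?_ <;> simp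

end Vale.Agent.P098
end

section

/-! # E13: `u` is smooth up to the free boundary

It suffices that for every `K ≥ 1` and every `y ∈ frontier (pos u) ∩ ball 0 (1/4)`, `u` is `C^K`
within `closure (pos u)` near `y` (at points of `pos u` it is smooth). By `contDiffOn_closure 1`
(second part) / `boundary_expansion` with `K = 1`: there is a unit vector `ν` with
`Trap (resc u y r) (fun x => ⟪x,ν⟫) (-Cε√r) (Cε√r) 0 1` for `r ≤ 1/2`. Let `Φ` be an isometry with
`Φ (ee 0) = ν` and `w x = resc u y r (Φ x)`; `Trap w (fun x => x 0) (-Cε√r) (Cε√r) 0 1`, and for `r`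
small `Cε√r ≤ ε₀(K)`. So `w` is `C^K` on `closure (pos w) ∩ ball 0 (1/4)`; transport back:
`u z = r w(Φ⁻¹((z-y)/r))`. -/

open MeasureTheory Set Metric Filter
open scoped ContDiff RealInnerProductSpace Topology NNReal

namespace Vale.Agent.P098

variable {d : ℕ}

/-- Polynomials of degree at most one without constant term are linear. -/
theorem rE13_linear (P : MvPolynomial (Fin d) ℝ) (h1 : P.totalDegree ≤ 1)
    (h0 : P.coeff 0 = 0) : ∃ ν : E d, ∀ x, ev P x = ⟪x, ν⟫ := by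
  classical
  refine ⟨WithLp.toLp 2 (fun i => P.coeff (Finsupp.single i 1)), fun x => ?_⟩
  have hP : P = ∑ i, MvPolynomial.C (P.coeff (Finsupp.single i 1)) * MvPolynomial.X i := by
    ext m
    rw [MvPolynomial.coeff_sum]
    simp only [MvPolynomial.coeff_C_mul, MvPolynomial.coeff_X]
    by_cases hm : ∃ i, Finsupp.single i 1 = m
    · obtain ⟨i, rfl⟩ := hm
      rw [Finset.sum_eq_single i]
      · simp
      · intro j _ hj
        rw [if_neg, mul_zero]
        intro h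
        exact hj (Finsupp.single_left_injective one_ne_zero h)
      · intro h
        exact absurd (Finset.mem_univ i) h
    · push Not at hm
      rw [Finset.sum_eq_zero fun i _ => by rw [if_neg (hm i), mul_zero]]
      by_cases hm0 : m = 0
      · rw [hm0]; exact h0
      · apply MvPolynomial.coeff_eq_zero_of_totalDegree_lt
        refine lt_of_le_of_lt h1 ?_
        by_contra hcon
        push Not at hcon
        obtain ⟨i, hi⟩ : ∃ i, m i ≠ 0 := by
          by_contra h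
          push Not at h
          exact hm0 (Finsupp.ext h)
        have hi' : i ∈ m.support := Finsupp.mem_support_iff.2 hi
        apply hm i
        ext j
        rw [Finsupp.single_apply]
        split_ifs with hij
        · subst hij
          have := Finset.single_le_sum (f := fun k => m k) (fun k _ => Nat.zero_le _) hi'
          omega
        · by_contra hj
          have hj' : j ∈ m.support := Finsupp.mem_support_iff.2 (Ne.symm hj)
          have h3 : ∑ k ∈ ({i, j} : Finset (Fin d)), m k ≤ ∑ k ∈ m.support, m k :=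
            Finset.sum_le_sum_of_subset (by
              intro k hk
              simp only [Finset.mem_insert, Finset.mem_singleton] at hk
              rcases hk with rfl | rfl <;> assumption)
          rw [Finset.sum_pair hij] at h3
          omega
  have h2 : ev P x = ∑ i, P.coeff (Finsupp.single i 1) * x i := by
    conv_lhs => rw [hP]
    simp [ev]
  rw [h2, PiLp.inner_apply]
  refine Finset.sum_congr rfl fun i _ => ?_
  simp

/-- The rescaled and rotated function is trapped. -/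
theorem rE13_trap {n : ℕ} {u : E (n + 1) → ℝ} {y ν : E (n + 1)} {r a : ℝ} (hr : 0 < r)
    (Φ : E (n + 1) ≃ₗᵢ[ℝ] E (n + 1)) (hΦ : Φ (ee 0) = ν)
    (hT : Trap u (fun x => ⟪x - y, ν⟫) (-(r * a)) (r * a) y r) :
    Trap (fun x => resc u y r (Φ x)) (fun x => x 0) (-a) a 0 1 := by
  intro x hx
  have hx' : y + r • Φ x ∈ ball y r := by
    rw [mem_ball_zero_iff] at hx
    rw [mem_ball, dist_eq_norm, add_sub_cancel_left, norm_smul, Φ.norm_map,
      Real.norm_eq_abs, abs_of_pos hr]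
    linarith only [mul_pos (sub_pos.2 hr) (sub_pos.2 hx)]
  obtain ⟨h1, h2⟩ := hT _ hx'
  have hin : ⟪y + r • Φ x - y, ν⟫ = r * x 0 := by
    rw [add_sub_cancel_left, real_inner_smul_left, ← hΦ, Φ.inner_map_map]
    congr 1
    simp [EuclideanSpace.inner_single_right]
  simp only [hin] at h1 h2
  have e1 : r * x 0 + -(r * a) = r * (x 0 + -a) := by ring
  have e2 : r * x 0 + r * a = r * (x 0 + a) := by ring
  rw [e1] at h1
  rw [e2] at h2
  have m1 : max (r * (x 0 + -a)) 0 = r * max (x 0 + -a) 0 := by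
    rw [mul_max_of_nonneg _ _ hr.le, mul_zero]
  have m2 : max (r * (x 0 + a)) 0 = r * max (x 0 + a) 0 := by
    rw [mul_max_of_nonneg _ _ hr.le, mul_zero]
  rw [m1] at h1
  rw [m2] at h2
  constructor
  · show max (x 0 + -a) 0 ≤ u (y + r • Φ x) / r
    rw [le_div_iff₀ hr]
    linarith
  · show u (y + r • Φ x) / r ≤ max (x 0 + a) 0
    rw [div_le_iff₀ hr]
    linarith

theorem contDiffOn_infty (n : ℕ) : ∃ ε₀ : ℝ, 0 < ε₀ ∧
    ∀ (L : ℝ≥0) (u : E (n + 1) → ℝ), MinL L u → Trap u (fun x => x 0) (-ε₀) ε₀ 0 1 →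
    ContDiffOn ℝ ∞ u (closure (pos u) ∩ ball 0 (1 / 4)) := by
  obtain ⟨ε₁, C₁, hε₁, hC₁, hexp⟩ := boundary_expansion n 1 le_rfl
  refine ⟨ε₁, hε₁, fun L u hu hT => ?_⟩
  rw [_root_.contDiffOn_infty]
  intro K₀
  -- it suffices to treat `K = K₀ + 1`
  suffices h : ContDiffOn ℝ ((K₀ + 1 : ℕ) : WithTop ℕ∞) u (closure (pos u) ∩ ball 0 (1 / 4)) from
    h.of_le (by exact_mod_cast Nat.le_succ K₀)
  set K := K₀ + 1 with hK
  obtain ⟨ε₂, C₂, hε₂, -, hclos⟩ := contDiffOn_closure n K (by omega)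
  intro y hy
  obtain ⟨hyc, hyb⟩ := hy
  by_cases hpos : y ∈ pos u
  · -- interior points
    have h1 := hu.harm.1.contDiffAt (hu.isOpen_pos.mem_nhds hpos)
    exact (h1.of_le (by exact_mod_cast le_top)).contDiffWithinAt
  · have hyf : y ∈ frontier (pos u) := by
      rw [frontier, hu.isOpen_pos.interior_eq]
      exact ⟨hyc, hpos⟩
    have hyb2 : y ∈ ball (0 : E (n + 1)) (1 / 2) := ball_subset_ball (by norm_num) hyb
    obtain ⟨P, hP1, -, hP0, hPn, -, hPt⟩ := hexp L u hu ε₁ hε₁ le_rfl hT y hyf hyb2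
    obtain ⟨ν, hν⟩ := rE13_linear P hP1 hP0
    have hν1 : ‖ν‖ = 1 := by
      have h1 : ev P = fun x => innerSL ℝ ν x := by
        funext x
        rw [hν x, innerSL_apply_apply, real_inner_comm]
      rw [h1, ContinuousLinearMap.fderiv, innerSL_apply_norm] at hPn
      exact hPn
    obtain ⟨Φ, hΦ⟩ := exists_isometry hν1
    -- the scale
    obtain ⟨r, hr0, hr2, hra⟩ : ∃ r : ℝ, 0 < r ∧ r ≤ 1 / 2 ∧ C₁ * ε₁ * √r ≤ ε₂ := by
      have hc : 0 < C₁ * ε₁ := by positivity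
      refine ⟨min (1 / 2) ((ε₂ / (C₁ * ε₁)) ^ 2), by positivity, min_le_left _ _, ?_⟩
      have h1 : √(min (1 / 2) ((ε₂ / (C₁ * ε₁)) ^ 2)) ≤ ε₂ / (C₁ * ε₁) := by
        refine (Real.sqrt_le_sqrt (min_le_right _ _)).trans ?_
        rw [Real.sqrt_sq (by positivity)]
      calc C₁ * ε₁ * √(min (1 / 2) ((ε₂ / (C₁ * ε₁)) ^ 2)) ≤ C₁ * ε₁ * (ε₂ / (C₁ * ε₁)) :=
            mul_le_mul_of_nonneg_left h1 hc.le
        _ = ε₂ := by field_simp
    have hsr : 0 < √r := Real.sqrt_pos.2 hr0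
    set a : ℝ := C₁ * ε₁ * √r with ha
    have ha0 : 0 < a := by positivity
    have hTr : Trap u (fun x => ⟪x - y, ν⟫) (-(r * a)) (r * a) y r := by
      have h1 := hPt r hr0 hr2
      have e : C₁ * ε₁ * (r ^ 1 * √r) = r * a := by rw [ha]; ring
      rw [e] at h1
      intro x hx
      have h2 := h1 x hx
      simp only [hν] at h2
      exact h2
    set w : E (n + 1) → ℝ := fun x => resc u y r (Φ x) with hw
    have hwT : Trap w (fun x => x 0) (-a) a 0 1 := rE13_trap hr0 Φ hΦ hTr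
    have hwM : MinL L w := (hu.resc y hr0).isometry Φ
    have hwC := (hclos L w hwM a ha0 hra hwT).1
    -- the inverse change of variables
    set g : E (n + 1) → E (n + 1) := fun z => Φ.symm ((1 / r) • (z - y)) with hg
    have hgs : ContDiff ℝ ∞ g := by
      have h1 : ContDiff ℝ ∞ (fun z : E (n + 1) => (1 / r) • (z - y)) :=
        (contDiff_id.sub contDiff_const).const_smul _
      exact Φ.symm.contDiff.comp h1
    have hug : ∀ z, u z = r * w (g z) := by
      intro z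
      simp only [hw, hg, resc, LinearIsometryEquiv.apply_symm_apply, smul_smul]
      rw [mul_one_div_cancel hr0.ne', one_smul, add_sub_cancel, mul_div_cancel₀ _ hr0.ne']
    have hgy : g y = 0 := by simp [hg]
    have hmap : MapsTo g (closure (pos u) ∩ ball 0 (1 / 4) ∩ ball y (r / 4))
        (closure (pos w) ∩ ball 0 (1 / 4)) := by
      rintro z ⟨⟨hz1, -⟩, hz2⟩
      refine ⟨map_mem_closure hgs.continuous hz1 fun x hx => ?_, ?_⟩
      · have h1 := hug x
        have h2 : 0 < u x := hx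
        rw [h1] at h2
        exact (mul_pos_iff_of_pos_left hr0).1 h2
      · rw [mem_ball_zero_iff]
        rw [mem_ball, dist_eq_norm] at hz2
        simp only [hg, LinearIsometryEquiv.norm_map, norm_smul]
        rw [Real.norm_eq_abs, abs_of_pos (by positivity), one_div, inv_mul_lt_iff₀ hr0]
        linarith
    have hyS : y ∈ closure (pos u) ∩ ball 0 (1 / 4) ∩ ball y (r / 4) :=
      ⟨⟨hyc, hyb⟩, mem_ball_self (by positivity)⟩
    have hfin : ContDiffWithinAt ℝ ((K : ℕ) : WithTop ℕ∞) (fun z => r * w (g z))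
        (closure (pos u) ∩ ball 0 (1 / 4) ∩ ball y (r / 4)) y := by
      refine contDiffWithinAt_const.mul ?_
      exact (hwC (g y) (hmap hyS)).comp y
        ((hgs.of_le (by exact_mod_cast le_top)).contDiffWithinAt) hmap
    have hfin2 : ContDiffWithinAt ℝ ((K : ℕ) : WithTop ℕ∞) u
        (closure (pos u) ∩ ball 0 (1 / 4) ∩ ball y (r / 4)) y := by
      have : u = fun z => r * w (g z) := funext hug
      rw [this]
      rw [this] at hfin
      exact hfin
    exact (contDiffWithinAt_inter (ball_mem_nhds y (by positivity))).1 hfin2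

end Vale.Agent.P098
end

section

/-! # G4: local smooth extension across the free boundary

`g` from `exists_graph`, smooth by `graph_smooth` (with `contDiffOn_infty`, `uniqueDiffOn_closure`,
`contDiffOn_closure n 1`, `MinL.zero_of_frontier`); `g 0 = 0` as `0 ∈ frontier`. Let
`H = {0 ≤ x 0}` and `f x = u (x + g x • ee 0)`. For `x ∈ H ∩ ball 0 (1/16)`, the point
`x + g x • ee 0` is in `ball 0 (1/8)` and, as `g (x + g x • ee 0) = g x ≤ x 0 + g x`, in
`closure (pos u)`; so `f` is `C^∞` on `H ∩ ball 0 (1/16)` (composition). Let `F` be its extension to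
`ball 0 (1/32)` (`half_space_extension`). `U x = F (x - g x • ee 0)` on
`N₁ = {x ∈ ball 0 (1/8) | x - g x • ee 0 ∈ ball 0 (1/32)}`, open, `0 ∈ N₁`. On `N₁`, if
`x ∈ closure (pos u)` then `0 ≤ x 0 - g x` and `U x = f (x - g x • ee 0) = u x`. At frontier points
the gradient of `U` equals `ν` (unique differentiability within the closure), norm `1`. As
`∂₀F(0) = ∂₀U(0) = ⟪ν, ee 0⟫ ≥ 1/2` and `F = 0` on `{x 0 = 0}` (there `f x = u(frontier point) = 0`),
on a small ball `ball 0 ρ` we have `∂₀F > 0`, hence `F x < 0` if `x 0 < 0` and `F x > 0` if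
`x 0 > 0`. `N = {x ∈ N₁ | x - g x • ee 0 ∈ ball 0 ρ}`. -/

open MeasureTheory Set Metric Filter
open scoped ContDiff RealInnerProductSpace Topology NNReal

namespace Vale.Agent.P098

variable {d : ℕ}

theorem rG4_trap_mono {u P : E d → ℝ} {a b a' b' : ℝ} {x₀ : E d} {r : ℝ} (ha : a' ≤ a)
    (hb : b ≤ b') (h : Trap u P a b x₀ r) : Trap u P a' b' x₀ r := by
  intro x hx
  obtain ⟨h1, h2⟩ := h x hx
  exact ⟨le_trans (max_le_max (by linarith) le_rfl) h1,
    le_trans h2 (max_le_max (by linarith) le_rfl)⟩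

theorem local_extension (n : ℕ) : ∃ ε₀ : ℝ, 0 < ε₀ ∧
    ∀ (L : ℝ≥0) (u : E (n + 1) → ℝ), MinL L u → 0 ∈ frontier (pos u) →
    Trap u (fun x => x 0) (-ε₀) ε₀ 0 1 →
    ∃ (N : Set (E (n + 1))) (U : E (n + 1) → ℝ), IsOpen N ∧ 0 ∈ N ∧ ContDiffOn ℝ ∞ U N ∧
      (∀ x ∈ N, 0 < u x → U x = u x) ∧ (∀ x ∈ N, 0 < U x ↔ 0 < u x) ∧
      ∀ x ∈ N, x ∈ frontier (pos u) → ‖gradient U x‖ = 1 := by
  obtain ⟨ε₁, h1, H1⟩ := exists_graph n
  obtain ⟨ε₂, h2, H2⟩ := contDiffOn_infty n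
  obtain ⟨ε₃, h3, H3⟩ := uniqueDiffOn_closure n
  obtain ⟨ε₄, C, h4, hC, H4⟩ := contDiffOn_closure n 1 le_rfl
  obtain ⟨ε, hε, he1, he2, he3, he4, he5⟩ : ∃ ε : ℝ, 0 < ε ∧ ε ≤ ε₁ ∧ ε ≤ ε₂ ∧ ε ≤ ε₃ ∧ ε ≤ ε₄ ∧
      C * ε ≤ 1 / 2 := by
    refine ⟨min (min ε₁ ε₂) (min ε₃ (min ε₄ (1 / (2 * C)))), by positivity, ?_, ?_, ?_, ?_, ?_⟩
    · exact (min_le_left _ _).trans (min_le_left _ _)
    · exact (min_le_left _ _).trans (min_le_right _ _)
    · exact (min_le_right _ _).trans (min_le_left _ _)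
    · exact (min_le_right _ _).trans ((min_le_right _ _).trans (min_le_left _ _))
    · have h5 : min (min ε₁ ε₂) (min ε₃ (min ε₄ (1 / (2 * C)))) ≤ 1 / (2 * C) :=
        (min_le_right _ _).trans ((min_le_right _ _).trans (min_le_right _ _))
      calc C * _ ≤ C * (1 / (2 * C)) := mul_le_mul_of_nonneg_left h5 hC.le
        _ = 1 / 2 := by field_simp
  refine ⟨ε, hε, fun L u hu h0 hT => ?_⟩
  have hmono : ∀ ε' : ℝ, ε ≤ ε' → Trap u (fun x => x 0) (-ε') ε' 0 1 := fun ε' h =>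
    rG4_trap_mono (by linarith) h hT
  obtain ⟨g, hg, hL, hgr⟩ := H1 L u hu (hmono _ he1)
  have hS := H2 L u hu (hmono _ he2)
  have hU := H3 L u hu (hmono _ he3)
  have hu0 : ∀ y ∈ frontier (pos u), u y = 0 := fun y hy => hu.zero_of_frontier hy
  have hν : ∀ y ∈ frontier (pos u), y ∈ ball (0 : E (n + 1)) (1 / 4) →
      ∃ ν : E (n + 1), ‖ν‖ = 1 ∧ ‖ν - ee 0‖ ≤ 1 / 2 ∧
        HasFDerivWithinAt u (innerSL ℝ ν) (closure (pos u)) y := by
    intro y hy hyb
    obtain ⟨ν, hν1, hν2, hν3⟩ := (H4 L u hu ε hε he4 hT).2 y hy hyb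
    exact ⟨ν, hν1, hν2.trans he5, hν3⟩
  have hgs : ContDiffOn ℝ ∞ g (ball 0 (1 / 8)) :=
    graph_smooth hg hL (fun x hx => ⟨(hgr x hx).2.1, (hgr x hx).2.2.1⟩) hS hU hu0 hν
  refine rG4_core hg hL (fun x hx => (hgr x hx).2.2.2) h0 hgs hS hU hu0 hν ?_
  intro f hf
  obtain ⟨F, hF1, hF2⟩ := half_space_extension (by norm_num : (0 : ℝ) < 1 / 16) hf
  have e : (1 : ℝ) / 16 / 2 = 1 / 32 := by norm_num
  rw [e] at hF1 hF2
  exact ⟨F, hF1, hF2⟩

end Vale.Agent.P098
end

section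

/-! # G5: global smooth extension

Let `x₀ ∈ frontier (pos u)`, `x₀ ≠ 0`; `r, e` from `h` with `ε₀` of `local_extension`, `Φ` an isometry
with `Φ (ee 0) = e` (`exists_isometry`), `w x = resc u x₀ r (Φ x)`: `MinL L w`,
`Trap w (fun x => x 0) (-ε₀) ε₀ 0 1`, `0 ∈ frontier (pos w)`. `local_extension` gives `(N', U')`;
`U_{x₀} z = r U'(Φ⁻¹((z - x₀)/r))`, `N_{x₀}` = corresponding open neighbourhood of `x₀`; the same
properties for `u`. For points of `pos u` take `N = pos u`, `U = u` (`MinL.harm`).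
`V = ⋃ N_i` is an open neighbourhood of `closure (pos u) \ {0}`. With a smooth partition of unity
`χ_i` subordinate to the cover of `V` (`SmoothPartitionOfUnity`, on the open subset, or an explicit
locally finite construction) let `U = ∑ χ_i U_i`: smooth on `V`, `U = u` on `pos u`. At a frontier
point `x ≠ 0`: `U_i x = 0` for all relevant `i` (continuity), and all `∇U_i(x)` coincide: for small
`t > 0` the point `x + t∇U_i(x)` has `U_i > 0`, so `u > 0` there, so `U_j = u = U_i` there, giving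
`⟪∇U_j(x), ∇U_i(x)⟫ = ‖∇U_i(x)‖² = 1`, hence `∇U_j(x) = ∇U_i(x)` (unit vectors). So
`∇U(x) = ∑ χ_i(x)∇U_i(x) + ∑ U_i(x)∇χ_i(x)` is this common unit vector. -/

open MeasureTheory Set Metric Filter
open scoped ContDiff RealInnerProductSpace Topology NNReal Manifold

namespace Vale.Agent.P098

variable {d : ℕ}

theorem rG5_glue {u : E d → ℝ}
    (hloc : ∀ x : E d, x ≠ 0 → ∃ N ∈ 𝓝 x, ∃ g : E d → ℝ, ContDiffOn ℝ ∞ g N ∧
      ∀ y ∈ N, 0 < u y → g y = u y) :
    ∃ U : E d → ℝ, ContDiffOn ℝ ∞ U {0}ᶜ ∧ ∀ x, 0 < u x → U x = u x := by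
  classical
  let M : TopologicalSpace.Opens (E d) := ⟨{0}ᶜ, isOpen_compl_singleton⟩
  have : LocallyCompactSpace M := M.isOpen.locallyCompactSpace
  let t : M → Set ℝ := fun x => {s | 0 < u x → s = u x}
  have ht : ∀ x, Convex ℝ (t x) := by
    intro x a ha b hb p q hp hq hpq hx
    rw [ha hx, hb hx]
    simp only [smul_eq_mul]
    rw [← add_mul, hpq, one_mul]
  have H : ∀ x : M, ∃ W ∈ 𝓝 x, ∃ g : M → ℝ, ContMDiffOn 𝓘(ℝ, E d) 𝓘(ℝ, ℝ) ∞ g W ∧
      ∀ y ∈ W, g y ∈ t y := by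
    intro x
    obtain ⟨N, hN, g, hg, hgu⟩ := hloc x x.2
    refine ⟨Subtype.val ⁻¹' N, continuous_subtype_val.continuousAt.preimage_mem_nhds hN,
      fun y => g y, ?_, ?_⟩
    · have h1 : ContMDiffOn 𝓘(ℝ, E d) 𝓘(ℝ, ℝ) ∞ g N := hg.contMDiffOn
      have h2 : ContMDiff 𝓘(ℝ, E d) 𝓘(ℝ, E d) ∞ (Subtype.val : M → E d) :=
        contMDiff_subtype_val
      exact h1.comp h2.contMDiffOn (fun y hy => hy)
    · intro y hy
      exact hgu y hy
  obtain ⟨G, hG⟩ := exists_contMDiffMap_forall_mem_convex_of_local 𝓘(ℝ, E d) (n := ⊤) ht H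
  refine ⟨fun x => if h : x = 0 then u 0 else G ⟨x, h⟩, ?_, ?_⟩
  · intro x hx
    have hx' : x ≠ 0 := hx
    apply ContDiffAt.contDiffWithinAt
    rw [← contMDiffAt_iff_contDiffAt]
    have : ContMDiffAt 𝓘(ℝ, E d) 𝓘(ℝ, ℝ) ∞
        (fun y : M => (fun x => if h : x = 0 then u 0 else G ⟨x, h⟩ : E d → ℝ) y) ⟨x, hx'⟩ := by
      refine (G.contMDiff.contMDiffAt (x := ⟨x, hx'⟩)).congr_of_eventuallyEq ?_
      refine Filter.Eventually.of_forall ?_
      intro y
      have : (y : E d) ≠ 0 := y.2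
      simp [this]
    exact (contMDiffAt_subtype_iff (U := M) (x := ⟨x, hx'⟩)
      (f := fun x => if h : x = 0 then u 0 else G ⟨x, h⟩)).mp this
  · intro x hx
    by_cases h : x = 0
    · subst h
      simp
    · simp only [h, dite_false]
      exact hG ⟨x, h⟩ hx


theorem rG5_local {n : ℕ} {L : ℝ≥0} {u : E (n + 1) → ℝ} (hu : MinL L u)
    {x₀ : E (n + 1)} (hx₀ : x₀ ∈ frontier (pos u))
    (h : ∀ ε : ℝ, 0 < ε → ∃ (r : ℝ) (e : E (n + 1)),
      0 < r ∧ ‖e‖ = 1 ∧ Trap (resc u x₀ r) (fun x => ⟪x, e⟫) (-ε) ε 0 1) :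
    ∃ (N : Set (E (n + 1))) (U : E (n + 1) → ℝ), IsOpen N ∧ x₀ ∈ N ∧ ContDiffOn ℝ ∞ U N ∧
      (∀ x ∈ N, 0 < u x → U x = u x) ∧
      ∀ x ∈ N, x ∈ frontier (pos u) → ‖gradient U x‖ = 1 := by
  obtain ⟨ε₀, hε₀, hloc⟩ := local_extension n
  obtain ⟨r, e, hr, he, htrap⟩ := h ε₀ hε₀
  obtain ⟨Φ, hΦ⟩ := exists_isometry he
  have hw : MinL L (fun x => resc u x₀ r (Φ x)) := (hu.resc x₀ hr).isometry Φ
  have h0 : (0 : E (n + 1)) ∈ frontier (pos (fun x => resc u x₀ r (Φ x))) := by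
    rw [mem_frontier_isometry, mem_frontier_resc hr]
    simpa using hx₀
  have hT : Trap (fun x => resc u x₀ r (Φ x)) (fun x => x 0) (-ε₀) ε₀ 0 1 := by
    intro x hx
    have hx' : Φ x ∈ ball (0 : E (n + 1)) 1 := by
      simpa using hx
    have h1 := htrap (Φ x) hx'
    have h2 : ⟪Φ x, e⟫ = x 0 := by
      rw [← hΦ, LinearIsometryEquiv.inner_map_map]
      simp [ee, EuclideanSpace.inner_single_right]
    simp only at h1
    rw [h2] at h1
    exact h1
  obtain ⟨N', U', hN', h0N', hU', hUu', -, hgr'⟩ := hloc L _ hw h0 hT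
  let T : E (n + 1) → E (n + 1) := fun z => Φ.symm (r⁻¹ • (z - x₀))
  have hTc : ContDiff ℝ ∞ T := by
    apply ContDiff.comp (g := Φ.symm)
    · exact Φ.symm.contDiff
    · fun_prop
  have hwT : ∀ z, resc u x₀ r (Φ (T z)) = u z / r := by
    intro z
    simp only [T, resc, LinearIsometryEquiv.apply_symm_apply]
    rw [smul_smul, mul_inv_cancel₀ hr.ne', one_smul]
    congr 2
    abel
  have hfr : ∀ z, z ∈ frontier (pos u) ↔ T z ∈ frontier (pos (fun x => resc u x₀ r (Φ x))) := by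
    intro z
    rw [mem_frontier_isometry, mem_frontier_resc hr]
    simp only [T, LinearIsometryEquiv.apply_symm_apply]
    rw [smul_smul, mul_inv_cancel₀ hr.ne', one_smul]
    rw [add_sub_cancel]
  refine ⟨T ⁻¹' N', fun z => r * U' (T z), hN'.preimage hTc.continuous, ?_, ?_, ?_, ?_⟩
  · simpa [T] using h0N'
  · apply ContDiffOn.mul contDiffOn_const
    exact hU'.comp hTc.contDiffOn (fun z hz => hz)
  · intro z hz hz0
    have h1 : 0 < resc u x₀ r (Φ (T z)) := by
      rw [hwT]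
      positivity
    have h2 : U' (T z) = resc u x₀ r (Φ (T z)) := hUu' (T z) hz h1
    change r * U' (T z) = u z
    rw [h2, hwT]
    field_simp
  · intro z hz hzf
    have h1 := hgr' (T z) hz ((hfr z).1 hzf)
    have hnorm : ∀ (f : E (n + 1) → ℝ) (x : E (n + 1)), ‖gradient f x‖ = ‖fderiv ℝ f x‖ := by
      intro f x
      rw [gradient]
      exact (InnerProductSpace.toDual ℝ (E (n + 1))).symm.norm_map _
    rw [hnorm] at h1 ⊢
    have hd1 : HasFDerivAt U' (fderiv ℝ U' (T z)) (T z) := by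
      have := (hU'.contDiffAt (hN'.mem_nhds hz)).differentiableAt (by simp)
      exact this.hasFDerivAt
    have hdT : HasFDerivAt T (r⁻¹ • (Φ.symm : E (n + 1) →L[ℝ] E (n + 1))) z := by
      have h3 : HasFDerivAt (fun z : E (n + 1) => r⁻¹ • (z - x₀))
          (r⁻¹ • ContinuousLinearMap.id ℝ (E (n + 1))) z :=
        ((hasFDerivAt_id z).sub_const x₀).const_smul r⁻¹
      have h4 : HasFDerivAt (Φ.symm : E (n + 1) → E (n + 1))
          (Φ.symm : E (n + 1) →L[ℝ] E (n + 1)) (r⁻¹ • (z - x₀)) :=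
        (Φ.symm : E (n + 1) →L[ℝ] E (n + 1)).hasFDerivAt
      have h5 : HasFDerivAt T ((Φ.symm : E (n + 1) →L[ℝ] E (n + 1)).comp
          (r⁻¹ • ContinuousLinearMap.id ℝ (E (n + 1)))) z := h4.comp z h3
      have h6 : (Φ.symm : E (n + 1) →L[ℝ] E (n + 1)).comp
          (r⁻¹ • ContinuousLinearMap.id ℝ (E (n + 1))) =
          r⁻¹ • (Φ.symm : E (n + 1) →L[ℝ] E (n + 1)) := by
        ext v
        simp
      rw [← h6]
      exact h5
    have hd := (hd1.comp z hdT).const_mul r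
    have hd' : fderiv ℝ (fun z => r * U' (T z)) z
        = (fderiv ℝ U' (T z)).comp (Φ.symm : E (n + 1) →L[ℝ] E (n + 1)) := by
      rw [show (fun z => r * U' (T z)) = (fun z => r * (U' ∘ T) z) from rfl, hd.fderiv]
      ext v
      simp
      field_simp
    rw [hd']
    have h6 : ‖(fderiv ℝ U' (T z)).comp (Φ.symm : E (n + 1) →L[ℝ] E (n + 1))‖
        = ‖fderiv ℝ U' (T z)‖ := by
      exact ContinuousLinearMap.opNorm_comp_linearIsometryEquiv _ Φ.symm
    rw [h6, h1]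

theorem regular_of_traps {n : ℕ} {L : ℝ≥0} {u : E (n + 1) → ℝ} (hu : MinL L u)
    (h : ∀ x₀ ∈ frontier (pos u), x₀ ≠ 0 → ∀ ε : ℝ, 0 < ε → ∃ (r : ℝ) (e : E (n + 1)),
      0 < r ∧ ‖e‖ = 1 ∧ Trap (resc u x₀ r) (fun x => ⟪x, e⟫) (-ε) ε 0 1) :
    IsRegularAwayFromZero u := by
  have hopen : IsOpen (pos u) := hu.isOpen_pos
  have hloc : ∀ x : E (n + 1), x ≠ 0 → ∃ N ∈ 𝓝 x, ∃ g : E (n + 1) → ℝ, ContDiffOn ℝ ∞ g N ∧
      ∀ y ∈ N, 0 < u y → g y = u y := by
    intro x hx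
    by_cases hx1 : x ∈ pos u
    · exact ⟨pos u, hopen.mem_nhds hx1, u, hu.harm.1, fun y _ _ => rfl⟩
    · by_cases hx2 : x ∈ closure (pos u)
      · have hxf : x ∈ frontier (pos u) := by
          rw [frontier, hopen.interior_eq]
          exact ⟨hx2, hx1⟩
        obtain ⟨N, U, hN, hxN, hU, hUu, -⟩ := rG5_local hu hxf (h x hxf hx)
        exact ⟨N, hN.mem_nhds hxN, U, hU, hUu⟩
      · refine ⟨(closure (pos u))ᶜ, isClosed_closure.isOpen_compl.mem_nhds hx2, fun _ => 0,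
          contDiffOn_const, ?_⟩
        intro y hy hy0
        exact absurd (subset_closure (s := pos u) hy0) hy
  obtain ⟨U, hU, hUu⟩ := rG5_glue hloc
  refine ⟨hu.lip.continuous, {0}ᶜ, U, isOpen_compl_singleton, ?_, hU, hUu, ?_⟩
  · intro x hx
    exact hx.2
  · intro x hx hx0
    obtain ⟨N, U₁, hN, hxN, hU₁, hUu₁, hg₁⟩ := rG5_local hu hx (h x hx hx0)
    have h1 := hg₁ x hxN hx
    -- the gradients of `U` and `U₁` agree at `x`
    have hxc : x ∈ closure (pos u) := frontier_subset_closure hx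
    have hne : (𝓝[pos u] x).NeBot := mem_closure_iff_nhdsWithin_neBot.mp hxc
    have hc1 : ContinuousAt (fderiv ℝ U) x := by
      have := hU.contDiffAt (isOpen_compl_singleton.mem_nhds (show x ∈ ({0}ᶜ : Set _) from hx0))
      exact (this.fderiv_right (m := 0) (by simp)).continuousAt
    have hc2 : ContinuousAt (fderiv ℝ U₁) x := by
      have := hU₁.contDiffAt (hN.mem_nhds hxN)
      exact (this.fderiv_right (m := 0) (by simp)).continuousAt
    have heq : ∀ᶠ y in 𝓝[pos u] x, fderiv ℝ U y = fderiv ℝ U₁ y := by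
      have e1 : ∀ᶠ y in 𝓝[pos u] x, y ∈ N := nhdsWithin_le_nhds (hN.mem_nhds hxN)
      filter_upwards [e1, self_mem_nhdsWithin] with y hyN hy
      have e2 : U =ᶠ[𝓝 y] U₁ := by
        filter_upwards [hN.mem_nhds hyN, hopen.mem_nhds hy] with z hzN hz
        rw [hUu z hz, hUu₁ z hzN hz]
      exact e2.fderiv_eq
    have hlim1 : Tendsto (fderiv ℝ U) (𝓝[pos u] x) (𝓝 (fderiv ℝ U x)) :=
      hc1.tendsto.mono_left nhdsWithin_le_nhds
    have hlim2 : Tendsto (fderiv ℝ U₁) (𝓝[pos u] x) (𝓝 (fderiv ℝ U₁ x)) :=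
      hc2.tendsto.mono_left nhdsWithin_le_nhds
    have hfin : fderiv ℝ U x = fderiv ℝ U₁ x :=
      tendsto_nhds_unique (hlim1.congr' heq) hlim2
    rw [gradient, hfin]
    exact h1

end Vale.Agent.P098
end

section

/-! # F: assembly -/

open MeasureTheory Set Metric Filter
open scoped ContDiff RealInnerProductSpace Topology NNReal

namespace Vale.Agent.P098

variable {d : ℕ}

theorem FL_step {n : ℕ} (hn : 1 ≤ n) (h : FL n) (hs : SmoothFlat (n + 1)) : FL (n + 1) := by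
  intro L u hu hh
  refine hs L u hu hh (regular_of_traps hu ?_)
  intro x₀ hx hx0 ε hε
  exact flat_traps hn h hu hh hx hx0 hε

theorem FL_of_smooth (N : ℕ) (hs : ∀ d, 3 ≤ d → d ≤ N → SmoothFlat d) :
    ∀ d, 1 ≤ d → d ≤ N → FL d := by
  intro d hd
  induction d, hd using Nat.le_induction with
  | base => exact fun _ => FL_one
  | succ n hn ih =>
    intro hN
    refine FL_step hn (ih (by omega)) ?_
    rcases Nat.lt_or_ge (n + 1) 3 with h | h
    · have : n = 1 := by omega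
      subst this
      exact smoothFlat_two
    · exact hs _ h hN

/-- The final reduction. -/
theorem flat_of_smooth {N : ℕ} (hN : 1 ≤ N) (hs : ∀ d, 3 ≤ d → d ≤ N → SmoothFlat d)
    (u : E N → ℝ) (hu : IsGlobalMinimizer u) (hh : IsOneHomogeneous u) :
    u =ᵐ[volume] (fun _ => 0) ∨
      ∃ e : E N, ‖e‖ = 1 ∧ u =ᵐ[volume] fun x => max ⟪x, e⟫ 0 := by
  obtain ⟨v, K, hK, huv, hv, hhv, h0⟩ := exists_lipschitz_rep hN hu hh
  have hm : MinL K v := ⟨hK, h0, lipMin_of_isGlobalMinimizer hK hv⟩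
  rcases FL_of_smooth N hs N hN le_rfl K v hm hhv with h | ⟨e, he, h⟩
  · left
    filter_upwards [huv] with x hx
    rw [hx, h]
  · right
    refine ⟨e, he, ?_⟩
    filter_upwards [huv] with x hx
    rw [hx, h]

end Vale.Agent.P098
end

section

/-! Module M6: the reduction theorem. -/

open MeasureTheory Set Metric Filter
open scoped ContDiff RealInnerProductSpace Topology

namespace Vale.Agent.P098

variable {m : ℕ}

/-- The reduction theorem for minimizers against Lipschitz perturbations. -/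
theorem reduction_lip (hm : 2 ≤ m) {α : ℝ} {Φ : Fam} (hΦ : Cert m α Φ) {u : E (m + 1) → ℝ}
    {K : NNReal} (hK : LipschitzWith K u) (h0 : ∀ x, 0 ≤ u x) (hmin : LipMin u)
    (hhom : ∀ r : ℝ, 0 < r → ∀ x, u (r • x) = r * u x) (hr : IsRegularAwayFromZero u) :
    (∀ x, u x = 0) ∨ ∃ e : E (m + 1), ‖e‖ = 1 ∧ ∀ x, u x = max ⟪x, e⟫ 0 := by
  have hd : 2 ≤ m + 1 := by omega
  have hc : Continuous u := hr.1
  obtain ⟨N₀, U, hU, hN₀⟩ := ModI.localExt_of_regular hr
  have hΩN : ∀ y, 0 < u y → y ∈ N₀ := fun y hy =>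
    hN₀ ⟨subset_closure hy, fun h => by
      rw [mem_singleton_iff.mp h, ModI.hom_zero hhom] at hy; exact lt_irrefl _ hy⟩
  have hlap : ∀ x ∈ N₀, 0 < u x → lap U x = 0 := fun x hx hux =>
    hU.lap_eq_zero hK h0 hmin hx hux
  have hv : ∀ x, 0 < u x → vv U x ≤ 1 := fun x hx =>
    M6.vv_le_one hd hK h0 hmin hhom hr hU hΩN hx
  have hΩo : IsOpen {y | 0 < u y} := isOpen_lt continuous_const hc
  have hα := hΦ.hα
  obtain ⟨γ, hγ⟩ : ∃ γ : ℝ, γ = (m - 1 : ℝ) / 2 - α := ⟨_, rfl⟩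
  obtain ⟨ε, C0, hε, hC0, hint⟩ := interior_ineq hΦ hm hγ
  obtain ⟨C1, hC1, hbd⟩ := boundary_ineq hΦ hm
  obtain ⟨B, hB, hfb⟩ := fields_bound hd hc hhom hU hN₀ hv hα Φ
  obtain ⟨c, hc0, hcw⟩ := cert_w hΦ
  have hD2 : ∀ x, 0 < u x → ∑ i, ∑ j, P2 U i j x ^ 2 = 0 := by
    refine assembly hd hK h0 hmin hhom hU hN₀ hα (γ := γ) ?_ hε hB ?_
    · rw [hγ]; push_cast; ring
    intro R hR
    have hR0 : 0 < R := by linarith
    have hAc := M6.isCompact_ann {y | 0 < u y} (1 / (2 * R)) (2 * R)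
    have hAN : {x : E (m + 1) | x ∈ closure {y | 0 < u y} ∧ 1 / (2 * R) ≤ ‖x‖ ∧ ‖x‖ ≤ 2 * R}
        ⊆ N₀ := by
      rintro x ⟨hx1, hx2, _⟩
      exact M6.mem_of_closure hN₀ hx1 (lt_of_lt_of_le (by positivity) hx2)
    obtain ⟨M, hM0, hM⟩ := M6.exists_bound hAc
      ((M6.continuousOn_S0 hU.isOpen hU.smooth).mono hAN)
    obtain ⟨MU, hMU0, hMU⟩ := M6.exists_bound hAc (hU.smooth.continuousOn.mono hAN)
    have hM1 : 0 ≤ (M + 1) ^ (α - 1 / 2) := Real.rpow_nonneg (by linarith) _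
    have hM2 : 0 ≤ (M + 1) ^ α := Real.rpow_nonneg (by linarith) _
    refine ⟨C0 * (M + 1) ^ α + C0 * (M + 1) ^ α * (4 * R ^ 2)
      + 2 * |γ| * (C1 * (M + 1) ^ (α - 1 / 2)) * MU * (4 * R ^ 2)
      + C1 * (M + 1) ^ (α - 1 / 2), by (clear * - hC0 hM0 hR hC1 hMU0; positivity), fun δ hδ hδ1 => ?_⟩
    -- bounds of `S` on the annulus
    have hSS : ∀ x, x ∈ closure {y | 0 < u y} → 1 / (2 * R) < ‖x‖ → ‖x‖ < 2 * R →
        SS δ U x ≤ M + 1 := by
      intro x hx h1 h2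
      have := hM x ⟨hx, h1.le, h2.le⟩
      rw [M6.SS_eq]
      linarith only [le_abs_self (M6.S0 U x), this, hδ1]
    -- the domain
    have hcont : ContinuousOn (fun x => 1 + U x * FF δ U x) N₀ :=
      continuousOn_const.add (hU.smooth.continuousOn.mul
        (M6.continuousOn_FF hU.isOpen hU.smooth δ))
    obtain ⟨N1, hN1⟩ : ∃ N1 : Set (E (m + 1)),
        N1 = N₀ ∩ (fun x => 1 + U x * FF δ U x) ⁻¹' Ioi 0 := ⟨_, rfl⟩
    have hN1o : IsOpen N1 := by
      rw [hN1]; exact hcont.isOpen_inter_preimage hU.isOpen isOpen_Ioi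
    have hN1N : N1 ⊆ N₀ := by rw [hN1]; exact inter_subset_left
    have hU1 : ContDiffOn ℝ ∞ U N1 := hU.smooth.mono hN1N
    have h1 : ∀ x ∈ N1, 0 < 1 + U x * FF δ U x := by
      rw [hN1]; exact fun x hx => hx.2
    have hWs : ContDiffOn ℝ ∞ (WW Φ α δ U) N1 := contDiffOn_lift hN1o hU1 Φ.w hδ h1
    have hZs : ContDiffOn ℝ ∞ (ZZ Φ α δ (C1 * δ * (M + 1) ^ (α - 1 / 2)) U) N1 :=
      contDiffOn_ZZ hN1o hU1 Φ hδ h1
    have hcl1 : ∀ x ∈ closure {y | 0 < u y}, x ∈ N₀ → x ∈ N1 := by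
      intro x hx hxN
      rw [hN1]
      refine ⟨hxN, ?_⟩
      show 0 < 1 + U x * FF δ U x
      rw [eq_on_closure hc hU hxN hx]
      have := mul_nonneg (h0 x) (M6.FF_pos hδ U x).le
      linarith
    have hWΩ : ∀ x, 0 < u x → δ ^ α * c ≤ WW Φ α δ U x := by
      intro x hx
      obtain ⟨lam, ξ, T, hF⟩ := exists_frame hhom hc hU hlap (hΩN x hx) hx hδ
      have hUx : U x = u x := hU.eq x (hΩN x hx) hx
      exact M6.WW_ge (by linarith) hc0.le hδ
        (M6.lift_ge hcw hδ hF (by rw [hUx]; exact hx.le) (hv x hx))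
    have hWcl : ∀ x ∈ closure {y | 0 < u y}, x ∈ N₀ → 0 < WW Φ α δ U x := by
      intro x hx hxN
      have hx1 := hcl1 x hx hxN
      have h2 := M6.ge_on_closure hWΩ hx
        ((hWs.contDiffAt (hN1o.mem_nhds hx1)).continuousAt)
      have h3 : 0 < δ ^ α * c := mul_pos (Real.rpow_pos_of_pos hδ _) hc0
      linarith
    refine ⟨(N1 ∩ {x | 1 / (2 * R) < ‖x‖ ∧ ‖x‖ < 2 * R}) ∩ (WW Φ α δ U) ⁻¹' Ioi 0,
      WW Φ α δ U, ZZ Φ α δ (C1 * δ * (M + 1) ^ (α - 1 / 2)) U,
      ?_, ?_, ?_, ?_, ?_, ?_, ?_, ?_, ?_, ?_⟩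
    · refine (hWs.continuousOn.mono inter_subset_left).isOpen_inter_preimage
        (hN1o.inter ?_) isOpen_Ioi
      exact (isOpen_lt continuous_const continuous_norm).inter
        (isOpen_lt continuous_norm continuous_const)
    · exact fun x hx => hN1N hx.1.1
    · intro x hx hx1 hx2
      have hn : 0 < ‖x‖ := lt_of_lt_of_le (by positivity) hx1
      have hxN := M6.mem_of_closure hN₀ hx hn
      refine ⟨⟨hcl1 x hx hxN, ?_, ?_⟩, hWcl x hx hxN⟩
      · refine lt_of_lt_of_le ?_ hx1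
        exact one_div_lt_one_div_of_lt hR0 (by linarith)
      · linarith
    · exact hWs.mono fun x hx => hx.1.1
    · exact hZs.mono fun x hx => hx.1.1
    · exact fun x hx => hx.2
    · rintro x ⟨⟨hx1, hx2, hx3⟩, _⟩ hxf
      have hxc : x ∈ closure {y | 0 < u y} := frontier_subset_closure hxf
      have hn : 0 < ‖x‖ := lt_trans (by positivity) hx2
      have hcurv : 0 ≤ curv U x := curv_nonneg hd hK h0 hmin hhom hr hU (hN1N hx1) hxf
      have h2 := hbd δ (C1 * δ * (M + 1) ^ (α - 1 / 2)) u U N₀ x hδ hδ1 hc h0 hhom hU hlap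
        (hN1N hx1) (norm_pos_iff.1 hn) hxf hcurv
      refine le_trans ?_ h2
      have h3 : FF δ U x ^ (2 * α - 1) ≤ (M + 1) ^ (α - 1 / 2) := by
        rw [M6.FF_rpow hδ, show (2 * α - 1) / 2 = α - 1 / 2 by ring]
        exact Real.rpow_le_rpow (hδ.le.trans (M6.SS_ge δ U x)) (hSS x hxc hx2 hx3) (by linarith only [hα])
      have h4 := mul_le_mul_of_nonneg_left h3 (mul_nonneg hC1 hδ.le)
      linarith only [h4]
    · rintro x ⟨⟨hx1, hx2, hx3⟩, _⟩ hux
      have hxc : x ∈ closure {y | 0 < u y} := subset_closure hux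
      have hn : 0 < ‖x‖ := lt_trans (by positivity) hx2
      have hUx : U x = u x := hU.eq x (hΩN x hux) hux
      obtain ⟨lam, ξ, T, hF⟩ := exists_frame hhom hc hU hlap (hΩN x hux) hux hδ
      have h2 := hint δ (C1 * δ * (M + 1) ^ (α - 1 / 2)) U {y | 0 < u y} x lam ξ T hδ hδ1 hΩo
        (hU.smooth.mono hΩN) (fun z hz => hlap z (hΩN z hz) hz)
        (fun z hz => h1 z (hcl1 z (subset_closure hz) (hΩN z hz))) hux (norm_pos_iff.1 hn)
        (by rw [hUx]; exact hux) (hv x hux) hF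
      rw [M6.FF_rpow hδ, M6.FF_rpow hδ, show 2 * α / 2 = α by ring,
        show (2 * α - 2) / 2 = α - 1 by ring] at h2
      exact M6.absorb hε hC0 hC1 hM1 hα hδ hδ1 (M6.S0_nonneg U x) (M6.SS_eq δ U x)
        (hSS x hxc hx2 hx3) (by linarith) (hMU x ⟨hxc, hx2.le, hx3.le⟩) hR0 hx2 h2
    · exact fun x _ hux => (hfb δ 0 hδ hδ1 x hux).1
    · intro x _ hux
      refine (hfb δ (C1 * δ * (M + 1) ^ (α - 1 / 2)) hδ hδ1 x hux).2.trans ?_
      have h5 : 0 ≤ C1 * δ * (M + 1) ^ (α - 1 / 2) := mul_nonneg (mul_nonneg hC1 hδ.le) hM1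
      rw [abs_of_nonneg h5]
      have h6 : 0 ≤ (C0 * (M + 1) ^ α + C0 * (M + 1) ^ α * (4 * R ^ 2)
        + 2 * |γ| * (C1 * (M + 1) ^ (α - 1 / 2)) * MU * (4 * R ^ 2)) * δ := by (clear * - hC0 hM0 hR hC1 hMU0 hδ; positivity)
      linarith only [h6]
  exact rigidity hd hc h0 hhom hr fun x hx => M6.fderiv2_zero hc hU hΩN hx (hD2 x hx)

/-- The reduction theorem: a certificate in dimension `m + 1` excludes nonflat one-homogeneous
global minimizers that are smooth away from the origin. -/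
theorem reduction (hm : 2 ≤ m) {α : ℝ} {Φ : Fam} (hΦ : Cert m α Φ)
    (u : E (m + 1) → ℝ) (hu : IsGlobalMinimizer u) (hh : IsOneHomogeneous u)
    (hr : IsRegularAwayFromZero u) :
    (∀ x, u x = 0) ∨ ∃ e : E (m + 1), ‖e‖ = 1 ∧ ∀ x, u x = max ⟪x, e⟫ 0 := by
  have hhom := hom_everywhere hr.1 hh
  obtain ⟨K, hK⟩ := exists_lipschitz (by omega) hu.1 hhom hr
  exact reduction_lip hm hΦ hK hu.1 (lipMin_of_isGlobalMinimizer hK hu) hhom hr

end Vale.Agent.P098
end

section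

/-! # Assembly of certificates and regularity theory -/

open MeasureTheory Set Metric Filter
open scoped ContDiff RealInnerProductSpace Topology NNReal

namespace Vale.Agent.P098

/-- A certificate in `m` variables gives flatness of the minimizers on `R^(m+1)` which are smooth
away from the origin. -/
theorem smoothFlat_of_cert' {m : ℕ} (hm : 2 ≤ m) {α : ℝ} {Φ : Fam} (h : Cert m α Φ) :
    SmoothFlat (m + 1) := by
  intro L u hu hh hr
  exact reduction_lip hm h hu.lip hu.nonneg hu.min hh hr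

/-- If there are certificates in `m` variables for `2 ≤ m < N`, then every one-homogeneous global
minimizer on `R^N` is zero or flat. -/
theorem flat_of_certs' {N : ℕ} (hN : 1 ≤ N)
    (hc : ∀ m, 2 ≤ m → m + 1 ≤ N → ∃ (α : ℝ) (Φ : Fam), Cert m α Φ)
    (u : E N → ℝ) (hu : IsGlobalMinimizer u) (hh : IsOneHomogeneous u) :
    u =ᵐ[volume] (fun _ => 0) ∨
      ∃ e : E N, ‖e‖ = 1 ∧ u =ᵐ[volume] fun x => max ⟪x, e⟫ 0 := by
  refine flat_of_smooth hN (fun d h3 hd => ?_) u hu hh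
  obtain ⟨m, rfl⟩ : ∃ m, d = m + 1 := ⟨d - 1, by omega⟩
  obtain ⟨α, Φ, h⟩ := hc m (by omega) hd
  exact smoothFlat_of_cert' (by omega) h

end Vale.Agent.P098
end


section

/-! The field `form_pos` of the certificate for `m = 5`. -/

namespace Vale.Agent.P098.N

open Vale.Agent.P098.K

theorem std5 : ∀ g ∈ cd5.grps, stdF g := by
  intro g hg
  simp only [cd5, List.mem_cons, List.not_mem_nil, or_false] at hg
  rcases hg with rfl | rfl | rfl | rfl | rfl
  all_goals
    intro b hb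
    simp only [grpA1, grpA2, grpE, grpT1, grpV, List.mem_cons, List.not_mem_nil, or_false] at hb
    rcases hb with rfl | rfl | rfl | rfl
    all_goals exact ⟨_, _, _, _, _, _, rfl⟩

theorem chk5 : ∀ i < 6, ∀ j < 6, i ≤ j →
    cd5.chk (T5 phi5 (2 ^ 52 : ℕ) i j) (if i = j then ((368811017749686464 : ℕ) : ℤ) else 0)
      1031270351327720623134037 i j = true
  | 0, _, 0, _, _ => c5_00
  | 0, _, 1, _, _ => c5_01
  | 0, _, 2, _, _ => c5_02
  | 0, _, 3, _, _ => c5_03
  | 0, _, 4, _, _ => c5_04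
  | 0, _, 5, _, _ => c5_05
  | 1, _, 0, _, h => absurd h (by decide)
  | 1, _, 1, _, _ => c5_11
  | 1, _, 2, _, _ => c5_12
  | 1, _, 3, _, _ => c5_13
  | 1, _, 4, _, _ => c5_14
  | 1, _, 5, _, _ => c5_15
  | 2, _, 0, _, h => absurd h (by decide)
  | 2, _, 1, _, h => absurd h (by decide)
  | 2, _, 2, _, _ => c5_22
  | 2, _, 3, _, _ => c5_23
  | 2, _, 4, _, _ => c5_24
  | 2, _, 5, _, _ => c5_25
  | 3, _, 0, _, h => absurd h (by decide)
  | 3, _, 1, _, h => absurd h (by decide)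
  | 3, _, 2, _, h => absurd h (by decide)
  | 3, _, 3, _, _ => c5_33
  | 3, _, 4, _, _ => c5_34
  | 3, _, 5, _, _ => c5_35
  | 4, _, 0, _, h => absurd h (by decide)
  | 4, _, 1, _, h => absurd h (by decide)
  | 4, _, 2, _, h => absurd h (by decide)
  | 4, _, 3, _, h => absurd h (by decide)
  | 4, _, 4, _, _ => c5_44
  | 4, _, 5, _, _ => c5_45
  | 5, _, 0, _, h => absurd h (by decide)
  | 5, _, 1, _, h => absurd h (by decide)
  | 5, _, 2, _, h => absurd h (by decide)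
  | 5, _, 3, _, h => absurd h (by decide)
  | 5, _, 4, _, h => absurd h (by decide)
  | 5, _, 5, _, _ => c5_55
  | _ + 6, h, _, _, _ => absurd h (by omega)
  | _, _, _ + 6, h, _ => absurd h (by omega)

theorem form5 : ∀ y ρ : ℝ, 0 ≤ y → y ≤ 1 → 0 ≤ ρ → ρ ≤ 1 → ∀ lam : Fin 5 → ℝ, pw lam 1 = 0 →
    pw lam 2 = 1 → ∀ (ξ t : ℝ) (x : Fin 5 → ℝ), ∑ i, x i = 0 →
      ¬ (ξ = 0 ∧ t = 0 ∧ x = 0) →
      0 < formA phi5.fam y (ρ ^ 2) lam 0 * ξ ^ 2
        + ρ * ξ * formB phi5.fam (1 / 2) y (ρ ^ 2) lam 0 x t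
        + formC phi5.fam (1 / 2) y (ρ ^ 2) lam 0 x t := by
  refine form_pos5F (F := phi5) (c := cd5) (s := 2 ^ 52) (ε := 368811017749686464)
    (Δ := 1031270351327720623134037) (by decide) (by decide) ?_ (by positivity) (by norm_num)
    chk5 std5
  simp [phi5]

end Vale.Agent.P098.N
end

section

/-!
# The condition `formC_pos` of the certificate for `m = 5`
-/

namespace Vale.Agent.P098.S5

open Vale.Agent.P098.K Vale.Agent.P098.N

theorem cdC_chk : ∀ i < 5, ∀ j < 5, i ≤ j →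
    cdC.chk (T5 phi5 (2 ^ 44 : ℕ) (i + 1) (j + 1)) (if i = j then ((4323455642275676 : ℕ) : ℤ) else 0)
      7059466092451389767681 i j = true := by
  intro i hi j hj hij
  interval_cases i <;> interval_cases j
  · rw [if_pos rfl]; exact fc00
  · rw [if_neg (by decide)]; exact fc01
  · rw [if_neg (by decide)]; exact fc02
  · rw [if_neg (by decide)]; exact fc03
  · rw [if_neg (by decide)]; exact fc04
  · rw [if_pos rfl]; exact fc11
  · rw [if_neg (by decide)]; exact fc12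
  · rw [if_neg (by decide)]; exact fc13
  · rw [if_neg (by decide)]; exact fc14
  · rw [if_pos rfl]; exact fc22
  · rw [if_neg (by decide)]; exact fc23
  · rw [if_neg (by decide)]; exact fc24
  · rw [if_pos rfl]; exact fc33
  · rw [if_neg (by decide)]; exact fc34
  · rw [if_pos rfl]; exact fc44

theorem cdC_blk : ∀ g ∈ cdC.grps, ∀ b ∈ g.g.blks,
    mulOk b.m = true ∧ b.t00 = .c 1 ∧ b.t01 = .c 1 ∧ b.t11 = .c 1 := by
  intro g hg b hb
  simp only [cdC, List.mem_cons, List.not_mem_nil, or_false] at hg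
  rcases hg with rfl | rfl | rfl | rfl | rfl | rfl | rfl | rfl | rfl <;>
  · simp only [gCA1, gCA2, gCE, gCT1, gCV, gBA1, gBE, gBT1, gBV, List.mem_cons,
      List.not_mem_nil, or_false] at hb
    repeat' (rcases hb with rfl | hb)
    all_goals first
      | exact ⟨rfl, rfl, rfl, rfl⟩
      | (subst hb; exact ⟨rfl, rfl, rfl, rfl⟩)

/-- The condition `formC_pos` of the certificate for `m = 5`. -/
theorem formC_pos5 : ∀ y v : ℝ, 0 ≤ y → y ≤ 1 → 0 ≤ v → v ≤ 1 → ∀ lam : Fin 5 → ℝ,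
    pw lam 1 = 0 → pw lam 2 ≤ 1 → ∀ (t : ℝ) (x : Fin 5 → ℝ), ∑ i, x i = 0 →
      ¬ (t = 0 ∧ x = 0) → 0 < formC phi5.fam (1 / 2) y v lam 0 x t :=
  formC_pos5_T5 (F := phi5) (by decide) (by decide) (by norm_num [phi5]) (c := cdC)
    (s := 2 ^ 44) (by norm_num) (ε := 4323455642275676) (Δ := 7059466092451389767681) (by norm_num) cdC_chk cdC_blk

end Vale.Agent.P098.S5
end

section

/-!
# The condition `kappa` of the certificate for `m = 5`
-/

namespace Vale.Agent.P098.S5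

open Vale.Agent.P098.K Vale.Agent.P098.N

/-- The condition `kappa` of the certificate. -/
theorem kappa5 : ∃ ε : ℝ, 0 < ε ∧ ∀ y v : ℝ, 0 ≤ y → y ≤ 1 → 0 ≤ v → v ≤ 1 →
    ∀ lam : Fin 5 → ℝ, pw lam 1 = 0 → pw lam 2 = 1 →
      ε * (v + (1 - y) ^ 2) ≤ v * formK phi5.fam y v lam
        + (1 - y) ^ 2 * formG phi5.fam y v lam :=
  R8.kappa5_of (F := phi5) (by decide) (by decide +kernel) (ha := hKa) (hb := hKb)
    (by decide +kernel) (by decide +kernel) (c1 := Kap.cdK1) (c2 := Kap.cdK2) (s1 := 2 ^ 42)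
    (s2 := 2 ^ 42) (by norm_num) (by norm_num) (ε1 := 90071992547410) (ε2 := 72057594037928)
    (Δ1 := 1019050026682782842880) (Δ2 := 558583277252633165824) (by norm_num) (by norm_num)
    Kap.chkK1 Kap.stdK1 Kap.chkK2 Kap.stdK2

end Vale.Agent.P098.S5
end

section

/-! The certificate for `m = 5`, that is for dimension `6`. -/

namespace Vale.Agent.P098

theorem cert5_zero : Cert0 5 0 (1 / 2) phi5.fam where
  hα := le_rfl
  w_pos := w_pos_of_formC S5.formC_pos5
  form_pos := N.form5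
  formC_pos := S5.formC_pos5
  triple := S5.triple5
  kappa := S5.kappa5
  bdry := S5.bdry5

theorem cert5 : Cert 5 (1 / 2) phi5.fam := cert5_zero.cert

end Vale.Agent.P098
end

section

/-!
# The certificates for `m = 2, 3, 4` from the certificate for `m = 5`
-/

namespace Vale.Agent.P098.S5.Low

open Vale.Agent.P098.K Vale.Agent.P098.N

/-- The two brackets for `m = 5`. -/
theorem br5 : ∃ δ : ℝ, 0 < δ ∧ ∀ y v : ℝ, 0 ≤ y → y ≤ 1 → 0 ≤ v → v ≤ 1 →
    ∀ lam : Fin 5 → ℝ, pw lam 1 = 0 → pw lam 2 = 1 →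
      δ ≤ 4096 * formK phi5.fam y v lam
        + (1 - y) ^ 2 * R8.hR hKa hKb y v (pw lam 3) (pw lam 4) (pw lam 5)
      ∧ δ ≤ 4096 * formG phi5.fam y v lam
        - v * R8.hR hKa hKb y v (pw lam 3) (pw lam 4) (pw lam 5) := by
  have hD : 0 < phi5.D := by decide
  have hF : R8.okF phi5 = true := by decide +kernel
  have hha : R8.okYV hKa = true := by decide +kernel
  have hhb : R8.okYV (R8.exM hKb) = true := by decide +kernel
  refine ⟨1 / 2 ^ 45, by positivity, ?_⟩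
  intro y v hy0 hy1 hv0 hv1 lam hl1 hl2
  have k1 := R8.scl_pos8 Kap.chkK1 Kap.stdK1 hy0 hy1 hv0 hv1 hl1 hl2
  have k2 := R8.scl_pos4 Kap.chkK2 Kap.stdK2 hy0 hy1 hv0 hv1 hl1 hl2
  have e0 : pt5 y v lam 0 = y := rfl
  have e1 : pt5 y v lam 1 = v := rfl
  have hX8 := R8.ptX8 R8.rs6 (y := y) (v := v) hl1
  have hX4 := R8.ptX8 N.rs6 (y := y) (v := v) hl1
  have eD : ((phi5.D : ℕ) : ℝ) = 4096 := by
    have : phi5.D = 4096 := rfl
    rw [this]; norm_num
  simp only [R8.K1E, evE_nE, evE_add, evE_mul, evE_pow, evE_sub, evE_c, evE_v,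
    R8.evE_K R8.cod8 hD hF hl1, R8.evE_HE R8.cod8 hha hhb, R8.p3E, R8.p4E, R8.p5E, hX8.pw,
    e0, e1, eD] at k1
  simp only [R8.K2E, evE_nE, evE_sub, evE_mul, evE_v, R8.evE_GS R8.cod4 hD hF hl1,
    R8.evE_HE R8.cod4 hha hhb, R8.p3E, R8.p4E, R8.p5E, hX4.pw, e0, e1, eD] at k2
  push_cast at k1 k2
  constructor
  · norm_num at k1 ⊢
    linarith only [k1]
  · norm_num at k2 ⊢
    linarith

theorem core4 (hw : ∀ y v : ℝ, 0 ≤ y → y ≤ 1 → 0 ≤ v → v ≤ 1 → ∀ lam : Fin 5 → ℝ,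
      pw lam 1 = 0 → pw lam 2 ≤ 1 → 0 < phi5.fam.w.g y v (pw lam 3) (pw lam 4)) :
    ∃ ε : ℝ, 0 < ε ∧ ∀ y v : ℝ, 0 ≤ y → y ≤ 1 → 0 ≤ v → v ≤ 1 → ∀ lam : Fin 4 → ℝ,
      pw lam 1 = 0 → pw lam 2 = 1 → ∀ M : ℝ, 2 ≤ M → M ≤ 5 →
        ε * (v + (1 - y) ^ 2)
          ≤ v * kM phi5.fam M y v lam + (1 - y) ^ 2 * formG phi5.fam y v lam := by
  obtain ⟨δ, hδ, h5⟩ := br5
  refine ⟨min δ 1 / 4096, by positivity, ?_⟩
  intro y v hy0 hy1 hv0 hv1 lam hl1 hl2 M hM2 hM5
  have hp1 : pw (pad lam) 1 = 0 := by rw [pw_pad1]; exact hl1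
  have hp2 : pw (pad lam) 2 = 1 := by rw [pw_pad2]; exact hl2
  obtain ⟨k1, k2⟩ := h5 y v hy0 hy1 hv0 hv1 (pad lam) hp1 hp2
  have k3 := br2 hy0 hy1 hv0 hv1 hl1 hl2
  have k4 := hw y v hy0 hy1 hv0 hv1 (pad lam) hp1 hp2.le
  have c5 : ((5 : ℕ) : ℝ) = 5 := by norm_num
  rw [formK_eq, kM_pad, pw_pad3, pw_pad4, pw_pad' lam (by norm_num : 1 ≤ 5), c5] at k1
  rw [formG_pad, pw_pad3, pw_pad4, pw_pad' lam (by norm_num : 1 ≤ 5)] at k2
  rw [pw_pad3, pw_pad4] at k4
  have k5 := kM_conc phi5.fam M y v lam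
  set H : ℝ := R8.hR hKa hKb y v (pw lam 3) (pw lam 4) (pw lam 5)
  set G : ℝ := formG phi5.fam y v lam
  set K : ℝ := kM phi5.fam M y v lam
  set K2 : ℝ := kM phi5.fam 2 y v lam
  set K5 : ℝ := kM phi5.fam 5 y v lam
  set W : ℝ := phi5.fam.w.g y v (pw lam 3) (pw lam 4)
  have m1 := min_le_left δ 1
  have m2 := min_le_right δ 1
  set η : ℝ := min δ 1
  have n1 : η ≤ 4096 * K + (1 - y) ^ 2 * H := by
    have t1 : (5 - M) * η ≤ (5 - M) * (4096 * K2 + (1 - y) ^ 2 * H) :=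
      mul_le_mul_of_nonneg_left (by linarith) (by linarith)
    have t2 : (M - 2) * η ≤ (M - 2) * (4096 * K5 + (1 - y) ^ 2 * H) :=
      mul_le_mul_of_nonneg_left (by linarith) (by linarith)
    have t3 : 0 ≤ (M - 2) * (5 - M) / 4 * (y ^ 2 * W) := by
      have : 0 ≤ M - 2 := by linarith
      have : 0 ≤ 5 - M := by linarith
      (clear * - hM2 hM5 k4; positivity)
    rw [k5]
    linarith only [t3, t2, t1]
  have n2 : η ≤ 4096 * G - v * H := by linarith
  have t1 := mul_le_mul_of_nonneg_left n1 hv0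
  have t2 := mul_le_mul_of_nonneg_left n2 (sq_nonneg (1 - y))
  have t3 : 4096 * (η / 4096 * (v + (1 - y) ^ 2)) = η * (v + (1 - y) ^ 2) := by ring
  linarith only [t2, t1]

/-- The certificate for `m = 5` is also a certificate for `m = 2, 3, 4`. -/
theorem certs_of_cert5 (h : Cert 5 (1 / 2) phi5.fam) (m : ℕ) (h2 : 2 ≤ m) (h5 : m ≤ 5) :
    Cert m (1 / 2) phi5.fam := by
  obtain ⟨ε, hε, hk⟩ := core4 h.w_pos
  have c4 : Cert 4 (1 / 2) phi5.fam := h.down ⟨ε, hε, by
    intro y v hy0 hy1 hv0 hv1 lam hl1 hl2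
    have := hk y v hy0 hy1 hv0 hv1 lam hl1 hl2 4 (by norm_num) (by norm_num)
    rw [formK_eq]
    exact_mod_cast this⟩
  have c3 : Cert 3 (1 / 2) phi5.fam := c4.down ⟨ε, hε, by
    intro y v hy0 hy1 hv0 hv1 lam hl1 hl2
    have := hk y v hy0 hy1 hv0 hv1 (pad lam) (by rw [pw_pad1]; exact hl1)
      (by rw [pw_pad2]; exact hl2) 3 (by norm_num) (by norm_num)
    rw [kM_pad, formG_pad] at this
    rw [formK_eq]
    exact_mod_cast this⟩
  have c2 : Cert 2 (1 / 2) phi5.fam := c3.down ⟨ε, hε, by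
    intro y v hy0 hy1 hv0 hv1 lam hl1 hl2
    have := hk y v hy0 hy1 hv0 hv1 (pad (pad lam)) (by rw [pw_pad1, pw_pad1]; exact hl1)
      (by rw [pw_pad2, pw_pad2]; exact hl2) 2 (by norm_num) (by norm_num)
    rw [kM_pad, kM_pad, formG_pad, formG_pad] at this
    rw [formK_eq]
    exact_mod_cast this⟩
  interval_cases m
  · exact c2
  · exact c3
  · exact c4
  · exact h

end Vale.Agent.P098.S5.Low
end

section

/-! # Assembly in dimension six, with the certificate for `m = 5` only -/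

open MeasureTheory Set Metric Filter
open scoped ContDiff RealInnerProductSpace Topology NNReal

namespace Vale.Agent.P098

/-- The case of dimension at most six. -/
theorem flat_le_six' {N : ℕ} (hN : 1 ≤ N) (hN6 : N ≤ 6)
    (u : E N → ℝ) (hu : IsGlobalMinimizer u) (hh : IsOneHomogeneous u) :
    u =ᵐ[volume] (fun _ => 0) ∨
      ∃ e : E N, ‖e‖ = 1 ∧ u =ᵐ[volume] fun x => max ⟪x, e⟫ 0 :=
  flat_of_certs' hN (fun m h2 hm => ⟨_, _, S5.Low.certs_of_cert5 cert5 m h2 (by omega)⟩) u hu hh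

end Vale.Agent.P098
end

section

/-! # Assembly in dimension five -/

open MeasureTheory Set Metric Filter
open scoped ContDiff RealInnerProductSpace Topology NNReal

namespace Vale.Agent.P098

/-- The case of dimension at most five. -/
theorem flat_le_five {N : ℕ} (hN : 1 ≤ N) (hN5 : N ≤ 5)
    (u : E N → ℝ) (hu : IsGlobalMinimizer u) (hh : IsOneHomogeneous u) :
    u =ᵐ[volume] (fun _ => 0) ∨
      ∃ e : E N, ‖e‖ = 1 ∧ u =ᵐ[volume] fun x => max ⟪x, e⟫ 0 :=
  flat_le_six' hN (by omega) u hu hh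

end Vale.Agent.P098
end

section

/-! # Assembly in dimension six -/

open MeasureTheory Set Metric Filter
open scoped ContDiff RealInnerProductSpace Topology NNReal

namespace Vale.Agent.P098

/-- The case of dimension at most six. -/
theorem flat_le_six {N : ℕ} (hN : 1 ≤ N) (hN6 : N ≤ 6)
    (u : E N → ℝ) (hu : IsGlobalMinimizer u) (hh : IsOneHomogeneous u) :
    u =ᵐ[volume] (fun _ => 0) ∨
      ∃ e : E N, ‖e‖ = 1 ∧ u =ᵐ[volume] fun x => max ⟪x, e⟫ 0 :=
  flat_le_six' hN hN6 u hu hh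

end Vale.Agent.P098
end
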