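import Mathlib
import Vale.Agent.P098.Bdl.B4

set_option linter.all false

section

/-!
# Explicit geometric expressions for `m = 5`
-/

namespace Vale.Agent.P098.N

open Vale.Agent.P098.K

variable {X : ℕ → ℝ}

/-- Sum of linear forms times powers of the first eigenvalue. -/
def ffE (G : Crd) (m j c : ℕ) : Ex :=
  sumE (fun i => .mul (xxE G m (i + 1) c) (powE (G.lam 0) (j - 2 - i))) (j - 1)

/-- Power sums. -/
def pw5 : ℕ → Ex
  | 2 => .p [0, 0, 2, 2, 2, 2] [(20, 32), (4, 544), (4, 9248), (4, 157216)]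
  | 3 => .p [0, 0, 3, 2, 2, 2] [(60, 48), (-12, 560), (-12, 9264), (24, 83504), (-12, 157232)]
  | 4 => .p [0, 0, 4, 4, 4, 4] [(260, 64), (24, 576), (4, 1088), (24, 9280), (24, 9792), (4, 18496), (-96, 83520), (24, 157248), (24, 157760), (24, 166464), (4, 314432)]
  | 5 => .p [0, 0, 5, 4, 4, 4] [(1020, 80), (-40, 592), (-20, 1104), (-40, 9296), (-120, 9808), (-20, 18512), (240, 83536), (80, 84048), (80, 92752), (-40, 157264), (-120, 157776), (-120, 166480), (80, 240720), (-20, 314448)]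
  | i => pwE crd5 5 i

/-- Powers of the first eigenvalue. -/
def ll5 : ℕ → Ex
  | 0 => .p [0, 0, 0, 0, 0, 0] [(1, 0)]
  | 1 => .p [0, 0, 1, 0, 0, 0] [(4, 16)]
  | 2 => .p [0, 0, 2, 0, 0, 0] [(16, 32)]
  | 3 => .p [0, 0, 3, 0, 0, 0] [(64, 48)]
  | 4 => .p [0, 0, 4, 0, 0, 0] [(256, 64)]
  | 5 => .p [0, 0, 5, 0, 0, 0] [(1024, 80)]
  | i => powE (crd5.lam 0) i

/-- Coefficients of the linear forms. -/
def xx51 : ℕ → Ex
  | 1 => .p [0, 0, 1, 0, 0, 0] [(20, 16)]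
  | 2 => .p [0, 0, 0, 1, 0, 0] [(4, 272)]
  | 3 => .p [0, 0, 0, 0, 1, 0] [(4, 4624)]
  | 4 => .p [0, 0, 0, 0, 0, 1] [(4, 78608)]
  | i => xxE crd5 5 1 i

/-- Coefficients of the linear forms. -/
def xx52 : ℕ → Ex
  | 1 => .p [0, 0, 2, 2, 2, 2] [(60, 32), (-4, 544), (-4, 9248), (-4, 157216)]
  | 2 => .p [0, 0, 1, 1, 1, 1] [(-8, 288), (8, 83232)]
  | 3 => .p [0, 0, 1, 1, 1, 1] [(-8, 4640), (8, 78880)]
  | 4 => .p [0, 0, 1, 1, 1, 1] [(8, 4896), (-8, 78624)]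
  | i => xxE crd5 5 2 i

/-- Coefficients of the linear forms. -/
def xx53 : ℕ → Ex
  | 1 => .p [0, 0, 3, 2, 2, 2] [(260, 48), (12, 560), (12, 9264), (-24, 83504), (12, 157232)]
  | 2 => .p [0, 0, 2, 3, 2, 2] [(12, 304), (4, 816), (12, 9520), (-24, 83248), (12, 157488)]
  | 3 => .p [0, 0, 2, 2, 3, 2] [(12, 4656), (12, 5168), (4, 13872), (-24, 78896), (12, 161840)]
  | 4 => .p [0, 0, 2, 2, 2, 3] [(-24, 4912), (12, 78640), (12, 79152), (12, 87856), (4, 235824)]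
  | i => xxE crd5 5 3 i

/-- Coefficients of the linear forms. -/
def xx5 : ℕ → ℕ → Ex
  | 1, c => xx51 c
  | 2, c => xx52 c
  | 3, c => xx53 c
  | i, c => xxE crd5 5 i c

/-- Coefficients of the linear forms of type `e`. -/
def xe512 : ℕ → Ex
  | 1 => .p [0, 0, 3, 2, 2, 2] [(-80, 48), (-16, 560), (-16, 9264), (-16, 157232)]
  | 2 => .p [0, 0, 2, 1, 1, 1] [(-96, 304), (32, 83248)]
  | 3 => .p [0, 0, 2, 1, 1, 1] [(-96, 4656), (32, 78896)]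
  | 4 => .p [0, 0, 2, 1, 1, 1] [(32, 4912), (-96, 78640)]
  | i => xeE crd5 5 1 2 i

/-- Coefficients of the linear forms of type `e`. -/
def xe513 : ℕ → Ex
  | 1 => .p [0, 0, 4, 2, 2, 2] [(-240, 64), (48, 576), (48, 9280), (-96, 83520), (48, 157248)]
  | 2 => .p [0, 0, 3, 3, 2, 2] [(-208, 320), (16, 832), (48, 9536), (-96, 83264), (48, 157504)]
  | 3 => .p [0, 0, 3, 2, 3, 2] [(-208, 4672), (48, 5184), (16, 13888), (-96, 78912), (48, 161856)]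
  | 4 => .p [0, 0, 3, 2, 2, 3] [(-96, 4928), (-208, 78656), (48, 79168), (48, 87872), (16, 235840)]
  | i => xeE crd5 5 1 3 i

/-- Coefficients of the linear forms of type `e`. -/
def xe523 : ℕ → Ex
  | 1 => .p [0, 0, 5, 2, 2, 2] [(320, 80), (448, 592), (448, 9296), (-384, 83536), (448, 157264)]
  | 2 => .p [0, 0, 4, 3, 2, 2] [(704, 336), (64, 848), (192, 9552), (-896, 83280), (192, 157520)]
  | 3 => .p [0, 0, 4, 2, 3, 2] [(704, 4688), (192, 5200), (64, 13904), (-896, 78928), (192, 161872)]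
  | 4 => .p [0, 0, 4, 2, 2, 3] [(-896, 4944), (704, 78672), (192, 79184), (192, 87888), (64, 235856)]
  | i => xeE crd5 5 2 3 i

/-- Coefficients of the linear forms of type `e`. -/
def xe5 : ℕ → ℕ → ℕ → Ex
  | 1, 2, c => xe512 c
  | 1, 3, c => xe513 c
  | 2, 3, c => xe523 c
  | i, j, c => xeE crd5 5 i j c

/-- Sums of linear forms. -/
def ff52 : ℕ → Ex
  | 1 => .p [0, 0, 1, 0, 0, 0] [(20, 16)]
  | 2 => .p [0, 0, 0, 1, 0, 0] [(4, 272)]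
  | 3 => .p [0, 0, 0, 0, 1, 0] [(4, 4624)]
  | 4 => .p [0, 0, 0, 0, 0, 1] [(4, 78608)]
  | i => ffE crd5 5 2 i

/-- Sums of linear forms. -/
def ff53 : ℕ → Ex
  | 1 => .p [0, 0, 2, 2, 2, 2] [(140, 32), (-4, 544), (-4, 9248), (-4, 157216)]
  | 2 => .p [0, 0, 1, 1, 1, 1] [(8, 288), (8, 83232)]
  | 3 => .p [0, 0, 1, 1, 1, 1] [(8, 4640), (8, 78880)]
  | 4 => .p [0, 0, 1, 1, 1, 1] [(8, 4896), (8, 78624)]
  | i => ffE crd5 5 3 i

/-- Sums of linear forms. -/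
def ff54 : ℕ → Ex
  | 1 => .p [0, 0, 3, 2, 2, 2] [(820, 48), (-4, 560), (-4, 9264), (-24, 83504), (-4, 157232)]
  | 2 => .p [0, 0, 2, 3, 2, 2] [(44, 304), (4, 816), (12, 9520), (8, 83248), (12, 157488)]
  | 3 => .p [0, 0, 2, 2, 3, 2] [(44, 4656), (12, 5168), (4, 13872), (8, 78896), (12, 161840)]
  | 4 => .p [0, 0, 2, 2, 2, 3] [(8, 4912), (44, 78640), (12, 79152), (12, 87856), (4, 235824)]
  | i => ffE crd5 5 4 i

/-- Sums of linear forms. -/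
def ff5 : ℕ → ℕ → Ex
  | 2, c => ff52 c
  | 3, c => ff53 c
  | 4, c => ff54 c
  | i, c => ffE crd5 5 i c

/-- Coefficients of the quadratic forms. -/
def qf51 : ℕ → ℕ → Ex
  | 1, 1 => .p [0, 0, 0, 0, 0, 0] [(28, 0)]
  | 1, 2 => .p [0, 0, 0, 0, 0, 0] []
  | 1, 3 => .p [0, 0, 0, 0, 0, 0] []
  | 1, 4 => .p [0, 0, 0, 0, 0, 0] []
  | 2, 1 => .p [0, 0, 0, 0, 0, 0] []
  | 2, 2 => .p [0, 0, 0, 0, 0, 0] [(12, 0)]
  | 2, 3 => .p [0, 0, 0, 0, 0, 0] []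
  | 2, 4 => .p [0, 0, 0, 0, 0, 0] []
  | 3, 1 => .p [0, 0, 0, 0, 0, 0] []
  | 3, 2 => .p [0, 0, 0, 0, 0, 0] []
  | 3, 3 => .p [0, 0, 0, 0, 0, 0] [(12, 0)]
  | 3, 4 => .p [0, 0, 0, 0, 0, 0] []
  | 4, 1 => .p [0, 0, 0, 0, 0, 0] []
  | 4, 2 => .p [0, 0, 0, 0, 0, 0] []
  | 4, 3 => .p [0, 0, 0, 0, 0, 0] []
  | 4, 4 => .p [0, 0, 0, 0, 0, 0] [(12, 0)]
  | i, j => qfE crd5 5 1 i j

/-- Coefficients of the quadratic forms. -/
def qf52 : ℕ → ℕ → Ex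
  | 1, 1 => .p [0, 0, 1, 0, 0, 0] [(144, 16)]
  | 1, 2 => .p [0, 0, 0, 1, 0, 0] [(-16, 272)]
  | 1, 3 => .p [0, 0, 0, 0, 1, 0] [(-16, 4624)]
  | 1, 4 => .p [0, 0, 0, 0, 0, 1] [(-16, 78608)]
  | 2, 1 => .p [0, 0, 0, 1, 0, 0] [(-16, 272)]
  | 2, 2 => .p [0, 0, 1, 0, 0, 0] [(16, 16)]
  | 2, 3 => .p [0, 0, 0, 0, 0, 1] [(16, 78608)]
  | 2, 4 => .p [0, 0, 0, 0, 1, 0] [(16, 4624)]
  | 3, 1 => .p [0, 0, 0, 0, 1, 0] [(-16, 4624)]
  | 3, 2 => .p [0, 0, 0, 0, 0, 1] [(16, 78608)]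
  | 3, 3 => .p [0, 0, 1, 0, 0, 0] [(16, 16)]
  | 3, 4 => .p [0, 0, 0, 1, 0, 0] [(16, 272)]
  | 4, 1 => .p [0, 0, 0, 0, 0, 1] [(-16, 78608)]
  | 4, 2 => .p [0, 0, 0, 0, 1, 0] [(16, 4624)]
  | 4, 3 => .p [0, 0, 0, 1, 0, 0] [(16, 272)]
  | 4, 4 => .p [0, 0, 1, 0, 0, 0] [(16, 16)]
  | i, j => qfE crd5 5 2 i j

/-- Coefficients of the quadratic forms. -/
def qf53 : ℕ → ℕ → Ex
  | 1, 1 => .p [0, 0, 2, 2, 2, 2] [(884, 32), (20, 544), (20, 9248), (20, 157216)]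
  | 1, 2 => .p [0, 0, 1, 1, 1, 1] [(8, 288), (-40, 83232)]
  | 1, 3 => .p [0, 0, 1, 1, 1, 1] [(8, 4640), (-40, 78880)]
  | 1, 4 => .p [0, 0, 1, 1, 1, 1] [(-40, 4896), (8, 78624)]
  | 2, 1 => .p [0, 0, 1, 1, 1, 1] [(8, 288), (-40, 83232)]
  | 2, 2 => .p [0, 0, 2, 2, 2, 2] [(116, 32), (20, 544), (20, 9248), (20, 157216)]
  | 2, 3 => .p [0, 0, 1, 1, 1, 1] [(40, 4896), (-8, 78624)]
  | 2, 4 => .p [0, 0, 1, 1, 1, 1] [(-8, 4640), (40, 78880)]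
  | 3, 1 => .p [0, 0, 1, 1, 1, 1] [(8, 4640), (-40, 78880)]
  | 3, 2 => .p [0, 0, 1, 1, 1, 1] [(40, 4896), (-8, 78624)]
  | 3, 3 => .p [0, 0, 2, 2, 2, 2] [(116, 32), (20, 544), (20, 9248), (20, 157216)]
  | 3, 4 => .p [0, 0, 1, 1, 1, 1] [(-8, 288), (40, 83232)]
  | 4, 1 => .p [0, 0, 1, 1, 1, 1] [(-40, 4896), (8, 78624)]
  | 4, 2 => .p [0, 0, 1, 1, 1, 1] [(-8, 4640), (40, 78880)]
  | 4, 3 => .p [0, 0, 1, 1, 1, 1] [(-8, 288), (40, 83232)]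
  | 4, 4 => .p [0, 0, 2, 2, 2, 2] [(116, 32), (20, 544), (20, 9248), (20, 157216)]
  | i, j => qfE crd5 5 3 i j

/-- Coefficients of the quadratic forms. -/
def qf5 : ℕ → ℕ → ℕ → Ex
  | 1, c, d => qf51 c d
  | 2, c, d => qf52 c d
  | 3, c, d => qf53 c d
  | i, c, d => qfE crd5 5 i c d

/-- Coefficients of the quadratic forms of type `e`. -/
def qe512 : ℕ → ℕ → Ex
  | 1, 1 => .p [0, 0, 2, 0, 0, 0] [(-272, 32)]
  | 1, 2 => .p [0, 0, 1, 1, 0, 0] [(-144, 288)]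
  | 1, 3 => .p [0, 0, 1, 0, 1, 0] [(-144, 4640)]
  | 1, 4 => .p [0, 0, 1, 0, 0, 1] [(-144, 78624)]
  | 2, 1 => .p [0, 0, 1, 1, 0, 0] [(-144, 288)]
  | 2, 2 => .p [0, 0, 2, 2, 0, 0] [(-128, 32), (-16, 544)]
  | 2, 3 => .p [0, 0, 1, 1, 1, 1] [(-16, 4896), (64, 78624)]
  | 2, 4 => .p [0, 0, 1, 1, 1, 1] [(64, 4640), (-16, 78880)]
  | 3, 1 => .p [0, 0, 1, 0, 1, 0] [(-144, 4640)]
  | 3, 2 => .p [0, 0, 1, 1, 1, 1] [(-16, 4896), (64, 78624)]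
  | 3, 3 => .p [0, 0, 2, 0, 2, 0] [(-128, 32), (-16, 9248)]
  | 3, 4 => .p [0, 0, 1, 1, 1, 1] [(64, 288), (-16, 83232)]
  | 4, 1 => .p [0, 0, 1, 0, 0, 1] [(-144, 78624)]
  | 4, 2 => .p [0, 0, 1, 1, 1, 1] [(64, 4640), (-16, 78880)]
  | 4, 3 => .p [0, 0, 1, 1, 1, 1] [(64, 288), (-16, 83232)]
  | 4, 4 => .p [0, 0, 2, 0, 0, 2] [(-128, 32), (-16, 157216)]
  | i, j => qeE crd5 5 1 2 i j

/-- Coefficients of the quadratic forms of type `e`. -/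
def qe513 : ℕ → ℕ → Ex
  | 1, 1 => .p [0, 0, 3, 2, 2, 2] [(-1056, 48), (160, 560), (160, 9264), (160, 157232)]
  | 1, 2 => .p [0, 0, 2, 3, 2, 2] [(-528, 304), (16, 816), (16, 9520), (-160, 83248), (16, 157488)]
  | 1, 3 => .p [0, 0, 2, 2, 3, 2] [(-528, 4656), (16, 5168), (16, 13872), (-160, 78896), (16, 161840)]
  | 1, 4 => .p [0, 0, 2, 2, 2, 3] [(-160, 4912), (-528, 78640), (16, 79152), (16, 87856), (16, 235824)]
  | 2, 1 => .p [0, 0, 2, 1, 1, 1] [(-128, 304), (-320, 83248)]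
  | 2, 2 => .p [0, 0, 3, 2, 2, 2] [(-304, 48), (48, 560), (80, 9264), (-32, 83504), (80, 157232)]
  | 2, 3 => .p [0, 0, 2, 1, 2, 1] [(128, 4912), (-32, 78640), (-32, 87856)]
  | 2, 4 => .p [0, 0, 2, 1, 1, 2] [(-32, 4656), (128, 78896), (-32, 161840)]
  | 3, 1 => .p [0, 0, 2, 1, 1, 1] [(-128, 4656), (-320, 78896)]
  | 3, 2 => .p [0, 0, 2, 2, 1, 1] [(128, 4912), (-32, 78640), (-32, 79152)]
  | 3, 3 => .p [0, 0, 3, 2, 2, 2] [(-304, 48), (80, 560), (48, 9264), (-32, 83504), (80, 157232)]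
  | 3, 4 => .p [0, 0, 2, 1, 1, 2] [(-32, 304), (128, 83248), (-32, 157488)]
  | 4, 1 => .p [0, 0, 2, 1, 1, 1] [(-320, 4912), (-128, 78640)]
  | 4, 2 => .p [0, 0, 2, 2, 1, 1] [(-32, 4656), (-32, 5168), (128, 78896)]
  | 4, 3 => .p [0, 0, 2, 1, 2, 1] [(-32, 304), (-32, 9520), (128, 83248)]
  | 4, 4 => .p [0, 0, 3, 2, 2, 2] [(-304, 48), (80, 560), (80, 9264), (-32, 83504), (48, 157232)]
  | i, j => qeE crd5 5 1 3 i j

/-- Coefficients of the quadratic forms of type `e`. -/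
def qe523 : ℕ → ℕ → Ex
  | 1, 1 => .p [0, 0, 4, 4, 4, 4] [(1728, 64), (1360, 576), (-16, 1088), (1360, 9280), (-32, 9792), (-16, 18496), (-480, 83520), (1360, 157248), (-32, 157760), (-32, 166464), (-16, 314432)]
  | 1, 2 => .p [0, 0, 3, 3, 3, 3] [(2512, 320), (48, 832), (208, 9536), (-2240, 83264), (32, 83776), (32, 92480), (208, 157504), (32, 240448)]
  | 1, 3 => .p [0, 0, 3, 3, 3, 3] [(2512, 4672), (208, 5184), (48, 13888), (-2240, 78912), (32, 79424), (32, 88128), (208, 161856), (32, 236096)]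
  | 1, 4 => .p [0, 0, 3, 3, 3, 3] [(-2240, 4928), (32, 5440), (32, 14144), (2512, 78656), (208, 79168), (208, 87872), (32, 162112), (48, 235840)]
  | 2, 1 => .p [0, 0, 3, 3, 3, 3] [(1712, 320), (80, 832), (80, 9536), (-1120, 83264), (-64, 83776), (32, 92480), (80, 157504), (32, 240448)]
  | 2, 2 => .p [0, 0, 4, 4, 2, 2] [(832, 64), (432, 576), (16, 1088), (320, 9280), (48, 9792), (-96, 83520), (320, 157248), (48, 157760), (-64, 166464)]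
  | 2, 3 => .p [0, 0, 3, 3, 3, 2] [(752, 4928), (48, 5440), (16, 14144), (-1152, 78656), (-160, 79168), (64, 87872), (-16, 162112)]
  | 2, 4 => .p [0, 0, 3, 3, 2, 3] [(-1152, 4672), (-160, 5184), (752, 78912), (48, 79424), (-16, 88128), (64, 161856), (16, 236096)]
  | 3, 1 => .p [0, 0, 3, 3, 3, 3] [(1712, 4672), (80, 5184), (80, 13888), (-1120, 78912), (32, 79424), (-64, 88128), (80, 161856), (32, 236096)]
  | 3, 2 => .p [0, 0, 3, 3, 3, 2] [(752, 4928), (16, 5440), (48, 14144), (-1152, 78656), (64, 79168), (-160, 87872), (-16, 162112)]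
  | 3, 3 => .p [0, 0, 4, 2, 4, 2] [(832, 64), (320, 576), (432, 9280), (48, 9792), (16, 18496), (-96, 83520), (320, 157248), (-64, 157760), (48, 166464)]
  | 3, 4 => .p [0, 0, 3, 2, 3, 3] [(-1152, 320), (-160, 9536), (752, 83264), (-16, 83776), (48, 92480), (64, 157504), (16, 240448)]
  | 4, 1 => .p [0, 0, 3, 3, 3, 3] [(-1120, 4928), (32, 5440), (32, 14144), (1712, 78656), (80, 79168), (80, 87872), (-64, 162112), (80, 235840)]
  | 4, 2 => .p [0, 0, 3, 3, 2, 3] [(-1152, 4672), (64, 5184), (752, 78912), (16, 79424), (-16, 88128), (-160, 161856), (48, 236096)]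
  | 4, 3 => .p [0, 0, 3, 2, 3, 3] [(-1152, 320), (64, 9536), (752, 83264), (-16, 83776), (16, 92480), (-160, 157504), (48, 240448)]
  | 4, 4 => .p [0, 0, 4, 2, 2, 4] [(832, 64), (320, 576), (320, 9280), (-64, 9792), (-96, 83520), (432, 157248), (48, 157760), (48, 166464), (16, 314432)]
  | i, j => qeE crd5 5 2 3 i j

/-- Coefficients of the quadratic forms of type `e`. -/
def qe5 : ℕ → ℕ → ℕ → ℕ → Ex
  | 1, 2, c, d => qe512 c d
  | 1, 3, c, d => qe513 c d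
  | 2, 3, c, d => qe523 c d
  | i, j, c, d => qeE crd5 5 i j c d

/-! ### Values -/

/-- Code of a term in `l, a, b, c`. -/
def cdg (t : ℤ × ℕ × ℕ × ℕ × ℕ) : ℤ × ℕ :=
  (t.1, 16 * t.2.1 + 272 * t.2.2.1 + 4624 * t.2.2.2.1 + 78608 * t.2.2.2.2)

/-- Admissible exponents. -/
def okG : List (ℤ × ℕ × ℕ × ℕ × ℕ) → Bool
  | [] => true
  | t :: l => Nat.ble t.2.1 8 && Nat.ble t.2.2.1 8 && Nat.ble t.2.2.2.1 8 && Nat.ble t.2.2.2.2 8
      && okG l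

/-- Real value of terms in `l, a, b, c`. -/
noncomputable def evG (X : ℕ → ℝ) : List (ℤ × ℕ × ℕ × ℕ × ℕ) → ℝ
  | [] => 0
  | t :: l => t.1 * (X 2 ^ t.2.1 * (X 3 ^ t.2.2.1 * (X 4 ^ t.2.2.2.1 * X 5 ^ t.2.2.2.2))) + evG X l

theorem evE_p5 (ds : List ℕ) (l : List (ℤ × ℕ)) : evE rs6 X (.p ds l) = K.ev rs6 l X := rfl
theorem ev_nil : K.ev rs6 [] X = 0 := rfl
theorem ev_cons (n : ℤ) (e : ℕ) (l : List (ℤ × ℕ)) : K.ev rs6 ((n, e) :: l) X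
    = n * (X 0 ^ (e % 4) * (X 1 ^ (e / 4 % 4) * (X 2 ^ (e / 16 % 17) * (X 3 ^ (e / 272 % 17)
      * (X 4 ^ (e / 4624 % 17) * X 5 ^ (e / 78608 % 9)))))) + K.ev rs6 l X := by
  simp only [K.ev, mono, zero_add, Nat.reduceAdd, Nat.div_div_eq_div_mul, Nat.reduceMul, mul_one, List.map_cons, List.sum_cons]

theorem ev_G {l : List (ℤ × ℕ × ℕ × ℕ × ℕ)} : okG l = true → K.ev rs6 (l.map cdg) X = evG X l := by
  induction l with
  | nil => intro _; rfl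
  | cons t l ih =>
    intro h
    simp only [okG, Bool.and_eq_true] at h
    obtain ⟨⟨⟨⟨h1, h2⟩, h3⟩, h4⟩, h5⟩ := h
    have h1 := Nat.le_of_ble_eq_true h1
    have h2 := Nat.le_of_ble_eq_true h2
    have h3 := Nat.le_of_ble_eq_true h3
    have h4 := Nat.le_of_ble_eq_true h4
    rw [List.map_cons, cdg, ev_cons, ih h5, evG]
    have e1 : (16 * t.2.1 + 272 * t.2.2.1 + 4624 * t.2.2.2.1 + 78608 * t.2.2.2.2) % 4 = 0 := by omega
    have e2 : (16 * t.2.1 + 272 * t.2.2.1 + 4624 * t.2.2.2.1 + 78608 * t.2.2.2.2) / 4 % 4 = 0 := by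
      omega
    have e3 : (16 * t.2.1 + 272 * t.2.2.1 + 4624 * t.2.2.2.1 + 78608 * t.2.2.2.2) / 16 % 17
        = t.2.1 := by omega
    have e4 : (16 * t.2.1 + 272 * t.2.2.1 + 4624 * t.2.2.2.1 + 78608 * t.2.2.2.2) / 272 % 17
        = t.2.2.1 := by omega
    have e5 : (16 * t.2.1 + 272 * t.2.2.1 + 4624 * t.2.2.2.1 + 78608 * t.2.2.2.2) / 4624 % 17
        = t.2.2.2.1 := by omega
    have e6 : (16 * t.2.1 + 272 * t.2.2.1 + 4624 * t.2.2.2.1 + 78608 * t.2.2.2.2) / 78608 % 9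
        = t.2.2.2.2 := by omega
    rw [e1, e2, e3, e4, e5, e6, pow_zero, pow_zero, one_mul, one_mul]

theorem evP {ds : List ℕ} {l : List (ℤ × ℕ)} {l' : List (ℤ × ℕ × ℕ × ℕ × ℕ)} {v : ℝ}
    (h : l'.map cdg = l) (ho : okG l' = true) (hv : evG X l' = v) :
    evE rs6 X (.p ds l) = v := by
  rw [evE_p5, ← h, ev_G ho, hv]

theorem evL0 : evE rs6 X (crd5.lam 0) = 4 * X 2 := by simp [crd5, lam5_0]
theorem evL1 : evE rs6 X (crd5.lam 1) = X 3 + X 4 + X 5 - X 2 := by simp only [crd5, lam5_1, sgE, evE_sub, evE_add, evE_nE, Int.cast_one, evE_v, one_mul]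
theorem evL2 : evE rs6 X (crd5.lam 2) = X 3 - X 4 - X 5 - X 2 := by simp only [crd5, lam5_2, sgE, Int.reduceNeg, evE_sub, evE_add, evE_nE, Int.cast_one, evE_v, one_mul, Int.cast_neg, neg_mul, sub_left_inj]; ring
theorem evL3 : evE rs6 X (crd5.lam 3) = -X 3 + X 4 - X 5 - X 2 := by simp only [crd5, lam5_3, sgE, Int.reduceNeg, evE_sub, evE_add, evE_nE, Int.cast_neg, Int.cast_one, evE_v, neg_mul, one_mul, sub_left_inj]; ring
theorem evL4 : evE rs6 X (crd5.lam 4) = -X 3 - X 4 + X 5 - X 2 := by simp only [crd5, lam5_4, sgE, Int.reduceNeg, evE_sub, evE_add, evE_nE, Int.cast_neg, Int.cast_one, evE_v, neg_mul, one_mul, sub_left_inj, add_left_inj]; ring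
theorem evY (i c : ℕ) : evE rs6 X (crd5.yv i c) = yv5 i c := rfl

theorem sum5 (f : ℕ → ℝ) : ∑ i ∈ Finset.range 5, f i = f 0 + f 1 + f 2 + f 3 + f 4 := by
  simp only [Finset.sum_range_succ, Finset.sum_range_zero, zero_add]

theorem hh1 (a b : ℝ) : hh 1 a b = 1 := by simp only [hh, Finset.range_one, tsub_self, zero_tsub, pow_zero, mul_one, Finset.sum_singleton]
theorem hh2 (a b : ℝ) : hh 2 a b = a + b := by simp only [hh, Nat.add_one_sub_one, Finset.sum_range_succ, Finset.range_one, Finset.sum_singleton, pow_zero, tsub_zero, pow_one, one_mul, tsub_self, mul_one]; ring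
theorem hh3 (a b : ℝ) : hh 3 a b = a ^ 2 + a * b + b ^ 2 := by
  simp only [hh, Nat.add_one_sub_one, Finset.sum_range_succ, Finset.range_one, Finset.sum_singleton, pow_zero, tsub_zero, one_mul, pow_one, tsub_self, mul_one]; ring

theorem yv_01 : yv5 0 1 = 4 := rfl
theorem yv_02 : yv5 0 2 = 0 := rfl
theorem yv_03 : yv5 0 3 = 0 := rfl
theorem yv_04 : yv5 0 4 = 0 := rfl
theorem yv_11 : yv5 1 1 = -1 := rfl
theorem yv_12 : yv5 1 2 = 1 := rfl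
theorem yv_13 : yv5 1 3 = 1 := rfl
theorem yv_14 : yv5 1 4 = 1 := rfl
theorem yv_21 : yv5 2 1 = -1 := rfl
theorem yv_22 : yv5 2 2 = 1 := rfl
theorem yv_23 : yv5 2 3 = -1 := rfl
theorem yv_24 : yv5 2 4 = -1 := rfl
theorem yv_31 : yv5 3 1 = -1 := rfl
theorem yv_32 : yv5 3 2 = -1 := rfl
theorem yv_33 : yv5 3 3 = 1 := rfl
theorem yv_34 : yv5 3 4 = -1 := rfl
theorem yv_41 : yv5 4 1 = -1 := rfl
theorem yv_42 : yv5 4 2 = -1 := rfl
theorem yv_43 : yv5 4 3 = -1 := rfl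
theorem yv_44 : yv5 4 4 = 1 := rfl
theorem xv11 : evE rs6 X (xx5 1 1) = 20 * X 2 :=
  evP (l' := [(20, 1, 0, 0, 0)]) rfl rfl (by
    simp only [evG, Int.cast_neg, Int.cast_ofNat, Int.cast_one, Int.cast_zero]; ring)
theorem xv12 : evE rs6 X (xx5 1 2) = 4 * X 3 :=
  evP (l' := [(4, 0, 1, 0, 0)]) rfl rfl (by
    simp only [evG, Int.cast_neg, Int.cast_ofNat, Int.cast_one, Int.cast_zero]; ring)
theorem xv13 : evE rs6 X (xx5 1 3) = 4 * X 4 :=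
  evP (l' := [(4, 0, 0, 1, 0)]) rfl rfl (by
    simp only [evG, Int.cast_neg, Int.cast_ofNat, Int.cast_one, Int.cast_zero]; ring)
theorem xv14 : evE rs6 X (xx5 1 4) = 4 * X 5 :=
  evP (l' := [(4, 0, 0, 0, 1)]) rfl rfl (by
    simp only [evG, Int.cast_neg, Int.cast_ofNat, Int.cast_one, Int.cast_zero]; ring)
theorem xv21 : evE rs6 X (xx5 2 1) = 60 * X 2 ^ 2 + (-4) * X 3 ^ 2 + (-4) * X 4 ^ 2 + (-4) * X 5 ^ 2 :=
  evP (l' := [(60, 2, 0, 0, 0), (-4, 0, 2, 0, 0), (-4, 0, 0, 2, 0), (-4, 0, 0, 0, 2)]) rfl rfl (by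
    simp only [evG, Int.cast_neg, Int.cast_ofNat, Int.cast_one, Int.cast_zero]; ring)
theorem xv22 : evE rs6 X (xx5 2 2) = (-8) * X 2 * X 3 + 8 * X 4 * X 5 :=
  evP (l' := [(-8, 1, 1, 0, 0), (8, 0, 0, 1, 1)]) rfl rfl (by
    simp only [evG, Int.cast_neg, Int.cast_ofNat, Int.cast_one, Int.cast_zero]; ring)
theorem xv23 : evE rs6 X (xx5 2 3) = (-8) * X 2 * X 4 + 8 * X 3 * X 5 :=
  evP (l' := [(-8, 1, 0, 1, 0), (8, 0, 1, 0, 1)]) rfl rfl (by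
    simp only [evG, Int.cast_neg, Int.cast_ofNat, Int.cast_one, Int.cast_zero]; ring)
theorem xv24 : evE rs6 X (xx5 2 4) = 8 * X 3 * X 4 + (-8) * X 2 * X 5 :=
  evP (l' := [(8, 0, 1, 1, 0), (-8, 1, 0, 0, 1)]) rfl rfl (by
    simp only [evG, Int.cast_neg, Int.cast_ofNat, Int.cast_one, Int.cast_zero]; ring)
theorem xv31 : evE rs6 X (xx5 3 1) = 260 * X 2 ^ 3 + 12 * X 2 * X 3 ^ 2 + 12 * X 2 * X 4 ^ 2 + (-24) * X 3 * X 4 * X 5 + 12 * X 2 * X 5 ^ 2 :=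
  evP (l' := [(260, 3, 0, 0, 0), (12, 1, 2, 0, 0), (12, 1, 0, 2, 0), (-24, 0, 1, 1, 1), (12, 1, 0, 0, 2)]) rfl rfl (by
    simp only [evG, Int.cast_neg, Int.cast_ofNat, Int.cast_one, Int.cast_zero]; ring)
theorem xv32 : evE rs6 X (xx5 3 2) = 12 * X 2 ^ 2 * X 3 + 4 * X 3 ^ 3 + 12 * X 3 * X 4 ^ 2 + (-24) * X 2 * X 4 * X 5 + 12 * X 3 * X 5 ^ 2 :=
  evP (l' := [(12, 2, 1, 0, 0), (4, 0, 3, 0, 0), (12, 0, 1, 2, 0), (-24, 1, 0, 1, 1), (12, 0, 1, 0, 2)]) rfl rfl (by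
    simp only [evG, Int.cast_neg, Int.cast_ofNat, Int.cast_one, Int.cast_zero]; ring)
theorem xv33 : evE rs6 X (xx5 3 3) = 12 * X 2 ^ 2 * X 4 + 12 * X 3 ^ 2 * X 4 + 4 * X 4 ^ 3 + (-24) * X 2 * X 3 * X 5 + 12 * X 4 * X 5 ^ 2 :=
  evP (l' := [(12, 2, 0, 1, 0), (12, 0, 2, 1, 0), (4, 0, 0, 3, 0), (-24, 1, 1, 0, 1), (12, 0, 0, 1, 2)]) rfl rfl (by
    simp only [evG, Int.cast_neg, Int.cast_ofNat, Int.cast_one, Int.cast_zero]; ring)
theorem xv34 : evE rs6 X (xx5 3 4) = (-24) * X 2 * X 3 * X 4 + 12 * X 2 ^ 2 * X 5 + 12 * X 3 ^ 2 * X 5 + 12 * X 4 ^ 2 * X 5 + 4 * X 5 ^ 3 :=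
  evP (l' := [(-24, 1, 1, 1, 0), (12, 2, 0, 0, 1), (12, 0, 2, 0, 1), (12, 0, 0, 2, 1), (4, 0, 0, 0, 3)]) rfl rfl (by
    simp only [evG, Int.cast_neg, Int.cast_ofNat]; ring)

theorem evE_pw5 (j : ℕ) : evE rs6 X (pw5 j) = evE rs6 X (pwE crd5 5 j) := by
  unfold pw5
  split
  · exact evP (l' := [(20, 2, 0, 0, 0), (4, 0, 2, 0, 0), (4, 0, 0, 2, 0), (4, 0, 0, 0, 2)]) rfl rfl (by
        simp only [evG, Int.cast_neg, Int.cast_ofNat, Int.cast_one, Int.cast_zero, pwE, evE_sum, evE_pow, sum5, evL0, evL1, evL2, evL3, evL4]; ring)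
  · exact evP (l' := [(60, 3, 0, 0, 0), (-12, 1, 2, 0, 0), (-12, 1, 0, 2, 0), (24, 0, 1, 1, 1), (-12, 1, 0, 0, 2)]) rfl rfl (by
        simp only [evG, Int.cast_neg, Int.cast_ofNat, Int.cast_one, Int.cast_zero, pwE, evE_sum, evE_pow, sum5, evL0, evL1, evL2, evL3, evL4]; ring)
  · exact evP (l' := [(260, 4, 0, 0, 0), (24, 2, 2, 0, 0), (4, 0, 4, 0, 0), (24, 2, 0, 2, 0), (24, 0, 2, 2, 0), (4, 0, 0, 4, 0), (-96, 1, 1, 1, 1), (24, 2, 0, 0, 2), (24, 0, 2, 0, 2), (24, 0, 0, 2, 2), (4, 0, 0, 0, 4)]) rfl rfl (by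
        simp only [evG, Int.cast_neg, Int.cast_ofNat, Int.cast_one, Int.cast_zero, pwE, evE_sum, evE_pow, sum5, evL0, evL1, evL2, evL3, evL4]; ring)
  · exact evP (l' := [(1020, 5, 0, 0, 0), (-40, 3, 2, 0, 0), (-20, 1, 4, 0, 0), (-40, 3, 0, 2, 0), (-120, 1, 2, 2, 0), (-20, 1, 0, 4, 0), (240, 2, 1, 1, 1), (80, 0, 3, 1, 1), (80, 0, 1, 3, 1), (-40, 3, 0, 0, 2), (-120, 1, 2, 0, 2), (-120, 1, 0, 2, 2), (80, 0, 1, 1, 3), (-20, 1, 0, 0, 4)]) rfl rfl (by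
        simp only [evG, Int.cast_neg, Int.cast_ofNat, Int.cast_one, Int.cast_zero, pwE, evE_sum, evE_pow, sum5, evL0, evL1, evL2, evL3, evL4]; ring)
  · rfl

theorem evE_ll5 (j : ℕ) : evE rs6 X (ll5 j) = evE rs6 X (powE (crd5.lam 0) j) := by
  unfold ll5
  split
  · exact evP (l' := [(1, 0, 0, 0, 0)]) rfl rfl (by
        simp only [evG, Int.cast_neg, Int.cast_ofNat, Int.cast_one, Int.cast_zero, evE_pow, evL0]; ring)
  · exact evP (l' := [(4, 1, 0, 0, 0)]) rfl rfl (by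
        simp only [evG, Int.cast_neg, Int.cast_ofNat, Int.cast_one, Int.cast_zero, evE_pow, evL0]; ring)
  · exact evP (l' := [(16, 2, 0, 0, 0)]) rfl rfl (by
        simp only [evG, Int.cast_neg, Int.cast_ofNat, Int.cast_one, Int.cast_zero, evE_pow, evL0]; ring)
  · exact evP (l' := [(64, 3, 0, 0, 0)]) rfl rfl (by
        simp only [evG, Int.cast_neg, Int.cast_ofNat, Int.cast_one, Int.cast_zero, evE_pow, evL0]; ring)
  · exact evP (l' := [(256, 4, 0, 0, 0)]) rfl rfl (by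
        simp only [evG, Int.cast_neg, Int.cast_ofNat, Int.cast_one, Int.cast_zero, evE_pow, evL0]; ring)
  · exact evP (l' := [(1024, 5, 0, 0, 0)]) rfl rfl (by
        simp only [evG, Int.cast_neg, Int.cast_ofNat, Int.cast_one, Int.cast_zero, evE_pow, evL0]; ring)
  · rfl

theorem xxv (j c : ℕ) : evE rs6 X (xxE crd5 5 j c) = (4 * X 2) ^ j * (yv5 0 c : ℝ) + (X 3 + X 4 + X 5 - X 2) ^ j * (yv5 1 c : ℝ) + (X 3 - X 4 - X 5 - X 2) ^ j * (yv5 2 c : ℝ) + (-X 3 + X 4 - X 5 - X 2) ^ j * (yv5 3 c : ℝ) + (-X 3 - X 4 + X 5 - X 2) ^ j * (yv5 4 c : ℝ) := by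
  simp only [xxE, evE_sum, evE_mul, evE_pow, sum5, evL0, evL1, evL2, evL3, evL4, evY]

theorem evE_xx51 (c : ℕ) : evE rs6 X (xx51 c) = evE rs6 X (xxE crd5 5 1 c) := by
  unfold xx51
  split
  · exact evP (l' := [(20, 1, 0, 0, 0)]) rfl rfl (by
        simp only [evG, Int.cast_ofNat, xxv, yv_01, yv_11, Int.cast_neg, Int.cast_one, yv_21, yv_31, yv_41]; ring)
  · exact evP (l' := [(4, 0, 1, 0, 0)]) rfl rfl (by
        simp only [evG, Int.cast_neg, Int.cast_ofNat, Int.cast_one, Int.cast_zero, xxv, yv_02, yv_12, yv_22, yv_32, yv_42]; ring)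
  · exact evP (l' := [(4, 0, 0, 1, 0)]) rfl rfl (by
        simp only [evG, Int.cast_neg, Int.cast_ofNat, Int.cast_one, Int.cast_zero, xxv, yv_03, yv_13, yv_23, yv_33, yv_43]; ring)
  · exact evP (l' := [(4, 0, 0, 0, 1)]) rfl rfl (by
        simp only [evG, Int.cast_neg, Int.cast_ofNat, Int.cast_one, Int.cast_zero, xxv, yv_04, yv_14, yv_24, yv_34, yv_44]; ring)
  · rfl

theorem evE_xx52 (c : ℕ) : evE rs6 X (xx52 c) = evE rs6 X (xxE crd5 5 2 c) := by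
  unfold xx52
  split
  · exact evP (l' := [(60, 2, 0, 0, 0), (-4, 0, 2, 0, 0), (-4, 0, 0, 2, 0), (-4, 0, 0, 0, 2)]) rfl rfl (by
        simp only [evG, Int.cast_neg, Int.cast_ofNat, Int.cast_one, Int.cast_zero, xxv, yv_01, yv_11, yv_21, yv_31, yv_41]; ring)
  · exact evP (l' := [(-8, 1, 1, 0, 0), (8, 0, 0, 1, 1)]) rfl rfl (by
        simp only [evG, Int.cast_neg, Int.cast_ofNat, Int.cast_one, Int.cast_zero, xxv, yv_02, yv_12, yv_22, yv_32, yv_42]; ring)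
  · exact evP (l' := [(-8, 1, 0, 1, 0), (8, 0, 1, 0, 1)]) rfl rfl (by
        simp only [evG, Int.cast_neg, Int.cast_ofNat, Int.cast_one, Int.cast_zero, xxv, yv_03, yv_13, yv_23, yv_33, yv_43]; ring)
  · exact evP (l' := [(8, 0, 1, 1, 0), (-8, 1, 0, 0, 1)]) rfl rfl (by
        simp only [evG, Int.cast_neg, Int.cast_ofNat, Int.cast_one, Int.cast_zero, xxv, yv_04, yv_14, yv_24, yv_34, yv_44]; ring)
  · rfl

theorem evE_xx53 (c : ℕ) : evE rs6 X (xx53 c) = evE rs6 X (xxE crd5 5 3 c) := by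
  unfold xx53
  split
  · exact evP (l' := [(260, 3, 0, 0, 0), (12, 1, 2, 0, 0), (12, 1, 0, 2, 0), (-24, 0, 1, 1, 1), (12, 1, 0, 0, 2)]) rfl rfl (by
        simp only [evG, Int.cast_neg, Int.cast_ofNat, Int.cast_one, Int.cast_zero, xxv, yv_01, yv_11, yv_21, yv_31, yv_41]; ring)
  · exact evP (l' := [(12, 2, 1, 0, 0), (4, 0, 3, 0, 0), (12, 0, 1, 2, 0), (-24, 1, 0, 1, 1), (12, 0, 1, 0, 2)]) rfl rfl (by
        simp only [evG, Int.cast_ofNat, Int.cast_neg, xxv, yv_02, Int.cast_zero, yv_12, Int.cast_one, yv_22, yv_32, yv_42]; ring)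
  · exact evP (l' := [(12, 2, 0, 1, 0), (12, 0, 2, 1, 0), (4, 0, 0, 3, 0), (-24, 1, 1, 0, 1), (12, 0, 0, 1, 2)]) rfl rfl (by
        simp only [evG, Int.cast_neg, Int.cast_ofNat, Int.cast_one, Int.cast_zero, xxv, yv_03, yv_13, yv_23, yv_33, yv_43]; ring)
  · exact evP (l' := [(-24, 1, 1, 1, 0), (12, 2, 0, 0, 1), (12, 0, 2, 0, 1), (12, 0, 0, 2, 1), (4, 0, 0, 0, 3)]) rfl rfl (by
        simp only [evG, Int.cast_neg, Int.cast_ofNat, Int.cast_one, Int.cast_zero, xxv, yv_04, yv_14, yv_24, yv_34, yv_44]; ring)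
  · rfl

theorem evE_xx5 (i c : ℕ) : evE rs6 X (xx5 i c) = evE rs6 X (xxE crd5 5 i c) := by
  unfold xx5
  split
  · exact evE_xx51 _
  · exact evE_xx52 _
  · exact evE_xx53 _
  · rfl

theorem evE_xe512 (c : ℕ) : evE rs6 X (xe512 c) = evE rs6 X (xeE crd5 5 1 2 c) := by
  unfold xe512
  split
  · exact evP (l' := [(-80, 3, 0, 0, 0), (-16, 1, 2, 0, 0), (-16, 1, 0, 2, 0), (-16, 1, 0, 0, 2)]) rfl rfl (by
        simp only [evG, Int.cast_neg, Int.cast_ofNat, Int.cast_one, Int.cast_zero, xeE, evE_sub, evE_mul, evE_pow, evL0, ← evE_xx5, xv11, xv21, xv31]; ring)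
  · exact evP (l' := [(-96, 2, 1, 0, 0), (32, 1, 0, 1, 1)]) rfl rfl (by
        simp only [evG, Int.cast_neg, Int.cast_ofNat, Int.cast_one, Int.cast_zero, xeE, evE_sub, evE_mul, evE_pow, evL0, ← evE_xx5, xv12, xv22, xv32]; ring)
  · exact evP (l' := [(-96, 2, 0, 1, 0), (32, 1, 1, 0, 1)]) rfl rfl (by
        simp only [evG, Int.cast_neg, Int.cast_ofNat, Int.cast_one, Int.cast_zero, xeE, evE_sub, evE_mul, evE_pow, evL0, ← evE_xx5, xv13, xv23, xv33]; ring)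
  · exact evP (l' := [(32, 1, 1, 1, 0), (-96, 2, 0, 0, 1)]) rfl rfl (by
        simp only [evG, Int.cast_neg, Int.cast_ofNat, Int.cast_one, Int.cast_zero, xeE, evE_sub, evE_mul, evE_pow, evL0, ← evE_xx5, xv14, xv24, xv34]; ring)
  · rfl

theorem evE_xe513 (c : ℕ) : evE rs6 X (xe513 c) = evE rs6 X (xeE crd5 5 1 3 c) := by
  unfold xe513
  split
  · exact evP (l' := [(-240, 4, 0, 0, 0), (48, 2, 2, 0, 0), (48, 2, 0, 2, 0), (-96, 1, 1, 1, 1), (48, 2, 0, 0, 2)]) rfl rfl (by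
        simp only [evG, Int.cast_neg, Int.cast_ofNat, Int.cast_one, Int.cast_zero, xeE, evE_sub, evE_mul, evE_pow, evL0, ← evE_xx5, xv11, xv21, xv31]; ring)
  · exact evP (l' := [(-208, 3, 1, 0, 0), (16, 1, 3, 0, 0), (48, 1, 1, 2, 0), (-96, 2, 0, 1, 1), (48, 1, 1, 0, 2)]) rfl rfl (by
        simp only [evG, Int.cast_neg, Int.cast_ofNat, Int.cast_one, Int.cast_zero, xeE, evE_sub, evE_mul, evE_pow, evL0, ← evE_xx5, xv12, xv22, xv32]; ring)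
  · exact evP (l' := [(-208, 3, 0, 1, 0), (48, 1, 2, 1, 0), (16, 1, 0, 3, 0), (-96, 2, 1, 0, 1), (48, 1, 0, 1, 2)]) rfl rfl (by
        simp only [evG, Int.cast_neg, Int.cast_ofNat, xeE, evE_sub, evE_mul, evE_pow, evL0, ← evE_xx5, xv33, xv13]; ring)
  · exact evP (l' := [(-96, 2, 1, 1, 0), (-208, 3, 0, 0, 1), (48, 1, 2, 0, 1), (48, 1, 0, 2, 1), (16, 1, 0, 0, 3)]) rfl rfl (by
        simp only [evG, Int.cast_neg, Int.cast_ofNat, Int.cast_one, Int.cast_zero, xeE, evE_sub, evE_mul, evE_pow, evL0, ← evE_xx5, xv14, xv24, xv34]; ring)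
  · rfl

theorem evE_xe523 (c : ℕ) : evE rs6 X (xe523 c) = evE rs6 X (xeE crd5 5 2 3 c) := by
  unfold xe523
  split
  · exact evP (l' := [(320, 5, 0, 0, 0), (448, 3, 2, 0, 0), (448, 3, 0, 2, 0), (-384, 2, 1, 1, 1), (448, 3, 0, 0, 2)]) rfl rfl (by
        simp only [evG, Int.cast_neg, Int.cast_ofNat, Int.cast_one, Int.cast_zero, xeE, evE_sub, evE_mul, evE_pow, evL0, ← evE_xx5, xv11, xv21, xv31]; ring)
  · exact evP (l' := [(704, 4, 1, 0, 0), (64, 2, 3, 0, 0), (192, 2, 1, 2, 0), (-896, 3, 0, 1, 1), (192, 2, 1, 0, 2)]) rfl rfl (by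
        simp only [evG, Int.cast_ofNat, Int.cast_neg, xeE, evE_sub, evE_mul, evE_pow, evL0, ← evE_xx5, xv32, xv22]; ring)
  · exact evP (l' := [(704, 4, 0, 1, 0), (192, 2, 2, 1, 0), (64, 2, 0, 3, 0), (-896, 3, 1, 0, 1), (192, 2, 0, 1, 2)]) rfl rfl (by
        simp only [evG, Int.cast_neg, Int.cast_ofNat, Int.cast_one, Int.cast_zero, xeE, evE_sub, evE_mul, evE_pow, evL0, ← evE_xx5, xv13, xv23, xv33]; ring)
  · exact evP (l' := [(-896, 3, 1, 1, 0), (704, 4, 0, 0, 1), (192, 2, 2, 0, 1), (192, 2, 0, 2, 1), (64, 2, 0, 0, 3)]) rfl rfl (by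
        simp only [evG, Int.cast_neg, Int.cast_ofNat, Int.cast_one, Int.cast_zero, xeE, evE_sub, evE_mul, evE_pow, evL0, ← evE_xx5, xv14, xv24, xv34]; ring)
  · rfl

theorem evE_ff52 (c : ℕ) : evE rs6 X (ff52 c) = evE rs6 X (ffE crd5 5 2 c) := by
  unfold ff52
  split
  · exact evP (l' := [(20, 1, 0, 0, 0)]) rfl rfl (by
        simp only [evG, Int.cast_neg, Int.cast_ofNat, Int.cast_one, Int.cast_zero, ffE, evE_sum, evE_mul, evE_pow, Finset.sum_range_succ,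
          Finset.sum_range_zero, Nat.reduceSub, Nat.reduceAdd, evL0, ← evE_xx5, xv11, xv21, xv31, zero_add]; ring)
  · exact evP (l' := [(4, 0, 1, 0, 0)]) rfl rfl (by
        simp only [evG, Int.cast_neg, Int.cast_ofNat, Int.cast_one, Int.cast_zero, ffE, evE_sum, evE_mul, evE_pow, Finset.sum_range_succ,
          Finset.sum_range_zero, Nat.reduceSub, Nat.reduceAdd, evL0, ← evE_xx5, xv12, xv22, xv32, zero_add]; ring)
  · exact evP (l' := [(4, 0, 0, 1, 0)]) rfl rfl (by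
        simp only [evG, Int.cast_neg, Int.cast_ofNat, Int.cast_one, Int.cast_zero, ffE, evE_sum, evE_mul, evE_pow, Finset.sum_range_succ,
          Finset.sum_range_zero, Nat.reduceSub, Nat.reduceAdd, evL0, ← evE_xx5, xv13, xv23, xv33, zero_add]; ring)
  · exact evP (l' := [(4, 0, 0, 0, 1)]) rfl rfl (by
        simp only [evG, Int.cast_neg, Int.cast_ofNat, Int.cast_one, Int.cast_zero, ffE, evE_sum, evE_mul, evE_pow, Finset.sum_range_succ,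
          Finset.sum_range_zero, Nat.reduceSub, Nat.reduceAdd, evL0, ← evE_xx5, xv14, xv24, xv34, zero_add]; ring)
  · rfl

theorem evE_ff53 (c : ℕ) : evE rs6 X (ff53 c) = evE rs6 X (ffE crd5 5 3 c) := by
  unfold ff53
  split
  · exact evP (l' := [(140, 2, 0, 0, 0), (-4, 0, 2, 0, 0), (-4, 0, 0, 2, 0), (-4, 0, 0, 0, 2)]) rfl rfl (by
        simp only [evG, Int.cast_neg, Int.cast_ofNat, Int.cast_one, Int.cast_zero, ffE, evE_sum, evE_mul, evE_pow, Finset.sum_range_succ,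
          Finset.sum_range_zero, Nat.reduceSub, Nat.reduceAdd, evL0, ← evE_xx5, xv11, xv21, xv31, zero_add]; ring)
  · exact evP (l' := [(8, 1, 1, 0, 0), (8, 0, 0, 1, 1)]) rfl rfl (by
        simp only [evG, Int.cast_ofNat, ffE, Nat.reduceSub, evE_sum, evE_mul, ← evE_xx5, evE_pow, evL0, Finset.sum_range_succ, Finset.sum_range_zero, zero_add, xv12, Nat.reduceAdd, xv22]; ring)
  · exact evP (l' := [(8, 1, 0, 1, 0), (8, 0, 1, 0, 1)]) rfl rfl (by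
        simp only [evG, Int.cast_neg, Int.cast_ofNat, Int.cast_one, Int.cast_zero, ffE, evE_sum, evE_mul, evE_pow, Finset.sum_range_succ,
          Finset.sum_range_zero, Nat.reduceSub, Nat.reduceAdd, evL0, ← evE_xx5, xv13, xv23, xv33, zero_add]; ring)
  · exact evP (l' := [(8, 0, 1, 1, 0), (8, 1, 0, 0, 1)]) rfl rfl (by
        simp only [evG, Int.cast_neg, Int.cast_ofNat, Int.cast_one, Int.cast_zero, ffE, evE_sum, evE_mul, evE_pow, Finset.sum_range_succ,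
          Finset.sum_range_zero, Nat.reduceSub, Nat.reduceAdd, evL0, ← evE_xx5, xv14, xv24, xv34, zero_add]; ring)
  · rfl

theorem evE_ff54 (c : ℕ) : evE rs6 X (ff54 c) = evE rs6 X (ffE crd5 5 4 c) := by
  unfold ff54
  split
  · exact evP (l' := [(820, 3, 0, 0, 0), (-4, 1, 2, 0, 0), (-4, 1, 0, 2, 0), (-24, 0, 1, 1, 1), (-4, 1, 0, 0, 2)]) rfl rfl (by
        simp only [evG, Int.cast_neg, Int.cast_ofNat, Int.cast_one, Int.cast_zero, ffE, evE_sum, evE_mul, evE_pow, Finset.sum_range_succ,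
          Finset.sum_range_zero, Nat.reduceSub, Nat.reduceAdd, evL0, ← evE_xx5, xv11, xv21, xv31, zero_add]; ring)
  · exact evP (l' := [(44, 2, 1, 0, 0), (4, 0, 3, 0, 0), (12, 0, 1, 2, 0), (8, 1, 0, 1, 1), (12, 0, 1, 0, 2)]) rfl rfl (by
        simp only [evG, Int.cast_neg, Int.cast_ofNat, Int.cast_one, Int.cast_zero, ffE, evE_sum, evE_mul, evE_pow, Finset.sum_range_succ,
          Finset.sum_range_zero, Nat.reduceSub, Nat.reduceAdd, evL0, ← evE_xx5, xv12, xv22, xv32, zero_add]; ring)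
  · exact evP (l' := [(44, 2, 0, 1, 0), (12, 0, 2, 1, 0), (4, 0, 0, 3, 0), (8, 1, 1, 0, 1), (12, 0, 0, 1, 2)]) rfl rfl (by
        simp only [evG, Int.cast_neg, Int.cast_ofNat, Int.cast_one, Int.cast_zero, ffE, evE_sum, evE_mul, evE_pow, Finset.sum_range_succ,
          Finset.sum_range_zero, Nat.reduceSub, Nat.reduceAdd, evL0, ← evE_xx5, xv13, xv23, xv33, zero_add]; ring)
  · exact evP (l' := [(8, 1, 1, 1, 0), (44, 2, 0, 0, 1), (12, 0, 2, 0, 1), (12, 0, 0, 2, 1), (4, 0, 0, 0, 3)]) rfl rfl (by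
        simp only [evG, Int.cast_neg, Int.cast_ofNat, Int.cast_one, Int.cast_zero, ffE, evE_sum, evE_mul, evE_pow, Finset.sum_range_succ,
          Finset.sum_range_zero, Nat.reduceSub, Nat.reduceAdd, evL0, ← evE_xx5, xv14, xv24, xv34, zero_add]; ring)
  · rfl

theorem qfv1 (c d : ℕ) : evE rs6 X (qfE crd5 5 1 c d) = 1 * ((yv5 0 c : ℝ) * yv5 0 d) + (1 + 2 * 1) * ((yv5 1 c : ℝ) * yv5 1 d) + (1 + 2 * 1) * ((yv5 2 c : ℝ) * yv5 2 d) + (1 + 2 * 1) * ((yv5 3 c : ℝ) * yv5 3 d) + (1 + 2 * 1) * ((yv5 4 c : ℝ) * yv5 4 d) := by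
  simp only [qfE, evE_sum, evE_mul, evE_add, evE_nE, evE_ite, evE_hh, sum5, evL0, evL1, evL2,
    evL3, evL4, evY, hh1, OfNat.ofNat_ne_zero, one_ne_zero, reduceIte, Int.cast_ofNat]

theorem qfv2 (c d : ℕ) : evE rs6 X (qfE crd5 5 2 c d) = ((4 * X 2) + (4 * X 2)) * ((yv5 0 c : ℝ) * yv5 0 d) + (((X 3 + X 4 + X 5 - X 2) + (X 3 + X 4 + X 5 - X 2)) + 2 * ((X 3 + X 4 + X 5 - X 2) + (4 * X 2))) * ((yv5 1 c : ℝ) * yv5 1 d) + (((X 3 - X 4 - X 5 - X 2) + (X 3 - X 4 - X 5 - X 2)) + 2 * ((X 3 - X 4 - X 5 - X 2) + (4 * X 2))) * ((yv5 2 c : ℝ) * yv5 2 d) + (((-X 3 + X 4 - X 5 - X 2) + (-X 3 + X 4 - X 5 - X 2)) + 2 * ((-X 3 + X 4 - X 5 - X 2) + (4 * X 2))) * ((yv5 3 c : ℝ) * yv5 3 d) + (((-X 3 - X 4 + X 5 - X 2) + (-X 3 - X 4 + X 5 - X 2)) + 2 * ((-X 3 - X 4 + X 5 - X 2) + (4 * X 2))) * ((yv5 4 c : ℝ) * yv5 4 d) := by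
  simp only [qfE, evE_sum, evE_mul, evE_ite, evE_hh, evL0, hh2, evE_add, evE_nE, Int.cast_ofNat, evY, sum5, reduceIte, one_ne_zero, evL1, OfNat.ofNat_ne_zero, evL2, evL3, evL4]

theorem qfv3 (c d : ℕ) : evE rs6 X (qfE crd5 5 3 c d) = ((4 * X 2) ^ 2 + (4 * X 2) * (4 * X 2) + (4 * X 2) ^ 2) * ((yv5 0 c : ℝ) * yv5 0 d) + (((X 3 + X 4 + X 5 - X 2) ^ 2 + (X 3 + X 4 + X 5 - X 2) * (X 3 + X 4 + X 5 - X 2) + (X 3 + X 4 + X 5 - X 2) ^ 2) + 2 * ((X 3 + X 4 + X 5 - X 2) ^ 2 + (X 3 + X 4 + X 5 - X 2) * (4 * X 2) + (4 * X 2) ^ 2)) * ((yv5 1 c : ℝ) * yv5 1 d) + (((X 3 - X 4 - X 5 - X 2) ^ 2 + (X 3 - X 4 - X 5 - X 2) * (X 3 - X 4 - X 5 - X 2) + (X 3 - X 4 - X 5 - X 2) ^ 2) + 2 * ((X 3 - X 4 - X 5 - X 2) ^ 2 + (X 3 - X 4 - X 5 - X 2) * (4 * X 2) + (4 * X 2) ^ 2)) * ((yv5 2 c : ℝ) * yv5 2 d) + (((-X 3 + X 4 - X 5 - X 2) ^ 2 + (-X 3 + X 4 - X 5 - X 2) * (-X 3 + X 4 - X 5 -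 X 2) + (-X 3 + X 4 - X 5 - X 2) ^ 2) + 2 * ((-X 3 + X 4 - X 5 - X 2) ^ 2 + (-X 3 + X 4 - X 5 - X 2) * (4 * X 2) + (4 * X 2) ^ 2)) * ((yv5 3 c : ℝ) * yv5 3 d) + (((-X 3 - X 4 + X 5 - X 2) ^ 2 + (-X 3 - X 4 + X 5 - X 2) * (-X 3 - X 4 + X 5 - X 2) + (-X 3 - X 4 + X 5 - X 2) ^ 2) + 2 * ((-X 3 - X 4 + X 5 - X 2) ^ 2 + (-X 3 - X 4 + X 5 - X 2) * (4 * X 2) + (4 * X 2) ^ 2)) * ((yv5 4 c : ℝ) * yv5 4 d) := by
  simp only [qfE, evE_sum, evE_mul, evE_add, evE_nE, evE_ite, evE_hh, sum5, evL0, evL1, evL2,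
    evL3, evL4, evY, hh3, OfNat.ofNat_ne_zero, one_ne_zero, reduceIte, Int.cast_ofNat]

theorem qev12 (c d : ℕ) : evE rs6 X (qeE crd5 5 1 2 c d) = (((4 * X 2) ^ 1 * ((4 * X 2) + (4 * X 2)) - (4 * X 2) ^ 2 * 1) * ((yv5 0 c : ℝ) * yv5 0 d) + ((4 * X 2) ^ 1 * ((X 3 + X 4 + X 5 - X 2) + (X 3 + X 4 + X 5 - X 2)) - (4 * X 2) ^ 2 * 1 + 2 * ((X 3 + X 4 + X 5 - X 2) ^ 1 * ((X 3 + X 4 + X 5 - X 2) + (4 * X 2)) - (X 3 + X 4 + X 5 - X 2) ^ 2 * 1)) * ((yv5 1 c : ℝ) * yv5 1 d) + ((4 * X 2) ^ 1 * ((X 3 - X 4 - X 5 - X 2) + (X 3 - X 4 - X 5 - X 2)) - (4 * X 2) ^ 2 * 1 + 2 * ((X 3 - X 4 - X 5 - X 2) ^ 1 * ((X 3 - X 4 - X 5 - X 2) + (4 * X 2)) - (X 3 - X 4 - X 5 - X 2) ^ 2 * 1)) * ((yv5 2 c : ℝ) * yv5 2 d) + ((4 * X 2) ^ 1 * ((-X 3 + X 4 - X 5 - X 2) + (-X 3 + X 4 - X 5 - X 2)) - (4 * X 2) ^ 2 * 1 + 2 * ((-X 3 + X 4 - X 5 - X 2) ^ 1 * ((-X 3 + X 4 - X 5 - X 2) + (4 * X 2))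 - (-X 3 + X 4 - X 5 - X 2) ^ 2 * 1)) * ((yv5 3 c : ℝ) * yv5 3 d) + ((4 * X 2) ^ 1 * ((-X 3 - X 4 + X 5 - X 2) + (-X 3 - X 4 + X 5 - X 2)) - (4 * X 2) ^ 2 * 1 + 2 * ((-X 3 - X 4 + X 5 - X 2) ^ 1 * ((-X 3 - X 4 + X 5 - X 2) + (4 * X 2)) - (-X 3 - X 4 + X 5 - X 2) ^ 2 * 1)) * ((yv5 4 c : ℝ) * yv5 4 d)) + (0) - (evE rs6 X (xx5 1 c) * (4 * X 2) ^ 0 * evE rs6 X (xx5 1 d)) := by
  simp only [qeE, evE_sum, evE_mul, evE_sub, evE_add, evE_nE, evE_ite, evE_pow, evE_hh, sum5,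
    evL0, evL1, evL2, evL3, evL4, evY, evE_xx5, hh1, hh2, OfNat.ofNat_ne_zero, one_ne_zero,
    reduceIte, Int.cast_ofNat, Nat.reduceSub, Nat.reduceAdd, Finset.sum_range_succ,
    Finset.sum_range_zero, zero_add]

theorem qev13 (c d : ℕ) : evE rs6 X (qeE crd5 5 1 3 c d) = (((4 * X 2) ^ 1 * ((4 * X 2) ^ 2 + (4 * X 2) * (4 * X 2) + (4 * X 2) ^ 2) - (4 * X 2) ^ 3 * 1) * ((yv5 0 c : ℝ) * yv5 0 d) + ((4 * X 2) ^ 1 * ((X 3 + X 4 + X 5 - X 2) ^ 2 + (X 3 + X 4 + X 5 - X 2) * (X 3 + X 4 + X 5 - X 2) + (X 3 + X 4 + X 5 - X 2) ^ 2) - (4 * X 2) ^ 3 * 1 + 2 * ((X 3 + X 4 + X 5 - X 2) ^ 1 * ((X 3 + X 4 + X 5 - X 2) ^ 2 + (X 3 + X 4 + X 5 - X 2) * (4 * X 2) + (4 * X 2) ^ 2) - (X 3 + X 4 + X 5 - X 2) ^ 3 * 1)) * ((yv5 1 c : ℝ) * yv5 1 d) + ((4 * X 2) ^ 1 * ((X 3 - X 4 - X 5 - X 2) ^ 2 + (X 3 - X 4 - X 5 - X 2) * (X 3 - X 4 - X 5 - X 2) + (X 3 - X 4 - X 5 - X 2) ^ 2) - (4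 * X 2) ^ 3 * 1 + 2 * ((X 3 - X 4 - X 5 - X 2) ^ 1 * ((X 3 - X 4 - X 5 - X 2) ^ 2 + (X 3 - X 4 - X 5 - X 2) * (4 * X 2) + (4 * X 2) ^ 2) - (X 3 - X 4 - X 5 - X 2) ^ 3 * 1)) * ((yv5 2 c : ℝ) * yv5 2 d) + ((4 * X 2) ^ 1 * ((-X 3 + X 4 - X 5 - X 2) ^ 2 + (-X 3 + X 4 - X 5 - X 2) * (-X 3 + X 4 - X 5 - X 2) + (-X 3 + X 4 - X 5 - X 2) ^ 2) - (4 * X 2) ^ 3 * 1 + 2 * ((-X 3 + X 4 - X 5 - X 2) ^ 1 * ((-X 3 + X 4 - X 5 - X 2) ^ 2 + (-X 3 + X 4 - X 5 - X 2) * (4 * X 2) + (4 * X 2) ^ 2) - (-X 3 + X 4 - X 5 - X 2) ^ 3 * 1)) * ((yv5 3 c : ℝ) * yv5 3 d) + ((4 * X 2) ^ 1 * ((-X 3 - X 4 + X 5 - X 2) ^ 2 + (-X 3 - X 4 + X 5 - X 2) * (-X 3 - X 4 + X 5 - X 2) + (-X 3 - X 4 + X 5 - X 2) ^ 2) - (4 * X 2) ^ 3 * 1 + 2 * ((-X 3 - X 4 + X 5 - X 2) ^ 1 * ((-X 3 - X 4 + X 5 - X 2) ^ 2 + (-X 3 - X 4 + X 5 - X 2) * (4 * X 2) + (4 * X 2) ^ 2) - (-X 3 - X 4 + X 5 - X 2) ^ 3 * 1)) * ((yv5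 4 c : ℝ) * yv5 4 d)) + (0) - (evE rs6 X (xx5 1 c) * (4 * X 2) ^ 1 * evE rs6 X (xx5 1 d) + evE rs6 X (xx5 2 c) * (4 * X 2) ^ 0 * evE rs6 X (xx5 1 d)) := by
  simp only [qeE, evE_sum, evE_mul, evE_sub, evE_add, evE_nE, evE_ite, evE_pow, evE_hh, sum5,
    evL0, evL1, evL2, evL3, evL4, evY, evE_xx5, hh1, hh3, OfNat.ofNat_ne_zero, one_ne_zero,
    reduceIte, Int.cast_ofNat, Nat.reduceSub, Nat.reduceAdd, Finset.sum_range_succ,
    Finset.sum_range_zero, zero_add]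

theorem qev23 (c d : ℕ) : evE rs6 X (qeE crd5 5 2 3 c d) = (((4 * X 2) ^ 2 * ((4 * X 2) ^ 2 + (4 * X 2) * (4 * X 2) + (4 * X 2) ^ 2) - (4 * X 2) ^ 3 * ((4 * X 2) + (4 * X 2))) * ((yv5 0 c : ℝ) * yv5 0 d) + ((4 * X 2) ^ 2 * ((X 3 + X 4 + X 5 - X 2) ^ 2 + (X 3 + X 4 + X 5 - X 2) * (X 3 + X 4 + X 5 - X 2) + (X 3 + X 4 + X 5 - X 2) ^ 2) - (4 * X 2) ^ 3 * ((X 3 + X 4 + X 5 - X 2) + (X 3 + X 4 + X 5 - X 2)) + 2 * ((X 3 + X 4 + X 5 - X 2) ^ 2 * ((X 3 + X 4 + X 5 - X 2) ^ 2 + (X 3 + X 4 + X 5 - X 2) * (4 * X 2) + (4 * X 2) ^ 2) - (X 3 + X 4 + X 5 - X 2) ^ 3 * ((X 3 + X 4 + X 5 - X 2) + (4 * X 2)))) * ((yv5 1 c : ℝ) * yv5 1 d) + ((4 * X 2) ^ 2 * ((X 3 - X 4 - X 5 - X 2) ^ 2 + (X 3 - X 4 - X 5 - X 2) * (X 3 - X 4 - X 5 - X 2) + (X 3 - X 4 - X 5 - X 2) ^ 2) - (4 * X 2) ^ 3 * ((X 3 - X 4 - X 5 - X 2) + (X 3 - X 4 - X 5 - X 2)) + 2 * ((X 3 - X 4 - X 5 - X 2) ^ 2 * ((X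 3 - X 4 - X 5 - X 2) ^ 2 + (X 3 - X 4 - X 5 - X 2) * (4 * X 2) + (4 * X 2) ^ 2) - (X 3 - X 4 - X 5 - X 2) ^ 3 * ((X 3 - X 4 - X 5 - X 2) + (4 * X 2)))) * ((yv5 2 c : ℝ) * yv5 2 d) + ((4 * X 2) ^ 2 * ((-X 3 + X 4 - X 5 - X 2) ^ 2 + (-X 3 + X 4 - X 5 - X 2) * (-X 3 + X 4 - X 5 - X 2) + (-X 3 + X 4 - X 5 - X 2) ^ 2) - (4 * X 2) ^ 3 * ((-X 3 + X 4 - X 5 - X 2) + (-X 3 + X 4 - X 5 - X 2)) + 2 * ((-X 3 + X 4 - X 5 - X 2) ^ 2 * ((-X 3 + X 4 - X 5 - X 2) ^ 2 + (-X 3 + X 4 - X 5 - X 2) * (4 * X 2) + (4 * X 2) ^ 2) - (-X 3 + X 4 - X 5 - X 2) ^ 3 * ((-X 3 + X 4 - X 5 - X 2) + (4 * X 2)))) * ((yv5 3 c : ℝ) * yv5 3 d) + ((4 * X 2) ^ 2 * ((-X 3 - X 4 + X 5 - X 2) ^ 2 + (-X 3 - X 4 + X 5 - X 2) * (-X 3 - X 4 + X 5 - X 2) + (-X 3 - X 4 + X 5 - X 2) ^ 2) - (4 * X 2) ^ 3 * ((-X 3 - X 4 + X 5 - X 2) + (-X 3 - X 4 + X 5 - X 2)) + 2 * ((-X 3 - X 4 + X 5 - X 2) ^ 2 * ((-X 3 -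 X 4 + X 5 - X 2) ^ 2 + (-X 3 - X 4 + X 5 - X 2) * (4 * X 2) + (4 * X 2) ^ 2) - (-X 3 - X 4 + X 5 - X 2) ^ 3 * ((-X 3 - X 4 + X 5 - X 2) + (4 * X 2)))) * ((yv5 4 c : ℝ) * yv5 4 d)) + (evE rs6 X (xx5 1 c) * (4 * X 2) ^ 0 * evE rs6 X (xx5 3 d)) - (evE rs6 X (xx5 1 c) * (4 * X 2) ^ 1 * evE rs6 X (xx5 2 d) + evE rs6 X (xx5 2 c) * (4 * X 2) ^ 0 * evE rs6 X (xx5 2 d)) := by
  simp only [qeE, Nat.reduceSub, evE_sub, evE_add, evE_sum, evE_mul, evE_ite, evE_pow, evL0, evE_hh, hh3, hh2, evE_nE, Int.cast_ofNat, evY, Finset.sum_range_succ, Finset.sum_range_zero, reduceIte, zero_add, one_ne_zero, evL1, OfNat.ofNat_ne_zero, evL2, evL3, evL4, Nat.reduceAdd, evE_xx5]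

theorem evE_qf51 (i j : ℕ) : evE rs6 X (qf51 i j) = evE rs6 X (qfE crd5 5 1 i j) := by
  unfold qf51
  split
  · exact evP (l' := [(28, 0, 0, 0, 0)]) rfl rfl (by
        rw [qfv1]; simp only [evG, Int.cast_neg, Int.cast_ofNat, Int.cast_one, Int.cast_zero, yv_01, yv_11, yv_21, yv_31, yv_41]; ring)
  · exact evP (l' := []) rfl rfl (by
        rw [qfv1]; simp only [evG, Int.cast_neg, Int.cast_ofNat, Int.cast_one, Int.cast_zero, yv_01, yv_11, yv_21, yv_31, yv_41, yv_02, yv_12, yv_22, yv_32, yv_42]; ring)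
  · exact evP (l' := []) rfl rfl (by
        rw [qfv1]; simp only [evG, Int.cast_neg, Int.cast_ofNat, Int.cast_one, Int.cast_zero, yv_01, yv_11, yv_21, yv_31, yv_41, yv_03, yv_13, yv_23, yv_33, yv_43]; ring)
  · exact evP (l' := []) rfl rfl (by
        rw [qfv1]; simp only [evG, Int.cast_neg, Int.cast_ofNat, Int.cast_one, Int.cast_zero, yv_01, yv_11, yv_21, yv_31, yv_41, yv_04, yv_14, yv_24, yv_34, yv_44]; ring)
  · exact evP (l' := []) rfl rfl (by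
        rw [qfv1]; simp only [evG, Int.cast_neg, Int.cast_ofNat, Int.cast_one, Int.cast_zero, yv_02, yv_12, yv_22, yv_32, yv_42, yv_01, yv_11, yv_21, yv_31, yv_41]; ring)
  · exact evP (l' := [(12, 0, 0, 0, 0)]) rfl rfl (by
        rw [qfv1]; simp only [evG, Int.cast_neg, Int.cast_ofNat, Int.cast_one, Int.cast_zero, yv_02, yv_12, yv_22, yv_32, yv_42]; ring)
  · exact evP (l' := []) rfl rfl (by
        rw [qfv1]; simp only [evG, yv_02, Int.cast_zero, yv_03, yv_12, Int.cast_one, yv_13, yv_22, yv_23, Int.cast_neg, yv_32, yv_33, yv_42, yv_43]; ring)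
  · exact evP (l' := []) rfl rfl (by
        rw [qfv1]; simp only [evG, yv_02, Int.cast_zero, yv_04, yv_12, Int.cast_one, yv_14, yv_22, yv_24, Int.cast_neg, yv_32, yv_34, yv_42, yv_44]; ring)
  · exact evP (l' := []) rfl rfl (by
        rw [qfv1]; simp only [evG, yv_03, Int.cast_zero, yv_01, Int.cast_ofNat, yv_13, Int.cast_one, yv_11, Int.cast_neg, yv_23, yv_21, yv_33, yv_31, yv_43, yv_41]; ring)
  · exact evP (l' := []) rfl rfl (by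
        rw [qfv1]; simp only [evG, yv_03, Int.cast_zero, yv_02, yv_13, Int.cast_one, yv_12, yv_23, Int.cast_neg, yv_22, yv_33, yv_32, yv_43, yv_42]; ring)
  · exact evP (l' := [(12, 0, 0, 0, 0)]) rfl rfl (by
        rw [qfv1]; simp only [evG, Int.cast_neg, Int.cast_ofNat, Int.cast_one, Int.cast_zero, yv_03, yv_13, yv_23, yv_33, yv_43]; ring)
  · exact evP (l' := []) rfl rfl (by
        rw [qfv1]; simp only [evG, yv_03, Int.cast_zero, yv_04, yv_13, Int.cast_one, yv_14, yv_23, Int.cast_neg, yv_24, yv_33, yv_34, yv_43, yv_44]; ring)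
  · exact evP (l' := []) rfl rfl (by
        rw [qfv1]; simp only [evG, Int.cast_neg, Int.cast_ofNat, Int.cast_one, Int.cast_zero, yv_04, yv_14, yv_24, yv_34, yv_44, yv_01, yv_11, yv_21, yv_31, yv_41]; ring)
  · exact evP (l' := []) rfl rfl (by
        rw [qfv1]; simp only [evG, yv_04, Int.cast_zero, yv_02, yv_14, Int.cast_one, yv_12, yv_24, Int.cast_neg, yv_22, yv_34, yv_32, yv_44, yv_42]; ring)
  · exact evP (l' := []) rfl rfl (by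
        rw [qfv1]; simp only [evG, yv_04, Int.cast_zero, yv_03, yv_14, Int.cast_one, yv_13, yv_24, Int.cast_neg, yv_23, yv_34, yv_33, yv_44, yv_43]; ring)
  · exact evP (l' := [(12, 0, 0, 0, 0)]) rfl rfl (by
        rw [qfv1]; simp only [evG, Int.cast_ofNat, yv_04, Int.cast_zero, yv_14, Int.cast_one, yv_24, Int.cast_neg, yv_34, yv_44]; ring)
  · rfl

theorem evE_qf52 (i j : ℕ) : evE rs6 X (qf52 i j) = evE rs6 X (qfE crd5 5 2 i j) := by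
  unfold qf52
  split
  · exact evP (l' := [(144, 1, 0, 0, 0)]) rfl rfl (by
        rw [qfv2]; simp only [evG, Int.cast_neg, Int.cast_ofNat, Int.cast_one, Int.cast_zero, yv_01, yv_11, yv_21, yv_31, yv_41]; ring)
  · exact evP (l' := [(-16, 0, 1, 0, 0)]) rfl rfl (by
        rw [qfv2]; simp only [evG, Int.cast_neg, Int.cast_ofNat, yv_01, yv_02, Int.cast_zero, yv_11, Int.cast_one, yv_12, yv_21, yv_22, yv_31, yv_32, yv_41, yv_42]; ring)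
  · exact evP (l' := [(-16, 0, 0, 1, 0)]) rfl rfl (by
        rw [qfv2]; simp only [evG, Int.cast_neg, Int.cast_ofNat, yv_01, yv_03, Int.cast_zero, yv_11, Int.cast_one, yv_13, yv_21, yv_23, yv_31, yv_33, yv_41, yv_43]; ring)
  · exact evP (l' := [(-16, 0, 0, 0, 1)]) rfl rfl (by
        rw [qfv2]; simp only [evG, Int.cast_neg, Int.cast_ofNat, Int.cast_one, Int.cast_zero, yv_01, yv_11, yv_21, yv_31, yv_41, yv_04, yv_14, yv_24, yv_34, yv_44]; ring)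
  · exact evP (l' := [(-16, 0, 1, 0, 0)]) rfl rfl (by
        rw [qfv2]; simp only [evG, Int.cast_neg, Int.cast_ofNat, Int.cast_one, Int.cast_zero, yv_02, yv_12, yv_22, yv_32, yv_42, yv_01, yv_11, yv_21, yv_31, yv_41]; ring)
  · exact evP (l' := [(16, 1, 0, 0, 0)]) rfl rfl (by
        rw [qfv2]; simp only [evG, Int.cast_neg, Int.cast_ofNat, Int.cast_one, Int.cast_zero, yv_02, yv_12, yv_22, yv_32, yv_42]; ring)
  · exact evP (l' := [(16, 0, 0, 0, 1)]) rfl rfl (by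
        rw [qfv2]; simp only [evG, Int.cast_ofNat, yv_02, Int.cast_zero, yv_03, yv_12, Int.cast_one, yv_13, yv_22, yv_23, Int.cast_neg, yv_32, yv_33, yv_42, yv_43]; ring)
  · exact evP (l' := [(16, 0, 0, 1, 0)]) rfl rfl (by
        rw [qfv2]; simp only [evG, Int.cast_ofNat, yv_02, Int.cast_zero, yv_04, yv_12, Int.cast_one, yv_14, yv_22, yv_24, Int.cast_neg, yv_32, yv_34, yv_42, yv_44]; ring)
  · exact evP (l' := [(-16, 0, 0, 1, 0)]) rfl rfl (by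
        rw [qfv2]; simp only [evG, Int.cast_neg, Int.cast_ofNat, yv_03, Int.cast_zero, yv_01, yv_13, Int.cast_one, yv_11, yv_23, yv_21, yv_33, yv_31, yv_43, yv_41]; ring)
  · exact evP (l' := [(16, 0, 0, 0, 1)]) rfl rfl (by
        rw [qfv2]; simp only [evG, Int.cast_neg, Int.cast_ofNat, Int.cast_one, Int.cast_zero, yv_03, yv_13, yv_23, yv_33, yv_43, yv_02, yv_12, yv_22, yv_32, yv_42]; ring)
  · exact evP (l' := [(16, 1, 0, 0, 0)]) rfl rfl (by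
        rw [qfv2]; simp only [evG, Int.cast_neg, Int.cast_ofNat, Int.cast_one, Int.cast_zero, yv_03, yv_13, yv_23, yv_33, yv_43]; ring)
  · exact evP (l' := [(16, 0, 1, 0, 0)]) rfl rfl (by
        rw [qfv2]; simp only [evG, Int.cast_ofNat, yv_03, Int.cast_zero, yv_04, yv_13, Int.cast_one, yv_14, yv_23, Int.cast_neg, yv_24, yv_33, yv_34, yv_43, yv_44]; ring)
  · exact evP (l' := [(-16, 0, 0, 0, 1)]) rfl rfl (by
        rw [qfv2]; simp only [evG, Int.cast_neg, Int.cast_ofNat, Int.cast_one, Int.cast_zero, yv_04, yv_14, yv_24, yv_34, yv_44, yv_01, yv_11, yv_21, yv_31, yv_41]; ring)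
  · exact evP (l' := [(16, 0, 0, 1, 0)]) rfl rfl (by
        rw [qfv2]; simp only [evG, Int.cast_ofNat, yv_04, Int.cast_zero, yv_02, yv_14, Int.cast_one, yv_12, yv_24, Int.cast_neg, yv_22, yv_34, yv_32, yv_44, yv_42]; ring)
  · exact evP (l' := [(16, 0, 1, 0, 0)]) rfl rfl (by
        rw [qfv2]; simp only [evG, Int.cast_ofNat, yv_04, Int.cast_zero, yv_03, yv_14, Int.cast_one, yv_13, yv_24, Int.cast_neg, yv_23, yv_34, yv_33, yv_44, yv_43]; ring)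
  · exact evP (l' := [(16, 1, 0, 0, 0)]) rfl rfl (by
        rw [qfv2]; simp only [evG, Int.cast_neg, Int.cast_ofNat, Int.cast_one, Int.cast_zero, yv_04, yv_14, yv_24, yv_34, yv_44]; ring)
  · rfl

theorem evE_qf53 (i j : ℕ) : evE rs6 X (qf53 i j) = evE rs6 X (qfE crd5 5 3 i j) := by
  unfold qf53
  split
  · exact evP (l' := [(884, 2, 0, 0, 0), (20, 0, 2, 0, 0), (20, 0, 0, 2, 0), (20, 0, 0, 0, 2)]) rfl rfl (by
        rw [qfv3]; simp only [evG, Int.cast_neg, Int.cast_ofNat, Int.cast_one, Int.cast_zero, yv_01, yv_11, yv_21, yv_31, yv_41]; ring)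
  · exact evP (l' := [(8, 1, 1, 0, 0), (-40, 0, 0, 1, 1)]) rfl rfl (by
        rw [qfv3]; simp only [evG, Int.cast_ofNat, Int.cast_neg, yv_01, yv_02, Int.cast_zero, yv_11, Int.cast_one, yv_12, yv_21, yv_22, yv_31, yv_32, yv_41, yv_42]; ring)
  · exact evP (l' := [(8, 1, 0, 1, 0), (-40, 0, 1, 0, 1)]) rfl rfl (by
        rw [qfv3]; simp only [evG, Int.cast_neg, Int.cast_ofNat, Int.cast_one, Int.cast_zero, yv_01, yv_11, yv_21, yv_31, yv_41, yv_03, yv_13, yv_23, yv_33, yv_43]; ring)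
  · exact evP (l' := [(-40, 0, 1, 1, 0), (8, 1, 0, 0, 1)]) rfl rfl (by
        rw [qfv3]; simp only [evG, Int.cast_neg, Int.cast_ofNat, Int.cast_one, Int.cast_zero, yv_01, yv_11, yv_21, yv_31, yv_41, yv_04, yv_14, yv_24, yv_34, yv_44]; ring)
  · exact evP (l' := [(8, 1, 1, 0, 0), (-40, 0, 0, 1, 1)]) rfl rfl (by
        rw [qfv3]; simp only [evG, Int.cast_neg, Int.cast_ofNat, Int.cast_one, Int.cast_zero, yv_02, yv_12, yv_22, yv_32, yv_42, yv_01, yv_11, yv_21, yv_31, yv_41]; ring)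
  · exact evP (l' := [(116, 2, 0, 0, 0), (20, 0, 2, 0, 0), (20, 0, 0, 2, 0), (20, 0, 0, 0, 2)]) rfl rfl (by
        rw [qfv3]; simp only [evG, Int.cast_neg, Int.cast_ofNat, Int.cast_one, Int.cast_zero, yv_02, yv_12, yv_22, yv_32, yv_42]; ring)
  · exact evP (l' := [(40, 0, 1, 1, 0), (-8, 1, 0, 0, 1)]) rfl rfl (by
        rw [qfv3]; simp only [evG, Int.cast_ofNat, Int.cast_neg, yv_02, Int.cast_zero, yv_03, yv_12, Int.cast_one, yv_13, yv_22, yv_23, yv_32, yv_33, yv_42, yv_43]; ring)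
  · exact evP (l' := [(-8, 1, 0, 1, 0), (40, 0, 1, 0, 1)]) rfl rfl (by
        rw [qfv3]; simp only [evG, Int.cast_neg, Int.cast_ofNat, Int.cast_one, Int.cast_zero, yv_02, yv_12, yv_22, yv_32, yv_42, yv_04, yv_14, yv_24, yv_34, yv_44]; ring)
  · exact evP (l' := [(8, 1, 0, 1, 0), (-40, 0, 1, 0, 1)]) rfl rfl (by
        rw [qfv3]; simp only [evG, Int.cast_neg, Int.cast_ofNat, Int.cast_one, Int.cast_zero, yv_03, yv_13, yv_23, yv_33, yv_43, yv_01, yv_11, yv_21, yv_31, yv_41]; ring)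
  · exact evP (l' := [(40, 0, 1, 1, 0), (-8, 1, 0, 0, 1)]) rfl rfl (by
        rw [qfv3]; simp only [evG, Int.cast_neg, Int.cast_ofNat, Int.cast_one, Int.cast_zero, yv_03, yv_13, yv_23, yv_33, yv_43, yv_02, yv_12, yv_22, yv_32, yv_42]; ring)
  · exact evP (l' := [(116, 2, 0, 0, 0), (20, 0, 2, 0, 0), (20, 0, 0, 2, 0), (20, 0, 0, 0, 2)]) rfl rfl (by
        rw [qfv3]; simp only [evG, Int.cast_neg, Int.cast_ofNat, Int.cast_one, Int.cast_zero, yv_03, yv_13, yv_23, yv_33, yv_43]; ring)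
  · exact evP (l' := [(-8, 1, 1, 0, 0), (40, 0, 0, 1, 1)]) rfl rfl (by
        rw [qfv3]; simp only [evG, Int.cast_neg, Int.cast_ofNat, Int.cast_one, Int.cast_zero, yv_03, yv_13, yv_23, yv_33, yv_43, yv_04, yv_14, yv_24, yv_34, yv_44]; ring)
  · exact evP (l' := [(-40, 0, 1, 1, 0), (8, 1, 0, 0, 1)]) rfl rfl (by
        rw [qfv3]; simp only [evG, Int.cast_neg, Int.cast_ofNat, yv_04, Int.cast_zero, yv_01, yv_14, Int.cast_one, yv_11, yv_24, yv_21, yv_34, yv_31, yv_44, yv_41]; ring)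
  · exact evP (l' := [(-8, 1, 0, 1, 0), (40, 0, 1, 0, 1)]) rfl rfl (by
        rw [qfv3]; simp only [evG, Int.cast_neg, Int.cast_ofNat, Int.cast_one, Int.cast_zero, yv_04, yv_14, yv_24, yv_34, yv_44, yv_02, yv_12, yv_22, yv_32, yv_42]; ring)
  · exact evP (l' := [(-8, 1, 1, 0, 0), (40, 0, 0, 1, 1)]) rfl rfl (by
        rw [qfv3]; simp only [evG, Int.cast_neg, Int.cast_ofNat, yv_04, Int.cast_zero, yv_03, yv_14, Int.cast_one, yv_13, yv_24, yv_23, yv_34, yv_33, yv_44, yv_43]; ring)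
  · exact evP (l' := [(116, 2, 0, 0, 0), (20, 0, 2, 0, 0), (20, 0, 0, 2, 0), (20, 0, 0, 0, 2)]) rfl rfl (by
        rw [qfv3]; simp only [evG, Int.cast_neg, Int.cast_ofNat, Int.cast_one, Int.cast_zero, yv_04, yv_14, yv_24, yv_34, yv_44]; ring)
  · rfl

theorem evE_qe512 (i j : ℕ) : evE rs6 X (qe512 i j) = evE rs6 X (qeE crd5 5 1 2 i j) := by
  unfold qe512
  split
  · exact evP (l' := [(-272, 2, 0, 0, 0)]) rfl rfl (by
        rw [qev12]; simp only [evG, Int.cast_neg, Int.cast_ofNat, Int.cast_one, Int.cast_zero, yv_01, yv_11, yv_21, yv_31, yv_41,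
          xv11, xv21, xv31]; ring)
  · exact evP (l' := [(-144, 1, 1, 0, 0)]) rfl rfl (by
        rw [qev12]; simp only [evG, Int.cast_neg, Int.cast_ofNat, yv_01, yv_02, Int.cast_zero, yv_11, Int.cast_one, yv_12, yv_21, yv_22, yv_31, yv_32, yv_41, yv_42, xv11, xv12]; ring)
  · exact evP (l' := [(-144, 1, 0, 1, 0)]) rfl rfl (by
        rw [qev12]; simp only [evG, Int.cast_neg, Int.cast_ofNat, yv_01, yv_03, Int.cast_zero, yv_11, Int.cast_one, yv_13, yv_21, yv_23, yv_31, yv_33, yv_41, yv_43, xv11, xv13]; ring)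
  · exact evP (l' := [(-144, 1, 0, 0, 1)]) rfl rfl (by
        rw [qev12]; simp only [evG, Int.cast_neg, Int.cast_ofNat, yv_01, yv_04, Int.cast_zero, yv_11, Int.cast_one, yv_14, yv_21, yv_24, yv_31, yv_34, yv_41, yv_44, xv11, xv14]; ring)
  · exact evP (l' := [(-144, 1, 1, 0, 0)]) rfl rfl (by
        rw [qev12]; simp only [evG, Int.cast_neg, Int.cast_ofNat, yv_02, Int.cast_zero, yv_01, yv_12, Int.cast_one, yv_11, yv_22, yv_21, yv_32, yv_31, yv_42, yv_41, xv12, xv11]; ring)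
  · exact evP (l' := [(-128, 2, 0, 0, 0), (-16, 0, 2, 0, 0)]) rfl rfl (by
        rw [qev12]; simp only [evG, Int.cast_neg, Int.cast_ofNat, yv_02, Int.cast_zero, yv_12, Int.cast_one, yv_22, yv_32, yv_42, xv12]; ring)
  · exact evP (l' := [(-16, 0, 1, 1, 0), (64, 1, 0, 0, 1)]) rfl rfl (by
        rw [qev12]; simp only [evG, Int.cast_neg, Int.cast_ofNat, yv_02, Int.cast_zero, yv_03, yv_12, Int.cast_one, yv_13, yv_22, yv_23, yv_32, yv_33, yv_42, yv_43, xv12, xv13]; ring)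
  · exact evP (l' := [(64, 1, 0, 1, 0), (-16, 0, 1, 0, 1)]) rfl rfl (by
        rw [qev12]; simp only [evG, Int.cast_ofNat, Int.cast_neg, yv_02, Int.cast_zero, yv_04, yv_12, Int.cast_one, yv_14, yv_22, yv_24, yv_32, yv_34, yv_42, yv_44, xv12, xv14]; ring)
  · exact evP (l' := [(-144, 1, 0, 1, 0)]) rfl rfl (by
        rw [qev12]; simp only [evG, Int.cast_neg, Int.cast_ofNat, Int.cast_one, Int.cast_zero, yv_03, yv_13, yv_23, yv_33, yv_43, yv_01, yv_11, yv_21, yv_31, yv_41,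
          xv13, xv23, xv33, xv11, xv21, xv31]; ring)
  · exact evP (l' := [(-16, 0, 1, 1, 0), (64, 1, 0, 0, 1)]) rfl rfl (by
        rw [qev12]; simp only [evG, Int.cast_neg, Int.cast_ofNat, Int.cast_one, Int.cast_zero, yv_03, yv_13, yv_23, yv_33, yv_43, yv_02, yv_12, yv_22, yv_32, yv_42,
          xv13, xv23, xv33, xv12, xv22, xv32]; ring)
  · exact evP (l' := [(-128, 2, 0, 0, 0), (-16, 0, 0, 2, 0)]) rfl rfl (by
        rw [qev12]; simp only [evG, Int.cast_neg, Int.cast_ofNat, yv_03, Int.cast_zero, yv_13, Int.cast_one, yv_23, yv_33, yv_43, xv13]; ring)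
  · exact evP (l' := [(64, 1, 1, 0, 0), (-16, 0, 0, 1, 1)]) rfl rfl (by
        rw [qev12]; simp only [evG, Int.cast_ofNat, Int.cast_neg, yv_03, Int.cast_zero, yv_04, yv_13, Int.cast_one, yv_14, yv_23, yv_24, yv_33, yv_34, yv_43, yv_44, xv13, xv14]; ring)
  · exact evP (l' := [(-144, 1, 0, 0, 1)]) rfl rfl (by
        rw [qev12]; simp only [evG, Int.cast_neg, Int.cast_ofNat, Int.cast_one, Int.cast_zero, yv_04, yv_14, yv_24, yv_34, yv_44, yv_01, yv_11, yv_21, yv_31, yv_41,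
          xv14, xv24, xv34, xv11, xv21, xv31]; ring)
  · exact evP (l' := [(64, 1, 0, 1, 0), (-16, 0, 1, 0, 1)]) rfl rfl (by
        rw [qev12]; simp only [evG, Int.cast_ofNat, Int.cast_neg, yv_04, Int.cast_zero, yv_02, yv_14, Int.cast_one, yv_12, yv_24, yv_22, yv_34, yv_32, yv_44, yv_42, xv14, xv12]; ring)
  · exact evP (l' := [(64, 1, 1, 0, 0), (-16, 0, 0, 1, 1)]) rfl rfl (by
        rw [qev12]; simp only [evG, Int.cast_ofNat, Int.cast_neg, yv_04, Int.cast_zero, yv_03, yv_14, Int.cast_one, yv_13, yv_24, yv_23, yv_34, yv_33, yv_44, yv_43, xv14, xv13]; ring)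
  · exact evP (l' := [(-128, 2, 0, 0, 0), (-16, 0, 0, 0, 2)]) rfl rfl (by
        rw [qev12]; simp only [evG, Int.cast_neg, Int.cast_ofNat, Int.cast_one, Int.cast_zero, yv_04, yv_14, yv_24, yv_34, yv_44,
          xv14, xv24, xv34]; ring)
  · rfl

theorem evE_qe513 (i j : ℕ) : evE rs6 X (qe513 i j) = evE rs6 X (qeE crd5 5 1 3 i j) := by
  unfold qe513
  split
  · exact evP (l' := [(-1056, 3, 0, 0, 0), (160, 1, 2, 0, 0), (160, 1, 0, 2, 0), (160, 1, 0, 0, 2)]) rfl rfl (by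
        rw [qev13]; simp only [evG, Int.cast_neg, Int.cast_ofNat, yv_01, yv_11, Int.cast_one, yv_21, yv_31, yv_41, xv11, xv21]; ring)
  · exact evP (l' := [(-528, 2, 1, 0, 0), (16, 0, 3, 0, 0), (16, 0, 1, 2, 0), (-160, 1, 0, 1, 1), (16, 0, 1, 0, 2)]) rfl rfl (by
        rw [qev13]; simp only [evG, Int.cast_neg, Int.cast_ofNat, yv_01, yv_02, Int.cast_zero, yv_11, Int.cast_one, yv_12, yv_21, yv_22, yv_31, yv_32, yv_41, yv_42, xv11, xv12, xv21]; ring)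
  · exact evP (l' := [(-528, 2, 0, 1, 0), (16, 0, 2, 1, 0), (16, 0, 0, 3, 0), (-160, 1, 1, 0, 1), (16, 0, 0, 1, 2)]) rfl rfl (by
        rw [qev13]; simp only [evG, Int.cast_neg, Int.cast_ofNat, Int.cast_one, Int.cast_zero, yv_01, yv_11, yv_21, yv_31, yv_41, yv_03, yv_13, yv_23, yv_33, yv_43,
          xv11, xv21, xv31, xv13, xv23, xv33]; ring)
  · exact evP (l' := [(-160, 1, 1, 1, 0), (-528, 2, 0, 0, 1), (16, 0, 2, 0, 1), (16, 0, 0, 2, 1), (16, 0, 0, 0, 3)]) rfl rfl (by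
        rw [qev13]; simp only [evG, Int.cast_neg, Int.cast_ofNat, yv_01, yv_04, Int.cast_zero, yv_11, Int.cast_one, yv_14, yv_21, yv_24, yv_31, yv_34, yv_41, yv_44, xv11, xv14, xv21]; ring)
  · exact evP (l' := [(-128, 2, 1, 0, 0), (-320, 1, 0, 1, 1)]) rfl rfl (by
        rw [qev13]; simp only [evG, Int.cast_neg, Int.cast_ofNat, yv_02, Int.cast_zero, yv_01, yv_12, Int.cast_one, yv_11, yv_22, yv_21, yv_32, yv_31, yv_42, yv_41, xv12, xv11, xv22]; ring)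
  · exact evP (l' := [(-304, 3, 0, 0, 0), (48, 1, 2, 0, 0), (80, 1, 0, 2, 0), (-32, 0, 1, 1, 1), (80, 1, 0, 0, 2)]) rfl rfl (by
        rw [qev13]; simp only [evG, Int.cast_neg, Int.cast_ofNat, yv_02, Int.cast_zero, yv_12, Int.cast_one, yv_22, yv_32, yv_42, xv12, xv22]; ring)
  · exact evP (l' := [(128, 1, 1, 1, 0), (-32, 2, 0, 0, 1), (-32, 0, 0, 2, 1)]) rfl rfl (by
        rw [qev13]; simp only [evG, Int.cast_ofNat, Int.cast_neg, yv_02, Int.cast_zero, yv_03, yv_12, Int.cast_one, yv_13, yv_22, yv_23, yv_32, yv_33, yv_42, yv_43, xv12, xv13, xv22]; ring)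
  · exact evP (l' := [(-32, 2, 0, 1, 0), (128, 1, 1, 0, 1), (-32, 0, 0, 1, 2)]) rfl rfl (by
        rw [qev13]; simp only [evG, Int.cast_neg, Int.cast_ofNat, Int.cast_one, Int.cast_zero, yv_02, yv_12, yv_22, yv_32, yv_42, yv_04, yv_14, yv_24, yv_34, yv_44,
          xv12, xv22, xv32, xv14, xv24, xv34]; ring)
  · exact evP (l' := [(-128, 2, 0, 1, 0), (-320, 1, 1, 0, 1)]) rfl rfl (by
        rw [qev13]; simp only [evG, Int.cast_neg, Int.cast_ofNat, Int.cast_one, Int.cast_zero, yv_03, yv_13, yv_23, yv_33, yv_43, yv_01, yv_11, yv_21, yv_31, yv_41,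
          xv13, xv23, xv33, xv11, xv21, xv31]; ring)
  · exact evP (l' := [(128, 1, 1, 1, 0), (-32, 2, 0, 0, 1), (-32, 0, 2, 0, 1)]) rfl rfl (by
        rw [qev13]; simp only [evG, Int.cast_neg, Int.cast_ofNat, Int.cast_one, Int.cast_zero, yv_03, yv_13, yv_23, yv_33, yv_43, yv_02, yv_12, yv_22, yv_32, yv_42,
          xv13, xv23, xv33, xv12, xv22, xv32]; ring)
  · exact evP (l' := [(-304, 3, 0, 0, 0), (80, 1, 2, 0, 0), (48, 1, 0, 2, 0), (-32, 0, 1, 1, 1), (80, 1, 0, 0, 2)]) rfl rfl (by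
        rw [qev13]; simp only [evG, Int.cast_neg, Int.cast_ofNat, Int.cast_one, Int.cast_zero, yv_03, yv_13, yv_23, yv_33, yv_43,
          xv13, xv23, xv33]; ring)
  · exact evP (l' := [(-32, 2, 1, 0, 0), (128, 1, 0, 1, 1), (-32, 0, 1, 0, 2)]) rfl rfl (by
        rw [qev13]; simp only [evG, Int.cast_neg, Int.cast_ofNat, Int.cast_one, Int.cast_zero, yv_03, yv_13, yv_23, yv_33, yv_43, yv_04, yv_14, yv_24, yv_34, yv_44,
          xv13, xv23, xv33, xv14, xv24, xv34]; ring)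
  · exact evP (l' := [(-320, 1, 1, 1, 0), (-128, 2, 0, 0, 1)]) rfl rfl (by
        rw [qev13]; simp only [evG, Int.cast_neg, Int.cast_ofNat, yv_04, Int.cast_zero, yv_01, yv_14, Int.cast_one, yv_11, yv_24, yv_21, yv_34, yv_31, yv_44, yv_41, xv14, xv11, xv24]; ring)
  · exact evP (l' := [(-32, 2, 0, 1, 0), (-32, 0, 2, 1, 0), (128, 1, 1, 0, 1)]) rfl rfl (by
        rw [qev13]; simp only [evG, Int.cast_neg, Int.cast_ofNat, yv_04, Int.cast_zero, yv_02, yv_14, Int.cast_one, yv_12, yv_24, yv_22, yv_34, yv_32, yv_44, yv_42, xv14, xv12, xv24]; ring)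
  · exact evP (l' := [(-32, 2, 1, 0, 0), (-32, 0, 1, 2, 0), (128, 1, 0, 1, 1)]) rfl rfl (by
        rw [qev13]; simp only [evG, Int.cast_neg, Int.cast_ofNat, Int.cast_one, Int.cast_zero, yv_04, yv_14, yv_24, yv_34, yv_44, yv_03, yv_13, yv_23, yv_33, yv_43,
          xv14, xv24, xv34, xv13, xv23, xv33]; ring)
  · exact evP (l' := [(-304, 3, 0, 0, 0), (80, 1, 2, 0, 0), (80, 1, 0, 2, 0), (-32, 0, 1, 1, 1), (48, 1, 0, 0, 2)]) rfl rfl (by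
        rw [qev13]; simp only [evG, Int.cast_neg, Int.cast_ofNat, Int.cast_one, Int.cast_zero, yv_04, yv_14, yv_24, yv_34, yv_44,
          xv14, xv24, xv34]; ring)
  · rfl

theorem evE_qe523 (i j : ℕ) : evE rs6 X (qe523 i j) = evE rs6 X (qeE crd5 5 2 3 i j) := by
  unfold qe523
  split
  · exact evP (l' := [(1728, 4, 0, 0, 0), (1360, 2, 2, 0, 0), (-16, 0, 4, 0, 0), (1360, 2, 0, 2, 0), (-32, 0, 2, 2, 0), (-16, 0, 0, 4, 0), (-480, 1, 1, 1, 1), (1360, 2, 0, 0, 2), (-32, 0, 2, 0, 2), (-32, 0, 0, 2, 2), (-16, 0, 0, 0, 4)]) rfl rfl (by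
        rw [qev23]; simp only [evG, Int.cast_neg, Int.cast_ofNat, Int.cast_one, Int.cast_zero, yv_01, yv_11, yv_21, yv_31, yv_41,
          xv11, xv21, xv31]; ring)
  · exact evP (l' := [(2512, 3, 1, 0, 0), (48, 1, 3, 0, 0), (208, 1, 1, 2, 0), (-2240, 2, 0, 1, 1), (32, 0, 2, 1, 1), (32, 0, 0, 3, 1), (208, 1, 1, 0, 2), (32, 0, 0, 1, 3)]) rfl rfl (by
        rw [qev23]; simp only [evG, Int.cast_neg, Int.cast_ofNat, Int.cast_one, Int.cast_zero, yv_01, yv_11, yv_21, yv_31, yv_41, yv_02, yv_12, yv_22, yv_32, yv_42,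
          xv11, xv21, xv31, xv12, xv22, xv32]; ring)
  · exact evP (l' := [(2512, 3, 0, 1, 0), (208, 1, 2, 1, 0), (48, 1, 0, 3, 0), (-2240, 2, 1, 0, 1), (32, 0, 3, 0, 1), (32, 0, 1, 2, 1), (208, 1, 0, 1, 2), (32, 0, 1, 0, 3)]) rfl rfl (by
        rw [qev23]; simp only [evG, Int.cast_neg, Int.cast_ofNat, Int.cast_one, Int.cast_zero, yv_01, yv_11, yv_21, yv_31, yv_41, yv_03, yv_13, yv_23, yv_33, yv_43,
          xv11, xv21, xv31, xv13, xv23, xv33]; ring)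
  · exact evP (l' := [(-2240, 2, 1, 1, 0), (32, 0, 3, 1, 0), (32, 0, 1, 3, 0), (2512, 3, 0, 0, 1), (208, 1, 2, 0, 1), (208, 1, 0, 2, 1), (32, 0, 1, 1, 2), (48, 1, 0, 0, 3)]) rfl rfl (by
        rw [qev23]; simp only [evG, Int.cast_neg, Int.cast_ofNat, Int.cast_one, Int.cast_zero, yv_01, yv_11, yv_21, yv_31, yv_41, yv_04, yv_14, yv_24, yv_34, yv_44,
          xv11, xv21, xv31, xv14, xv24, xv34]; ring)
  · exact evP (l' := [(1712, 3, 1, 0, 0), (80, 1, 3, 0, 0), (80, 1, 1, 2, 0), (-1120, 2, 0, 1, 1), (-64, 0, 2, 1, 1), (32, 0, 0, 3, 1), (80, 1, 1, 0, 2), (32, 0, 0, 1, 3)]) rfl rfl (by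
        rw [qev23]; simp only [evG, Int.cast_ofNat, Int.cast_neg, yv_02, Int.cast_zero, yv_01, yv_12, Int.cast_one, yv_11, yv_22, yv_21, yv_32, yv_31, yv_42, yv_41, xv12, xv31, xv21, xv22]; ring)
  · exact evP (l' := [(832, 4, 0, 0, 0), (432, 2, 2, 0, 0), (16, 0, 4, 0, 0), (320, 2, 0, 2, 0), (48, 0, 2, 2, 0), (-96, 1, 1, 1, 1), (320, 2, 0, 0, 2), (48, 0, 2, 0, 2), (-64, 0, 0, 2, 2)]) rfl rfl (by
        rw [qev23]; simp only [evG, Int.cast_ofNat, Int.cast_neg, yv_02, Int.cast_zero, yv_12, Int.cast_one, yv_22, yv_32, yv_42, xv12, xv32, xv22]; ring)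
  · exact evP (l' := [(752, 2, 1, 1, 0), (48, 0, 3, 1, 0), (16, 0, 1, 3, 0), (-1152, 3, 0, 0, 1), (-160, 1, 2, 0, 1), (64, 1, 0, 2, 1), (-16, 0, 1, 1, 2)]) rfl rfl (by
        rw [qev23]; simp only [evG, Int.cast_ofNat, Int.cast_neg, yv_02, Int.cast_zero, yv_03, yv_12, Int.cast_one, yv_13, yv_22, yv_23, yv_32, yv_33, yv_42, yv_43, xv12, xv33, xv23, xv22]; ring)
  · exact evP (l' := [(-1152, 3, 0, 1, 0), (-160, 1, 2, 1, 0), (752, 2, 1, 0, 1), (48, 0, 3, 0, 1), (-16, 0, 1, 2, 1), (64, 1, 0, 1, 2), (16, 0, 1, 0, 3)]) rfl rfl (by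
        rw [qev23]; simp only [evG, Int.cast_neg, Int.cast_ofNat, Int.cast_one, Int.cast_zero, yv_02, yv_12, yv_22, yv_32, yv_42, yv_04, yv_14, yv_24, yv_34, yv_44,
          xv12, xv22, xv32, xv14, xv24, xv34]; ring)
  · exact evP (l' := [(1712, 3, 0, 1, 0), (80, 1, 2, 1, 0), (80, 1, 0, 3, 0), (-1120, 2, 1, 0, 1), (32, 0, 3, 0, 1), (-64, 0, 1, 2, 1), (80, 1, 0, 1, 2), (32, 0, 1, 0, 3)]) rfl rfl (by
        rw [qev23]; simp only [evG, Int.cast_neg, Int.cast_ofNat, Int.cast_one, Int.cast_zero, yv_03, yv_13, yv_23, yv_33, yv_43, yv_01, yv_11, yv_21, yv_31, yv_41,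
          xv13, xv23, xv33, xv11, xv21, xv31]; ring)
  · exact evP (l' := [(752, 2, 1, 1, 0), (16, 0, 3, 1, 0), (48, 0, 1, 3, 0), (-1152, 3, 0, 0, 1), (64, 1, 2, 0, 1), (-160, 1, 0, 2, 1), (-16, 0, 1, 1, 2)]) rfl rfl (by
        rw [qev23]; simp only [evG, Int.cast_ofNat, Int.cast_neg, yv_03, Int.cast_zero, yv_02, yv_13, Int.cast_one, yv_12, yv_23, yv_22, yv_33, yv_32, yv_43, yv_42, xv13, xv32, xv22, xv23]; ring)
  · exact evP (l' := [(832, 4, 0, 0, 0), (320, 2, 2, 0, 0), (432, 2, 0, 2, 0), (48, 0, 2, 2, 0), (16, 0, 0, 4, 0), (-96, 1, 1, 1, 1), (320, 2, 0, 0, 2), (-64, 0, 2, 0, 2), (48, 0, 0, 2, 2)]) rfl rfl (by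
        rw [qev23]; simp only [evG, Int.cast_ofNat, Int.cast_neg, yv_03, Int.cast_zero, yv_13, Int.cast_one, yv_23, yv_33, yv_43, xv13, xv33, xv23]; ring)
  · exact evP (l' := [(-1152, 3, 1, 0, 0), (-160, 1, 1, 2, 0), (752, 2, 0, 1, 1), (-16, 0, 2, 1, 1), (48, 0, 0, 3, 1), (64, 1, 1, 0, 2), (16, 0, 0, 1, 3)]) rfl rfl (by
        rw [qev23]; simp only [evG, Int.cast_neg, Int.cast_ofNat, Int.cast_one, Int.cast_zero, yv_03, yv_13, yv_23, yv_33, yv_43, yv_04, yv_14, yv_24, yv_34, yv_44,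
          xv13, xv23, xv33, xv14, xv24, xv34]; ring)
  · exact evP (l' := [(-1120, 2, 1, 1, 0), (32, 0, 3, 1, 0), (32, 0, 1, 3, 0), (1712, 3, 0, 0, 1), (80, 1, 2, 0, 1), (80, 1, 0, 2, 1), (-64, 0, 1, 1, 2), (80, 1, 0, 0, 3)]) rfl rfl (by
        rw [qev23]; simp only [evG, Int.cast_neg, Int.cast_ofNat, Int.cast_one, Int.cast_zero, yv_04, yv_14, yv_24, yv_34, yv_44, yv_01, yv_11, yv_21, yv_31, yv_41,
          xv14, xv24, xv34, xv11, xv21, xv31]; ring)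
  · exact evP (l' := [(-1152, 3, 0, 1, 0), (64, 1, 2, 1, 0), (752, 2, 1, 0, 1), (16, 0, 3, 0, 1), (-16, 0, 1, 2, 1), (-160, 1, 0, 1, 2), (48, 0, 1, 0, 3)]) rfl rfl (by
        rw [qev23]; simp only [evG, Int.cast_neg, Int.cast_ofNat, Int.cast_one, Int.cast_zero, yv_04, yv_14, yv_24, yv_34, yv_44, yv_02, yv_12, yv_22, yv_32, yv_42,
          xv14, xv24, xv34, xv12, xv22, xv32]; ring)
  · exact evP (l' := [(-1152, 3, 1, 0, 0), (64, 1, 1, 2, 0), (752, 2, 0, 1, 1), (-16, 0, 2, 1, 1), (16, 0, 0, 3, 1), (-160, 1, 1, 0, 2), (48, 0, 0, 1, 3)]) rfl rfl (by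
        rw [qev23]; simp only [evG, Int.cast_neg, Int.cast_ofNat, yv_04, Int.cast_zero, yv_03, yv_14, Int.cast_one, yv_13, yv_24, yv_23, yv_34, yv_33, yv_44, yv_43, xv14, xv33, xv23, xv24]; ring)
  · exact evP (l' := [(832, 4, 0, 0, 0), (320, 2, 2, 0, 0), (320, 2, 0, 2, 0), (-64, 0, 2, 2, 0), (-96, 1, 1, 1, 1), (432, 2, 0, 0, 2), (48, 0, 2, 0, 2), (48, 0, 0, 2, 2), (16, 0, 0, 0, 4)]) rfl rfl (by
        rw [qev23]; simp only [evG, Int.cast_neg, Int.cast_ofNat, Int.cast_one, Int.cast_zero, yv_04, yv_14, yv_24, yv_34, yv_44,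
          xv14, xv24, xv34]; ring)
  · rfl

theorem evE_xe5 (i j c : ℕ) : evE rs6 X (xe5 i j c) = evE rs6 X (xeE crd5 5 i j c) := by
  unfold xe5
  split
  · exact evE_xe512 _
  · exact evE_xe513 _
  · exact evE_xe523 _
  · rfl

theorem evE_ff5 (i c : ℕ) : evE rs6 X (ff5 i c) = evE rs6 X (ffE crd5 5 i c) := by
  unfold ff5
  split
  · exact evE_ff52 _
  · exact evE_ff53 _
  · exact evE_ff54 _
  · rfl

theorem evE_qf5 (i c d : ℕ) : evE rs6 X (qf5 i c d) = evE rs6 X (qfE crd5 5 i c d) := by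
  unfold qf5
  split
  · exact evE_qf51 _ _
  · exact evE_qf52 _ _
  · exact evE_qf53 _ _
  · rfl

theorem evE_qe5 (i j c d : ℕ) : evE rs6 X (qe5 i j c d) = evE rs6 X (qeE crd5 5 i j c d) := by
  unfold qe5
  split
  · exact evE_qe512 _ _
  · exact evE_qe513 _ _
  · exact evE_qe523 _ _
  · rfl

end Vale.Agent.P098.N
end
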